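import Vale.Agent.P319N.AQLS2
import Vale.Agent.P026.DualB

namespace Vale.Agent.P319N.Ab

open Complex MeasureTheory Filter Topology
open scoped Classical ComplexConjugate Real
open Vale.Agent.P026 (W DualW)

noncomputable section

variable {O : Type} [CommMonoidWithZero O] [UniqueFactorizationMonoid O] [Ar O]


open Vale.Agent.P026 (dualB_int qls2_cs)

/-- the finite index sets -/
def dualB_S {ι : Type} {sg : ι → ℝ} (hs : SIdx ι sg) (O : Type) [CommMonoidWithZero O]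
    [UniqueFactorizationMonoid O] [Ar O] (R : ℝ) : Finset (ι × O) :=
  ((hs.fin R).toFinset ×ˢ ballO O R).filter (fun p => sg p.1 * N p.2 ≤ R)

theorem dualB_mem {ι : Type} {sg : ι → ℝ} (hs : SIdx ι sg) {R : ℝ} {p : ι × O} :
    p ∈ dualB_S hs O R ↔ p.2 ≠ 0 ∧ sg p.1 * N p.2 ≤ R := by
  simp only [dualB_S, Finset.mem_filter, Finset.mem_product, mem_ballO', Set.Finite.mem_toFinset,
    Set.mem_setOf_eq]
  refine ⟨fun h => ⟨h.1.2.1, h.2⟩, fun h => ⟨?_, h.2⟩⟩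
  have a1 := hs.one_le p.1
  have a2 := one_le_N h.1
  have a3 := h.2
  refine ⟨by nlinarith, h.1, by nlinarith⟩

theorem dualB_blk {ι : Type} {sg : ι → ℝ} (hsg : SIdx ι sg) {H T L M D P κ σ : ℝ}
    {τ θ : ι → O → ℂ} {Wst m s : ℝ → ℂ} (hT : 0 < T) (hP : 0 < P)
    (hD : 0 ≤ D) (hθ : ∀ i n, ‖θ i n‖ ≤ 1) {B : Finset (ι × O)}
    (hq : ∀ θ' : ι → O → ℂ, (∀ i n, ‖θ' i n‖ ≤ 1) →
      ∑ h ∈ ballN O H, ‖∑ p ∈ B, τ p.1 p.2 * θ' p.1 p.2 * sym2 p.2 h‖ ^ 2 ≤ D)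
    (hm : Integrable m) (hM : ∫ t, ‖m t‖ ≤ M) (hs : Continuous s) (hσ : ∀ t, (s t).re = σ)
    (hW : ∀ x : ℝ, 0 < x → Wst x = ∫ t : ℝ, m t * (x : ℂ) ^ (-s t))
    (hB : B ⊆ dualB_S hsg O L) (h1 : ∀ p ∈ B, (sg p.1 * N p.2 / P) ^ (-σ) ≤ 1)
    (h2 : ∀ h ∈ ballN O H, (P / (T * N h ^ 2)) ^ (-σ) ≤ κ) :
    ∑ h ∈ ballN O H, ‖∑ p ∈ B, τ p.1 p.2 * θ p.1 p.2 * sym2 p.2 h *
        Wst (sg p.1 * N p.2 / (T * N h ^ 2))‖ ^ 2 ≤ M ^ 2 * (κ ^ 2 * D) := by
  have nB : ∀ p ∈ B, 0 < sg p.1 * N p.2 := fun p hp =>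
    mul_pos (one_pos.trans_le (hsg.one_le _)) (N_pos ((dualB_mem hsg).1 (hB hp)).1)
  have nH : ∀ h ∈ ballN O H, 0 < T * N h ^ 2 := fun h hh => by
    have := N_pos (mem_ballN.1 hh).1.ne_zero
    positivity
  have nc : ∀ x : ℝ, 0 < x → ∀ t, ‖(x : ℂ) ^ (-s t)‖ = x ^ (-σ) := fun x hx t => by
    rw [Complex.norm_cpow_eq_rpow_re_of_pos hx, neg_re, hσ]
  have ig : ∀ x : ℝ, 0 < x → Integrable fun t => m t * (x : ℂ) ^ (-s t) := fun x hx =>
    hm.mul_bdd (c := x ^ (-σ)) (hs.neg.const_cpow (Or.inl (by exact_mod_cast hx.ne'))).aestronglyMeasurable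
      (Eventually.of_forall fun t => (nc x hx t).le)
  set F : O → ℝ → ℂ := fun h t => ∑ p ∈ B, τ p.1 p.2 * θ p.1 p.2 * sym2 p.2 h *
    ((sg p.1 * N p.2 / (T * N h ^ 2) : ℝ) : ℂ) ^ (-s t) with hF
  have e0 : ∀ h t, m t * F h t = ∑ p ∈ B, τ p.1 p.2 * θ p.1 p.2 * sym2 p.2 h *
      (m t * ((sg p.1 * N p.2 / (T * N h ^ 2) : ℝ) : ℂ) ^ (-s t)) := fun h t => by
    rw [hF, Finset.mul_sum]
    exact Finset.sum_congr rfl fun _ _ => by ring
  refine le_trans (le_of_eq (Finset.sum_congr rfl fun h hh => ?_))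
    (dualB_int (ballN O H) hm hM (by positivity) F (fun h hh => ?_) fun t => ?_)
  · simp only [e0]
    rw [integral_finsetSum _ fun n hn => (ig _ (div_pos (nB n hn) (nH h hh))).const_mul _]
    congr 2
    exact Finset.sum_congr rfl fun n hn => by
      rw [integral_const_mul, hW _ (div_pos (nB n hn) (nH h hh))]
  · simp only [e0]
    exact integrable_finsetSum _ fun n hn => (ig _ (div_pos (nB n hn) (nH h hh))).const_mul _
  · refine le_trans ?_ (mul_le_mul_of_nonneg_left (hq (fun i n => if (i, n) ∈ B then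
      θ i n * ((sg i * N n / P : ℝ) : ℂ) ^ (-s t) else 0) fun i n => ?_) (sq_nonneg κ))
    · rw [Finset.mul_sum]
      refine Finset.sum_le_sum fun h hh => ?_
      have : F h t = ((P / (T * N h ^ 2) : ℝ) : ℂ) ^ (-s t) * ∑ p ∈ B, τ p.1 p.2 *
          (if (p.1, p.2) ∈ B then θ p.1 p.2 * ((sg p.1 * N p.2 / P : ℝ) : ℂ) ^ (-s t) else 0) *
            sym2 p.2 h := by
        rw [Finset.mul_sum]
        refine Finset.sum_congr rfl fun n hn => ?_
        have : sg n.1 * N n.2 / (T * N h ^ 2) = sg n.1 * N n.2 / P * (P / (T * N h ^ 2)) := by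
          field_simp
        rw [if_pos hn, this, Complex.ofReal_mul, Complex.mul_cpow_ofReal_nonneg
          (div_pos (nB n hn) hP).le (div_pos hP (nH h hh)).le]
        ring
      rw [this, norm_mul, mul_pow, nc _ (div_pos hP (nH h hh))]
      exact mul_le_mul_of_nonneg_right (pow_le_pow_left₀
        (Real.rpow_nonneg (div_pos hP (nH h hh)).le _) (h2 h hh) 2) (by positivity)
    · split_ifs with hn
      · rw [norm_mul, nc _ (div_pos (nB _ hn) hP)]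
        exact mul_le_one₀ (hθ i n) (Real.rpow_nonneg (div_pos (nB _ hn) hP).le _) (h1 _ hn)
      · simp

theorem dualB_tel {ι : Type} {sg : ι → ℝ} (hs : SIdx ι sg) (f : ι × O → ℂ) {L : ℝ} (hL : 0 < L)
    (J : ℕ) :
    ∑ n ∈ dualB_S hs O (2 ^ J * L), f n = ∑ n ∈ dualB_S hs O L, f n +
      ∑ j ∈ Finset.range J,
        ∑ n ∈ dualB_S hs O (2 ^ (j + 1) * L) \ dualB_S hs O (2 ^ j * L), f n := by
  induction J with
  | zero => simp
  | succ J ih =>
    rw [Finset.sum_range_succ, ← add_assoc, ← ih,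
      add_comm (∑ n ∈ dualB_S hs O (2 ^ J * L), f n), Finset.sum_sdiff]
    intro p hp
    obtain ⟨x, y⟩ := (dualB_mem hs).1 hp
    exact (dualB_mem hs).2 ⟨x, y.trans (by gcongr <;> norm_num)⟩

theorem dualB_tend {ι : Type} {sg : ι → ℝ} (hs : SIdx ι sg) {f : ι × O → ℂ} (hf : Summable f)
    (h0 : ∀ i, f (i, 0) = 0) :
    Tendsto (fun R : ℝ => ∑ n ∈ dualB_S hs O R, f n) atTop (𝓝 (∑' n, f n)) := by
  have e : ∀ R : ℝ, ∑ n ∈ dualB_S hs O R, f n =
      ∑' n, if n ∈ dualB_S hs O R then f n else 0 := fun R => by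
    rw [tsum_eq_sum (s := dualB_S hs O R) fun n hn => if_neg hn]
    exact Finset.sum_congr rfl fun n hn => (if_pos hn).symm
  simp only [e]
  refine tendsto_tsum_of_dominated_convergence hf.norm (fun p => ?_)
    (Eventually.of_forall fun R p => by split_ifs <;> simp)
  refine tendsto_const_nhds.congr' ?_
  filter_upwards [eventually_ge_atTop (sg p.1 * N p.2)] with R hR
  by_cases hp : p.2 = 0
  · have : f p = 0 := by rw [← h0 p.1, ← hp]
    simp [this]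
  · rw [if_pos ((dualB_mem hs).2 ⟨hp, hR⟩)]

theorem dualB {ι : Type} {sg : ι → ℝ} (hs : SIdx ι sg) {ε : ℝ} (hε : 0 < ε) :
    ∃ C : ℝ, 0 < C ∧ ∀ (Z H T Bd M : ℝ) (τ θ : ι → O → ℂ) (Wst : ℝ → ℂ),
    1 ≤ Z → 0 < H → H ≤ Z → 0 < T → T * H ^ 2 ≤ Z → 0 ≤ Bd → DCoef sg τ Bd →
    (∀ i n, ‖θ i n‖ ≤ 1) → DualW Wst M →
    ∑ h ∈ ballN O H, ‖∑' p : ι × O, τ p.1 p.2 * θ p.1 p.2 * sym2 p.2 h *
        Wst (sg p.1 * N p.2 / (T * N h ^ 2))‖ ^ 2 ≤
      C * Bd * Z ^ ε * M ^ 2 * (T * H ^ 2) *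
        (H ^ (8 / 7 : ℝ) + (T * H ^ 2) ^ (8 / 5 : ℝ)) := by
  obtain ⟨C, C0, hC⟩ := qls2 (O := O) hs (lt_min hε one_pos)
  refine ⟨130 * C, by positivity, fun Z H T Bd M τ θ Wst hZ hH hHZ hT hLZ hB hτ hθ hW => ?_⟩
  set L : ℝ := T * H ^ 2 with hL
  have L0 : 0 < L := by positivity
  set D : ℝ := C * Bd * Z ^ ε * L * (H ^ (8 / 7 : ℝ) + L ^ (8 / 5 : ℝ)) with hD
  have D0 : 0 ≤ D := by positivity
  have hq : ∀ p : ℝ, 1 ≤ p → ∀ B ⊆ dualB_S hs O (p * L), ∀ θ' : ι → O → ℂ,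
      (∀ i n, ‖θ' i n‖ ≤ 1) →
      ∑ h ∈ ballN O H, ‖∑ q ∈ B, τ q.1 q.2 * θ' q.1 q.2 * sym2 q.2 h‖ ^ 2 ≤ p ^ 4 * D := by
    intro p hp B hBs θ' h'
    have p0 : 0 < p := by linarith
    refine (hC (p * Z) H (p * L) Bd τ θ' B (by nlinarith) hH (by nlinarith) (by positivity)
      (by gcongr) hB hτ h' fun q hq => (dualB_mem hs).1 (hBs hq)).trans ?_
    have a1 : (p * Z) ^ min ε 1 ≤ p * Z ^ ε := by
      rw [Real.mul_rpow p0.le (by linarith)]
      exact mul_le_mul ((Real.rpow_le_rpow_of_exponent_le hp (min_le_right _ _)).trans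
        (Real.rpow_one p).le) (Real.rpow_le_rpow_of_exponent_le hZ (min_le_left _ _))
        (by positivity) p0.le
    have a2 : p ^ (8 / 5 : ℝ) ≤ p ^ 2 := by
      rw [← Real.rpow_natCast]
      exact Real.rpow_le_rpow_of_exponent_le hp (by norm_num)
    have a3 : H ^ (8 / 7 : ℝ) + (p * L) ^ (8 / 5 : ℝ) ≤
        p ^ 2 * (H ^ (8 / 7 : ℝ) + L ^ (8 / 5 : ℝ)) := by
      rw [Real.mul_rpow p0.le L0.le, mul_add]
      exact add_le_add (le_mul_of_one_le_left (by positivity) (one_le_pow₀ hp)) (by gcongr)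
    calc _ ≤ C * Bd * (p * Z ^ ε) * (p * L) * (p ^ 2 * (H ^ (8 / 7 : ℝ) + L ^ (8 / 5 : ℝ))) := by
          gcongr
      _ = _ := by rw [hD]; ring
  obtain ⟨m0, m3, i0, i3, b0, b3, hm⟩ := hW.ex
  set f : O → ι × O → ℂ := fun h p => τ p.1 p.2 * θ p.1 p.2 * sym2 p.2 h *
    Wst (sg p.1 * N p.2 / (T * N h ^ 2)) with hf
  have k0 : ∑ h ∈ ballN O H, ‖∑ n ∈ dualB_S hs O L, f h n‖ ^ 2 ≤ M ^ 2 * (1 ^ 2 * (1 ^ 4 * D)) :=
    dualB_blk hs (σ := 0) (s := fun t => t * Complex.I) (L := L) hT one_pos (by positivity) hθ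
      (hq 1 le_rfl _ (by rw [one_mul])) i0 b0
      (by fun_prop) (by simp) (fun x hx => (hm x hx).1) subset_rfl (by simp) (by simp)
  have k1 : ∀ j : ℕ, ∑ h ∈ ballN O H,
      ‖∑ n ∈ dualB_S hs O (2 ^ (j + 1) * L) \ dualB_S hs O (2 ^ j * L), f h n‖ ^ 2 ≤
      M ^ 2 * ((((2 : ℝ) ^ j)⁻¹ ^ 3) ^ 2 * ((2 ^ (j + 1)) ^ 4 * D)) := fun j =>
    dualB_blk hs (σ := 3) (s := fun t => 3 + t * Complex.I) (P := 2 ^ j * L) hT (by positivity)
      (by positivity) hθ (hq _ (one_le_pow₀ (by norm_num)) _ Finset.sdiff_subset) i3 b3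
      (by fun_prop) (by simp)
      (fun x hx => (hm x hx).2) Finset.sdiff_subset
      (fun n hn => by
        obtain ⟨x, y⟩ := Finset.mem_sdiff.1 hn
        refine Real.rpow_le_one_of_one_le_of_nonpos ?_ (by norm_num)
        rw [one_le_div (by positivity)]
        by_contra h
        exact y ((dualB_mem hs).2 ⟨((dualB_mem hs).1 x).1, (not_le.1 h).le⟩))
      (fun h hh => by
        obtain ⟨x, y⟩ := mem_ballN.1 hh
        have := N_pos x.ne_zero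
        have a : (2 : ℝ) ^ j ≤ 2 ^ j * L / (T * N h ^ 2) := by
          rw [le_div_iff₀ (by positivity), hL]
          gcongr
        refine (Real.rpow_le_rpow_of_nonpos (by positivity) a (by norm_num)).trans (le_of_eq ?_)
        rw [Real.rpow_neg (by positivity), inv_pow, ← Real.rpow_natCast _ 3]
        norm_num)
  have g2 : ∀ J, ∑ j ∈ Finset.range J, ((2 : ℝ) ^ j)⁻¹ ≤ 2 := fun J => by
    simpa using sum_geometric_two_le J
  have k2 : ∀ J : ℕ, ∑ h ∈ ballN O H, ‖∑ n ∈ dualB_S hs O (2 ^ J * L), f h n‖ ^ 2 ≤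
      130 * M ^ 2 * D := by
    intro J
    calc _ ≤ ∑ h ∈ ballN O H, (2 * ‖∑ n ∈ dualB_S hs O L, f h n‖ ^ 2 + 4 * ∑ j ∈ Finset.range J,
          ‖∑ n ∈ dualB_S hs O (2 ^ (j + 1) * L) \ dualB_S hs O (2 ^ j * L), f h n‖ ^ 2 /
            (2 ^ j)⁻¹) := by
          refine Finset.sum_le_sum fun h _ => ?_
          rw [dualB_tel hs _ L0]
          have a := (qls2_cs (Finset.range J) (fun j => ((2 : ℝ) ^ j)⁻¹) (fun j _ => by positivity)
            fun j => ∑ n ∈ dualB_S hs O (2 ^ (j + 1) * L) \ dualB_S hs O (2 ^ j * L), f h n).trans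
            (mul_le_mul_of_nonneg_right (g2 J) (Finset.sum_nonneg fun _ _ => by positivity))
          refine (pow_le_pow_left₀ (norm_nonneg _) (norm_add_le _ _) 2).trans
            ((add_sq_le).trans ?_)
          linarith
      _ = 2 * ∑ h ∈ ballN O H, ‖∑ n ∈ dualB_S hs O L, f h n‖ ^ 2 + 4 * ∑ j ∈ Finset.range J,
          (∑ h ∈ ballN O H,
          ‖∑ n ∈ dualB_S hs O (2 ^ (j + 1) * L) \ dualB_S hs O (2 ^ j * L), f h n‖ ^ 2) /
            (2 ^ j)⁻¹ := by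
          rw [Finset.sum_add_distrib, ← Finset.mul_sum, ← Finset.mul_sum, Finset.sum_comm]
          simp only [Finset.sum_div]
      _ ≤ 2 * (M ^ 2 * (1 ^ 2 * (1 ^ 4 * D))) +
          4 * ∑ j ∈ Finset.range J, 16 * M ^ 2 * D * (2 ^ j)⁻¹ := by
          gcongr with j
          rw [div_le_iff₀ (by positivity)]
          refine (k1 j).trans (le_of_eq ?_)
          field_simp
          ring
      _ ≤ _ := by
          rw [← Finset.mul_sum]
          have := mul_le_mul_of_nonneg_left (g2 J) (by positivity : 0 ≤ 16 * M ^ 2 * D)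
          linarith
  have lim : Tendsto (fun J : ℕ => ∑ h ∈ ballN O H, ‖∑ n ∈ dualB_S hs O (2 ^ J * L), f h n‖ ^ 2)
      atTop (𝓝 (∑ h ∈ ballN O H, ‖∑' n, f h n‖ ^ 2)) := by
    refine tendsto_finsetSum _ fun h hh => (Tendsto.norm ?_).pow 2
    have h0 := N_pos (mem_ballN.1 hh).1.ne_zero
    refine (dualB_tend hs ?_ (fun i => by simp [hf, dcoef_zero hτ])).comp
      ((tendsto_pow_atTop_atTop_of_one_lt one_lt_two).atTop_mul_const L0)
    refine Summable.of_norm_bounded ((dcoef_summable hs hτ).mul_left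
      (M * (T * N h ^ 2) ^ (3 : ℝ))) fun n => ?_
    by_cases hn : n.2 = 0
    · simp [hf, hn, dcoef_zero hτ]
    have n0 : 0 < sg n.1 * N n.2 := mul_pos (one_pos.trans_le (hs.one_le _)) (N_pos hn)
    have a := hW.norm_le (div_pos n0 (by positivity : 0 < T * N h ^ 2))
    rw [Real.div_rpow n0.le (by positivity), Real.rpow_neg (by positivity : 0 ≤ T * N h ^ 2),
      div_inv_eq_mul] at a
    have b : ‖τ n.1 n.2 * θ n.1 n.2 * sym2 n.2 h‖ ≤ ‖τ n.1 n.2‖ := by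
      rw [norm_mul, norm_mul, mul_assoc]
      exact mul_le_of_le_one_right (norm_nonneg _)
        (mul_le_one₀ (hθ _ _) (norm_nonneg _) (norm_sym2_le _ _))
    rw [hf, norm_mul]
    refine (mul_le_mul b a (norm_nonneg _) (norm_nonneg _)).trans (le_of_eq ?_)
    ring
  refine (le_of_tendsto' lim k2).trans (le_of_eq ?_)
  rw [hD]; ring

end

end Vale.Agent.P319N.Ab
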