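import Vale.Agent.P319N.AWb
import Vale.Agent.P319N.ADiv

namespace Vale.Agent.P319N.Ab

open Complex MeasureTheory Filter Topology
open scoped Classical ComplexConjugate Real
open Vale.Agent.P026 (W DualW)

noncomputable section

variable {O : Type} [CommMonoidWithZero O] [UniqueFactorizationMonoid O] [Ar O]


theorem fin1_uniq {l n : O} (hl : l ≠ 0) (hn : NN n) :
    ∃ d ∈ divs l, ∀ e ∈ divs l, (∃ n', NN n' ∧ IsRelPrime l n' ∧ n = e * n') ↔ e = d := by
  obtain ⟨g, hg, ⟨n', e⟩, h2, h3⟩ := exists_prim_gcd hn.1 l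
  have hn' : Prim n' := Prim.of_mul (e ▸ hn.1) hg
  obtain ⟨a1, a2, a3⟩ := (nn_mul_iff hg hn').1 (e ▸ hn)
  refine ⟨g, (mem_divs hl).2 ⟨a1, h2⟩, fun d hd => ⟨?_, ?_⟩⟩
  · rintro ⟨k, -, c, f⟩
    obtain ⟨b1, b2⟩ := (mem_divs hl).1 hd
    refine b1.1.eq_of_associated hg (associated_of_dvd_dvd (h3 _ ⟨k, f⟩ b2) ?_)
    exact (c.of_dvd_left h2).dvd_of_dvd_mul_right (f ▸ ⟨n', e⟩)
  · rintro rfl
    refine ⟨n', a2, (isCoprime_iff_no_prime (.inl hl)).2 fun p hp p1 p2 => ?_, e⟩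
    exact hp.not_isUnit (a3 (h3 p (e ▸ p2.mul_left _) p1) p2)

theorem fin1_dec {l : O} (hl : l ≠ 0) {ω : O → ℂ} (hω : ∀ n, ‖ω n‖ ≤ 1) {X : ℝ} (hX : 0 < X) :
    A ω X 0 1 = ∑ d ∈ divs l, mu d * A (fun x => ω (d * x)) (X / N d) 0 (l ^ 6) := by
  have hF := summable_AA (α := fun n => mu n * ω n) (fun n _ => by
    rw [norm_mul]; exact mul_le_one₀ (norm_mu_le n) (norm_nonneg _) (hω n)) 1 hX 0 1
  set F := fun n : O => if NN n then mu n * ω n * chi6 1 n ^ 1 * W 0 (N n / X) else 0 with hFd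
  have c1 : ∀ n, F n = ∑ d ∈ divs l,
      {n | ∃ n', NN n' ∧ IsRelPrime l n' ∧ n = d * n'}.indicator F n := fun n => by
    by_cases hn : NN n
    · obtain ⟨d, hd, h⟩ := fin1_uniq hl hn
      rw [Finset.sum_eq_single_of_mem d hd fun e he c => by
        exact Set.indicator_of_notMem (by exact fun a => c ((h e he).1 a)) _,
        Set.indicator_of_mem (by exact (h d hd).2 rfl)]
    · have : F n = 0 := if_neg hn
      simp [Set.indicator_apply, this]
  change ∑' n, F n = _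
  rw [tsum_congr c1, Summable.tsum_finsetSum fun d _ => hF.indicator _]
  refine Finset.sum_congr rfl fun d hd => ?_
  obtain ⟨d1, d2⟩ := (mem_divs hl).1 hd
  rw [← (mul_right_injective₀ d1.ne_zero).tsum_eq (by
    intro n hn
    obtain ⟨k, -, -, e⟩ := Set.support_indicator_subset hn
    exact ⟨k, e.symm⟩), A, AA, ← tsum_mul_left]
  refine tsum_congr fun n => ?_
  by_cases hn : NN n ∧ IsRelPrime l n
  · have c := hn.2.of_dvd_left d2
    rw [Set.indicator_of_mem (show d * n ∈ {n | ∃ n', _} from ⟨n, hn.1, hn.2, rfl⟩), hFd]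
    simp only [if_pos hn.1, if_pos ((nn_mul_iff d1.1 hn.1.1).2 ⟨d1, hn.1, c⟩), chi6_one_left (mul_ne_zero d1.ne_zero hn.1.ne_zero),
      chi6_pow_left l hn.1.ne_zero, chi6_pow_six hn.1.ne_zero, if_pos hn.2, mu_mul c, N_mul,
      div_div_eq_mul_div, mul_comm (N n)]
    ring
  · rw [Set.indicator_of_notMem]
    · split_ifs with a
      · simp [chi6_pow_left l a.ne_zero, chi6_pow_six a.ne_zero, not_and.1 hn a]
      · simp
    · rintro ⟨k, k1, k2, e⟩
      obtain rfl := mul_left_cancel₀ d1.ne_zero e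
      exact hn ⟨k1, k2⟩

theorem fin1_six {Y : ℝ} (hY : 0 ≤ Y) {f : O → ℝ} (hf : ∀ m, 0 ≤ f m) :
    ∑ l ∈ ballO O (Y ^ (1 / 6 : ℝ)), f (l ^ 6) ≤ (ballO O 1).card * ∑ m ∈ ballO O Y, f m := by
  rw [← Finset.sum_fiberwise_of_maps_to (t := ballO O Y) (g := fun l => l ^ 6) fun l hl => by
    rw [mem_ballO'] at hl ⊢
    refine ⟨pow_ne_zero _ hl.1, ?_⟩
    rw [N_pow]
    refine (pow_le_pow_left₀ (N_nonneg l) hl.2 6).trans (le_of_eq ?_)
    rw [← Real.rpow_natCast, ← Real.rpow_mul hY]; norm_num, Finset.mul_sum]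
  refine Finset.sum_le_sum fun m _ => ?_
  rw [Finset.sum_congr rfl fun l hl => by rw [(Finset.mem_filter.1 hl).2], Finset.sum_const,
    nsmul_eq_mul]
  refine mul_le_mul_of_nonneg_right ?_ (hf m)
  rcases ((ballO O (Y ^ (1 / 6 : ℝ))).filter fun l => l ^ 6 = m).eq_empty_or_nonempty with
    h0 | ⟨l0, h0⟩
  · rw [h0, Finset.card_empty, Nat.cast_zero]; exact Nat.cast_nonneg _
  obtain ⟨a0, a1⟩ := Finset.mem_filter.1 h0
  have : ((ballO O (Y ^ (1 / 6 : ℝ))).filter fun l => l ^ 6 = m) ⊆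
      (ballO O 1).image (l0 * ·) := fun l hl => by
    obtain ⟨u, hu⟩ := div_assoc_of_pow (k := 6) (n0 := 1) (n1 := 1) (d1 := l) (mem_ballO'.1 a0).1
      (fun _ h => isUnit_of_dvd_one ((dvd_pow_self _ (by norm_num)).trans h))
      (fun _ h => isUnit_of_dvd_one ((dvd_pow_self _ (by norm_num)).trans h))
      (by rw [a1, (Finset.mem_filter.1 hl).2])
    exact Finset.mem_image.2 ⟨u, mem_ballO_one.2 u.isUnit, hu⟩
  exact_mod_cast (Finset.card_le_card this).trans Finset.card_image_le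

theorem fin1 (h : HA O (439 / 200)) {ω : O → ℂ} (hω : Wt ω) :
    ∃ C : ℝ, ∀ X : ℝ, 1 ≤ X → ‖A ω X 0 1‖ ≤ C * X ^ (999 / 1000 : ℝ) := by
  obtain ⟨C1, p1, h1⟩ := h (1 / 2000) (by norm_num) 0
  obtain ⟨C2, p2, h2⟩ := dv_le (O := O) (ε := 1 / 2000) (by norm_num)
  obtain ⟨C3, p3, h3⟩ := sum_inv_N_le (O := O) (ε := 1 / 2000) (by norm_num)
  obtain ⟨c0, p0, h0⟩ := card_ballO_ge (O := O)
  obtain ⟨U, hU⟩ : ∃ U : ℝ, U = (ballO O 1).card := ⟨_, rfl⟩
  have U0 : 0 ≤ U := hU ▸ Nat.cast_nonneg _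
  refine ⟨√(2 * U * C1 * C2 * C3 / c0), fun X hX => ?_⟩
  have X0 : 0 < X := by linarith
  set Y := X ^ (239 / 200 : ℝ) with hY
  have XY : X ≤ Y := Real.self_le_rpow_of_one_le hX (by norm_num)
  have Y1 : 1 ≤ Y := hX.trans XY
  have Y0 : 0 < Y := by linarith
  set R := Y ^ (1 / 6 : ℝ) with hR
  have R1 : 1 ≤ R := Real.one_le_rpow Y1 (by norm_num)
  have RY : R ≤ Y := Real.rpow_le_self_of_one_le Y1 (by norm_num)
  set E := Y ^ (1 / 2000 : ℝ) with hE
  have E0 : 0 < E := by positivity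
  set a : O → O → ℝ := fun d m => ‖A (fun x => ω (d * x)) (X / N d) 0 m‖ ^ 2 with ha
  have s1 : ∀ l ∈ ballO O R, ‖A ω X 0 1‖ ^ 2 ≤ C2 * E * ∑ d ∈ ballO O Y, a d (l ^ 6) := by
    intro l hl
    obtain ⟨l0, l1⟩ := mem_ballO'.1 hl
    have b : ‖A ω X 0 1‖ ≤ ∑ d ∈ divs l, ‖A (fun x => ω (d * x)) (X / N d) 0 (l ^ 6)‖ := by
      rw [fin1_dec l0 hω.2 X0]
      refine (norm_sum_le _ _).trans (Finset.sum_le_sum fun d _ => ?_)
      rw [norm_mul]
      exact mul_le_of_le_one_left (norm_nonneg _) (norm_mu_le d)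
    refine (pow_le_pow_left₀ (norm_nonneg _) b 2).trans (sq_sum_le_card_mul_sum_sq.trans ?_)
    refine mul_le_mul ((card_divs_le l).trans ((h2 l l0).trans ?_))
      (Finset.sum_le_sum_of_subset_of_nonneg (fun d hd => ?_) fun _ _ _ => by positivity)
      (Finset.sum_nonneg fun _ _ => by positivity) (by positivity)
    · exact mul_le_mul_of_nonneg_left
        (Real.rpow_le_rpow (N_nonneg l) (l1.trans RY) (by norm_num)) p2.le
    · obtain ⟨d1, d2⟩ := (mem_divs l0).1 hd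
      exact mem_ballO'.2 ⟨d1.ne_zero, (N_le_of_dvd d2 l0).trans (l1.trans RY)⟩
  have e1 : X * Y = X ^ (439 / 200 : ℝ) := by
    rw [hY, ← Real.rpow_one_add' X0.le (by norm_num)]; norm_num
  have s2 : ∀ d ∈ ballO O Y, ∑ l ∈ ballO O R, a d (l ^ 6) ≤
      2 * U * C1 * E * X ^ (439 / 200 : ℝ) * (N d)⁻¹ := by
    intro d hd
    have d1 := one_le_N (mem_ballO'.1 hd).1
    have d0 : 0 < N d := by linarith
    refine (fin1_six Y0.le (f := a d) fun _ => by positivity).trans ?_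
    have b := h1 Y (X / N d) Y 0 _ Y1 (by positivity) ((div_le_self X0.le d1).trans XY) Y0 le_rfl
      (by simp) (hω.comp_mul d)
    have c : (X / N d) ^ (439 / 200 : ℝ) ≤ X ^ (439 / 200 : ℝ) * (N d)⁻¹ := by
      rw [Real.div_rpow X0.le d0.le, div_eq_mul_inv]
      refine mul_le_mul_of_nonneg_left (inv_anti₀ d0 ?_) (by positivity)
      simpa using Real.rpow_le_rpow_of_exponent_le d1 (show (1 : ℝ) ≤ 439 / 200 by norm_num)
    have c2 : X / N d * Y = X ^ (439 / 200 : ℝ) * (N d)⁻¹ := by rw [← e1]; ring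
    simp only [zero_im, abs_zero, mul_zero, Real.exp_zero, mul_one, ← hE, c2] at b
    have := mul_le_mul_of_nonneg_left c (show 0 ≤ C1 * E by positivity)
    simp only [ha]
    rw [← hU]
    have := mul_le_mul_of_nonneg_left (b.trans (show _ ≤ 2 * C1 * E * X ^ (439 / 200 : ℝ) * (N d)⁻¹
      by linarith)) U0
    linarith
  have s3 : c0 * R * ‖A ω X 0 1‖ ^ 2 ≤ C2 * E * (2 * U * C1 * E * X ^ (439 / 200 : ℝ) * (C3 * E)) := by
    refine (mul_le_mul_of_nonneg_right (h0 R R1) (by positivity)).trans ?_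
    rw [← nsmul_eq_mul, ← Finset.sum_const]
    refine (Finset.sum_le_sum s1).trans ?_
    rw [← Finset.mul_sum, Finset.sum_comm]
    refine mul_le_mul_of_nonneg_left ((Finset.sum_le_sum s2).trans ?_) (by positivity)
    rw [← Finset.mul_sum]
    exact mul_le_mul_of_nonneg_left (h3 Y Y1) (by positivity)
  have s4 : E ^ 3 * X ^ (439 / 200 : ℝ) ≤ R * (X ^ (999 / 1000 : ℝ)) ^ 2 := by
    simp only [hE, hR, hY, ← Real.rpow_natCast, ← Real.rpow_mul X0.le, ← Real.rpow_add X0]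
    exact Real.rpow_le_rpow_of_exponent_le hX (by norm_num)
  refine le_of_sq_le_sq ?_ (by positivity)
  rw [mul_pow, Real.sq_sqrt (by positivity)]
  refine le_of_mul_le_mul_left ?_ (show 0 < c0 * R by positivity)
  have := mul_le_mul_of_nonneg_left s4 (show 0 ≤ 2 * U * C1 * C2 * C3 by positivity)
  calc _ ≤ _ := s3
    _ = 2 * U * C1 * C2 * C3 * (E ^ 3 * X ^ (439 / 200 : ℝ)) := by ring
    _ ≤ _ := this
    _ = _ := by field_simp

end

end Vale.Agent.P319N.Ab
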