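import Vale.Agent.P319N.ARevA
import Vale.Agent.P319N.ATL3
import Vale.Agent.P319N.AIdn

namespace Vale.Agent.P319N.Ab

open Complex MeasureTheory Filter Topology
open scoped Classical ComplexConjugate Real
open Vale.Agent.P026 (W DualW)

noncomputable section

variable {O : Type} [CommMonoidWithZero O] [UniqueFactorizationMonoid O] [Ar O]


theorem rev_trip_mono {R R' : ℝ} (h : R ≤ R') : trip O R ⊆ trip O R' := by
  intro t ht
  rw [mem_trip] at ht ⊢
  exact ⟨ht.1, ht.2.1, ht.2.2.1, ht.2.2.2.1, ht.2.2.2.2.trans h⟩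

theorem rev_sum_trip (R : ℝ) :
    ∑ t ∈ trip O R, (N t.1)⁻¹ * (N t.2.1)⁻¹ * (N t.2.2)⁻¹ ≤ (∑ n ∈ ballO O R, (N n)⁻¹) ^ 3 := by
  have h1 : trip O R ⊆ ballO O R ×ˢ ballO O R ×ˢ ballO O R := by
    intro t ht
    have := (Finset.mem_filter.1 ht).1
    simp only [Finset.mem_product, ballN, Finset.mem_filter] at this ⊢
    exact ⟨this.1.1, this.2.1.1, this.2.2.1⟩
  refine (Finset.sum_le_sum_of_subset_of_nonneg h1 (fun t _ _ => ?_)).trans (le_of_eq ?_)
  · have := N_nonneg t.1; have := N_nonneg t.2.1; have := N_nonneg t.2.2; positivity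
  · rw [Finset.sum_product, pow_three, Finset.sum_mul]
    refine Finset.sum_congr rfl (fun a _ => ?_)
    rw [Finset.sum_product, Finset.sum_mul_sum, Finset.mul_sum]
    refine Finset.sum_congr rfl (fun b _ => ?_)
    rw [Finset.mul_sum]
    refine Finset.sum_congr rfl (fun c _ => ?_)
    ring

theorem rev {γ : ℝ} (hγ : 2 ≤ γ) (h : HA6 O γ) :
    REV O γ := by
  intro ε hε R0
  set ε' : ℝ := min ε 1 / 8 with hε'def
  have hε' : 0 < ε' := by have := lt_min hε one_pos; positivity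
  have hε1 : ε' ≤ 1 / 8 := by have := min_le_right ε 1; linarith
  have hε2 : 8 * ε' ≤ ε := by have := min_le_left ε 1; linarith
  obtain ⟨C1, hC1, hA⟩ := revA hγ h hε' (R0 + 4)
  obtain ⟨C2, hC2, hT⟩ := tlfam (O := O) hε' R0 hC1.le
  obtain ⟨C3, hC3, hinv⟩ := sum_inv_N_le (O := O) hε'
  refine ⟨C2 * (C3 ^ 3 + C1) + C1, by positivity, ?_⟩
  intro Z X Y U K Δ w I ω hX hXZ hY hYZ hU hK hΔ hw hI hω
  have hZ : 1 ≤ Z := hX.trans hXZ
  set Z' : ℝ := K * Z ^ 2 with hZ'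
  have hZ2 : Z ≤ Z ^ 2 := by nlinarith
  have hZZ' : Z ≤ Z' := by rw [hZ']; nlinarith
  have hZ'1 : 1 ≤ Z' := hZ.trans hZZ'
  have hZ'3 : Z' ≤ Z' ^ 3 := le_self_pow₀ hZ'1 (by norm_num)
  set S : ℝ := X * Y / U ^ 2 + U ^ (1 - γ) * X ^ γ / Δ with hS
  have hS0 : 0 ≤ S := by positivity
  have hN : ∀ t ∈ I, 1 ≤ N t.1 ∧ 1 ≤ N t.2.1 ∧ 1 ≤ N t.2.2 ∧
      N (pr t) = N t.1 * N t.2.1 * N t.2.2 := by
    intro t ht
    have := mem_trip.1 (hI ht)
    exact ⟨one_le_N this.1.ne_zero, one_le_N this.2.1.ne_zero, one_le_N this.2.2.1.ne_zero,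
      by simp only [pr, N_mul]⟩
  have key := hT (O × O × O) I 5 Z' (C1 * (Z' ^ 3) ^ ε' * K * S) (fun t => Y * N t.1 / X)
    (fun t => X / (U * N (pr t))) (fun t => K * Ht X Y t)
    (fun t n => mu n * gt 1 n * ω t n * chi6 (kt t) n ^ 5) w (Or.inr rfl) hZ'1 (by positivity) hw
    (by
      intro t ht
      obtain ⟨h1, h2, h3, h5⟩ := hN t ht
      have hp : 1 ≤ N (pr t) := by
        rw [h5]; exact one_le_mul_of_one_le_of_one_le (one_le_mul_of_one_le_of_one_le h1 h2) h3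
      have hUp : 1 ≤ U * N (pr t) := one_le_mul_of_one_le_of_one_le hU hp
      refine ⟨by positivity, by positivity, ?_, ?_, ?_, ?_⟩
      · exact (div_le_self (by linarith) hUp).trans (hXZ.trans hZZ')
      · unfold Ht; positivity
      · unfold Ht
        have hd : 1 ≤ N t.2.1 * N t.1 ^ 2 * Y :=
          one_le_mul_of_one_le_of_one_le
            (one_le_mul_of_one_le_of_one_le h2 (one_le_pow₀ h1)) hY
        have : X ^ 2 / (N t.2.1 * N t.1 ^ 2 * Y) ≤ Z ^ 2 :=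
          (div_le_self (by positivity) hd).trans (pow_le_pow_left₀ (by linarith) hXZ 2)
        exact mul_le_mul_of_nonneg_left this (by linarith)
      · intro n hn
        rw [norm_mul, norm_pow]
        exact mul_le_one₀ (norm_coefB (hω t ht).1 hn) (by positivity)
          (pow_le_one₀ (norm_nonneg _) (norm_chi6_le _ _)))
    (by
      intro w' K2 c hw' hK2
      have hex : ∀ t t2 : O × O × O, ∃ ω' : O → ℂ, t ∈ I → t2 ∈ trip O (Z' ^ 3) → Wt ω' ∧
          ∀ (X : ℝ) (w : ℂ) (m : O),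
          ‖AA (alp (fun n => mu n * gt 1 n * ω t n * chi6 (kt t) n ^ 5) 5 t2 c) 1 X w m‖ ≤
          ‖A ω' X w (m * (t2.2.1 * t2.1 ^ 2 * t.2.1 * t.2.2 ^ 2) * (t.1 * t2.2.2) ^ 6)‖ := by
        intro t t2
        by_cases h1 : t ∈ I
        · by_cases h2 : t2 ∈ trip O (Z' ^ 3)
          · obtain ⟨ω', h'⟩ := idn_rev (hω t h1).1 t h2 c
            exact ⟨ω', fun _ _ => h'⟩
          · exact ⟨0, fun _ h => absurd h h2⟩
        · exact ⟨0, fun h => absurd h h1⟩
      choose ω' hω' using hex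
      have hb := hA (Z' ^ 3) X Y U K K2 Δ w' I ω' hX (hXZ.trans (hZZ'.trans hZ'3)) hY
        (hYZ.trans (hZZ'.trans hZ'3)) hU hK hK2 hΔ hw'
        (hI.trans (rev_trip_mono (hZZ'.trans hZ'3))) (fun t ht => (hω t ht).2)
        (fun t ht t2 ht2 => (hω' t t2 ht ht2).1)
      refine le_trans ?_ (hb.trans ?_)
      · refine Finset.sum_le_sum (fun t ht => ?_)
        obtain ⟨h1, h2, h3, h5⟩ := hN t ht
        rw [Finset.mul_sum]
        refine Finset.sum_le_sum (fun t2 ht2 => ?_)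
        have ht2' := mem_trip.1 ht2
        have g1 := one_le_N ht2'.1.ne_zero
        have g2 := one_le_N ht2'.2.1.ne_zero
        have e1 : Ht (X / (U * N (pr t))) (K * Ht X Y t) t2 =
            Y / (K * U ^ 2 * N (t2.2.1 * t2.1 ^ 2 * t.2.1 * t.2.2 ^ 2)) := by
          simp only [Ht, N_mul, N_pow, h5]
          field_simp
        have e2 : Y * N t.1 / X * (K * Ht X Y t * N t2.1 / (X / (U * N (pr t)))) =
            K * U * N t.2.2 * N t2.1 := by
          simp only [Ht, h5]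
          field_simp
        rw [← mul_assoc, e1, e2]
        refine mul_le_mul_of_nonneg_left (Finset.sum_le_sum (fun m _ => ?_)) (by positivity)
        exact pow_le_pow_left₀ (norm_nonneg _) ((hω' t t2 ht ht2).2 _ _ _) 2
      · have e1 : (Z' ^ 3 * K2) ^ ε' = (Z' ^ 3) ^ ε' * K2 ^ ε' :=
          Real.mul_rpow (by positivity) (by linarith)
        have e2 : K2 ^ ε' * K2 ≤ K2 ^ (7 / 2 : ℝ) := by
          rw [← Real.rpow_add_one (by linarith)]
          exact Real.rpow_le_rpow_of_exponent_le hK2 (by linarith)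
        rw [e1]
        calc C1 * Real.exp (C1 * |w'.im|) * ((Z' ^ 3) ^ ε' * K2 ^ ε') * K2 * K * S
            = C1 * (Z' ^ 3) ^ ε' * K * S * Real.exp (C1 * |w'.im|) * (K2 ^ ε' * K2) := by ring
          _ ≤ _ := mul_le_mul_of_nonneg_left e2 (by positivity))
  simp only [← B_mul] at key
  refine key.trans ?_
  have hdiag : ∑ t ∈ I, Y * N t.1 / X * (X / (U * N (pr t)) * (K * Ht X Y t)) ≤
      K * (X ^ 2 / U) * (C3 * Z ^ ε') ^ 3 := by
    calc ∑ t ∈ I, Y * N t.1 / X * (X / (U * N (pr t)) * (K * Ht X Y t))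
        ≤ ∑ t ∈ I, K * (X ^ 2 / U) * ((N t.1)⁻¹ * (N t.2.1)⁻¹ * (N t.2.2)⁻¹) := by
          refine Finset.sum_le_sum (fun t ht => ?_)
          obtain ⟨h1, h2, h3, h5⟩ := hN t ht
          have e : Y * N t.1 / X * (X / (U * N (pr t)) * (K * Ht X Y t)) =
              K * (X ^ 2 / U) * ((N t.1)⁻¹ * (N t.2.1)⁻¹ * (N t.2.2)⁻¹) *
                (N t.1 * N t.2.1)⁻¹ := by
            simp only [Ht, h5]
            field_simp
          rw [e]
          exact mul_le_of_le_one_right (by positivity)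
            (inv_le_one_of_one_le₀ (one_le_mul_of_one_le_of_one_le h1 h2))
      _ ≤ K * (X ^ 2 / U) * ∑ t ∈ trip O Z, (N t.1)⁻¹ * (N t.2.1)⁻¹ * (N t.2.2)⁻¹ := by
          rw [← Finset.mul_sum]
          refine mul_le_mul_of_nonneg_left
            (Finset.sum_le_sum_of_subset_of_nonneg hI (fun t _ _ => ?_)) (by positivity)
          have := N_nonneg t.1; have := N_nonneg t.2.1; have := N_nonneg t.2.2; positivity
      _ ≤ _ := by
          refine mul_le_mul_of_nonneg_left ((rev_sum_trip Z).trans ?_) (by positivity)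
          exact pow_le_pow_left₀ (Finset.sum_nonneg (fun n _ => inv_nonneg.2 (N_nonneg n)))
            (hinv Z hZ) 3
  set P : ℝ := (Z * K) ^ ε' with hP
  have hZK : 1 ≤ Z * K := one_le_mul_of_one_le_of_one_le hZ hK
  have hP1 : 1 ≤ P := Real.one_le_rpow hZK hε'.le
  have hZP : Z ^ ε' ≤ P := Real.rpow_le_rpow (by linarith) (by nlinarith) hε'.le
  have hZ'P : Z' ^ ε' ≤ P ^ 2 := by
    rw [hP, ← Real.rpow_natCast, ← Real.rpow_mul (by linarith), mul_comm ε', Real.rpow_mul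
      (by linarith), Real.rpow_natCast]
    exact Real.rpow_le_rpow (by linarith) (by rw [hZ']; nlinarith) hε'.le
  have hZ3P : (Z' ^ 3) ^ ε' ≤ P ^ 6 := by
    rw [← Real.rpow_natCast, ← Real.rpow_mul (by linarith), mul_comm, Real.rpow_mul (by linarith),
      Real.rpow_natCast]
    calc (Z' ^ ε') ^ 3 ≤ (P ^ 2) ^ 3 := pow_le_pow_left₀ (by positivity) hZ'P 3
      _ = P ^ 6 := by ring
  have hP8 : P ^ 8 ≤ (Z * K) ^ ε := by
    rw [hP, ← Real.rpow_natCast, ← Real.rpow_mul (by linarith)]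
    exact Real.rpow_le_rpow_of_exponent_le hZK (by push_cast; linarith)
  set E : ℝ := Real.exp ((C2 * (C3 ^ 3 + C1) + C1) * |w.im|) with hE
  have hE1 : 1 ≤ E := Real.one_le_exp (by positivity)
  have hE2 : Real.exp (C1 * |w.im|) ≤ E := by
    refine Real.exp_le_exp.2 (mul_le_mul_of_nonneg_right ?_ (abs_nonneg _))
    have : 0 ≤ C2 * (C3 ^ 3 + C1) := by positivity
    linarith
  have hD0 : 0 ≤ X ^ 2 / U := by positivity
  have b1 : K * (X ^ 2 / U) * (C3 * Z ^ ε') ^ 3 ≤ C3 ^ 3 * (E * P ^ 6 * K * (X ^ 2 / U + S)) := by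
    have h1 : (Z ^ ε') ^ 3 ≤ E * P ^ 6 := by
      calc (Z ^ ε') ^ 3 ≤ P ^ 3 := pow_le_pow_left₀ (by positivity) hZP 3
        _ ≤ P ^ 6 := pow_le_pow_right₀ hP1 (by norm_num)
        _ ≤ E * P ^ 6 := le_mul_of_one_le_left (by positivity) hE1
    calc K * (X ^ 2 / U) * (C3 * Z ^ ε') ^ 3 = C3 ^ 3 * ((Z ^ ε') ^ 3 * K * (X ^ 2 / U)) := by ring
      _ ≤ _ := by gcongr; linarith
  have b2 : C1 * (Z' ^ 3) ^ ε' * K * S * Real.exp (C1 * |w.im|) ≤
      C1 * (E * P ^ 6 * K * (X ^ 2 / U + S)) := by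
    calc C1 * (Z' ^ 3) ^ ε' * K * S * Real.exp (C1 * |w.im|)
        = C1 * (Real.exp (C1 * |w.im|) * (Z' ^ 3) ^ ε' * K * S) := by ring
      _ ≤ _ := by gcongr; linarith
  have hK0 : 0 ≤ K := by linarith
  calc C2 * Z' ^ ε' * (∑ t ∈ I, Y * N t.1 / X * (X / (U * N (pr t)) * (K * Ht X Y t)) +
        C1 * (Z' ^ 3) ^ ε' * K * S * Real.exp (C1 * |w.im|))
      ≤ C2 * P ^ 2 * (C3 ^ 3 * (E * P ^ 6 * K * (X ^ 2 / U + S)) +
          C1 * (E * P ^ 6 * K * (X ^ 2 / U + S))) := by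
        refine mul_le_mul (mul_le_mul_of_nonneg_left hZ'P hC2.le)
          (add_le_add (hdiag.trans b1) b2) ?_ (by positivity)
        refine add_nonneg (Finset.sum_nonneg (fun t ht => ?_)) (by positivity)
        obtain ⟨h1, h2, h3, h5⟩ := hN t ht
        rw [h5]; unfold Ht; positivity
    _ = C2 * (C3 ^ 3 + C1) * E * P ^ 8 * K * (X ^ 2 / U + S) := by ring
    _ ≤ (C2 * (C3 ^ 3 + C1) + C1) * E * (Z * K) ^ ε * K * (X ^ 2 / U + S) := by
        gcongr; linarith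
    _ = _ := by rw [hS]; ring

end

end Vale.Agent.P319N.Ab
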