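import Vale.Agent.P319N.ATL3
import Vale.Agent.P319N.AIdn

namespace Vale.Agent.P319N.Ab

open Complex MeasureTheory Filter Topology
open scoped Classical ComplexConjugate Real
open Vale.Agent.P026 (W DualW)

noncomputable section

variable {O : Type} [CommMonoidWithZero O] [UniqueFactorizationMonoid O] [Ar O]


theorem ha_of_hb {γ : ℝ} (hγ : 439 / 200 ≤ γ) (h : HB O γ) :
    HA O γ := by
  intro ε hε R0
  obtain ⟨CB, B0, hB⟩ := h (ε / 4) (by positivity) (R0 + 4)
  obtain ⟨CT, T0, hT⟩ := tlfam (O := O) (ε := ε / 4) (by positivity) R0 B0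
  obtain ⟨C1, h1, hC1⟩ := norm_AA_le (O := O) (le_refl 1) R0
  obtain ⟨C2, h2, hC2⟩ := card_ballO_le (O := O)
  refine ⟨C2 * C1 ^ 2 + 2 * CT * (1 + CB) + CB, by positivity, ?_⟩
  intro Z X Y w ω hZ hX hXZ hY hYZ hw hω
  have hα : ∀ n, NN n → ‖mu n * ω n‖ ≤ 1 := fun n _ => norm_coefA hω n
  have e1 : 1 ≤ Z ^ ε := Real.one_le_rpow hZ hε.le
  have e2 : 0 ≤ X ^ γ := by positivity
  have e3 : 1 ≤ Real.exp (CB * |w.im|) := Real.one_le_exp (by positivity)
  have e4 : Real.exp (CB * |w.im|) ≤ Real.exp ((C2 * C1 ^ 2 + 2 * CT * (1 + CB) + CB) * |w.im|) := by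
    gcongr
    exact le_add_of_nonneg_left (by positivity)
  rcases le_total X 1 with hX1 | hX1
  · calc _ ≤ ∑ m ∈ ballO O Y, C1 ^ 2 * X := Finset.sum_le_sum fun m _ => by
          have := hC1 _ 1 X w m hα hX hw
          rw [Real.rpow_one] at this
          calc _ ≤ (C1 * X) ^ 2 := by gcongr; exact this
            _ = C1 ^ 2 * X * X := by ring
            _ ≤ _ := mul_le_of_le_one_right (by positivity) hX1
      _ ≤ C2 * Y * (C1 ^ 2 * X) := by
          rw [Finset.sum_const, nsmul_eq_mul]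
          gcongr
          exact hC2 Y hY.le
      _ = C2 * C1 ^ 2 * 1 * 1 * (X * Y + 0) := by ring
      _ ≤ _ := by
          gcongr
          · rw [add_assoc]; exact le_add_of_nonneg_right (by positivity)
          · exact e3.trans e4
  · obtain ⟨Y', hY'⟩ : ∃ Y', Y' = max Y (X ^ (239 / 200 : ℝ)) := ⟨_, rfl⟩
    have y1 : Y ≤ Y' := hY' ▸ le_max_left _ _
    have z1 : Z ≤ Z ^ 2 := le_self_pow₀ hZ two_ne_zero
    have y2 : Y' ≤ Z ^ 2 := hY' ▸ max_le (hYZ.trans z1) (by
      rw [← Real.rpow_two]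
      exact (Real.rpow_le_rpow hX.le hXZ (by norm_num)).trans
        (Real.rpow_le_rpow_of_exponent_le hZ (by norm_num)))
    have y3 : X * Y' ≤ X * Y + X ^ γ := by
      rw [hY', mul_max_of_nonneg _ _ hX.le]
      refine max_le (le_add_of_nonneg_right e2) (le_add_of_nonneg_of_le (by positivity) ?_)
      rw [mul_comm, ← Real.rpow_add_one hX.ne']
      exact Real.rpow_le_rpow_of_exponent_le hX1 (by linarith)
    have y0 : 0 < Y' := hY.trans_le y1
    have k := hT Unit Finset.univ 1 (Z ^ 2) (CB * (Z ^ 2) ^ (ε / 4) * (X * Y' + X ^ γ)) (fun _ => 1)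
      (fun _ => X) (fun _ => Y') (fun _ n => mu n * ω n) w (Or.inl rfl) (hZ.trans z1)
      (by positivity) hw (fun _ _ => ⟨zero_le_one, hX, hXZ.trans z1, y0, y2, hα⟩) fun w' K c hw' hK => by
        choose! ω' h1 h2 using fun t (ht : t ∈ trip O ((Z ^ 2) ^ 3)) => idn_fwd hω ht c
        rw [Fintype.sum_unique, one_mul]
        refine le_trans (Finset.sum_le_sum fun t ht => ?_) ((hB (Z ^ 2) X Y' K w' ω' hX1
          (hXZ.trans z1) (hY' ▸ le_max_right _ _) y2 hK hw' h1).trans_eq (by ring))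
        have := N_nonneg t.1
        gcongr with m
        exact h2 t ht _ _ _
    simp only [Fintype.sum_unique, one_mul] at k
    obtain ⟨V, hV⟩ : ∃ V, V = (Z ^ 2) ^ (ε / 4) := ⟨_, rfl⟩
    have v1 : 1 ≤ V := hV ▸ Real.one_le_rpow (hZ.trans z1) (by positivity)
    have v2 : V * V = Z ^ ε := by
      rw [hV, ← Real.rpow_add (by positivity), ← Real.rpow_two, ← Real.rpow_mul (by positivity)]
      congr 1; ring
    rw [← hV] at k
    calc _ ≤ _ := Finset.sum_le_sum_of_subset_of_nonneg (ballO_mono y1) fun _ _ _ => by positivity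
      _ ≤ _ := k
      _ ≤ CT * V * (V * (2 * (X * Y + X ^ γ)) * Real.exp (CB * |w.im|) +
          CB * V * (2 * (X * Y + X ^ γ)) * Real.exp (CB * |w.im|)) := by
          have : 0 ≤ X * Y := by positivity
          gcongr CT * V * (?_ + CB * V * ?_ * _)
          · calc _ ≤ 1 * (2 * (X * Y + X ^ γ)) * 1 := by linarith
              _ ≤ _ := by gcongr
          · linarith
      _ = 2 * CT * (1 + CB) * Real.exp (CB * |w.im|) * (V * V) * (X * Y + X ^ γ) := by ring
      _ ≤ _ := by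
          rw [v2]
          gcongr
          have : 0 ≤ C2 * C1 ^ 2 := by positivity
          linarith

end

end Vale.Agent.P319N.Ab
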