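import Vale.Agent.P319N.AWb
import Vale.Agent.P319N.ADiv

namespace Vale.Agent.P319N.Ab

open Complex MeasureTheory Filter Topology
open scoped Classical ComplexConjugate Real
open Vale.Agent.P026 (W DualW)

noncomputable section

variable {O : Type} [CommMonoidWithZero O] [UniqueFactorizationMonoid O] [Ar O]


theorem cube_tsum {f : O → ℂ} (hf : Summable f)
    (hs : ∀ n, f n ≠ 0 → ∃ d n0, Prim d ∧ NN n0 ∧ n = n0 * d ^ 3) :
    ∑' n, f n = ∑' d, ∑' n0, if Prim d ∧ NN n0 then f (n0 * d ^ 3) else 0 := by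
  let S : Set (O × O) := {p | Prim p.1 ∧ NN p.2}
  have hcf : ∀ n : O, NN n → ∀ p : O, Prime p → ¬ p ^ 3 ∣ n := fun n hn p hp h =>
    hp.not_unit (hn.2 p (Dvd.dvd.trans 
      (Dvd.intro p (pow_three' p).symm) h))
  have hi : Function.Injective fun p : S => p.1.2 * p.1.1 ^ 3 := by
    rintro ⟨⟨d, n⟩, h1⟩ ⟨⟨d', n'⟩, h2⟩ h
    obtain ⟨e1, e2⟩ := cube_unique h1.2.1 h2.2.1 h1.1 h2.1 (hcf _ h1.2) (hcf _ h2.2) h
    simp only at e1 e2
    subst e1 e2
    rfl
  have h1 : ∑' p : S, f (p.1.2 * p.1.1 ^ 3) = ∑' n, f n := hi.tsum_eq fun n hn => by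
    obtain ⟨d, n0, a, b, rfl⟩ := hs n hn
    exact ⟨⟨(d, n0), a, b⟩, rfl⟩
  have h2 : Summable (S.indicator fun p : O × O => f (p.2 * p.1 ^ 3)) :=
    summable_subtype_iff_indicator.mp (hf.comp_injective hi)
  rw [← h1, tsum_subtype S fun p : O × O => f (p.2 * p.1 ^ 3), h2.tsum_prod]
  simp only [Set.indicator_apply, S, Set.mem_setOf_eq]

theorem cube_summ {t : O → ℂ} (ht : CoefPkg t) {g : O → ℂ} (hg : ∀ n, ‖g n‖ ≤ 1) {X : ℝ}
    (hX : 0 < X) (w : ℂ) :
    Summable fun n : O => if Prim n then t n * g n * W w (N n / X) else 0 := by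
  obtain ⟨Bd, hB⟩ := ht.bound
  obtain ⟨C, hC, hW⟩ := Vale.Agent.P026.W_le (-2) |w.re|
  refine Summable.of_norm_bounded
    ((summable_of_sq_bound hB (s := 2) (by norm_num)).mul_left (C * X ^ (2 : ℝ))) fun n => ?_
  split_ifs with hn
  · have hN := N_pos hn.ne_zero
    have h1 := hW w (N n / X) le_rfl (by positivity)
    rw [Real.div_rpow hN.le hX.le, Real.rpow_neg hX.le, div_inv_eq_mul] at h1
    rw [norm_mul, norm_mul]
    calc ‖t n‖ * ‖g n‖ * ‖W w (N n / X)‖ ≤ ‖t n‖ * 1 * (C * (N n ^ (-2 : ℝ) * X ^ (2 : ℝ))) := by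
          gcongr
          exact hg n
      _ = _ := by ring
  · have := N_nonneg n
    rw [norm_zero]
    positivity

theorem cube_chi (m : O) {n d : O} (hn : n ≠ 0) (hd : d ≠ 0) :
    chi6 m (n * d ^ 3) = chi6 m n * chi6 m d ^ 3 := by
  rw [show n * d ^ 3 = n * d * d * d by simp only [pow_succ, pow_zero, one_mul, mul_assoc],
    chi6_mul_right _ (mul_ne_zero (mul_ne_zero hn hd) hd) hd,
    chi6_mul_right _ (mul_ne_zero hn hd) hd, chi6_mul_right _ hn hd]
  ring

/-- the multiplicative factor -/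
def cube_c (A0 : O → ℂ) (m e : O) : ℂ := ((√(N e) : ℝ) : ℂ) * A0 e * chi6 m e ^ 15

theorem cube_c_le {A0 : O → ℂ} (hA : ∀ x, ‖A0 x‖ ≤ 1) (m e : O) :
    ‖cube_c A0 m e‖ ≤ √(N e) := by
  rw [cube_c, norm_mul, norm_mul, norm_pow, Complex.norm_real, Real.norm_of_nonneg
    (Real.sqrt_nonneg _), mul_assoc]
  exact mul_le_of_le_one_right (Real.sqrt_nonneg _)
    (mul_le_one₀ (hA _) (by positivity)
      (pow_le_one₀ (norm_nonneg _) (norm_chi6_le _ _)))

/-- the contribution of the cube `e ^ 3` -/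
def cube_u (A0 ω η : O → ℂ) (X : ℝ) (w : ℂ) (m e : O) : ℂ :=
  if Prim e then
    cube_c A0 m e * B (fun n => ω (e ^ 3 * n) * η (e ^ 3 * n) * conj (η n)) (X / N e ^ 3) w m else 0

theorem cube_TH {t : O → ℂ} (ht : CoefPkg t) {A0 ω η : O → ℂ}
    (hAm : ∀ x y, x ≠ 0 → y ≠ 0 → A0 (x * y) = A0 x * A0 y)
    (hAc : ∀ n d, Prim n → Prim d → t (n * d ^ 3) = ((√(N d) : ℝ) : ℂ) * A0 d * t n) (hω : ∀ n, ‖ω n‖ ≤ 1)
    (hη : ∀ n, ‖η n‖ ≤ 1) (hg : ∀ n, NN n → mu n * gt 1 n = t n * η n ∧ ‖η n‖ = 1) {X : ℝ}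
    (hX : 0 < X) (w : ℂ) (m : O) {d : O} (hd : NN d) :
    cube_c A0 m d * TH t (fun n => ω (d ^ 3 * n) * η (d ^ 3 * n)) (X / N d ^ 3) w m
      = ∑' e, if d ∣ e then cube_u A0 ω η X w m e else 0 := by
  have hNd := N_pos hd.ne_zero
  have h1 : ∑' e, (if d ∣ e then cube_u A0 ω η X w m e else 0) = ∑' d', cube_u A0 ω η X w m (d * d') := by
    rw [← (mul_right_injective₀ hd.ne_zero).tsum_eq]
    · simp
    · intro e he
      have : d ∣ e := by
        by_contra h
        simp [h] at he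
      obtain ⟨c, rfl⟩ := this
      exact ⟨c, rfl⟩
  have hs := cube_summ ht (g := fun n => ω (d ^ 3 * n) * η (d ^ 3 * n) * chi6 m n ^ 5)
    (fun n => by
      rw [norm_mul, norm_mul, norm_pow]
      exact mul_le_one₀ (mul_le_one₀ (hω _) (norm_nonneg _) (hη _)) (by positivity)
        (pow_le_one₀ (norm_nonneg _) (norm_chi6_le _ _)))
    (X := X / N d ^ 3) (by positivity) w
  simp only [← mul_assoc] at hs
  rw [h1, TH]
  simp only [← mul_assoc]
  rw [cube_tsum hs, ← tsum_mul_left]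
  · refine tsum_congr fun d' => ?_
    by_cases hd' : Prim d'
    · have hNd' := N_pos hd'.ne_zero
      rw [cube_u, if_pos (hd.1.mul hd'), B, AA, ← tsum_mul_left,
        ← tsum_mul_left]
      refine tsum_congr fun n => ?_
      by_cases hn : NN n
      · have e1 : N (n * d' ^ 3) / (X / N d ^ 3) = N n / (X / N (d * d') ^ 3) := by
          rw [N_mul, N_mul, N_pow]
          field_simp
        have e2 : d ^ 3 * (n * d' ^ 3) = (d * d') ^ 3 * n := by
          rw [mul_pow]; ac_rfl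
        have e3 : η n * conj (η n) = 1 := by
          rw [Complex.mul_conj', (hg n hn).2]
          simp
        rw [if_pos ⟨hd', hn⟩, if_pos (hn.1.mul (hd'.pow 3)),
          if_pos hn, (hg n hn).1, hAc n d' hn.1 hd', e1, ← mul_assoc (d ^ 3),
          mul_assoc (d ^ 3), e2, cube_chi m hn.ne_zero hd'.ne_zero, cube_c, cube_c, N_mul d d',
          Real.sqrt_mul (N_nonneg d), hAm _ _ hd.ne_zero hd'.ne_zero,
          chi6_mul_right _ hd.ne_zero hd'.ne_zero, ← N_mul d d']
        push_cast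
        linear_combination (-(((√(N d) : ℝ) : ℂ) * ((√(N d') : ℝ) : ℂ) * (A0 d * A0 d') *
          (chi6 m d * chi6 m d') ^ 15 * t n * ω ((d * d') ^ 3 * n) * η ((d * d') ^ 3 * n) *
          chi6 m n ^ 5 * W w (N n / (X / N (d * d') ^ 3)))) * e3
      · rw [if_neg fun h => hn h.2, if_neg hn]
        simp
    · rw [cube_u, if_neg fun h => hd' (h.of_mul hd.1)]
      simp [hd']
  · intro n hn
    have hP : Prim n := by
      by_contra h
      simp [h] at hn
    obtain ⟨n0, e, a1, a2, rfl, a3⟩ := cube_decomp hP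
    refine ⟨e, n0, a2, ⟨a1, ?_⟩, rfl⟩
    by_contra hsq
    obtain ⟨p, n', b1, b2, b3, b4, b5⟩ := exists_exact_sq a1 a3 hsq
    apply hn
    rw [if_pos hP, hAc n0 e a1 a2, b5, ht.sq n' p b3 b1 b2 b4]
    simp

theorem cube_kappa {e : O} (he : Prim e) (D0 : ℝ) :
    (if e = 1 then 1 else 0) - ∑ d ∈ ballN O D0, (if d ∣ e then mu d else 0)
      = ∑ d ∈ (divs e).filter (fun d => D0 < N d), mu d := by
  have h1 := sum_mu_divs he 0
  simp only [dvd_zero, if_true, isRelPrime_zero_left] at h1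
  have h2 : (if e = 1 then (1 : ℂ) else 0) = if IsUnit e then 1 else 0 :=
    if_congr ⟨fun h => h ▸ isUnit_one, he.eq_one_of_isUnit⟩ rfl rfl
  rw [h2, ← h1, ← Finset.sum_filter, ← Finset.sum_filter_add_sum_filter_not (divs e)
    (fun d => D0 < N d), add_sub_assoc, add_eq_left, sub_eq_zero]
  refine Finset.sum_congr ?_ fun _ _ => rfl
  ext d
  simp only [Finset.mem_filter, mem_divs he.ne_zero, mem_ballN, not_lt]
  tauto

theorem cube_removal {t : O → ℂ} (ht : CoefPkg t) (R0 : ℝ) {a : ℝ}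
    (ha : 0 ≤ a) : ∃ C : ℝ, 0 < C ∧ ∀ ω : O → ℂ, Wt ω →
    ∃ ω1 ω2 : O → O → ℂ, (∀ d, Wt (ω1 d)) ∧ (∀ e, Wt (ω2 e)) ∧
      ∀ (X D0 E0 : ℝ) (w : ℂ) (m : O), 0 < X → X ≤ E0 → 1 ≤ D0 → D0 ≤ E0 → |w.re| ≤ R0 →
        ‖B ω X w m‖ ≤ ∑ d ∈ ballN O D0, √(N d) * ‖TH t (ω1 d) (X / N d ^ 3) w m‖ +
          ∑ e ∈ (ballO O E0).filter (fun e => D0 < N e),
            dv e * √(N e) * ‖B (ω2 e) (X / N e ^ 3) w m‖ + C * E0 ^ (-a) := by
  obtain ⟨η, hη, hg⟩ := ht.gauss
  obtain ⟨A0, hA1, hAm, hAle, hAc⟩ := ht.cube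
  have hη' := hη
  obtain ⟨C1, hC1, h1⟩ := norm_AA_le (O := O) (a := (a + 3) / 2) (by linarith) R0
  obtain ⟨C2, hC2, h2⟩ := dv_le (O := O) (ε := 1) one_pos
  have hs1 : 1 < 3 * ((a + 3) / 2) - 2 := by linarith
  obtain ⟨C3, hC3, h3⟩ := tail_N_rpow_le (O := O) hs1
  refine ⟨C1 * C2 * C3, by positivity, fun ω hω => ⟨fun d n => ω (d ^ 3 * n) * η (d ^ 3 * n),
    fun e n => ω (e ^ 3 * n) * η (e ^ 3 * n) * conj (η n),
    fun d => (hω.comp_mul _).mul (hη'.comp_mul _),
    fun e => ((hω.comp_mul _).mul (hη'.comp_mul _)).mul hη'.conj, ?_⟩⟩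
  intro X D0 E0 w m hX hXE hD hDE hw
  set V1 : O → ℝ := fun e => dv e * √(N e) *
    ‖B (fun n => ω (e ^ 3 * n) * η (e ^ 3 * n) * conj (η n)) (X / N e ^ 3) w m‖ with hV
  set K := C1 * C2 * X ^ ((a + 3) / 2) with hK
  have hV0 : ∀ e, 0 ≤ V1 e := fun e =>
    mul_nonneg (mul_nonneg (Nat.cast_nonneg _) (Real.sqrt_nonneg _)) (norm_nonneg _)
  have hVle : ∀ e, e ≠ 0 → V1 e ≤ K * N e ^ (-(3 * ((a + 3) / 2) - 2)) := fun e he => by
    have hN := one_le_N he
    have hN0 : 0 < N e := by linarith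
    have b1 := h1 (fun n => mu n * gt 1 n * (ω (e ^ 3 * n) * η (e ^ 3 * n) * conj (η n))) 5
      (X / N e ^ 3) w m (fun n hn => by
        rw [norm_mul, norm_mul, norm_gt hn le_rfl (by norm_num), mul_one]
        exact mul_le_one₀ (norm_mu_le _) (norm_nonneg _)
          ((((hω.comp_mul _).mul (hη'.comp_mul _)).mul hη'.conj).2 n)) (by positivity) hw
    have b2 := h2 e he
    rw [Real.rpow_one] at b2
    have b3 : √(N e) ≤ N e := Real.sqrt_le_self_iff.mpr (Or.inr hN)
    have b4 : N e * N e * (X / N e ^ 3) ^ ((a + 3) / 2)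
        = X ^ ((a + 3) / 2) * N e ^ (-(3 * ((a + 3) / 2) - 2)) := by
      rw [Real.div_rpow hX.le (by positivity), ← Real.rpow_natCast, ← Real.rpow_mul hN0.le,
        neg_sub, Real.rpow_sub hN0, Real.rpow_two]
      push_cast
      ring
    calc V1 e ≤ C2 * N e * N e * (C1 * (X / N e ^ 3) ^ ((a + 3) / 2)) :=
          mul_le_mul (mul_le_mul b2 b3 (Real.sqrt_nonneg _) (by positivity)) b1 (norm_nonneg _)
            (by positivity)
      _ = C1 * C2 * (N e * N e * (X / N e ^ 3) ^ ((a + 3) / 2)) := by ring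
      _ = _ := by rw [b4, hK]; ring
  have hu : ∀ e, e ≠ 0 → dv e * ‖cube_u A0 ω η X w m e‖ ≤ V1 e := fun e he => by
    unfold cube_u
    split_ifs
    · rw [norm_mul, ← mul_assoc]
      exact mul_le_mul_of_nonneg_right (mul_le_mul_of_nonneg_left (cube_c_le hAle m e)
        (Nat.cast_nonneg _)) (norm_nonneg _)
    · simpa using hV0 e
  have hK0 : 0 ≤ K := by positivity
  have hsum := summable_N_rpow (O := O) hs1
  have hus : Summable (cube_u A0 ω η X w m) := by
    refine Summable.of_norm_bounded (hsum.mul_left K) fun e => ?_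
    by_cases he : e = 0
    · rw [cube_u, if_neg fun h => h.ne_zero he, norm_zero]
      exact mul_nonneg hK0 (Real.rpow_nonneg (N_nonneg _) _)
    · exact (le_mul_of_one_le_left (norm_nonneg _) (one_le_dv he)).trans
        ((hu e he).trans (hVle e he))
  have hB : B ω X w m = cube_u A0 ω η X w m 1 := by
    rw [cube_u, if_pos prim_one]
    simp only [cube_c, hA1, Real.sqrt_one, N_one, one_pow, one_mul, div_one, chi6_one_right,
      Complex.ofReal_one, B, AA]
    refine tsum_congr fun n => ?_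
    split_ifs with hn
    · rw [mul_assoc (ω n), Complex.mul_conj', (hg n hn).2]
      simp
    · rfl
  have hds : ∀ d, Summable fun e => mu d * if d ∣ e then cube_u A0 ω η X w m e else 0 := fun d =>
    Summable.mul_left _ (Summable.of_norm_bounded hus.norm fun e => by split_ifs <;> simp)
  have h1s : Summable fun e => if e = 1 then cube_u A0 ω η X w m e else 0 :=
    Summable.of_norm_bounded hus.norm fun e => by split_ifs <;> simp
  have key : B ω X w m = ∑ d ∈ ballN O D0, mu d * (cube_c A0 m d *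
        TH t (fun n => ω (d ^ 3 * n) * η (d ^ 3 * n)) (X / N d ^ 3) w m) +
      ∑' e, (∑ d ∈ (divs e).filter (fun d => D0 < N d), mu d) * cube_u A0 ω η X w m e := by
    rw [Finset.sum_congr rfl fun d hd => by
      rw [cube_TH ht hAm hAc hω.2 hη.2 hg hX w m (mem_ballN.mp hd).1, ← tsum_mul_left],
      ← Summable.tsum_finsetSum fun d _ => hds d, ← sub_eq_iff_eq_add', hB,
      ← tsum_ite_eq 1 (cube_u A0 ω η X w m), ← h1s.tsum_sub (summable_sum fun d _ => hds d)]
    refine tsum_congr fun e => ?_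
    by_cases he : Prim e
    · rw [← cube_kappa he, sub_mul, Finset.sum_mul]
      congr 1
      · split_ifs <;> simp
      · refine Finset.sum_congr rfl fun d _ => ?_
        split_ifs <;> simp
    · simp [cube_u, he]
  have hts : Summable fun e : O =>
      if E0 < N e then N e ^ (-(3 * ((a + 3) / 2) - 2)) else 0 :=
    Summable.of_nonneg_of_le
      (fun e => by split_ifs; exacts [Real.rpow_nonneg (N_nonneg _) _, le_rfl])
      (fun e => by split_ifs; exacts [le_rfl, Real.rpow_nonneg (N_nonneg _) _]) hsum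
  have hfin : HasSum (fun e => if e ∈ (ballO O E0).filter (fun e => D0 < N e) then V1 e else 0)
      (∑ e ∈ (ballO O E0).filter (fun e => D0 < N e), V1 e) := by
    rw [← Finset.sum_ite_of_true (s := (ballO O E0).filter fun e => D0 < N e)
      (p := fun e => e ∈ (ballO O E0).filter fun e => D0 < N e) (fun _ h => h) V1 fun _ => 0]
    exact hasSum_sum_of_ne_finset_zero fun e he => if_neg he
  have htail := tsum_of_norm_bounded (hfin.add (hts.hasSum.mul_left K))
    (f := fun e => (∑ d ∈ (divs e).filter (fun d => D0 < N d), mu d) * cube_u A0 ω η X w m e)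
    fun e => by
      have p1 : 0 ≤ if e ∈ (ballO O E0).filter (fun e => D0 < N e) then V1 e else 0 := by
        split_ifs; exacts [hV0 e, le_rfl]
      have p2 : 0 ≤ K * if E0 < N e then N e ^ (-(3 * ((a + 3) / 2) - 2)) else 0 := by
        refine mul_nonneg hK0 ?_
        split_ifs; exacts [Real.rpow_nonneg (N_nonneg _) _, le_rfl]
      by_cases he : e = 0
      · rw [cube_u, if_neg fun h => h.ne_zero he, mul_zero, norm_zero]
        exact add_nonneg p1 p2
      by_cases hD' : D0 < N e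
      · have q1 : ‖(∑ d ∈ (divs e).filter (fun d => D0 < N d), mu d) * cube_u A0 ω η X w m e‖
            ≤ V1 e := by
          rw [norm_mul]
          refine le_trans (mul_le_mul_of_nonneg_right ?_ (norm_nonneg _)) (hu e he)
          refine (norm_sum_le _ _).trans ((Finset.sum_le_card_nsmul _ _ 1
            fun d _ => norm_mu_le d).trans ?_)
          rw [nsmul_eq_mul, mul_one]
          exact le_trans (by exact_mod_cast Finset.card_filter_le _ _) (card_divs_le e)
        by_cases hE : E0 < N e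
        · rw [if_pos hE]
          exact q1.trans ((hVle e he).trans (le_add_of_nonneg_left p1))
        · rw [if_pos (Finset.mem_filter.mpr ⟨mem_ballO.mpr ⟨he, not_lt.mp hE⟩, hD'⟩)]
          exact q1.trans (le_add_of_nonneg_right p2)
      · rw [Finset.filter_false_of_mem fun d hd h =>
          hD' (h.trans_le (N_le_of_dvd ((mem_divs he).mp hd).2 he)), Finset.sum_empty, zero_mul,
          norm_zero]
        exact add_nonneg p1 p2
  have hE0 : 0 < E0 := by linarith
  have hlast : K * ∑' e : O, (if E0 < N e then N e ^ (-(3 * ((a + 3) / 2) - 2)) else 0)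
      ≤ C1 * C2 * C3 * E0 ^ (-a) := by
    have e1 : E0 ^ ((a + 3) / 2) * E0 ^ (1 - (3 * ((a + 3) / 2) - 2)) = E0 ^ (-a) := by
      rw [← Real.rpow_add hE0]
      congr 1
      ring
    calc _ ≤ C1 * C2 * E0 ^ ((a + 3) / 2) * (C3 * E0 ^ (1 - (3 * ((a + 3) / 2) - 2))) := by
          refine mul_le_mul ?_ (h3 E0 hE0) (tsum_nonneg fun e => ?_) (by positivity)
          · rw [hK]
            gcongr
          · split_ifs; exacts [Real.rpow_nonneg (N_nonneg _) _, le_rfl]
      _ = _ := by rw [← e1]; ring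
  rw [key, add_assoc]
  refine (norm_add_le _ _).trans (add_le_add ((norm_sum_le _ _).trans
    (Finset.sum_le_sum fun d _ => ?_)) (htail.trans (add_le_add le_rfl hlast)))
  rw [norm_mul, norm_mul]
  exact (mul_le_of_le_one_left (by positivity) (norm_mu_le d)).trans
    (mul_le_mul_of_nonneg_right (cube_c_le hAle m d) (norm_nonneg _))

end

end Vale.Agent.P319N.Ab
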