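import Vale.Agent.P319N.ADiv
import Vale.Agent.P026.Small

namespace Vale.Agent.P319N.Ab

open Complex MeasureTheory Filter Topology
open scoped Classical ComplexConjugate Real
open Vale.Agent.P026 (W DualW)

noncomputable section

variable {O : Type} [CommMonoidWithZero O] [UniqueFactorizationMonoid O] [Ar O]

theorem small_split {b' q : O} (hb : Squarefree b') :
    ∃ h1 b : O, NN h1 ∧ IsRelPrime h1 q ∧ b ∣ q ∧ b' = h1 * b := by
  obtain ⟨u, b0, hu, hb0, rfl⟩ := sqfree_decomp hb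
  obtain ⟨g, hg, ⟨c, hc⟩, hgq, hgd⟩ := exists_prim_gcd hb0.1 q
  have hcP : Prim c := Prim.of_mul (hc ▸ hb0.1) hg
  have hcb : c ∣ b0 := hc ▸ dvd_mul_left c g
  refine ⟨c, u * g, hb0.of_dvd hcP hcb, ?_, hu.mul_left_dvd.mpr hgq, ?_⟩
  · refine (isCoprime_iff_no_prime (Or.inl hcP.ne_zero)).mpr fun p hp h1 h2 => ?_
    have h3 : p ∣ g := hgd p (h1.trans hcb) h2
    exact hp.not_unit (hb0.2 p (hc ▸ mul_dvd_mul h3 h1))
  · rw [hc]; ac_rfl

theorem small_TH (t ω : O → ℂ) (X : ℝ) (w : ℂ) (s : O) {h1 : O} (hh : NN h1) :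
    TH t ω X w (h1 * s) = ∑' n : O, if Prim n then
      t n * (ω n * eps h1 n ^ 5) * chi6 s n ^ 5 * chi6 n h1 ^ 5 * W w (N n / X) else 0 := by
  refine tsum_congr fun n => ?_
  by_cases hn : Prim n
  · rw [if_pos hn, if_pos hn, chi6_mul_left _ _ hn.ne_zero, chi6_flip hh.ne_zero hn.ne_zero]
    ring
  · rw [if_neg hn, if_neg hn]

theorem small {t : O → ℂ} (ht : VORLS t) : SMALL t := by
  intro ε hε R0
  obtain ⟨C1, hC1, h1⟩ := ht (ε / 4) (by positivity) R0
  obtain ⟨C2, hC2, h2⟩ := dv_le (O := O) (ε := ε / 4) (by positivity)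
  have hS := summable_N_rpow (O := O) (s := 9 / 7) (by norm_num)
  set S := ∑' n : O, N n ^ (-(9 / 7) : ℝ) with hSdef
  have hS0 : 0 ≤ S := tsum_nonneg fun n => Real.rpow_nonneg (N_nonneg _) _
  refine ⟨C1 + C1 * C2 * S, by positivity, ?_⟩
  intro Z X H w ω r k hX hXZ hH hHZ hr hrZ hk hw hω
  have hZ : 1 ≤ Z := hX.trans hXZ
  have hr1 := one_le_N hr
  have hZ' : Z ≤ Z ^ 2 := by nlinarith
  set V1 := H ^ (8 / 7 : ℝ) + (H ^ 2 * N r ^ 2 / X) ^ (8 / 5 : ℝ) with hV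
  have hV0 : 0 ≤ V1 := by positivity
  have step : ∀ a ∈ ballO O Z, ∑ b ∈ (ballO O (N (r * a))).filter (· ∣ r * a),
      ∑ h1 ∈ (ballN O (H / N a ^ 2)).filter (fun h => IsRelPrime h (r * a)),
        ‖TH t ω X w (h1 * b * a ^ 2 * k)‖ ^ 2 ≤
      C1 * C2 * Real.exp (C1 * |w.im|) * Z ^ ε * N r * X * V1
        * N a ^ (-(9 / 7) : ℝ) := by
    intro a ha
    obtain ⟨ha0, haZ⟩ := mem_ballO'.mp ha
    have ha1 := one_le_N ha0
    have hq0 : r * a ≠ 0 := mul_ne_zero hr ha0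
    have hNM : N (r * a) = 1 * N r * N a := by
      simp only [N_mul, one_mul]
    have hMZ : 1 * N r * N a ≤ Z ^ 2 := by
      rw [one_mul, sq]
      gcongr
    have hNq : N (r * a) ≤ Z ^ 2 := hNM.le.trans hMZ
    have hb : ∀ b ∈ (ballO O (N (r * a))).filter (· ∣ r * a),
        ∑ h1 ∈ (ballN O (H / N a ^ 2)).filter (fun h => IsRelPrime h (r * a)),
          ‖TH t ω X w (h1 * b * a ^ 2 * k)‖ ^ 2 ≤ C1 * Real.exp (C1 * |w.im|)
            * (Z ^ 2) ^ (ε / 4) * X * (1 ^ 5 * N r * N a ^ (-(9 / 7) : ℝ) * V1) := by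
      intro b hb
      have hbq := (Finset.mem_filter.mp hb).2
      have hs : b * a ^ 2 * k ∣ (r * a) ^ 9 := by
        have d1 : a ^ 2 ∣ (r * a) ^ 2 := pow_dvd_pow_of_dvd (dvd_mul_left _ _) 2
        have d2 : k ∣ (r * a) ^ 6 :=
          hk.trans (pow_dvd_pow_of_dvd (dvd_mul_right _ _) 6)
        have := mul_dvd_mul (mul_dvd_mul hbq d1) d2
        rwa [← pow_succ', ← pow_add] at this
      have := h1 (Z ^ 2) X (H / N a ^ 2) w (r * a) (b * a ^ 2 * k)
        (fun h n => ω n * eps h n ^ 5)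
        hX (hXZ.trans hZ') (by positivity)
        ((div_le_self hH.le (one_le_pow₀ ha1)).trans (hHZ.trans hZ')) hq0 hNq ⟨9, hs⟩ hw
        (fun h => hω.mul (wt_eps_right h 5))
      rw [hNM] at this
      refine le_trans (le_of_eq (Finset.sum_congr rfl fun h hh => ?_)) (this.trans ?_)
      · rw [← small_TH t ω X w _ (mem_ballN.mp (Finset.mem_filter.mp hh).1).1]
        simp only [mul_assoc]
      · have := Vale.Agent.P026.small_alg ha1 (le_refl (1 : ℝ)) hH (by linarith : 0 < N r)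
          (by linarith : 0 < X)
        calc _ = C1 * Real.exp (C1 * |w.im|) * (Z ^ 2) ^ (ε / 4) * X * (1 * N r * N a *
              ((H / N a ^ 2) ^ (8 / 7 : ℝ)
                + ((H / N a ^ 2) ^ 2 * (1 * N r * N a) ^ 2 / X) ^ (8 / 5 : ℝ))) := by ring
          _ ≤ _ := by gcongr
    refine (Finset.sum_le_card_nsmul _ _ _ hb).trans ?_
    rw [nsmul_eq_mul]
    have d1 : dv (r * a) ≤ C2 * (Z ^ 2) ^ (ε / 4) :=
      (h2 _ hq0).trans (mul_le_mul_of_nonneg_left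
        (Real.rpow_le_rpow (N_nonneg _) hNq (by positivity)) hC2.le)
    have d2 : (Z ^ 2) ^ (ε / 4) * (Z ^ 2) ^ (ε / 4) = Z ^ ε := by
      rw [← Real.rpow_add (by positivity),
        ← Real.rpow_natCast Z, ← Real.rpow_mul (by positivity)]
      congr 1; push_cast; ring
    calc _ ≤ C2 * (Z ^ 2) ^ (ε / 4) * (C1 * Real.exp (C1 * |w.im|)
            * (Z ^ 2) ^ (ε / 4) * X * (1 ^ 5 * N r * N a ^ (-(9 / 7) : ℝ) * V1)) :=
          mul_le_mul_of_nonneg_right d1 (by positivity)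
      _ = C1 * C2 * Real.exp (C1 * |w.im|) * N r * X * V1 * N a ^ (-(9 / 7) : ℝ)
            * ((Z ^ 2) ^ (ε / 4) * (Z ^ 2) ^ (ε / 4)) := by ring
      _ = _ := by rw [d2]; ring
  have cover := Vale.Agent.P026.small_sum_le (ballO O H) ((ballO O Z).sigma fun a =>
      ((ballO O (N (r * a))).filter (· ∣ r * a)).sigma fun _ =>
        (ballN O (H / N a ^ 2)).filter (fun h => IsRelPrime h (r * a)))
    (fun y => y.2.2 * y.2.1 * y.1 ^ 2) (fun h => ‖TH t ω X w (h * k)‖ ^ 2)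
    (fun _ => by positivity) (fun h hh => by
      obtain ⟨hh0, hhH⟩ := mem_ballO'.mp hh
      obtain ⟨b', a, hb', ha0, rfl⟩ := exists_sqfree_mul_sq hh0
      obtain ⟨h1, b, g1, g2, g3, rfl⟩ := small_split (q := r * a) hb'
      have ha1 := one_le_N ha0
      have hb0 : b ≠ 0 := fun h => hh0 (by simp [h])
      have hb1 := one_le_N hb0
      have hh1 := one_le_N g1.ne_zero
      have hq0 : r * a ≠ 0 := mul_ne_zero hr ha0
      rw [N_mul, N_mul, N_pow] at hhH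
      refine ⟨⟨a, b, h1⟩, ?_, rfl⟩
      simp only [Finset.mem_sigma, Finset.mem_filter, mem_ballO', mem_ballN]
      refine ⟨⟨ha0, ?_⟩, ⟨⟨hb0, N_le_of_dvd g3 hq0⟩, g3⟩, ⟨g1, ?_⟩, g2⟩
      · have : 1 * N a ^ 2 ≤ N h1 * N b * N a ^ 2 := by
          gcongr
          nlinarith
        nlinarith
      · rw [le_div_iff₀ (by positivity)]
        have : N h1 * 1 * N a ^ 2 ≤ N h1 * N b * N a ^ 2 := by gcongr
        linarith)
  simp only [Finset.sum_sigma] at cover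
  refine cover.trans ((Finset.sum_le_sum step).trans ?_)
  rw [← Finset.mul_sum]
  have hs := hS.sum_le_tsum (ballO O Z) fun n _ => Real.rpow_nonneg (N_nonneg _) _
  have hK : 0 ≤ C1 * C2 * S := by positivity
  calc _ ≤ C1 * C2 * Real.exp (C1 * |w.im|) * Z ^ ε * N r * X * V1 * S := by
        gcongr
    _ = (C1 * C2 * S) * Real.exp (C1 * |w.im|) * Z ^ ε * N r * X * V1 := by
        ring
    _ ≤ _ := by
        gcongr <;> linarith

end

end Vale.Agent.P319N.Ab
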