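import Vale.Agent.P319N.AStepA
import Vale.Agent.P319N.ACube
import Vale.Agent.P319N.ASmall
import Vale.Agent.P026.StepB

namespace Vale.Agent.P319N.Ab

open Complex MeasureTheory Filter Topology
open scoped Classical ComplexConjugate Real
open Vale.Agent.P026 (W DualW)
open Vale.Agent.P026 (sb_fin sb_rv sb_term sb_three)

noncomputable section

variable {O : Type} [CommMonoidWithZero O] [UniqueFactorizationMonoid O] [Ar O]


def sbS (X Y K : ℝ) (I : Finset (O × O × O)) (b : O × O × O → O → ℝ) : ℝ :=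
  ∑ t ∈ I, Y * N t.1 / X * ∑ h ∈ ballO O (K * Ht X Y t), b t h

theorem sb_mono {X Y K : ℝ} (hX : 0 < X) (hY : 0 < Y) {I : Finset (O × O × O)}
    {b b' : O × O × O → O → ℝ} (h : ∀ t ∈ I, ∀ h, b t h ≤ b' t h) :
    sbS X Y K I b ≤ sbS X Y K I b' :=
  Finset.sum_le_sum fun t ht => mul_le_mul_of_nonneg_left
    (Finset.sum_le_sum fun k _ => h t ht k) (by have := N_nonneg t.1; positivity)

theorem sb_add (X Y K : ℝ) (I : Finset (O × O × O)) (b b' : O × O × O → O → ℝ) :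
    sbS X Y K I (fun t h => b t h + b' t h) = sbS X Y K I b + sbS X Y K I b' := by
  simp only [sbS, Finset.sum_add_distrib, mul_add]

theorem sb_mul (X Y K c : ℝ) (I : Finset (O × O × O)) (b : O × O × O → O → ℝ) :
    sbS X Y K I (fun t h => c * b t h) = c * sbS X Y K I b := by
  simp only [sbS, ← Finset.mul_sum, mul_left_comm _ c]

theorem sb_sum (X Y K : ℝ) (I : Finset (O × O × O)) (E : Finset O)
    (b : O → O × O × O → O → ℝ) :
    sbS X Y K I (fun t h => ∑ e ∈ E, b e t h) = ∑ e ∈ E, sbS X Y K I (b e) := by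
  unfold sbS
  rw [Finset.sum_comm]
  refine Finset.sum_congr rfl fun t _ => ?_
  rw [Finset.sum_comm, Finset.mul_sum]

theorem sb_trip {R R' : ℝ} (h : R ≤ R') : trip O R ⊆ trip O R' := fun t ht => by
  rw [mem_trip] at ht ⊢
  exact ⟨ht.1, ht.2.1, ht.2.2.1, ht.2.2.2.1, ht.2.2.2.2.trans h⟩

theorem sb_one : ∃ C : ℝ, 0 < C ∧ ∀ X Y K : ℝ, 1 ≤ X → 0 < Y → 0 ≤ K →
    sbS X Y K (trip O (X ^ (1 / 1000 : ℝ))) (fun _ _ => 1) ≤ C * K * X ^ 2 := by
  obtain ⟨C1, p1, h1⟩ := card_ballO_le (O := O)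
  obtain ⟨C2, p2, h2⟩ := card_trip_le (O := O) one_pos
  refine ⟨C1 * C2, by positivity, fun X Y K X1 Y0 K0 => ?_⟩
  have X0 : 0 < X := by linarith
  refine (Finset.sum_le_card_nsmul _ _ (C1 * K * X) fun t ht => ?_).trans ?_
  · obtain ⟨a, b, -⟩ := mem_trip.1 ht
    have a1 := one_le_N a.ne_zero
    have b1 := one_le_N b.ne_zero
    rw [Finset.sum_const, nsmul_eq_mul, mul_one]
    refine (mul_le_mul_of_nonneg_left (h1 _ (by unfold Ht; positivity)) (by positivity)).trans ?_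
    rw [show Y * N t.1 / X * (C1 * (K * Ht X Y t)) = C1 * K * X / (N t.2.1 * N t.1) by
      unfold Ht; field_simp]
    exact div_le_self (by positivity) (one_le_mul_of_one_le_of_one_le b1 a1)
  · have a := h2 _ (Real.one_le_rpow X1 (show (0 : ℝ) ≤ 1 / 1000 by norm_num))
    rw [← Real.rpow_mul X0.le] at a
    have b := a.trans (mul_le_mul_of_nonneg_left (Real.rpow_le_self_of_one_le X1 (by norm_num)) p2.le)
    rw [nsmul_eq_mul]
    exact (mul_le_mul_of_nonneg_right b (by positivity)).trans (le_of_eq (by ring))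

theorem sb_cs {δ : ℝ} (δ0 : 0 < δ) : ∃ C : ℝ, 0 < C ∧ ∀ (Z : ℝ) (F : Finset O), 1 ≤ Z →
    F ⊆ ballO O Z → ∑ e ∈ F, (N e)⁻¹ ≤ C * Z ^ δ ∧ ∀ x : O → ℝ, (∑ e ∈ F, dv e * √(N e) * x e) ^ 2 ≤
      C * (Z ^ δ) ^ 3 * ∑ e ∈ F, N e ^ 2 * x e ^ 2 := by
  obtain ⟨C5, p5, g5⟩ := dv_le (O := O) δ0
  obtain ⟨C6, p6, g6⟩ := sum_inv_N_le (O := O) δ0
  refine ⟨C6 + C5 ^ 2 * C6, by positivity, fun Z F Z1 hF => ?_⟩
  have sF : ∑ e ∈ F, (N e)⁻¹ ≤ C6 * Z ^ δ :=
    (Finset.sum_le_sum_of_subset_of_nonneg hF fun e _ _ =>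
      inv_nonneg.2 (N_nonneg e)).trans (g6 Z Z1)
  refine ⟨sF.trans (by gcongr; exact le_add_of_nonneg_right (by positivity)), fun x => ?_⟩
  refine (Finset.sum_sq_le_sum_mul_sum_of_sq_le_mul F (f := fun e => (C5 * Z ^ δ) ^ 2 * (N e)⁻¹)
    (g := fun e => N e ^ 2 * x e ^ 2) (fun e _ => by have := N_nonneg e; positivity)
    (fun e _ => by positivity) fun e he => ?_).trans ?_
  · obtain ⟨e0, e1⟩ := mem_ballO'.1 (hF he)
    have n0 := N_pos e0
    have c : dv e ≤ C5 * Z ^ δ := (g5 e e0).trans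
      (mul_le_mul_of_nonneg_left (Real.rpow_le_rpow n0.le e1 δ0.le) p5.le)
    have d := (zero_le_one.trans (one_le_dv e0))
    rw [mul_pow, mul_pow, Real.sq_sqrt n0.le]
    calc _ ≤ (C5 * Z ^ δ) ^ 2 * N e * x e ^ 2 := by gcongr
      _ = _ := by field_simp
  · rw [← Finset.mul_sum]
    refine mul_le_mul_of_nonneg_right ?_ (Finset.sum_nonneg fun _ _ => by positivity)
    calc _ ≤ (C5 * Z ^ δ) ^ 2 * (C6 * Z ^ δ) := by gcongr
      _ = C5 ^ 2 * C6 * (Z ^ δ) ^ 3 := by ring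
      _ ≤ _ := by gcongr; exact le_add_of_nonneg_left p6.le

theorem stepB {t : O → ℂ} (ht : CoefPkg t)
    {γ γ' : ℝ} (hγ : 439 / 200 ≤ γ) (h1 : 439 / 200 ≤ γ') (h2 : γ - 1 / 2000 ≤ γ')
    (h : REV O γ) : HB O γ' := by
  intro ε hε R0
  obtain ⟨δ, δ0, δ1, δ2⟩ : ∃ δ : ℝ, 0 < δ ∧ δ ≤ ε / 7 ∧ δ ≤ 1 :=
    ⟨min (ε / 7) 1, lt_min (by positivity) one_pos, min_le_left _ _, min_le_right _ _⟩
  obtain ⟨C1, p1, g1⟩ := h δ δ0 R0
  obtain ⟨C2, p2, g2⟩ := stepA (small ht.vorls) hε R0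
  obtain ⟨C3, p3, g3⟩ := cube_removal ht R0 le_rfl
  obtain ⟨C4, p4, g4⟩ := sb_one (O := O)
  obtain ⟨C5, p5, g5⟩ := sb_cs (O := O) δ0
  obtain ⟨C, hC⟩ : ∃ C, C = 2 * C1 + 3 * (C2 + 2 * C1 * C5 ^ 2 + C3 ^ 2 * C4) := ⟨_, rfl⟩
  have q1 : 0 ≤ C1 * C5 ^ 2 := by positivity
  have q2 : 0 ≤ C3 ^ 2 * C4 := by positivity
  have q3 : C1 ≤ C := by linarith
  have q4 : C2 ≤ C := by linarith
  refine ⟨C, by linarith, fun Z X Y K w ω X1 XZ XY' YZ K1 hw hω => ?_⟩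
  have X0 : 0 < X := by linarith
  have XY : X ≤ Y := (Real.self_le_rpow_of_one_le X1 (by norm_num)).trans XY'
  have Y0 : 0 < Y := by linarith
  have Z1 : 1 ≤ Z := X1.trans XZ
  have Z3 : Z ≤ Z ^ 3 := le_self_pow₀ Z1 (by norm_num)
  have Δ1 : 1 ≤ X ^ (1 / 1000 : ℝ) := Real.one_le_rpow X1 (by norm_num)
  have ΔZ : X ^ (1 / 1000 : ℝ) ≤ Z := (Real.rpow_le_self_of_one_le X1 (by norm_num)).trans XZ
  have E7 : (Z ^ δ) ^ 7 ≤ Z ^ ε := by
    rw [← Real.rpow_natCast, ← Real.rpow_mul (by linarith)]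
    exact Real.rpow_le_rpow_of_exponent_le Z1 (by push_cast; linarith)
  have P0 : 0 ≤ X ^ γ' := by positivity
  have XX : X ^ 2 ≤ X * Y := by nlinarith
  have rv := sb_rv p1 q3 (abs_nonneg w.im) Z1 K1 δ2
  choose! ω1 ω2 w1 w2 cr using fun t => g3 (ω t)
  have sub := sb_trip (O := O) (ΔZ.trans Z3)
  obtain ⟨sF, cs⟩ := g5 Z ((ballO O Z).filter (fun e => X ^ (1 / 1000 : ℝ) < N e)) Z1
    (Finset.filter_subset _ _)
  have S := sb_mono (K := K) X0 Y0 (I := trip O (X ^ (1 / 1000 : ℝ))) fun i hi h =>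
    sb_three (norm_nonneg _) (cr i (hω i (sub hi)) (X / N (pr i)) _ Z w (h * kt i)
      (div_pos X0 (N_pos (mem_trip.1 hi).2.2.2.1.ne_zero))
      ((div_le_self X0.le (one_le_N (mem_trip.1 hi).2.2.2.1.ne_zero)).trans XZ) Δ1 ΔZ hw)
  rw [sb_mul, sb_add, sb_add, sb_mul, neg_zero, Real.rpow_zero, mul_one] at S
  rw [← Finset.sum_sdiff sub]
  refine (sb_fin (X := X) (P := X * Y + X ^ γ') p1 p3.le p4.le
    (Real.one_le_exp (x := C * |w.im|) (mul_nonneg (by linarith) (abs_nonneg _)))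
    (Real.one_le_rpow Z1 δ0.le) E7 K1 (Real.self_le_rpow_of_one_le K1 (y := 7 / 2) (by norm_num))
    (by linarith) ?_ (C2 := C2) ?_ (C5 := C5) ?_
    (mul_le_mul_of_nonneg_left (g4 X Y K X1 Y0 (by linarith)) (sq_nonneg _)) S).trans
    (le_of_eq (by rw [hC]))
  · have a := g1 (Z ^ 3) X Y 1 K _ w _ ω X1 (XZ.trans Z3) (X1.trans XY) (YZ.trans Z3) le_rfl K1 Δ1
      hw (Finset.sdiff_subset (t := trip O (X ^ (1 / 1000 : ℝ)))) fun t ht => by
        obtain ⟨c, d⟩ := Finset.mem_sdiff.1 ht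
        refine ⟨hω t c, le_of_not_ge fun e => d ?_⟩
        rw [mem_trip] at c ⊢
        exact ⟨c.1, c.2.1, c.2.2.1, c.2.2.2.1, e⟩
    simp only [one_mul, div_one, one_pow, Real.one_rpow] at a
    have c : X ^ γ / X ^ (1 / 1000 : ℝ) ≤ X ^ γ' := by
      rw [← Real.rpow_sub X0]
      exact Real.rpow_le_rpow_of_exponent_le X1 (by linarith)
    exact a.trans (mul_le_mul rv (by linarith) (by positivity) (by positivity))
  · refine (g2 Z X Y K w _ ω1 X1 XZ XY' YZ K1 hw subset_rfl fun i hi =>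
      w1 i (hω i (sub hi))).trans ?_
    have a : X ^ (439 / 200 : ℝ) ≤ X * Y + X ^ γ' :=
      (Real.rpow_le_rpow_of_exponent_le X1 h1).trans (le_add_of_nonneg_left (by positivity))
    gcongr
  · refine (sb_mono X0 Y0 fun i _ h => cs _).trans ?_
    rw [sb_mul, sb_sum]
    refine mul_le_mul_of_nonneg_left ((Finset.sum_le_sum (g := fun e => C1 * Real.exp (C * |w.im|) *
      (Z ^ δ) ^ 3 * K ^ (7 / 2 : ℝ) * (2 * (X * Y + X ^ γ')) * (N e)⁻¹) fun e he => ?_).trans ?_)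
      (by positivity)
    · obtain ⟨e0, e1⟩ := Finset.mem_filter.1 he
      have n1 := one_le_N (mem_ballO'.1 e0).1
      have d := g1 (Z ^ 3) X Y (N e ^ 3) K 1 w _ (fun i => ω2 i e) X1 (XZ.trans Z3) (X1.trans XY)
        (YZ.trans Z3) (one_le_pow₀ n1) K1 le_rfl hw sub fun i hi =>
          ⟨w2 i (hω i (sub hi)) e, one_le_N (mem_trip.1 hi).2.2.2.1.ne_zero⟩
      simp only [sb_mul, div_div, mul_comm (N (pr _))]
      refine (mul_le_mul_of_nonneg_left d (by positivity)).trans ?_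
      rw [mul_left_comm, mul_assoc _ (2 * (X * Y + X ^ γ'))]
      exact mul_le_mul rv (sb_term X1 XY hγ h2 e1) (by positivity) (by positivity)
    · rw [← Finset.mul_sum]
      exact mul_le_mul_of_nonneg_left sF (by positivity)

end

end Vale.Agent.P319N.Ab
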