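import Vale.Agent.P319N.ACop
import Vale.Agent.P319N.ARev
import Vale.Agent.P319N.AStepB
import Vale.Agent.P319N.AStep
import Vale.Agent.P319N.ABase
import Vale.Agent.P319N.AFin1
import Vale.Agent.P319N.ADualB

namespace Vale.Agent.P319N.Ab

open Complex MeasureTheory Filter Topology
open scoped Classical ComplexConjugate Real
open Vale.Agent.P026 (W DualW)

noncomputable section

variable {O : Type} [CommMonoidWithZero O] [UniqueFactorizationMonoid O] [Ar O]

theorem ha_final {t : O → ℂ} (ht : CoefPkg t) : HA O (439 / 200) := by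
  have key : ∀ j : ℕ, HA O (max (439 / 200) (3 - (j : ℝ) / 2000)) := by
    intro j
    induction j with
    | zero =>
      have : max (439 / 200 : ℝ) (3 - ((0 : ℕ) : ℝ) / 2000) = 3 := by norm_num
      rw [this]; exact ha_base
    | succ j ih =>
      have hγ : (439 / 200 : ℝ) ≤ max (439 / 200) (3 - (j : ℝ) / 2000) := le_max_left _ _
      refine ha_of_hb (le_max_left _ _) (stepB ht hγ (le_max_left _ _) ?_
        (rev (by linarith) (ha6_of_ha (by linarith) ih)))
      rw [sub_le_iff_le_add, max_le_iff]
      constructor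
      · have := le_max_left (439 / 200 : ℝ) (3 - ((j + 1 : ℕ) : ℝ) / 2000)
        linarith
      · have := le_max_right (439 / 200 : ℝ) (3 - ((j + 1 : ℕ) : ℝ) / 2000)
        push_cast at this ⊢
        linarith
  have := key 2000
  rwa [max_eq_left (by norm_num)] at this

theorem mob_final {t : O → ℂ} (ht : CoefPkg t) :
    ∃ C : ℝ, ∀ X : ℝ, 1 ≤ X → ‖A (fun _ : O => (1 : ℂ)) X 0 1‖ ≤ C * X ^ (999 / 1000 : ℝ) :=
  fin1 (ha_final ht) wt_one

end

end Vale.Agent.P319N.Ab
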