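import Vale.Agent.P319N.CVm

namespace Vale.Agent.P319N

theorem coefPkg {K : Type} [Field K] [NumberField K] [Level K] :
    ∃ t : MM K → ℂ, Ab.CoefPkg t := by
  obtain ⟨C, -, hC⟩ := tM_bound (K := K)
  exact ⟨tM, tM_gauss, tM_cube, fun n p _ hp _ h => tM_sq n p hp h,
    ⟨C, fun X hX => hC X (by linarith)⟩, vorls_tM⟩

end Vale.Agent.P319N
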