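import Vale.Agent.P319N.Mon
import Vale.Agent.P319E.Conv
import Vale.Agent.P319E.Defs

namespace Vale.Agent.P319N

open NumberField Complex MeasureTheory Filter Topology
open scoped Classical ComplexConjugate Real
open Vale.Agent.P026 (omC kap psi W)

noncomputable section

variable {K : Type} [Field K] [NumberField K] [Level K]

/-- the ideal of `O_K` attached to an element of `R` -/
def idl (a : R K) : Ideal (𝓞 K) where
  carrier := {x | ∃ c : R K, (x : K) = c * a}
  zero_mem' := ⟨0, by simp⟩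
  add_mem' := by
    rintro x y ⟨c, hc⟩ ⟨d, hd⟩
    exact ⟨c + d, by simp [hc, hd, add_mul]⟩
  smul_mem' := by
    rintro r x ⟨c, hc⟩
    exact ⟨⟨r, mem_R_of_isI r.2⟩ * c, by simp [hc, mul_assoc]⟩


theorem idl_eq (a : R K) : idl a = (Ideal.span {a}).comap (Nrm_phi K) := by
  ext x
  rw [Ideal.mem_comap, Ideal.mem_span_singleton']
  exact exists_congr fun c => ⟨fun h => Subtype.ext h.symm, fun h => (congrArg Subtype.val h).symm⟩

theorem idl_unit (j : ℕ) : IsUnit (Nrm_phi K ((Setup.M K : 𝓞 K) ^ j)) := by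
  rw [map_pow, map_natCast]
  exact (Nrm_unit Setup.Mne dvd_rfl).pow j

theorem idl_den (y : R K) : ∃ (j : ℕ) (x : 𝓞 K),
    Nrm_phi K x = Nrm_phi K ((Setup.M K : 𝓞 K) ^ j) * y := by
  obtain ⟨j, hj⟩ := y.2
  exact ⟨j, ⟨_, hj⟩, Subtype.ext (by rw [map_pow, map_natCast]; rfl)⟩

theorem idl_map_comap (J : Ideal (R K)) : (J.comap (Nrm_phi K)).map (Nrm_phi K) = J := by
  refine le_antisymm Ideal.map_comap_le fun y hy => ?_
  obtain ⟨j, x, h⟩ := idl_den y
  rw [← Ideal.unit_mul_mem_iff_mem _ (idl_unit j), ← h]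
  exact Ideal.mem_map_of_mem _ (Ideal.mem_comap.2 (h ▸ J.mul_mem_left _ hy))

theorem idl_map (a : R K) : (idl a).map (Nrm_phi K) = Ideal.span {a} := by
  rw [idl_eq, idl_map_comap]

theorem idl_inj : Function.Injective (Nrm_phi K) := fun _ _ h =>
  RingOfIntegers.ext (congrArg (fun z : R K => (z : K)) h)

theorem idl_comap_map {I : Ideal (𝓞 K)}
    (h : IsCoprime I (Ideal.span {((Setup.M K : ℕ) : 𝓞 K)})) :
    (I.map (Nrm_phi K)).comap (Nrm_phi K) = I := by
  refine le_antisymm (fun x hx => ?_) Ideal.le_comap_map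
  have key : ∀ y ∈ I.map (Nrm_phi K), ∃ (j : ℕ) (z : 𝓞 K), z ∈ I ∧
      Nrm_phi K z = Nrm_phi K ((Setup.M K : 𝓞 K) ^ j) * y := by
    intro y hy
    induction hy using Submodule.span_induction with
    | mem y hy => obtain ⟨z, hz, rfl⟩ := hy; exact ⟨0, z, hz, by simp⟩
    | zero => exact ⟨0, 0, I.zero_mem, by simp⟩
    | add y y' _ _ h1 h2 =>
      obtain ⟨i, z, hz, e⟩ := h1
      obtain ⟨j, z', hz', e'⟩ := h2
      refine ⟨i + j, (Setup.M K : 𝓞 K) ^ j * z + (Setup.M K : 𝓞 K) ^ i * z',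
        I.add_mem (I.mul_mem_left _ hz) (I.mul_mem_left _ hz'), ?_⟩
      rw [map_add, map_mul, map_mul, e, e', pow_add, map_mul]; ring
    | smul c y _ h1 =>
      obtain ⟨i, z, hz, e⟩ := h1
      obtain ⟨j, c', e'⟩ := idl_den c
      refine ⟨i + j, c' * z, I.mul_mem_left _ hz, ?_⟩
      rw [map_mul, e, e', pow_add, map_mul, smul_eq_mul]; ring
  obtain ⟨j, z, hz, e⟩ := key _ (Ideal.mem_comap.1 hx)
  rw [← map_mul] at e
  obtain ⟨u, hu, v, hv, huv⟩ := Ideal.isCoprime_iff_exists.1 (h.pow_right (n := j))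
  rw [Ideal.span_singleton_pow, Ideal.mem_span_singleton'] at hv
  obtain ⟨c, rfl⟩ := hv
  have : x = u * x + c * z := by rw [idl_inj e]; linear_combination -x * huv
  rw [this]
  exact I.add_mem (I.mul_mem_right _ hu) (I.mul_mem_left _ hz)

theorem idl_zero : idl (0 : R K) = ⊥ := by
  rw [idl_eq, Ideal.span_singleton_zero]
  exact Ideal.comap_bot_of_injective _ idl_inj

theorem idl_one : idl (1 : R K) = 1 := by
  rw [idl_eq, Ideal.span_singleton_one, Ideal.comap_top, Ideal.one_eq_top]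

theorem idl_dvd {a b : R K} : idl a ∣ idl b ↔ a ∣ b := by
  rw [Ideal.dvd_iff_le, ← Ideal.span_singleton_le_span_singleton]
  exact ⟨fun h => by rw [← idl_map, ← idl_map]; exact Ideal.map_mono h,
    fun h => by rw [idl_eq, idl_eq]; exact Ideal.comap_mono h⟩

theorem idl_eq_iff {a b : R K} : idl a = idl b ↔ Associated a b := by

  rw [← Ideal.span_singleton_eq_span_singleton]
  exact ⟨fun h => by rw [← idl_map, h, idl_map], fun h => by rw [idl_eq, h, idl_eq]⟩

theorem idl_coprime {a : R K} (ha : a ≠ 0) :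
    IsCoprime (idl a) (Ideal.span {((Setup.M K : ℕ) : 𝓞 K)}) := by

  have h0 : (a : K) ≠ 0 := by simpa using ha
  obtain ⟨r, h1, h2⟩ := approx h0 (MK_ne (K := K)) 0 1
  rw [sub_zero] at h1
  have h3 : r ∈ R K := by
    have := (R K).mul_mem h1 a.2
    rwa [div_mul_cancel₀ _ h0] at this
  have h4 : (r - 1) / MK K ∈ R K := by
    simpa using div_MK_pow_mem_R ((R K).sub_mem h3 (R K).one_mem) 1
  have h5 : r ∈ A K := One.mem (j := 1) (by simpa [One] using h2)
  refine Ideal.isCoprime_iff_exists.2 ⟨⟨r, isI_of_mem h3 h5⟩, ⟨⟨_, h1⟩, (div_mul_cancel₀ _ h0).symm⟩,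
    -⟨_, isI_of_mem h4 h2⟩ * (Setup.M K : 𝓞 K), Ideal.mem_span_singleton'.2 ⟨_, rfl⟩,
    RingOfIntegers.ext ?_⟩
  show r + -((r - 1) / MK K) * MK K = 1
  rw [neg_mul, div_mul_cancel₀ _ MK_ne]; ring

theorem exists_idl {I : Ideal (𝓞 K)} (h : IsCoprime I (Ideal.span {((Setup.M K : ℕ) : 𝓞 K)})) :
    ∃ a : R K, a ≠ 0 ∧ idl a = I := by

  obtain ⟨a, ha⟩ := (IsPrincipalIdealRing.principal (I.map (Nrm_phi K))).1
  have e : idl a = I := by rw [idl_eq, ← idl_comap_map h, ha]
  refine ⟨a, fun h0 => ?_, e⟩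
  rw [← e, h0, idl_zero] at h
  obtain ⟨u, hu, v, hv, huv⟩ := Ideal.isCoprime_iff_exists.1 h
  obtain ⟨c, rfl⟩ := Ideal.mem_span_singleton'.1 hv
  rw [Ideal.mem_bot.1 hu, zero_add] at huv
  have e1 : (c : K) = ((1 : ℕ) : K) / (Setup.M K : ℕ) := by
    rw [eq_div_iff MK_ne]
    simpa using congrArg (algebraMap (𝓞 K) K) huv
  have := Nat.le_of_dvd one_pos (rng_dvd_of_isI (K := K) Setup.Mne 
    (by rw [← e1]; exact c.isIntegral_coe))
  linarith [rng_M_ge (K := K)]

theorem idl_mul (a b : R K) : idl (a * b) = idl a * idl b := by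

  by_cases ha : a = 0
  · rw [ha, zero_mul, idl_zero, Ideal.bot_mul]
  by_cases hb : b = 0
  · rw [hb, mul_zero, idl_zero, Ideal.mul_bot]
  rw [← idl_comap_map ((idl_coprime ha).mul_left (idl_coprime hb)), Ideal.map_mul, idl_map, idl_map,
    Ideal.span_singleton_mul_span_singleton, idl_eq]

theorem absNorm_idl (a : R K) : Ideal.absNorm (idl a) = Nm a := by

  by_cases ha : a = 0
  · rw [ha, idl_zero, Ideal.absNorm_bot, Nm_eq_zero.2 rfl]
  have hs : Function.Surjective ((Ideal.Quotient.mk (Ideal.span {a})).comp (Nrm_phi K)) :=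
    Prod.fst_surjective.comp (Nrm_surj ha (one_ne_zero (α := A K)))
  have hk : RingHom.ker ((Ideal.Quotient.mk (Ideal.span {a})).comp (Nrm_phi K)) = idl a := by
    rw [idl_eq, ← RingHom.comap_ker, Ideal.mk_ker]
  rw [Ideal.absNorm_apply, Submodule.cardQuot_apply, ← hk]
  exact Nat.card_congr (RingHom.quotientKerEquivOfSurjective hs).toEquiv


theorem idl_mu_prime {p : R K} (hp : Prime p) (a : R K) :
    mu (p * a) = if p ∣ a then 0 else -mu a := by
  split_ifs with h
  · exact if_neg fun c => hp.not_unit (c p (mul_dvd_mul_left p h))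
  · have h0 : a ≠ 0 := fun c => h (c ▸ dvd_zero p)
    by_cases k : Squarefree a
    · rw [mu, mu, if_pos k, if_pos (squarefree_mul_iff.2
        ⟨hp.irreducible.isRelPrime_iff_not_dvd.2 h, hp.squarefree, k⟩),
        Multiset.card_eq_card_of_rel (UniqueFactorizationMonoid.factors_mul hp.ne_zero h0),
        Multiset.card_add, UniqueFactorizationMonoid.card_factors_of_irreducible hp.irreducible,
        pow_add]
      ring
    · rw [mu, mu, if_neg k, if_neg fun c => k c.of_mul_right, neg_zero]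

theorem idl_prime {p : R K} (hp : Prime p) : Prime (idl p) := by
  have h0 : idl p ≠ ⊥ := fun h => hp.ne_zero ((idl_eq_iff.1 (h.trans idl_zero.symm)).eq_zero_iff.2 rfl)
  refine Ideal.prime_of_isPrime h0 ?_
  rw [idl_eq]
  have := (Ideal.span_singleton_prime hp.ne_zero).2 hp
  exact Ideal.comap_isPrime _ _

theorem mu_idl {a : R K} (ha : a ≠ 0) : ((P319E.mu (idl a) : ℝ) : ℂ) = mu a := by

  induction a using UniqueFactorizationMonoid.induction_on_prime with
  | h₁ => exact absurd rfl ha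
  | h₂ a h =>
    rw [idl_eq_iff.2 (associated_one_iff_isUnit.2 h), idl_one, P319E.conv_mu_one, mu,
      if_pos h.squarefree, UniqueFactorizationMonoid.factors_of_isUnit h]
    simp
  | h₃ a p h0 hp ih =>
    rw [idl_mul, P319E.conv_mu_prime (idl_prime hp), idl_mu_prime hp, ← ih h0]
    simp only [idl_dvd]
    split_ifs <;> simp

/-- sums over primary elements are sums over the ideals prime to `M` -/
theorem tsum_prim (F : Ideal (𝓞 K) → ℂ) :
    ∑' n : MM K, (if n ≠ 0 ∧ clsK (lft n : K) ∈ OmG K then F (idl (lft n)) else 0) =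
      ∑' I : Ideal (𝓞 K),
        if IsCoprime I (Ideal.span {((Setup.M K : ℕ) : 𝓞 K)}) then F I else 0 := by

  set S : Set (MM K) := {n | n ≠ 0 ∧ clsK (lft n : K) ∈ OmG K} with hS
  have inj : Function.Injective fun n : S => idl (lft n.1) := by
    rintro ⟨n, hn⟩ ⟨m, hm⟩ h
    obtain ⟨v, hv⟩ := idl_eq_iff.1 h
    have n0 : ((lft n : R K) : K) ≠ 0 := by simpa using _root_.mt lft_eq_zero.1 hn.1
    have e : clsK (lft m : K) = clsK (lft n : K) * clsK ((v : R K) : K) := by
      rw [← hv, Subring.coe_mul, clsK_mul n0 (unit_ne v)]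
    have u1 : mkM (v : R K) = 1 := prim_unit_MM (isUnit_mkM.2 v.isUnit) (by
      rw [clsK_lft]
      exact ((OmG K).mul_mem_cancel_left hn.2).1 (e ▸ hm.2))
    refine Subtype.ext ?_
    show n = m
    rw [← mkM_lft m, ← hv, map_mul, u1, mul_one, mkM_lft]
  have h1 := tsum_subtype S fun n => F (idl (lft n))
  simp only [Set.indicator_apply, hS, Set.mem_setOf_eq] at h1
  rw [← inj.tsum_eq (f := fun I =>
    if IsCoprime I (Ideal.span {((Setup.M K : ℕ) : 𝓞 K)}) then F I else 0) fun I hI => ?_]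
  · exact h1.symm.trans (tsum_congr fun n => (if_pos (idl_coprime (_root_.mt lft_eq_zero.1 n.2.1))).symm)
  · obtain ⟨a, ha, rfl⟩ := exists_idl (I := I) (by by_contra h; exact hI (if_neg h))
    obtain ⟨u, hu, hc⟩ := prim_ex_MM (_root_.mt mkM_eq_zero.1 ha)
    obtain ⟨v, rfl⟩ := mkM_surj u
    refine ⟨⟨mkM v * mkM a, mul_ne_zero (_root_.mt mkM_eq_zero.1 (isUnit_mkM.1 hu).ne_zero)
      (_root_.mt mkM_eq_zero.1 ha), hc⟩, idl_eq_iff.2 ?_⟩
    show Associated (lft (mkM v * mkM a)) a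
    rw [← map_mul]
    exact (mon_assoc _).trans (associated_unit_mul_left _ _ (isUnit_mkM.1 hu))

end

end Vale.Agent.P319N
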