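import Vale.Agent.P319N.Gau

namespace Vale.Agent.P319N

open NumberField Complex MeasureTheory Filter Topology
open scoped Classical ComplexConjugate Real
open Vale.Agent.P026 (omC kap psi W)

noncomputable section

variable {K : Type} [Field K] [NumberField K] [Setup K]

theorem quadb_per2 {n : R K} (hn : n ≠ 0) (t : R K) :
    Per n (fun x => psiS ((t : K) * x ^ 2 / n)) := by
  intro x y h
  have := rs_per_psi hn t (x ^ 2) (y ^ 2) (h.trans (sub_dvd_pow_sub_pow x y 2))
  simpa using this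

theorem quadb_two : ((2 : R K) : K) = 2 := rfl

theorem Gq_unit {u : R K} (hu : IsUnit u) (t : R K) : Gq t u = 1 := by
  unfold Gq
  have : ∀ x ∈ rs u, psiS ((t : K) * x ^ 2 / u) = 1 := fun x _ => by
    have := (psiS_div_eq_one_iff hu.ne_zero t).2 hu.dvd (x ^ 2)
    simpa using this
  rw [Finset.sum_congr rfl this, Finset.sum_const, card_rs hu.ne_zero, Nm_eq_one.2 hu, one_smul]

theorem Gq_crt {a b : R K} (ha : a ≠ 0) (hb : b ≠ 0) (h : IsCoprime a b) (t : R K) :
    Gq t (a * b) = Gq (t * b) a * Gq (t * a) b := by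
  unfold Gq
  rw [sum_rs_crt ha hb h (quadb_per2 (mul_ne_zero ha hb) t), Finset.sum_mul_sum]
  refine Finset.sum_congr rfl fun x _ => Finset.sum_congr rfl fun y _ => ?_
  have a0 := coeR_ne ha
  have b0 := coeR_ne hb
  rw [← mul_one (psiS _ * psiS _), ← psiS_R (2 * t * x * y : R K).2, ← psiS_add, ← psiS_add]
  congr 1
  simp only [Subring.coe_mul, Subring.coe_add, quadb_two]
  field_simp
  ring

theorem quadb_count {p : R K} (hp : Prime p) (y : R K) (z : ℂ) :
    ∑ x ∈ rs p, (if p ∣ x ^ 2 - y then z else 0) = (1 + sym2 y p) * z := by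
  have p0 := hp.ne_zero
  by_cases hy : p ∣ y
  · have : sym2 y p = 0 := (sym2_eq_zero_iff p0).2 fun h =>
      hp.not_isUnit (h.isUnit_of_dvd' hy dvd_rfl)
    rw [this, add_zero, one_mul]
    refine Eq.trans (Finset.sum_congr rfl fun x _ => ?_) (sum_class p0 0 z)
    refine if_congr ?_ rfl rfl
    rw [zero_sub, dvd_neg, dvd_sub_left hy]
    exact ⟨hp.dvd_of_dvd_pow, fun h => h.trans (dvd_pow_self x two_ne_zero)⟩
  · by_cases h1 : sym2 y p = 1
    · obtain ⟨w, hw⟩ := (sym2_eq_one_iff hp hy).1 h1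
      rw [h1, add_mul, one_mul]
      conv_rhs => rw [← sum_class p0 w z]
      conv_rhs => enter [2]; rw [sum_class p0 w z, ← sum_class p0 (-w) z]
      rw [← Finset.sum_add_distrib]
      refine Finset.sum_congr rfl fun x _ => ?_
      have e : p ∣ x ^ 2 - y ↔ p ∣ w - x ∨ p ∣ -w - x := by
        rw [← hp.dvd_mul]
        have : (w - x) * (-w - x) = (x ^ 2 - y) + (y - w ^ 2) := by ring
        rw [this, dvd_add_left hw]
      have nb : ¬ (p ∣ w - x ∧ p ∣ -w - x) := fun h => by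
        have h2 : p ∣ 2 * w := by
          have := dvd_sub h.1 h.2
          rwa [show w - x - (-w - x) = 2 * w by ring] at this
        rcases hp.dvd_mul.1 h2 with h3 | h3
        · exact sym_not_dvd_two hp h3
        · exact hy ((dvd_sub_left (h3.trans (dvd_pow_self w two_ne_zero))).1 hw)
      rw [if_congr e rfl rfl]
      by_cases a : p ∣ w - x <;> by_cases b : p ∣ -w - x
      · exact absurd ⟨a, b⟩ nb
      · rw [if_pos (Or.inl a), if_pos a, if_neg b, add_zero]
      · rw [if_pos (Or.inr b), if_neg a, if_pos b, zero_add]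
      · rw [if_neg (fun h => h.elim a b), if_neg a, if_neg b, add_zero]
    · have h2 : sym2 y p = -1 := by
        rcases sym2_cases y p with h | h | h
        · exact absurd (hp.coprime_iff_not_dvd.2 hy).symm ((sym2_eq_zero_iff p0).1 h)
        · exact absurd h h1
        · exact h
      rw [h2, add_neg_cancel, zero_mul]
      refine Finset.sum_eq_zero fun x _ => if_neg fun h => h1 ?_
      exact (sym2_eq_one_iff hp hy).2 ⟨x, dvd_sub_comm.1 h⟩

theorem quadb_prime {p t : R K} (hp : Prime p) (ht : ¬ p ∣ t) :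
    Gq t p = sym2 t p * g2 1 p := by
  have p0 := hp.ne_zero
  have hc : IsCoprime t p := (hp.coprime_iff_not_dvd.2 ht).symm
  have e1 : Gq t p = ∑ x ∈ rs p, ∑ y ∈ rs p,
      (if p ∣ x ^ 2 - y then psiS ((t : K) * y / p) else 0) := by
    refine Finset.sum_congr rfl fun x _ => ?_
    rw [← sum_class p0 (x ^ 2) (psiS _)]
    refine Finset.sum_congr rfl fun y _ => ?_
    split_ifs with h
    · have := rs_per_psi p0 t _ _ h
      simpa using this
    · rfl
  rw [e1, Finset.sum_comm]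
  simp_rw [quadb_count hp, add_mul, one_mul]
  rw [Finset.sum_add_distrib, sum_psi p0, if_neg ht, zero_add]
  have hper : Per p (fun x => sym2 x p * psiS (((1 : R K) : K) * x / p)) :=
    gau_per p0 (fun _ _ h => sym2_congr h) 1
  unfold g2
  rw [← sum_rs_mul p0 hc hper, Finset.mul_sum]
  refine Finset.sum_congr rfl fun x _ => ?_
  rw [sym2_mul_left, ← mul_assoc, ← mul_assoc, ← sq, sym2_sq hc, one_mul, Subring.coe_one, one_mul,
    Subring.coe_mul]

theorem quadb_sq {p t m : R K} (hp : Prime p) (ht : ¬ p ∣ t) (hm : m ≠ 0) :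
    Gq t (p * (m * p)) = ((N p : ℝ) : ℂ) * Gq t m := by
  have p0 := hp.ne_zero
  have p1 := coeR_ne p0
  have m1 := coeR_ne hm
  have mp := mul_ne_zero hm p0
  rw [← sum_class p0 0 (((N p : ℝ) : ℂ) * Gq t m), Gq,
    sum_rs_split p0 mp (quadb_per2 (mul_ne_zero p0 mp) t)]
  refine Finset.sum_congr rfl fun x _ => ?_
  have hper : Per (m * p) (fun j => psiS ((t : K) * ((x + p * j : R K) : K) ^ 2 /
      ((p * (m * p) : R K) : K))) :=
    fun a b h => quadb_per2 (mul_ne_zero p0 mp) t _ _ (by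
      rw [show x + p * a - (x + p * b) = p * (a - b) by ring]
      exact mul_dvd_mul_left p h)
  rw [sum_rs_split hm p0 hper]
  have e : ∀ j k : R K, psiS ((t : K) * ((x + p * (j + m * k) : R K) : K) ^ 2 /
      ((p * (m * p) : R K) : K)) =
      psiS ((t : K) * ((x + p * j : R K) : K) ^ 2 / ((p * (m * p) : R K) : K)) *
        psiS (((2 * t * x : R K) : K) * k / p) := fun j k => by
    rw [← mul_one (psiS _ * psiS _), ← psiS_R (2 * t * j * k + t * m * k ^ 2 : R K).2,
      ← psiS_add, ← psiS_add]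
    congr 1
    simp only [Subring.coe_mul, Subring.coe_add, Subring.coe_pow, quadb_two]
    field_simp
    ring
  simp_rw [e, ← Finset.mul_sum, sum_psi p0]
  have e2 : p ∣ 2 * t * x ↔ p ∣ 0 - x := by
    rw [zero_sub, dvd_neg, hp.dvd_mul, hp.dvd_mul]
    refine ⟨fun h => ?_, Or.inr⟩
    rcases h with (h | h) | h
    · exact absurd h (sym_not_dvd_two hp)
    · exact absurd h ht
    · exact h
  simp only [e2]
  split_ifs with h
  · rw [zero_sub, dvd_neg] at h
    obtain ⟨y, rfl⟩ := h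
    rw [← Finset.sum_mul, mul_comm, Gq, ← sum_rs_add hm (quadb_per2 hm t) y]
    congr 1
    refine Finset.sum_congr rfl fun j _ => ?_
    congr 1
    simp only [Subring.coe_mul, Subring.coe_add]
    field_simp
    ring
  · simp

theorem quadb_lt {p n : R K} (hp : Prime p) (hn : n ≠ 0) : Nm n < Nm (p * n) := by
  rw [Nm_mul]
  have h0 := four_le_Nm hp
  have h2 : 0 < Nm n := Nat.pos_of_ne_zero fun h => hn (Nm_eq_zero.1 h)
  exact lt_mul_of_one_lt_left h2 (by omega)

theorem Gq_twist {t n : R K} (hn : n ≠ 0) (h : IsCoprime t n) : Gq t n = sym2 t n * Gq 1 n := by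
  induction hk : Nm n using Nat.strong_induction_on generalizing n t with
  | _ k ih =>
  by_cases hu : IsUnit n
  · rw [Gq_unit hu, Gq_unit hu, sym2_unit_right _ hu, one_mul]
  obtain ⟨p, hp, n', rfl⟩ := WfDvdMonoid.exists_irreducible_factor hu hn
  have hp' : Prime p := hp.prime
  have o1 := hp'.ne_zero
  have o2 : n' ≠ 0 := right_ne_zero_of_mul hn
  obtain ⟨c1, c2⟩ := IsCoprime.mul_right_iff.1 h
  have nt : ¬ p ∣ t := hp'.coprime_iff_not_dvd.1 c1.symm
  have n1 : ¬ p ∣ 1 := hp'.not_dvd_one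
  by_cases hd : p ∣ n'
  · obtain ⟨m, rfl⟩ := hd
    have o3 : m ≠ 0 := right_ne_zero_of_mul o2
    obtain ⟨-, c3⟩ := IsCoprime.mul_right_iff.1 c2
    have := ih (Nm m) (hk ▸ (quadb_lt hp' o3).trans (quadb_lt hp' o2)) o3 c3 rfl
    rw [sym2_mul_right _ o1 o2, sym2_mul_right _ o1 o3,
      ← mul_assoc (sym2 t p), ← sq, sym2_sq c1, one_mul, mul_comm p m,
      quadb_sq hp' nt o3, quadb_sq hp' n1 o3, this]
    ring
  · have hc : IsCoprime p n' := hp'.coprime_iff_not_dvd.2 hd
    have lt : Nm n' < k := hk ▸ quadb_lt hp' o2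
    rw [Gq_crt o1 o2 hc, Gq_crt o1 o2 hc, one_mul, one_mul,
      quadb_prime hp' hd, quadb_prime hp' (fun h => (hp'.dvd_mul.1 h).elim nt hd),
      ih _ lt o2 hc rfl, ih _ lt o2 (c2.mul_left hc) rfl, sym2_mul_left,
      sym2_mul_left, sym2_mul_right _ o1 o2]
    ring

theorem quadb_norm {n : R K} (n0 : n ≠ 0) : Gq 1 n * conj (Gq 1 n) = ((N n : ℝ) : ℂ) := by
  have n1 := coeR_ne n0
  unfold Gq
  rw [map_sum, Finset.mul_sum]
  have e : ∀ y : R K, (∑ x ∈ rs n, psiS (((1 : R K) : K) * x ^ 2 / n)) *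
      conj (psiS (((1 : R K) : K) * y ^ 2 / n)) = ∑ x ∈ rs n, psiS (((1 : R K) : K) * x ^ 2 / n) *
        psiS (((2 * x : R K) : K) * y / n) := fun y => by
    rw [← sum_rs_add n0 (quadb_per2 n0 1) y, Finset.sum_mul]
    refine Finset.sum_congr rfl fun x _ => ?_
    rw [← psiS_neg, ← psiS_add, ← psiS_add]
    congr 1
    simp only [Subring.coe_mul, Subring.coe_add, Subring.coe_one, quadb_two]
    field_simp
    ring
  simp_rw [e]
  rw [Finset.sum_comm]
  simp_rw [← Finset.mul_sum, sum_psi n0]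
  refine Eq.trans (Finset.sum_congr rfl fun x _ => ?_) (sum_class n0 0 _)
  have h2 : IsUnit (2 : R K) := isUnit_of_dvd_unit ⟨3, by norm_num⟩ isUnit_six
  have e2 : n ∣ 2 * x ↔ n ∣ 0 - x := by
    rw [zero_sub, dvd_neg, h2.dvd_mul_left]
  simp only [e2]
  split_ifs with h
  · have : psiS (((1 : R K) : K) * x ^ 2 / n) = psiS (((1 : R K) : K) * ((0 : R K) : K) ^ 2 / n) :=
      quadb_per2 n0 1 x 0 (dvd_sub_comm.1 h)
    rw [this, Subring.coe_zero, zero_pow two_ne_zero, mul_zero, zero_div, psiS_zero, one_mul]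
  · rw [mul_zero]

theorem norm_F1 {n : R K} (hn : n ≠ 0) : ‖F1 n‖ = 1 := by
  have h := quadb_norm hn
  rw [Complex.mul_conj'] at h
  have h2 : ‖Gq 1 n‖ ^ 2 = N n := by exact_mod_cast h
  have h4 := N_pos hn
  rw [F1, norm_div, Complex.norm_real, Real.norm_of_nonneg (Real.sqrt_nonneg _), ← h2,
    Real.sqrt_sq (norm_nonneg _), div_self]
  intro h0
  rw [h0] at h2
  linarith

theorem F1_mul_sq {n x : R K} (hn : n ≠ 0) (hx : x ≠ 0) : F1 (n * x ^ 2) = F1 n := by
  induction x using UniqueFactorizationMonoid.induction_on_prime with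
  | h₁ => exact absurd rfl hx
  | h₂ u hu =>
    have hu2 : IsUnit (u ^ 2) := hu.pow 2
    have hc := gau_unit_coprime hu2 n
    rw [F1, F1, Gq_crt hn hu2.ne_zero hc.symm, Gq_unit hu2, one_mul, Gq_twist hn hc,
      sym2_pow_left, sym2_sq (gau_unit_coprime hu n), N_mul, gau_N_unit hu2]
    simp
  | h₃ a p ha hp ih =>
    have hm : n * a ^ 2 ≠ 0 := mul_ne_zero hn (pow_ne_zero _ ha)
    rw [← ih ha, show n * (p * a) ^ 2 = p * (n * a ^ 2 * p) by ring, F1, F1,
      quadb_sq hp hp.not_dvd_one hm, sqrtN_mul, sqrtN_mul (n * a ^ 2), ← sqrtN_sq p]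
    have := sqrtN_ne hp.ne_zero
    have := sqrtN_ne hm
    field_simp

theorem F1_one : F1 (1 : R K) = 1 := by
  rw [F1, Gq_unit isUnit_one, gau_N_unit isUnit_one]
  simp

theorem F1_mul {a b : R K} (ha : a ≠ 0) (hb : b ≠ 0) (h : IsCoprime a b) :
    F1 (a * b) = F1 a * F1 b * sym2 a b * sym2 b a := by
  rw [F1, F1, F1, Gq_crt ha hb h, one_mul, one_mul, Gq_twist ha h.symm, Gq_twist hb h, sqrtN_mul]
  ring

theorem g2_eq {n : R K} (hs : Squarefree n) : g2 1 n = Gq 1 n := by
  refine gau_sqf_ind (P := fun n => g2 1 n = Gq 1 n) (fun u hu => ?_)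
    (fun p a hp ha _ hc ih => ?_) hs
  · rw [Gq_unit hu, ← gs_three hu.ne_zero, gau_gs_unit hu]
  · have hd : ¬ p ∣ a := hp.coprime_iff_not_dvd.1 hc
    rw [← gs_three (mul_ne_zero hp.ne_zero ha), gau_gs_mul hp.ne_zero ha hc, gs_three ha,
      gs_three hp.ne_zero, chi6_cube _ ha, chi6_cube _ hp.ne_zero, Gq_crt hp.ne_zero ha hc,
      one_mul, one_mul, quadb_prime hp hd, Gq_twist ha hc, ih]
    ring

theorem gt_three {n : R K} (hs : Squarefree n) : gt 3 n = F1 n := by
  rw [gt, F1, gs_three hs.ne_zero, g2_eq hs]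

end

end Vale.Agent.P319N
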