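import Vale.Agent.P319N.LP3
import Vale.Agent.P319N.QuadB

namespace Vale.Agent.P319N

open NumberField Complex MeasureTheory Filter Topology
open scoped Classical ComplexConjugate Real
open Vale.Agent.P026 (omC kap psi W kap_pos norm_psi norm_psi_sub_le continuous_psi)

noncomputable section

variable {K : Type} [Field K] [NumberField K] [Setup K]

/-- real Gaussian -/
def quadaG (t : Emb K → ℝ) (m : K) : ℝ := Real.exp (-(kap * ∑ σ : Emb K, t σ * normSq (σ.1 m)))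

theorem quada_Ga (t : Emb K → ℝ) (m : K) :
    Ga (fun σ => (t σ : ℂ)) m = ((quadaG t m : ℝ) : ℂ) := by
  unfold Ga quadaG
  push_cast
  rfl

theorem quada_pos (t : Emb K → ℝ) (m : K) : 0 < quadaG t m := Real.exp_pos _

theorem quada_prod (t : Emb K → ℝ) (z : Emb K → ℂ) :
    ∏ σ : Emb K, Real.exp (-(kap * t σ * normSq (z σ))) =
      Real.exp (-(kap * ∑ σ : Emb K, t σ * normSq (z σ))) := by
  rw [← Real.exp_sum, Finset.mul_sum, ← Finset.sum_neg_distrib]
  congr 1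
  exact Finset.sum_congr rfl fun σ _ => by ring

theorem quada_summ {y x : K} (hy : y ≠ 0) (hx : x ≠ 0) {t : Emb K → ℝ} (ht : ∀ σ, 0 < t σ) :
    Summable fun m : K => if m ∈ LL2 y x then quadaG t m else 0 := by
  have := summable_Ga hy hx (t := fun σ => (t σ : ℂ)) (fun σ => by simpa using ht σ) 0
  refine this.congr fun m => ?_
  rw [add_zero, quada_Ga, Complex.norm_real, Real.norm_of_nonneg (quada_pos _ _).le]

theorem quada_summ' {y x : K} (hy : y ≠ 0) (hx : x ≠ 0) {t : Emb K → ℝ} (ht : ∀ σ, 0 < t σ)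
    {a : K → ℂ} (ha : ∀ m, ‖a m‖ ≤ 1) :
    Summable fun m : K => if m ∈ LL2 y x then a m * Ga (fun σ => (t σ : ℂ)) m else 0 := by
  refine Summable.of_norm_bounded (quada_summ hy hx ht) fun m => ?_
  split_ifs
  · rw [norm_mul, quada_Ga, Complex.norm_real, Real.norm_of_nonneg (quada_pos _ _).le]
    exact mul_le_of_le_one_left (Real.exp_pos _).le (ha m)
  · simp

theorem lsp {y x : K} (hy : y ≠ 0) (hx : x ≠ 0) (β : K) {ε : ℝ} (hε : 0 < ε) :
    ∑' m : K, (if m ∈ LL2 y x then psiK (β * m ^ 2) * Ga (fun _ => (ε : ℂ)) m else 0) =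
      ((CL y x * ∏ σ : Emb K, (√(ε ^ 2 + 4 * normSq (σ.1 β)))⁻¹ : ℝ) : ℂ) *
        ∑' h : K, if h ∈ LL2 y⁻¹ (del K / x) then
          psiV (fun σ : Emb K => -(conj (σ.1 β) * σ.1 h ^ 2 /
            ((ε ^ 2 + 4 * normSq (σ.1 β) : ℝ) : ℂ))) *
          Ga (fun σ => ((ε / (ε ^ 2 + 4 * normSq (σ.1 β)) : ℝ) : ℂ)) h else 0 := by
  have k0 := kap_pos
  have hd : del K / x ≠ 0 := div_ne_zero del_spec.1 hx
  have D0 : ∀ σ : Emb K, 0 < ε ^ 2 + 4 * normSq (σ.1 β) := fun σ => by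
    have := normSq_nonneg (σ.1 β)
    positivity
  set F : (Emb K → ℂ) → ℂ := fun z => ∏ σ : Emb K, (psi (σ.1 β * z σ ^ 2) *
    ((Real.exp (-(kap * ε * normSq (z σ))) : ℝ) : ℂ)) with hF
  have e1 : ∀ m : K, F (jj m) = psiK (β * m ^ 2) * Ga (fun _ => (ε : ℂ)) m := fun m => by
    rw [hF, psiK_eq, quada_Ga (fun _ => ε)]
    simp only
    rw [Finset.prod_mul_distrib, ← Complex.ofReal_prod, quada_prod (fun _ => ε)]
    simp only [psiV, jj, map_mul, map_pow, quadaG]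
  have e2 : ∀ h : K, FT F (jj h) = (((√3 / 2) ^ rk K *
      ∏ σ : Emb K, (√(ε ^ 2 + 4 * normSq (σ.1 β)))⁻¹ : ℝ) : ℂ) *
      (psiV (fun σ : Emb K => -(conj (σ.1 β) * σ.1 h ^ 2 /
            ((ε ^ 2 + 4 * normSq (σ.1 β) : ℝ) : ℂ))) *
          Ga (fun σ => ((ε / (ε ^ 2 + 4 * normSq (σ.1 β)) : ℝ) : ℂ)) h) := fun h => by
    rw [hF, FT_prod (fun σ z => psi (σ.1 β * z ^ 2) *
      ((Real.exp (-(kap * ε * normSq z)) : ℝ) : ℂ))]
    simp only [ft_quad _ hε]
    rw [Finset.prod_mul_distrib, Finset.prod_mul_distrib, ← Complex.ofReal_prod,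
      ← Complex.ofReal_prod, quada_prod, Finset.prod_mul_distrib, Finset.prod_const,
      Finset.card_univ, quada_Ga, mul_assoc]
    rfl
  have hc : Continuous F := by
    have := continuous_psi
    have := Complex.continuous_normSq
    rw [hF]
    fun_prop
  have hb : ∀ z, ‖F z‖ ≤ 1 * Real.exp (-(kap * ε) * ∑ σ, normSq (z σ)) := fun z => by
    rw [hF]
    simp only
    rw [norm_prod]
    simp only [norm_mul, norm_psi, one_mul, Complex.norm_real, Real.norm_eq_abs, Real.abs_exp]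
    rw [quada_prod (fun _ => ε), ← Finset.mul_sum]
    exact le_of_eq (by congr 1; ring)
  have hs : Summable fun h : K => if h ∈ LL2 y⁻¹ (del K / x) then FT F (jj h) else 0 := by
    have := (quada_summ' (inv_ne_zero hy) hd (t := fun σ => ε / (ε ^ 2 + 4 * normSq (σ.1 β)))
      (fun σ => div_pos hε (D0 σ)) (a := fun h => psiV (fun σ : Emb K =>
        -(conj (σ.1 β) * σ.1 h ^ 2 / ((ε ^ 2 + 4 * normSq (σ.1 β) : ℝ) : ℂ))))
      (fun h => (norm_psiV _).le)).mul_left (((√3 / 2) ^ rk K *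
      ∏ σ : Emb K, (√(ε ^ 2 + 4 * normSq (σ.1 β)))⁻¹ : ℝ) : ℂ)
    refine this.congr fun h => ?_
    rw [e2]
    split_ifs <;> simp
  have key := pois_LL2 hy hx hc (mul_pos k0 hε) hb hs
  simp only [e1, e2] at key
  rw [key, ← tsum_mul_left, ← tsum_mul_left]
  refine tsum_congr fun h => ?_
  split_ifs
  · rw [← mul_assoc, ← Complex.ofReal_mul]
    congr 2
    have h3 : (0 : ℝ) < √3 := by positivity
    have : (2 / √3 : ℝ) ^ rk K * (√3 / 2) ^ rk K = 1 := by
      rw [← mul_pow, show (2 / √3 : ℝ) * (√3 / 2) = 1 by field_simp, one_pow]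
    linear_combination (CL y x * ∏ σ : Emb K, (√(ε ^ 2 + 4 * normSq (σ.1 β)))⁻¹) * this
  · simp

theorem quada_err {y x : K} (hy : y ≠ 0) (hx : x ≠ 0) {l : Filter ℝ} {t : ℝ → Emb K → ℝ}
    (ht : ∀ ε σ, 0 < t ε σ) (h0 : ∀ σ, Tendsto (fun ε => t ε σ) l (𝓝 0)) {a b : ℝ → K → ℂ}
    (ha : ∀ ε m, ‖a ε m‖ ≤ 1) (hb : ∀ ε m, ‖b ε m‖ ≤ 1) {δ : ℝ → ℝ} (hδ : ∀ ε, 0 ≤ δ ε)
    (hδ0 : Tendsto δ l (𝓝 0))
    (hab : ∀ ε m, ‖a ε m - b ε m‖ ≤ δ ε * ∑ σ : Emb K, t ε σ * normSq (σ.1 m)) :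
    Tendsto (fun ε => ((∏ σ, t ε σ : ℝ) : ℂ) *
      (∑' m : K, if m ∈ LL2 y x then a ε m * Ga (fun σ => (t ε σ : ℂ)) m else 0) -
      ((∏ σ, t ε σ : ℝ) : ℂ) *
      (∑' m : K, if m ∈ LL2 y x then b ε m * Ga (fun σ => (t ε σ : ℂ)) m else 0)) l (𝓝 0) := by
  obtain ⟨T, hT⟩ := exists_repsL hy hx hy hx
  have k0 := kap_pos
  have h1 := tendsto_per hy hx hy hx le_rfl hT (f := fun _ => 1) (fun _ _ _ _ => rfl) (l := l)
    (t := fun ε σ => t ε σ / 2) (fun ε σ => half_pos (ht ε σ))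
    (fun σ => by simpa using (h0 σ).div_const 2)
  have h2 := ((hδ0.mul_const (2 / kap * 2 ^ rk K)).mul h1.norm)
  rw [zero_mul, zero_mul] at h2
  refine squeeze_zero_norm (fun ε => ?_) h2
  have hp : 0 < ∏ σ, t ε σ := Finset.prod_pos fun σ _ => ht ε σ
  have s2 := quada_summ hy hx (t := fun σ => t ε σ / 2) (fun σ => half_pos (ht ε σ))
  have e1 : (∑' m : K, if m ∈ LL2 y x then
      (1 : ℂ) * Ga (fun σ => ((t ε σ / 2 : ℝ) : ℂ)) m else 0) =
      ((∑' m : K, if m ∈ LL2 y x then quadaG (fun σ => t ε σ / 2) m else 0 : ℝ) : ℂ) := by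
    rw [Complex.ofReal_tsum]
    refine tsum_congr fun m => ?_
    split_ifs
    · rw [one_mul, quada_Ga]
    · simp
  have n2 : 0 ≤ ∑' m : K, if m ∈ LL2 y x then quadaG (fun σ => t ε σ / 2) m else 0 :=
    tsum_nonneg fun m => by
      split_ifs
      · exact (Real.exp_pos _).le
      · exact le_rfl
  have e2 : ∏ σ : Emb K, t ε σ / 2 = (∏ σ, t ε σ) / 2 ^ rk K := by
    rw [Finset.prod_div_distrib, Finset.prod_const, Finset.card_univ, rk]
  rw [e1, e2, ← Complex.ofReal_mul, Complex.norm_real, Real.norm_of_nonneg (by positivity),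
    ← mul_sub, ← (quada_summ' hy hx (ht ε) (ha ε)).tsum_sub (quada_summ' hy hx (ht ε) (hb ε)),
    norm_mul, Complex.norm_real, Real.norm_of_nonneg hp.le]
  have bd := tsum_of_norm_bounded (f := fun m : K =>
      (if m ∈ LL2 y x then a ε m * Ga (fun σ => (t ε σ : ℂ)) m else 0) -
      (if m ∈ LL2 y x then b ε m * Ga (fun σ => (t ε σ : ℂ)) m else 0))
    (s2.mul_left (δ ε * (2 / kap))).hasSum (fun m => by
      split_ifs
      · rw [← sub_mul, norm_mul, quada_Ga, Complex.norm_real,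
          Real.norm_of_nonneg (quada_pos _ _).le]
        refine (mul_le_mul_of_nonneg_right (hab ε m) (Real.exp_pos _).le).trans ?_
        rw [mul_assoc, mul_assoc]
        refine mul_le_mul_of_nonneg_left ?_ (hδ ε)
        unfold quadaG
        have e3 : ∑ σ : Emb K, t ε σ / 2 * normSq (σ.1 m) =
            (∑ σ : Emb K, t ε σ * normSq (σ.1 m)) / 2 := by
          rw [Finset.sum_div]
          exact Finset.sum_congr rfl fun σ _ => by ring
        rw [e3]
        generalize ∑ σ : Emb K, t ε σ * normSq (σ.1 m) = u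
        have h3 := Real.add_one_le_exp (kap * (u / 2))
        have h4 : Real.exp (-(kap * (u / 2))) =
            Real.exp (kap * (u / 2)) * Real.exp (-(kap * u)) := by
          rw [← Real.exp_add]; congr 1; ring
        rw [h4, ← mul_assoc]
        refine mul_le_mul_of_nonneg_right ?_ (Real.exp_pos _).le
        rw [div_mul_eq_mul_div, le_div_iff₀ k0]
        linarith
      · simp)
  rw [tsum_mul_left] at bd
  refine (mul_le_mul_of_nonneg_left bd hp.le).trans (le_of_eq ?_)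
  field_simp

theorem quada_psiV_sub (z w : Emb K → ℂ) :
    ‖psiV z - psiV w‖ ≤ ∑ σ, 2 * kap * ‖z σ - w σ‖ := by
  unfold psiV
  induction (Finset.univ : Finset (Emb K)) using Finset.induction_on with
  | empty => simp
  | insert σ s hs ih =>
    rw [Finset.prod_insert hs, Finset.prod_insert hs, Finset.sum_insert hs]
    have e : psi (z σ) * ∏ τ ∈ s, psi (z τ) - psi (w σ) * ∏ τ ∈ s, psi (w τ) =
        (psi (z σ) - psi (w σ)) * ∏ τ ∈ s, psi (z τ) +
          psi (w σ) * (∏ τ ∈ s, psi (z τ) - ∏ τ ∈ s, psi (w τ)) := by ring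
    rw [e]
    refine (norm_add_le _ _).trans (add_le_add ?_ ?_)
    · rw [norm_mul, norm_prod]
      simp only [norm_psi, Finset.prod_const_one, mul_one]
      exact norm_psi_sub_le _ _
    · rw [norm_mul, norm_psi, one_mul]
      exact ih

theorem quada_two_mem : (2 : K)⁻¹ ∈ R K := by
  have := inv_nat_mem_R (K := K) (n := 2) (j := 1)
    (by rw [pow_one]; exact Dvd.dvd.trans ⟨3, rfl⟩ Setup.six)
  simpa using this

theorem quada_phase {β : ℂ} (hβ : 0 < normSq β) {ε : ℝ} (hε : 0 < ε) (h : ℂ) :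
    ‖-(conj β * h ^ 2 / ((ε ^ 2 + 4 * normSq β : ℝ) : ℂ)) -
      -(conj β * h ^ 2 / ((4 * normSq β : ℝ) : ℂ))‖ =
      ε * (‖β‖ / (4 * normSq β)) * (ε / (ε ^ 2 + 4 * normSq β) * normSq h) := by
  set D := ε ^ 2 + 4 * normSq β with hD
  have D0 : 0 < D := by positivity
  have : -(conj β * h ^ 2 / (D : ℂ)) - -(conj β * h ^ 2 / ((4 * normSq β : ℝ) : ℂ)) =
      conj β * h ^ 2 * ((ε ^ 2 / (D * (4 * normSq β)) : ℝ) : ℂ) := by
    have e : ε ^ 2 / (D * (4 * normSq β)) = 1 / (4 * normSq β) - 1 / D := by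
      field_simp
      rw [hD]
      ring
    rw [e]
    push_cast
    ring
  rw [this, norm_mul, norm_mul, norm_pow, ← normSq_eq_norm_sq, Complex.norm_real,
    Real.norm_of_nonneg (by positivity), Complex.norm_conj]
  field_simp

/-- Landsberg-Schaar -/
theorem F1_eq {n : R K} (hn : n ≠ 0) {x : K} (hx : x ≠ 0) (h : x ^ 2 / (n * del K) ∈ A K)
    {T : Finset K} (hT : RepsL (LL2 1 (del K / x)) (LL2 1 (2 * x / n)) T) :
    F1 n = ((2 ^ rk K * (√(sN (n : K)))⁻¹ * CL 1 (2 * x / n) : ℝ) : ℂ) *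
      ∑ ρ ∈ T, psiF (-((n : K) * ρ ^ 2 / 4)) := by
  have n0 := coeR_ne hn
  have d0 : del K ≠ 0 := del_spec.1
  have hd : del K / x ≠ 0 := div_ne_zero d0 hx
  have h2x : 2 * x / (n : K) ≠ 0 := div_ne_zero (mul_ne_zero two_ne_zero hx) n0
  have k0 := kap_pos
  set β : K := (n : K)⁻¹ with hβ
  have b0 : ∀ σ : Emb K, 0 < normSq (σ.1 β) := fun σ =>
    normSq_pos.2 ((map_ne_zero σ.1).2 (inv_ne_zero n0))
  have D0 : ∀ (ε : ℝ) (σ : Emb K), 0 < ε ^ 2 + 4 * normSq (σ.1 β) := fun ε σ => by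
    have := b0 σ
    positivity
  have mR : ∀ {z w : K}, z ∈ LL2 1 w → z ∈ R K := fun hz => by simpa using hz.1
  -- left side
  obtain ⟨T0, hT0⟩ := exists_repsL (one_ne_zero (α := K)) hx n0 hx
  have per0 : ∀ a b : K, a ∈ R K → (b - a) / n ∈ R K → psiS (β * b ^ 2) = psiS (β * a ^ 2) := by
    intro a b ha hb
    have e : β * b ^ 2 = β * a ^ 2 + (2 * a + n * ((b - a) / n)) * ((b - a) / n) := by
      rw [hβ]; field_simp; ring
    rw [e, psiS_add, psiS_R ((R K).mul_mem ((R K).add_mem ((R K).mul_mem (ofNat_mem _ 2) ha)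
      ((R K).mul_mem n.2 hb)) hb), mul_one]
  have hle0 : LL2 (n : K) x ≤ LL2 1 x := fun z hz => ⟨by
    have := (R K).mul_mem n.2 hz.1
    rwa [mul_div_cancel₀ _ n0, ← div_one z] at this, hz.2⟩
  have L := tendsto_per one_ne_zero hx n0 hx hle0 hT0 (f := fun m => psiS (β * m ^ 2))
    (fun m hm k hk => per0 m (m + k) (mR hm) (by rw [add_sub_cancel_left]; exact hk.1))
    (l := atBot) (t := fun ε _ => Real.exp ε) (fun ε _ => Real.exp_pos ε)
    (fun _ => Real.tendsto_exp_atBot)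
  rw [sum_repsL hn hx hT0 per0] at L
  have eG : ∑ a ∈ rs n, psiS (β * (a : K) ^ 2) = Gq 1 n :=
    Finset.sum_congr rfl fun a _ => by
      rw [Subring.coe_one, one_mul, hβ, div_eq_inv_mul]
  rw [eG] at L
  -- right side
  have hle1 : LL2 1 (2 * x / (n : K)) ≤ LL2 1 (del K / x) := fun z hz => ⟨hz.1, by
    have e : z / (del K / x) = z / (2 * x / n) * (2 * (x ^ 2 / (n * del K))) := by field_simp
    rw [e]
    exact (A K).mul_mem hz.2 ((A K).mul_mem (natCast_mem _ 2) h)⟩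
  have tε : ∀ σ : Emb K, Tendsto (fun ε : ℝ =>
      Real.exp ε / (Real.exp ε ^ 2 + 4 * normSq (σ.1 β))) atBot (𝓝 0) := fun σ => by
    have := Real.tendsto_exp_atBot.div
      ((Real.tendsto_exp_atBot.pow 2).add_const (4 * normSq (σ.1 β))) (D0 0 σ).ne'
    rwa [zero_div] at this
  have R0 := tendsto_per one_ne_zero hd one_ne_zero h2x hle1 hT
    (f := fun ρ => psiF (-((n : K) * ρ ^ 2 / 4))) (fun m hm k hk => by
      have e : -((n : K) * (m + k) ^ 2 / 4) = -((n : K) * m ^ 2 / 4) +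
        -((n : K) * m * k / 2 + n * k ^ 2 / 4) := by ring
      have e' : -((n : K) * m * k / 2 + n * k ^ 2 / 4) / del K =
          -(m / (del K / x) * (k / (2 * x / n)) +
            (k / (2 * x / n)) ^ 2 * (x ^ 2 / (n * del K))) := by
        field_simp
        ring
      beta_reduce
      rw [e, psiF_add, psiF_del (x := -((n : K) * m * k / 2 + n * k ^ 2 / 4)), mul_one]
      rw [e']
      exact (A K).neg_mem ((A K).add_mem ((A K).mul_mem hm.2 hk.2)
        ((A K).mul_mem ((A K).pow_mem hk.2 2) h)))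
    (l := atBot) (t := fun ε σ => Real.exp ε / (Real.exp ε ^ 2 + 4 * normSq (σ.1 β)))
    (fun ε σ => div_pos (Real.exp_pos ε) (D0 _ σ)) tε
  set C : ℝ := ∑ σ : Emb K, 2 * kap * (‖σ.1 β‖ / (4 * normSq (σ.1 β))) with hC
  have C1 : ∀ σ : Emb K, 0 ≤ 2 * kap * (‖σ.1 β‖ / (4 * normSq (σ.1 β))) := fun σ => by
    have := b0 σ
    positivity
  have E := quada_err one_ne_zero hd (l := atBot)
    (t := fun ε σ => Real.exp ε / (Real.exp ε ^ 2 + 4 * normSq (σ.1 β)))
    (fun ε σ => div_pos (Real.exp_pos ε) (D0 _ σ)) tε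
    (a := fun ε h => psiV (fun σ : Emb K => -(conj (σ.1 β) * σ.1 h ^ 2 /
      ((Real.exp ε ^ 2 + 4 * normSq (σ.1 β) : ℝ) : ℂ))))
    (b := fun _ h => psiV (fun σ : Emb K => -(conj (σ.1 β) * σ.1 h ^ 2 /
      ((4 * normSq (σ.1 β) : ℝ) : ℂ))))
    (fun _ _ => (norm_psiV _).le) (fun _ _ => (norm_psiV _).le) (δ := fun ε => Real.exp ε * C)
    (fun ε => mul_nonneg (Real.exp_pos ε).le (Finset.sum_nonneg fun σ _ => C1 σ))
    (by simpa using Real.tendsto_exp_atBot.mul_const C) (fun ε m => by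
      refine (quada_psiV_sub _ _).trans ?_
      rw [Finset.mul_sum]
      refine Finset.sum_le_sum fun σ _ => ?_
      rw [quada_phase (b0 σ) (Real.exp_pos ε)]
      have h1 : 2 * kap * (‖σ.1 β‖ / (4 * normSq (σ.1 β))) ≤ C :=
        Finset.single_le_sum (f := fun σ : Emb K => 2 * kap * (‖σ.1 β‖ / (4 * normSq (σ.1 β))))
          (fun σ _ => C1 σ) (Finset.mem_univ σ)
      have h2 : 0 ≤ Real.exp ε / (Real.exp ε ^ 2 + 4 * normSq (σ.1 β)) * normSq (σ.1 m) :=
        mul_nonneg (div_pos (Real.exp_pos ε) (D0 _ σ)).le (normSq_nonneg _)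
      have h3 := mul_le_mul_of_nonneg_left (mul_le_mul_of_nonneg_right h1 h2) (Real.exp_pos ε).le
      linarith)
  have ph : ∀ h ∈ LL2 1 (del K / x), psiV (fun σ : Emb K => -(conj (σ.1 β) * σ.1 h ^ 2 /
      ((4 * normSq (σ.1 β) : ℝ) : ℂ))) = psiF (-((n : K) * h ^ 2 / 4)) := fun h hh => by
    have hR : -((n : K) * h ^ 2 / 4) ∈ R K := by
      have e : -((n : K) * h ^ 2 / 4) = -(n * (h * 2⁻¹) ^ 2) := by ring
      rw [e]
      exact (R K).neg_mem ((R K).mul_mem n.2 ((R K).pow_mem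
        ((R K).mul_mem (mR hh) quada_two_mem) 2))
    rw [← mul_one (psiF _), ← psiS_R hR, ← psiK_eq_mul, psiK_eq]
    congr 1
    funext σ
    have s0 : σ.1 (n : K) ≠ 0 := (map_ne_zero σ.1).2 n0
    have s1 : conj (σ.1 β) ≠ 0 := (map_ne_zero _).2 ((map_ne_zero σ.1).2 (inv_ne_zero n0))
    simp only [jj, map_neg, map_div₀, map_mul, map_pow, map_ofNat]
    push_cast
    rw [← mul_conj, neg_inj]
    generalize conj (σ.1 β) = b at *
    rw [hβ, map_inv₀]
    field_simp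
  have ph' : ∀ ε : ℝ, (∑' h : K, if h ∈ LL2 1 (del K / x) then
      psiV (fun σ : Emb K => -(conj (σ.1 β) * σ.1 h ^ 2 / ((4 * normSq (σ.1 β) : ℝ) : ℂ))) *
        Ga (fun σ => ((Real.exp ε / (Real.exp ε ^ 2 + 4 * normSq (σ.1 β)) : ℝ) : ℂ)) h else 0) =
      ∑' h : K, if h ∈ LL2 1 (del K / x) then psiF (-((n : K) * h ^ 2 / 4)) *
        Ga (fun σ => ((Real.exp ε / (Real.exp ε ^ 2 + 4 * normSq (σ.1 β)) : ℝ) : ℂ)) h else 0 :=
    fun ε => tsum_congr fun h => by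
      split_ifs with hh
      · rw [ph h hh]
      · rfl
  have R1 := E.add R0
  simp only [ph', sub_add_cancel, zero_add] at R1
  have tS : Tendsto (fun ε : ℝ => ((CL 1 x *
      ∏ σ : Emb K, √(Real.exp ε ^ 2 + 4 * normSq (σ.1 β)) : ℝ) : ℂ)) atBot
      (𝓝 ((CL 1 x * ∏ σ : Emb K, √(0 ^ 2 + 4 * normSq (σ.1 β)) : ℝ) : ℂ)) := by
    have : Continuous fun e : ℝ => ((CL 1 x *
      ∏ σ : Emb K, √(e ^ 2 + 4 * normSq (σ.1 β)) : ℝ) : ℂ) := by fun_prop
    exact (this.tendsto 0).comp Real.tendsto_exp_atBot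
  have R2 := tS.mul R1
  have key := tendsto_nhds_unique_of_eventuallyEq L R2 (Eventually.of_forall fun ε => by
    have h1 := lsp one_ne_zero hx β (Real.exp_pos ε)
    rw [inv_one] at h1
    have h2 : (∑' m : K, if m ∈ LL2 1 x then
        psiS (β * m ^ 2) * Ga (fun _ => ((Real.exp ε : ℝ) : ℂ)) m else 0) =
        ∑' m : K, if m ∈ LL2 1 x then
        psiK (β * m ^ 2) * Ga (fun _ => ((Real.exp ε : ℝ) : ℂ)) m else 0 :=
      tsum_congr fun m => by
        split_ifs with hm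
        · rw [psiK_eq_mul, psiF_del, one_mul]
          have e : β * m ^ 2 / del K = (m / x) ^ 2 * (x ^ 2 / (n * del K)) := by
            rw [hβ]; field_simp
          rw [e]
          exact (A K).mul_mem ((A K).pow_mem hm.2 2) h
        · rfl
    beta_reduce
    rw [h2, h1, ← mul_assoc, ← mul_assoc, ← ofReal_mul, ← ofReal_mul]
    congr 2
    rw [mul_left_comm, mul_assoc, ← Finset.prod_mul_distrib, ← Finset.prod_mul_distrib]
    congr 1
    refine Finset.prod_congr rfl fun σ _ => ?_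
    have s0 := Real.sqrt_pos.2 (D0 (Real.exp ε) σ)
    have s1 := Real.mul_self_sqrt (D0 (Real.exp ε) σ).le
    generalize √(Real.exp ε ^ 2 + 4 * normSq (σ.1 β)) = S at *
    rw [← s1]
    field_simp)
  have hN := N_pos hn
  have hs := sN_pos (n : K)
  have e3 : ∏ σ : Emb K, √(0 ^ 2 + 4 * normSq (σ.1 β)) = 2 ^ rk K * (√(N n) * √(sN (n : K)))⁻¹ := by
    have e4 : ∀ σ : Emb K, √(0 ^ 2 + 4 * normSq (σ.1 β)) = 2 * √(normSq (σ.1 β)) := fun σ => by
      rw [show (0 : ℝ) ^ 2 + 4 * normSq (σ.1 β) = 2 ^ 2 * normSq (σ.1 β) by ring,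
        Real.sqrt_mul (by norm_num), Real.sqrt_sq (by norm_num)]
    simp only [e4]
    rw [Finset.prod_mul_distrib, Finset.prod_const, Finset.card_univ,
      ← Real.sqrt_prod _ (fun σ _ => normSq_nonneg _), ← absN_eq_prod, hβ, absN_inv, absN_eq hn,
      Real.sqrt_inv, Real.sqrt_mul hN.le]
    rfl
  have e5 : CL (n : K) x = CL 1 x / (√(N n)) ^ 2 := by
    have := sN_pos x
    rw [CL, CL, absN_eq hn, absN_one, sN_one, Real.sq_sqrt hN.le]
    field_simp
  have c0 : ((CL 1 x : ℝ) : ℂ) ≠ 0 := by exact_mod_cast (CL_pos (x := x) one_ne_zero).ne'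
  have c1 := sqrtN_ne hn
  have c2 : ((√(sN (n : K)) : ℝ) : ℂ) ≠ 0 := by exact_mod_cast (Real.sqrt_pos.2 hs).ne'
  rw [e3, e5] at key
  push_cast at key ⊢
  rw [F1, div_eq_iff c1]
  apply mul_left_cancel₀ (div_ne_zero c0 (pow_ne_zero 2 c1))
  rw [key]
  field_simp

theorem quad3 {n n' : R K} (hn : n ≠ 0) (h : One 3 ((n' : K) / n)) : F1 n' = F1 n := by
  have n0 := coeR_ne hn
  have d0 : del K ≠ 0 := del_spec.1
  have u0 : (n' : K) / n ≠ 0 := h.ne_zero (by norm_num)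
  have n1 : (n' : K) ≠ 0 := fun h0 => u0 (by rw [h0, zero_div])
  have hn' : n' ≠ 0 := fun h0 => n1 (by rw [h0, Subring.coe_zero])
  have hu := h.mem
  have hu' := (h.inv (by norm_num)).mem
  obtain ⟨x, hx, h1, h2⟩ := exists_sq_A (mul_ne_zero n0 d0)
  have h2x : 2 * x / (n : K) ≠ 0 := div_ne_zero (mul_ne_zero two_ne_zero hx) n0
  obtain ⟨T, hT⟩ := exists_repsL (one_ne_zero (α := K)) (div_ne_zero d0 hx) one_ne_zero h2x
  have hL : LL2 1 (2 * x / (n' : K)) = LL2 1 (2 * x / (n : K)) := by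
    ext z
    constructor
    · rintro ⟨a, b⟩
      refine ⟨a, ?_⟩
      have e : z / (2 * x / n) = z / (2 * x / n') * ((n' : K) / n)⁻¹ := by field_simp
      rw [e]; exact (A K).mul_mem b hu'
    · rintro ⟨a, b⟩
      refine ⟨a, ?_⟩
      have e : z / (2 * x / n') = z / (2 * x / n) * ((n' : K) / n) := by field_simp
      rw [e]; exact (A K).mul_mem b hu
  have h1' : x ^ 2 / (n' * del K) ∈ A K := by
    have e : x ^ 2 / (n' * del K) = x ^ 2 / (n * del K) * ((n' : K) / n)⁻¹ := by field_simp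
    rw [e]; exact (A K).mul_mem h1 hu'
  have su : sN ((n' : K) / n) = 1 :=
    sN_unit (u := Units.mk0 _ u0) ⟨by simpa using hu, by simpa using hu'⟩
  have s1 : sN (n' : K) = sN (n : K) := by
    rw [sN_div n1 n0, div_eq_one_iff_eq (sN_pos _).ne'] at su
    exact su
  have s2 : CL 1 (2 * x / (n' : K)) = CL 1 (2 * x / (n : K)) := by
    rw [CL, CL, sN_div (mul_ne_zero two_ne_zero hx) n1, sN_div (mul_ne_zero two_ne_zero hx) n0, s1]
  rw [F1_eq hn hx h1 hT, F1_eq hn' hx h1' (hL ▸ hT), s1, s2]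
  congr 1
  refine Finset.sum_congr rfl fun ρ hρ => ?_
  have hM : MK K / 2 ∈ A K := by
    obtain ⟨k, hk⟩ : 2 ∣ Setup.M K := Dvd.dvd.trans ⟨3, rfl⟩ Setup.six
    have e : MK K / 2 = (k : K) := by
      rw [MK, hk]; push_cast; field_simp
    rw [e]; exact natCast_mem _ _
  have M0 := MK_ne (K := K)
  have e : -((n' : K) * ρ ^ 2 / 4) = -((n : K) * ρ ^ 2 / 4) + -(((n' : K) - n) * ρ ^ 2 / 4) := by
    ring
  have e' : -(((n' : K) - n) * ρ ^ 2 / 4) / del K = -(((n' : K) / n - 1) / MK K ^ 3 *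
      (MK K / 2) ^ 2 * (MK K * (n * del K) / x ^ 2) * (ρ / (del K / x)) ^ 2) := by
    field_simp
    ring
  rw [e, psiF_add, psiF_del (x := -(((n' : K) - n) * ρ ^ 2 / 4)), mul_one]
  rw [e']
  exact (A K).neg_mem ((A K).mul_mem ((A K).mul_mem ((A K).mul_mem h ((A K).pow_mem hM 2)) h2)
    ((A K).pow_mem (hT.1 ρ hρ).2 2))

end

end Vale.Agent.P319N
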