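import Vale.Agent.P319N.Defs2

namespace Vale.Agent.P319N

open NumberField Complex MeasureTheory Filter Topology
open scoped Classical ComplexConjugate Real
open Vale.Agent.P026 (omC kap psi W)

noncomputable section

theorem Setup_diff (K : Type) [Field K] [NumberField K] : ∃ D : ℕ, D ≠ 0 ∧
    ∀ x : K, (∀ y : K, IsI y → ∃ k : ℤ, Algebra.trace ℚ K (x * y) = k) → IsI ((D : K) * x) := by
  obtain ⟨D, hD, h⟩ := exists_integral_multiples ℤ ℚ (Finset.univ.image
    ((Algebra.traceForm ℚ K).dualBasis (traceForm_nondegenerate ℚ K) (integralBasis K)))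
  refine ⟨D.natAbs, by simpa using hD, fun x hx => ?_⟩
  have key : IsI ((D : K) * x) := by
    rw [← ((Algebra.traceForm ℚ K).dualBasis (traceForm_nondegenerate ℚ K)
      (integralBasis K)).sum_repr x, Finset.mul_sum]
    refine IsIntegral.sum _ fun i _ => ?_
    obtain ⟨k, hk⟩ := hx (integralBasis K i) (by
      rw [integralBasis_apply]
      exact (RingOfIntegers.basis K i).isIntegral_coe)
    rw [LinearMap.BilinForm.dualBasis_repr_apply, Algebra.traceForm_apply, hk]
    have := (h _ (Finset.mem_image_of_mem _ (Finset.mem_univ i))).zsmul k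
    rw [zsmul_eq_mul, zsmul_eq_mul] at this
    rw [Algebra.smul_def, map_intCast, mul_left_comm]
    exact this
  rcases Int.natAbs_eq D with e | e
  · rw [e] at key
    simpa using key
  · rw [e] at key
    simpa using key.neg

theorem Setup_pid (K : Type) [Field K] [NumberField K] : ∃ D : ℕ, D ≠ 0 ∧
    ∀ M : ℕ, M ≠ 0 → D ∣ M → IsPrincipalIdealRing (RM K M) := by
  choose C hC using fun c : ClassGroup (𝓞 K) => ClassGroup.mk0_surjective c⁻¹
  have hn : ∀ c, Ideal.absNorm (C c).1 ≠ 0 := fun c => Ideal.absNorm_ne_zero_of_nonZeroDivisors _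
  refine ⟨∏ c, Ideal.absNorm (C c).1, Finset.prod_ne_zero_iff.2 fun c _ => hn c,
    fun M hM hD => ⟨fun J => ?_⟩⟩
  let φ : 𝓞 K →+* RM K M := (algebraMap (𝓞 K) K).codRestrict _ fun x =>
    ⟨0, by simpa using x.isIntegral_coe⟩
  have hM' : (M : K) ≠ 0 := Nat.cast_ne_zero.2 hM
  have key : ∀ j ∈ J, ∃ (k : ℕ) (i : 𝓞 K), i ∈ J.comap φ ∧ (i : K) = (M : K) ^ k * j := by
    rintro ⟨j, k, hk⟩ hj
    refine ⟨k, ⟨_, hk⟩, ?_, rfl⟩
    refine Ideal.mem_comap.2 ?_
    convert J.mul_mem_left ((M : RM K M) ^ k) hj using 1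
    refine Subtype.ext ?_
    push_cast
    rfl
  by_cases hJ : J = ⊥
  · rw [hJ]
    exact bot_isPrincipal
  have hI : J.comap φ ∈ nonZeroDivisors (Ideal (𝓞 K)) := by
    rw [mem_nonZeroDivisors_iff_ne_zero]
    intro hc
    obtain ⟨j, hj, h0⟩ := Submodule.exists_mem_ne_zero_of_ne_bot hJ
    obtain ⟨k, i, hi, e⟩ := key j hj
    rw [hc, Submodule.zero_eq_bot, Submodule.mem_bot] at hi
    rw [hi] at e
    exact mul_ne_zero (pow_ne_zero k hM') (show (j : K) ≠ 0 by simpa using h0) e.symm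
  obtain ⟨c, hc⟩ : ∃ c, c = ClassGroup.mk0 ⟨_, hI⟩ := ⟨_, rfl⟩
  obtain ⟨x, hx⟩ := (ClassGroup.mk0_eq_one_iff (mul_mem hI (C c).2)).1 (by
    have := map_mul (ClassGroup.mk0 (R := 𝓞 K)) ⟨_, hI⟩ (C c)
    rw [hC, ← hc, mul_inv_cancel] at this
    exact this)
  refine ⟨φ x, le_antisymm (fun j hj => ?_) ?_⟩
  · obtain ⟨k, i, hi, e⟩ := key j hj
    have h1 := Ideal.mul_mem_mul hi (Ideal.absNorm_mem (C c).1)
    rw [hx, Ideal.submodule_span_eq, Ideal.mem_span_singleton'] at h1
    obtain ⟨t, ht⟩ := h1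
    obtain ⟨r, hr⟩ := (Finset.dvd_prod_of_mem (fun c => Ideal.absNorm (C c).1)
      (Finset.mem_univ c)).trans hD
    have h2 : (t : K) * x = (M : K) ^ k * j * Ideal.absNorm (C c).1 := by
      rw [← e]
      exact_mod_cast congrArg (algebraMap (𝓞 K) K) ht
    rw [Ideal.submodule_span_eq, Ideal.mem_span_singleton']
    refine ⟨⟨(r : K) * t / (M : K) ^ (k + 1), k + 1, ?_⟩, Subtype.ext ?_⟩
    · rw [mul_div_cancel₀ _ (pow_ne_zero _ hM')]
      exact (isI_nat r).mul t.isIntegral_coe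
    · change (r : K) * t / (M : K) ^ (k + 1) * (x : K) = j
      have h3 : (M : K) = Ideal.absNorm (C c).1 * r := by exact_mod_cast hr
      rw [div_mul_eq_mul_div, mul_assoc, h2, div_eq_iff (pow_ne_zero _ hM'), pow_succ]
      linear_combination (-(j : K) * (M : K) ^ k) * h3
  · rw [Submodule.span_singleton_le_iff_mem, ← Ideal.mem_comap]
    have : x ∈ J.comap φ * (C c).1 := by
      rw [hx]
      exact Submodule.mem_span_singleton_self x
    exact (Ideal.mul_le_inf this).1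

theorem exists_setup (K : Type) [Field K] [NumberField K] {z : K} (hz : IsPrimitiveRoot z 12) :
    Nonempty (Setup K) := by
  obtain ⟨D, hD, h1⟩ := Setup_diff K
  obtain ⟨D', hD', h2⟩ := Setup_pid K
  have hM : 6 * D * D' ≠ 0 := by positivity
  refine ⟨⟨z, hz, 6 * D * D', Dvd.intro _ (mul_assoc _ _ _).symm, hM,
    h2 _ hM (dvd_mul_left _ _), fun x hx => ?_⟩⟩
  convert (isI_nat (6 * D')).mul (h1 x hx) using 1
  push_cast
  ring

end

end Vale.Agent.P319N
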