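import Vale.Agent.P319N.Rec
import Vale.Agent.P319N.BMain
import Vale.Agent.P319N.AMain
import Vale.Agent.P319N.Setup
import Vale.Agent.P319N.QuadA
import Vale.Agent.P319N.Idl

namespace Vale.Agent.P319N

open NumberField Complex
open scoped Classical
open Vale.Agent.P026 (W)

theorem exists_level (K : Type) [Field K] [NumberField K] {z : K} (hz : IsPrimitiveRoot z 12) :
    Nonempty (Level K) := by
  obtain ⟨S⟩ := exists_setup K hz
  obtain ⟨j, hj⟩ := cubic_rec (K := K)
  exact ⟨{ S with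
    e := max j 3
    he := le_trans (by norm_num) (le_max_right _ _)
    rec3 := fun a b hb h ha => hj a b hb h (ha.mono (le_max_left _ _))
    quad := fun n n' hn h => quad3 hn (h.mono (le_max_right _ _)) }⟩

theorem mobBound (K : Type) [Field K] [NumberField K] (hz : ∃ z : K, IsPrimitiveRoot z 12) :
    P319E.MobBound K (999 / 1000) := by
  obtain ⟨z, hz⟩ := hz
  obtain ⟨L⟩ := exists_level K hz
  obtain ⟨t, ht⟩ := coefPkg (K := K)
  obtain ⟨C, hC⟩ := Ab.mob_final ht
  refine ⟨Setup.M K, C, Setup.Mne, fun X hX => ?_⟩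
  refine le_trans (le_of_eq ?_) (hC X hX)
  rw [← Real.norm_eq_abs, ← Complex.norm_real]
  congr 1
  unfold P319E.MobSum
  rw [Complex.ofReal_tsum]
  simp only [apply_ite (fun x : ℝ => (x : ℂ)), Complex.ofReal_zero]
  rw [← tsum_prim]
  unfold Ab.A Ab.AA
  refine tsum_congr fun n => ?_
  by_cases hP : Ab.Prim n
  · have h0 : lft n ≠ 0 := fun h => hP.1 (lft_eq_zero.1 h)
    rw [if_pos ((ab_prim n).1 hP), Complex.ofReal_mul, mu_idl h0, ← ab_mu]
    by_cases hs : Squarefree n
    · rw [if_pos ⟨hP, hs⟩]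
      have h1 : Ab.chi6 (1 : MM K) n = 1 := by
        rw [ab_chi6, ← map_one mkM, ← mkM_lft n, chi6_lft, chi6_one_left]
      rw [h1]
      simp only [P319E.Wr, P319E.nm, absNorm_idl, W, ab_N, N]
      push_cast
      simp
    · rw [if_neg (fun h => hs h.2)]
      simp [Ab.mu, hs]
  · rw [if_neg (fun h => hP ((ab_prim n).2 h)), if_neg (fun h => hP h.1)]

end Vale.Agent.P319N
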