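import Vale.Agent.P319N.Ar

namespace Vale.Agent.P319N.Ab

open Complex MeasureTheory Filter Topology
open scoped Classical ComplexConjugate Real
open Vale.Agent.P026 (W DualW)

noncomputable section

variable {O : Type} [CommMonoidWithZero O] [UniqueFactorizationMonoid O] [Ar O]

instance instCountable : Countable O := by
  have h : (Set.univ : Set O) ⊆ {0} ∪ ⋃ k : ℕ, {x : O | x ≠ 0 ∧ (Nm x : ℝ) ≤ k} := by
    intro x _
    by_cases h0 : x = 0
    · exact Or.inl h0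
    · exact Or.inr (Set.mem_iUnion.2 ⟨Nm x, h0, le_rfl⟩)
  exact Set.countable_univ_iff.1 (((Set.countable_singleton _).union
    (Set.countable_iUnion fun k : ℕ => (Ar.fin_ball (k : ℝ)).countable)).mono h)

theorem mem_ballO' {R : ℝ} {x : O} : x ∈ ballO O R ↔ x ≠ 0 ∧ N x ≤ R := mem_ballO

theorem one_ne_zero' : (1 : O) ≠ 0 := by
  intro h
  have h1 := (Ar.Nm_eq_one (1 : O)).2 isUnit_one
  rw [(Ar.Nm_eq_zero (1 : O)).2 h] at h1
  exact zero_ne_one h1

theorem cls_one : cls (1 : O) = 1 := by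
  have := Ar.cls_mul (1 : O) 1 one_ne_zero' one_ne_zero'
  rw [mul_one] at this
  exact (mul_eq_left.1 this.symm)

theorem cls_pow {a : O} (ha : a ≠ 0) (k : ℕ) : cls (a ^ k) = cls a ^ k := by
  induction k with
  | zero => rw [pow_zero, pow_zero, cls_one]
  | succ k ih => rw [pow_succ, pow_succ, Ar.cls_mul _ _ (pow_ne_zero _ ha) ha, ih]

theorem exists_prim_assoc {x : O} (h : x ≠ 0) : ∃ u : O, IsUnit u ∧ Prim (u * x) := by
  obtain ⟨u, hu, h1⟩ := Ar.prim_ex x h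
  exact ⟨u, hu, fun c => h (hu.mul_right_eq_zero.1 c), h1⟩

theorem exists_unit_prim {x : O} (hx : x ≠ 0) : ∃ u y : O, IsUnit u ∧ Prim y ∧ x = u * y := by
  obtain ⟨u, hu, h1⟩ := exists_prim_assoc hx
  obtain ⟨v, rfl⟩ := hu
  exact ⟨(v⁻¹ : Oˣ), v * x, Units.isUnit _, h1, by rw [Units.inv_mul_cancel_left]⟩

theorem N_mul (x y : O) : N (x * y) = N x * N y := by
  unfold N; rw [Ar.Nm_mul, Nat.cast_mul]

theorem N_one : N (1 : O) = 1 := by
  unfold N; rw [(Ar.Nm_eq_one (1 : O)).2 isUnit_one, Nat.cast_one]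

theorem Nm_pow (x : O) (k : ℕ) : Nm (x ^ k) = Nm x ^ k := by
  induction k with
  | zero => rw [pow_zero, pow_zero, (Ar.Nm_eq_one (1 : O)).2 isUnit_one]
  | succ k ih => rw [pow_succ, pow_succ, Ar.Nm_mul, ih]

theorem N_pow (x : O) (k : ℕ) : N (x ^ k) = N x ^ k := by
  unfold N; rw [Nm_pow, Nat.cast_pow]

theorem N_zero : N (0 : O) = 0 := by
  unfold N; rw [(Ar.Nm_eq_zero (0 : O)).2 rfl, Nat.cast_zero]

theorem N_nonneg (x : O) : 0 ≤ N x := Nat.cast_nonneg _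

theorem bas_Nm_pos {x : O} (hx : x ≠ 0) : 0 < Nm x := Nat.pos_of_ne_zero fun h => hx ((Ar.Nm_eq_zero x).1 h)

theorem N_pos {x : O} (hx : x ≠ 0) : 0 < N x := by
  unfold N; exact_mod_cast bas_Nm_pos hx

theorem one_le_N {x : O} (hx : x ≠ 0) : 1 ≤ N x := by
  unfold N; exact_mod_cast bas_Nm_pos hx

theorem isUnit_iff_Nm {x : O} : IsUnit x ↔ Nm x = 1 := (Ar.Nm_eq_one x).symm

theorem N_unit {u : O} (hu : IsUnit u) : N u = 1 := by
  unfold N; rw [isUnit_iff_Nm.1 hu, Nat.cast_one]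

theorem mem_ballO_one {u : O} : u ∈ ballO O 1 ↔ IsUnit u := by
  rw [mem_ballO, isUnit_iff_Nm]
  constructor
  · rintro ⟨h0, h1⟩
    have := bas_Nm_pos h0
    have h2 : Nm u ≤ 1 := by exact_mod_cast h1
    omega
  · intro h
    refine ⟨fun c => ?_, by rw [h, Nat.cast_one]⟩
    rw [(Ar.Nm_eq_zero u).2 c] at h
    exact zero_ne_one h

theorem N_le_of_dvd {a b : O} (h : a ∣ b) (hb : b ≠ 0) : N a ≤ N b := by
  obtain ⟨c, rfl⟩ := h
  rw [N_mul]
  exact le_mul_of_one_le_right (N_nonneg _) (one_le_N (right_ne_zero_of_mul hb))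

theorem prim_one : Prim (1 : O) := ⟨one_ne_zero', by rw [cls_one]; exact one_mem _⟩

theorem Prim.mul {a b : O} (ha : Prim a) (hb : Prim b) : Prim (a * b) := ⟨mul_ne_zero ha.1 hb.1, by rw [Ar.cls_mul _ _ ha.1 hb.1]; exact mul_mem ha.2 hb.2⟩

theorem Prim.pow {a : O} (ha : Prim a) (k : ℕ) : Prim (a ^ k) := ⟨pow_ne_zero _ ha.1, by rw [cls_pow ha.1]; exact pow_mem ha.2 _⟩

theorem Prim.ne_zero {a : O} (ha : Prim a) : a ≠ 0 := ha.1

theorem Prim.of_mul {a b : O} (hab : Prim (a * b)) (ha : Prim a) : Prim b := by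
  have hb := right_ne_zero_of_mul hab.1
  have h := hab.2
  rw [Ar.cls_mul _ _ ha.1 hb] at h
  exact ⟨hb, (Subgroup.mul_mem_cancel_left _ ha.2).1 h⟩

theorem Prim.eq_one_of_isUnit {a : O} (ha : Prim a) (h : IsUnit a) : a = 1 := Ar.prim_unit a h ha.2

theorem Prim.eq_of_associated {a b : O} (ha : Prim a) (hb : Prim b) (h : Associated a b) :
    a = b := by
  obtain ⟨u, rfl⟩ := h
  rw [(hb.of_mul ha).eq_one_of_isUnit u.isUnit, mul_one]

theorem four_le_N_of_prime {p : O} (hp : Prime p) (hP : Prim p) : 4 ≤ N p := by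
  unfold N; exact_mod_cast Ar.four_le p hp

theorem bas_prime_factor {n : O} (hn : Prim n) (h1 : n ≠ 1) :
    ∃ p m, Prime p ∧ Prim p ∧ Prim m ∧ n = p * m := by
  obtain ⟨p, hp, hpn⟩ := WfDvdMonoid.exists_irreducible_factor
    (fun h => h1 (hn.eq_one_of_isUnit h)) hn.ne_zero
  obtain ⟨u, hu, hP⟩ := exists_prim_assoc hp.ne_zero
  have hp' : Prime (u * p) := (associated_unit_mul_left p u hu).symm.prime hp.prime
  obtain ⟨m, hm⟩ : u * p ∣ n := (associated_unit_mul_left p u hu).dvd.trans hpn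
  exact ⟨u * p, m, hp', hP, Prim.of_mul (hm ▸ hn) hP, hm⟩

theorem Prim.induction {P : O → Prop} (h1 : P 1)
    (hmul : ∀ p n, Prime p → Prim p → Prim n → P n → P (p * n)) : ∀ n, Prim n → P n := by
  intro n
  induction hk : Nm n using Nat.strong_induction_on generalizing n with
  | _ k ih =>
    intro hn
    by_cases h : n = 1
    · rw [h]; exact h1
    · obtain ⟨p, m, hp, hP, hm, rfl⟩ := bas_prime_factor hn h
      refine hmul p m hp hP hm (ih (Nm m) ?_ m rfl hm)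
      rw [← hk, Ar.Nm_mul]
      have h4 : 4 ≤ Nm p := Ar.four_le p hp
      have := bas_Nm_pos hm.ne_zero
      nlinarith

theorem exists_prim_gcd {a : O} (ha : Prim a) (b : O) :
    ∃ g : O, Prim g ∧ g ∣ a ∧ g ∣ b ∧ ∀ d, d ∣ a → d ∣ b → d ∣ g := by
  letI := UniqueFactorizationMonoid.toGCDMonoid O
  have h1 := gcd_dvd_left a b
  have h2 := gcd_dvd_right a b
  obtain ⟨u, hu, hP⟩ := exists_prim_assoc (ne_zero_of_dvd_ne_zero ha.1 h1)
  have hd := (associated_unit_mul_left (gcd a b) u hu).dvd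
  exact ⟨_, hP, hd.trans h1, hd.trans h2,
    fun d h3 h4 => dvd_mul_of_dvd_right (dvd_gcd h3 h4) _⟩

theorem isCoprime_iff_no_prime {a b : O} (hab : a ≠ 0 ∨ b ≠ 0) :
    IsRelPrime a b ↔ ∀ p, Prime p → p ∣ a → ¬ p ∣ b := by
  rcases hab with h | h
  · rw [UniqueFactorizationMonoid.isRelPrime_iff_no_prime_factors h]
    exact ⟨fun k p hp h1 h2 => k h1 h2 hp, fun k p h1 h2 hp => k p hp h1 h2⟩
  · rw [isRelPrime_comm, UniqueFactorizationMonoid.isRelPrime_iff_no_prime_factors h]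
    exact ⟨fun k p hp h1 h2 => k h2 h1 hp, fun k p h1 h2 hp => k p hp h2 h1⟩

theorem nn_one : NN (1 : O) := ⟨prim_one, squarefree_one⟩

theorem NN.ne_zero {a : O} (ha : NN a) : a ≠ 0 := ha.1.1

theorem nn_mul_iff {a b : O} (ha : Prim a) (hb : Prim b) :
    NN (a * b) ↔ NN a ∧ NN b ∧ IsRelPrime a b := by
  unfold NN
  rw [squarefree_mul_iff]
  have := ha.mul hb
  tauto

theorem NN.of_dvd {n d : O} (hn : NN n) (hd : Prim d) (h : d ∣ n) : NN d := ⟨hd, hn.2.squarefree_of_dvd h⟩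

theorem NN.induction {P : O → Prop} (h1 : P 1)
    (hmul : ∀ p n, Prime p → NN p → NN n → ¬ p ∣ n → P n → P (p * n)) : ∀ n, NN n → P n := by
  have key : ∀ n, Prim n → NN n → P n := by
    apply Prim.induction (P := fun n => NN n → P n) (fun _ => h1)
    intro p n hp hP hn ih hpn
    obtain ⟨a1, a2, a3⟩ := (nn_mul_iff hP hn).1 hpn
    exact hmul p n hp a1 a2 (fun c => hp.not_isUnit (a3 dvd_rfl c)) (ih a2)
  exact fun n hn => key n hn.1 hn

theorem mem_ballN {R : ℝ} {x : O} : x ∈ ballN O R ↔ NN x ∧ N x ≤ R := by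
  unfold ballN
  rw [Finset.mem_filter, mem_ballO']
  exact ⟨fun h => ⟨h.2, h.1.2⟩, fun h => ⟨⟨h.1.ne_zero, h.2⟩, h.1⟩⟩

theorem ballO_mono {R R' : ℝ} (h : R ≤ R') : ballO O R ⊆ ballO O R' := by
  intro x hx
  rw [mem_ballO] at hx ⊢
  exact ⟨hx.1, hx.2.trans h⟩

theorem ballN_mono {R R' : ℝ} (h : R ≤ R') : ballN O R ⊆ ballN O R' := by
  intro x hx
  rw [mem_ballN] at hx ⊢
  exact ⟨hx.1, hx.2.trans h⟩

theorem ballO_eq_empty {R : ℝ} (h : R < 1) : ballO O R = ∅ := by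
  apply Finset.eq_empty_of_forall_notMem
  intro x hx
  rw [mem_ballO'] at hx
  linarith [one_le_N hx.1, hx.2]

theorem mem_trip {R : ℝ} {t : O × O × O} :
    t ∈ trip O R ↔ NN t.1 ∧ NN t.2.1 ∧ NN t.2.2 ∧ NN (t.1 * t.2.1 * t.2.2) ∧
      N (t.1 * t.2.1 * t.2.2) ≤ R := by
  unfold trip
  simp only [Finset.mem_filter, Finset.mem_product, mem_ballN]
  constructor
  · rintro ⟨⟨a, b, c⟩, d⟩
    exact ⟨a.1, b.1, c.1, d.1, d.2⟩
  · rintro ⟨a, b, c, d, e⟩
    have h0 := d.ne_zero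
    refine ⟨⟨⟨a, le_trans (N_le_of_dvd ?_ h0) e⟩, ⟨b, le_trans (N_le_of_dvd ?_ h0) e⟩,
      ⟨c, le_trans (N_le_of_dvd ?_ h0) e⟩⟩, d, e⟩
    · exact (dvd_mul_right _ _).mul_right _
    · exact (dvd_mul_left _ _).mul_right _
    · exact dvd_mul_left _ _

theorem Wt.mul {f g : O → ℂ} (hf : Wt f) (hg : Wt g) :
    Wt (fun x => f x * g x) := by
  refine ⟨fun x y h1 h2 h => ?_, fun x => ?_⟩
  · simp only [hf.1 x y h1 h2 h, hg.1 x y h1 h2 h]
  · rw [norm_mul]
    exact mul_le_one₀ (hf.2 x) (norm_nonneg _) (hg.2 x)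

theorem Wt.comp_mul {f : O → ℂ} (hf : Wt f) (a : O) : Wt (fun x => f (a * x)) := by
  refine ⟨fun x y h1 h2 h => ?_, fun x => hf.2 _⟩
  by_cases ha : a = 0
  · simp only [ha, zero_mul]
  · exact hf.1 _ _ (mul_ne_zero ha h1) (mul_ne_zero ha h2)
      (by rw [Ar.cls_mul _ _ ha h1, Ar.cls_mul _ _ ha h2, h])

theorem Wt.conj {f : O → ℂ} (hf : Wt f) : Wt (fun x => (starRingEnd ℂ) (f x)) := by
  refine ⟨fun x y h1 h2 h => ?_, fun x => ?_⟩
  · simp only [hf.1 x y h1 h2 h]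
  · rw [Complex.norm_conj]; exact hf.2 x

theorem wt_class (c : G O) : Wt (fun x : O => if cls x = c then 1 else 0) := by
  refine ⟨fun x y _ _ h => by simp only [h], fun x => ?_⟩
  dsimp only
  split_ifs <;> simp

theorem wt_one : Wt (fun _ : O => (1 : ℂ)) := ⟨fun _ _ _ _ _ => rfl, fun _ => by simp⟩

theorem wt_eps_left (a : O) (k : ℕ) : Wt (fun x : O => eps x a ^ k) := ⟨fun x y _ _ h => by simp only [eps, h], fun x => by
    simp only [eps, norm_pow, Ar.norm_epsG, one_pow, le_refl]⟩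

theorem wt_eps_right (a : O) (k : ℕ) : Wt (fun x : O => eps a x ^ k) := ⟨fun x y _ _ h => by simp only [eps, h], fun x => by
    simp only [eps, norm_pow, Ar.norm_epsG, one_pow, le_refl]⟩

theorem sum_class (n : O) (z : ℂ) : ∑ c : G O, (if cls n = c then z else 0) = z := by
  simp

theorem norm_eps (a b : O) : ‖eps a b‖ = 1 := Ar.norm_epsG _ _

theorem eps_congr {a a' b b' : O} (h : cls a = cls a') (h' : cls b = cls b') :
    eps a b = eps a' b' := by
  simp only [eps, h, h']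

theorem chi6_flip {a b : O} (ha : a ≠ 0) (hb : b ≠ 0) : chi6 a b = eps a b * chi6 b a := Ar.chi6_flip a b ha hb

theorem sym2_flip {a b : O} (ha : a ≠ 0) (hb : b ≠ 0) : sym2 a b = eps a b ^ 3 * sym2 b a := by
  rw [sym2, sym2, chi6_flip ha hb, mul_pow]

theorem chi6_mul_left (x y : O) {n : O} (hn : n ≠ 0) :
    chi6 (x * y) n = chi6 x n * chi6 y n := Ar.chi6_mul_left x y n hn

theorem bas_chi6_one_left {n : O} (hn : n ≠ 0) : chi6 1 n = 1 := by
  have h1 := chi6_mul_left 1 1 hn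
  have h2 := Ar.chi6_pow_six 1 n hn
  rw [if_pos isRelPrime_one_left] at h2
  rw [mul_one] at h1
  have h3 : chi6 1 n ≠ 0 := fun c => by rw [c] at h2; simp at h2
  exact (mul_eq_left₀ h3).1 h1.symm

theorem chi6_pow_left (x : O) {n : O} (hn : n ≠ 0) (k : ℕ) :
    chi6 (x ^ k) n = chi6 x n ^ k := by
  induction k with
  | zero => rw [pow_zero, pow_zero, bas_chi6_one_left hn]
  | succ k ih => rw [pow_succ, pow_succ, chi6_mul_left _ _ hn, ih]

theorem chi6_mul_right (x : O) {n m : O} (hn : n ≠ 0) (hm : m ≠ 0) :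
    chi6 x (n * m) = chi6 x n * chi6 x m := Ar.chi6_mul_right x n m hn hm

theorem chi6_one_right (x : O) : chi6 x 1 = 1 := Ar.chi6_unit_right x 1 isUnit_one

theorem norm_chi6_le (x n : O) : ‖chi6 x n‖ ≤ 1 := by
  by_cases hn : n = 0
  · rw [hn]; exact Ar.chi6_zero_right x
  have h := congrArg norm (Ar.chi6_pow_six x n hn)
  rw [norm_pow] at h
  refine (pow_le_one_iff_of_nonneg (norm_nonneg _) (by norm_num : 6 ≠ 0)).1 (h.le.trans ?_)
  split_ifs <;> simp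

theorem norm_chi6 {x n : O} (hn : n ≠ 0) (h : IsRelPrime x n) : ‖chi6 x n‖ = 1 := by
  have h1 := congrArg norm (Ar.chi6_pow_six x n hn)
  rw [norm_pow, if_pos h, norm_one] at h1
  exact (pow_eq_one_iff_of_nonneg (norm_nonneg _) (by norm_num)).1 h1

theorem chi6_eq_zero_iff {x n : O} (hn : n ≠ 0) : chi6 x n = 0 ↔ ¬ IsRelPrime x n := by
  constructor
  · intro h c
    have := norm_chi6 hn c
    rw [h, norm_zero] at this
    exact zero_ne_one this
  · intro h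
    have h1 := Ar.chi6_pow_six x n hn
    rw [if_neg h] at h1
    exact pow_eq_zero_iff (by norm_num) |>.1 h1

theorem chi6_pow_six {x n : O} (hn : n ≠ 0) :
    chi6 x n ^ 6 = if IsRelPrime x n then 1 else 0 := Ar.chi6_pow_six x n hn

theorem chi6_pow_add_six (x : O) {n : O} (hn : n ≠ 0) {k : ℕ} (hk : 1 ≤ k) :
    chi6 x n ^ (k + 6) = chi6 x n ^ k := by
  rw [pow_add, chi6_pow_six hn]
  split_ifs with h
  · rw [mul_one]
  · rw [(chi6_eq_zero_iff hn).2 h, zero_pow (by omega), mul_zero]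

theorem chi6_pow_five (x : O) {n : O} (hn : n ≠ 0) : chi6 x n ^ 5 = conj (chi6 x n) := by
  by_cases h : IsRelPrime x n
  · have h1 := chi6_pow_six (x := x) hn
    rw [if_pos h] at h1
    have h2 : conj (chi6 x n) * chi6 x n = 1 := by
      rw [Complex.conj_mul', norm_chi6 hn h]; simp
    linear_combination (-(chi6 x n ^ 5)) * h2 + conj (chi6 x n) * h1
  · rw [(chi6_eq_zero_iff hn).2 h]; simp

theorem conj_chi6_pow (x : O) {n : O} (hn : n ≠ 0) {k : ℕ} (h1 : 1 ≤ k) (h5 : k ≤ 5) :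
    conj (chi6 x n ^ k) = chi6 x n ^ (6 - k) := by
  by_cases h : IsRelPrime x n
  · have h6 := chi6_pow_six (x := x) hn
    rw [if_pos h] at h6
    have h2 : conj (chi6 x n ^ k) * chi6 x n ^ k = 1 := by
      rw [Complex.conj_mul', norm_pow, norm_chi6 hn h]; simp
    have h3 : chi6 x n ^ k * chi6 x n ^ (6 - k) = 1 := by
      rw [← pow_add, show k + (6 - k) = 6 by omega, h6]
    linear_combination (-conj (chi6 x n ^ k)) * h3 + chi6 x n ^ (6 - k) * h2
  · rw [(chi6_eq_zero_iff hn).2 h, zero_pow (by omega), zero_pow (by omega), map_zero]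

theorem chi6_cube (x : O) {n : O} (hn : n ≠ 0) : chi6 x n ^ 3 = sym2 x n := rfl

theorem sym2_mul_left (x y : O) {n : O} (hn : n ≠ 0) :
    sym2 (x * y) n = sym2 x n * sym2 y n := by
  rw [sym2, sym2, sym2, chi6_mul_left _ _ hn, mul_pow]

theorem sym2_mul_right (x : O) {n m : O} (hn : n ≠ 0) (hm : m ≠ 0) :
    sym2 x (n * m) = sym2 x n * sym2 x m := by
  rw [sym2, sym2, sym2, chi6_mul_right _ hn hm, mul_pow]

theorem sym2_pow_left (x : O) {n : O} (hn : n ≠ 0) (k : ℕ) :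
    sym2 (x ^ k) n = sym2 x n ^ k := by
  rw [sym2, sym2, chi6_pow_left _ hn, ← pow_mul, ← pow_mul, mul_comm]

theorem sym2_unit_right (x : O) {u : O} (hu : IsUnit u) : sym2 x u = 1 := by
  rw [sym2, Ar.chi6_unit_right x u hu, one_pow]

theorem sym2_eq_zero_iff {x n : O} (hn : n ≠ 0) : sym2 x n = 0 ↔ ¬ IsRelPrime x n := by
  rw [sym2, pow_eq_zero_iff (by norm_num), chi6_eq_zero_iff hn]

theorem sym2_sq {x n : O} (hn : n ≠ 0) (h : IsRelPrime x n) : sym2 x n ^ 2 = 1 := by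
  rw [sym2, ← pow_mul, chi6_pow_six hn, if_pos h]

theorem sym2_cases (x : O) {n : O} (hn : n ≠ 0) : sym2 x n = 0 ∨ sym2 x n = 1 ∨ sym2 x n = -1 := by
  by_cases h : IsRelPrime x n
  · exact Or.inr (sq_eq_one_iff.1 (sym2_sq hn h))
  · exact Or.inl ((sym2_eq_zero_iff hn).2 h)

theorem conj_sym2 (x : O) {n : O} (hn : n ≠ 0) : conj (sym2 x n) = sym2 x n := conj_chi6_pow x hn (by norm_num) (by norm_num)

theorem norm_sym2_le (x n : O) : ‖sym2 x n‖ ≤ 1 := by
  rw [sym2, norm_pow]; exact pow_le_one₀ (norm_nonneg _) (norm_chi6_le _ _)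

theorem norm_sym2 {x n : O} (hn : n ≠ 0) (h : IsRelPrime x n) : ‖sym2 x n‖ = 1 := by
  rw [sym2, norm_pow, norm_chi6 hn h, one_pow]

theorem chi6_one_left {n : O} (hn : n ≠ 0) : chi6 1 n = 1 := bas_chi6_one_left hn

theorem sym2_one_left {n : O} (hn : n ≠ 0) : sym2 1 n = 1 := by
  rw [sym2, chi6_one_left hn, one_pow]

theorem chi6_unit_right (x : O) {u : O} (hu : IsUnit u) : chi6 x u = 1 := Ar.chi6_unit_right x u hu

theorem chi6_zero_left {n : O} (hn : n ≠ 0) (h : ¬ IsUnit n) : chi6 0 n = 0 := (chi6_eq_zero_iff hn).2 fun c => h (c (dvd_zero n) dvd_rfl)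

theorem norm_gt {n : O} (hn : NN n) {k : ℕ} (h1 : 1 ≤ k) (h5 : k ≤ 5) : ‖gt k n‖ = 1 := Ar.norm_gt k n hn.2 h1 h5

theorem gt_mul {a b : O} (ha : NN a) (hb : NN b) (hab : IsRelPrime a b) (k : ℕ) :
    gt k (a * b) = gt k a * gt k b * chi6 a b ^ k * chi6 b a ^ k := Ar.gt_mul k a b ha.2 hb.2 hab

theorem gt_one (k : ℕ) : gt k (1 : O) = 1 := Ar.gt_one k

theorem gt_five {n : O} (hn : NN n) : gt 5 n = conj (gt 1 n) := Ar.gt_five n hn.2

end

end Vale.Agent.P319N.Ab
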