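import Vale.Agent.P319N.AWb
import Vale.Agent.P319N.ADiv
import Vale.Agent.P026.Cop

namespace Vale.Agent.P319N.Ab

open Complex MeasureTheory Filter Topology
open scoped Classical ComplexConjugate Real
open Vale.Agent.P026 (W DualW)

noncomputable section

variable {O : Type} [CommMonoidWithZero O] [UniqueFactorizationMonoid O] [Ar O]


theorem cop_coef {ω : O → ℂ} (hω : Wt ω) (n : O) (_ : NN n) : ‖mu n * ω n‖ ≤ 1 := by
  rw [norm_mul]
  exact mul_le_one₀ (norm_mu_le n) (norm_nonneg _) (hω.2 n)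

theorem cop_chi (m k : O) {n : O} (hn : NN n) :
    chi6 (m * k ^ 6) n = if IsRelPrime k n then chi6 m n else 0 := by
  rw [chi6_mul_left _ _ hn.ne_zero, chi6_pow_left _ hn.ne_zero, chi6_pow_six hn.ne_zero]
  split_ifs <;> simp

theorem cop_id {ω : O → ℂ} (hω : Wt ω) {p : O} (hp : Prime p) (hN : NN p) {X : ℝ}
    (hX : 0 < X) (w : ℂ) (m : O) : A ω X w (m * p ^ 6) =
      A ω X w m + chi6 m p * A (fun x => ω (p * x)) (X / N p) w (m * p ^ 6) := by
  have hs := summable_AA (cop_coef hω) 1 hX w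
  rw [← sub_eq_iff_eq_add', A, A, A, AA, AA, AA, ← (hs _).tsum_sub (hs _), ← tsum_mul_left,
    ← (mul_right_injective₀ hp.ne_zero).tsum_eq]
  · refine tsum_congr fun n => ?_
    by_cases h : NN (p * n)
    · obtain ⟨-, h1, h2⟩ := (nn_mul_iff hN.1 (h.1.of_mul hN.1)).1 h
      rw [if_pos h, if_pos h, if_pos h1, cop_chi _ _ h, cop_chi _ _ h1, if_pos h2, if_neg fun e =>
        hp.not_isUnit (e dvd_rfl (dvd_mul_right _ _)), mu_mul h2, mu_prime hp,
        chi6_mul_right _ hp.ne_zero h1.ne_zero, N_mul, div_div_eq_mul_div, mul_comm (N p)]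
      ring
    · rw [if_neg h, if_neg h, sub_zero]
      split_ifs with h1
      · rw [cop_chi _ _ h1, if_neg fun e => h ((nn_mul_iff hN.1 h1.1).2 ⟨hN, h1, e⟩)]
        simp
      · simp
  · intro n hn
    by_contra h
    apply hn
    beta_reduce
    split_ifs with h1
    · rw [cop_chi _ _ h1, if_pos (hp.irreducible.isRelPrime_iff_not_dvd.2 fun ⟨c, e⟩ => h ⟨c, e.symm⟩), sub_self]
    · simp

theorem cop_add (S : Finset O) (f g : O → ℂ) :
    √(∑ m ∈ S, ‖f m + g m‖ ^ 2) ≤ √(∑ m ∈ S, ‖f m‖ ^ 2) + √(∑ m ∈ S, ‖g m‖ ^ 2) := by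
  have := norm_add_le (WithLp.toLp 2 fun m : S => f m : EuclideanSpace ℂ S)
    (WithLp.toLp 2 fun m : S => g m)
  simp only [EuclideanSpace.norm_eq, PiLp.add_apply] at this
  rwa [Finset.sum_coe_sort S fun m => ‖f m + g m‖ ^ 2, Finset.sum_coe_sort S fun m => ‖f m‖ ^ 2,
    Finset.sum_coe_sort S fun m => ‖g m‖ ^ 2] at this

theorem cop_step (S : Finset O) (w : ℂ) (k : O) {p : O} (hp : Prime p) (hN : NN p)
    {Z D : ℝ} {e : ℝ → ℝ} (hD : 0 ≤ D) (e0 : ∀ X, 0 ≤ e X)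
    (he : ∀ X, 0 < X → e (X / N p) ≤ N p ^ (-(1 / 2) : ℝ) * e X)
    (h : ∀ X ω, 0 < X → X ≤ Z → Wt ω → √(∑ m ∈ S, ‖A ω X w (m * k)‖ ^ 2) ≤ D * e X)
    (X : ℝ) (ω : O → ℂ) (hX : 0 < X) (hZ : X ≤ Z) (hω : Wt ω) :
    √(∑ m ∈ S, ‖A ω X w (m * k * p ^ 6)‖ ^ 2) ≤ (1 - N p ^ (-(1 / 2) : ℝ))⁻¹ * D * e X := by
  obtain ⟨C, C0, hC⟩ := norm_AA_le (O := O) (le_refl 1) |w.re|
  have p1 : 1 < N p := one_lt_two.trans_le (div_two_le_N hp)
  obtain ⟨ρ, hρ⟩ : ∃ ρ, ρ = N p ^ (-(1 / 2) : ℝ) := ⟨_, rfl⟩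
  have ρ0 : 0 ≤ ρ := by rw [hρ]; positivity
  have ρ1 : ρ < 1 := hρ ▸ Real.rpow_lt_one_of_one_lt_of_neg p1 (by norm_num)
  have ρ2 : (N p)⁻¹ ≤ ρ := by
    rw [hρ, ← Real.rpow_neg_one]
    exact Real.rpow_le_rpow_of_exponent_le p1.le (by norm_num)
  have ρ3 := sub_pos.2 ρ1
  rw [← hρ] at he ⊢
  have key : ∀ (J : ℕ) X ω, 0 < X → X ≤ Z → Wt ω → √(∑ m ∈ S, ‖A ω X w (m * k * p ^ 6)‖ ^ 2) ≤
      (1 - ρ)⁻¹ * D * e X + √S.card * C * X * ρ ^ J := by
    intro J
    induction J with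
    | zero =>
      intro X ω hX _ hω
      refine le_add_of_nonneg_of_le (by have := e0 X; positivity) (Real.sqrt_le_iff.2
        ⟨by positivity, (Finset.sum_le_card_nsmul _ _ ((C * X) ^ 2) fun m _ => ?_).trans_eq ?_⟩)
      · gcongr
        simpa [A] using hC _ 1 X w _ (cop_coef hω) hX le_rfl
      · rw [nsmul_eq_mul, pow_zero, mul_one, mul_assoc, mul_pow (√_), Real.sq_sqrt (by positivity)]
    | succ J ih =>
      intro X ω hX hZ hω
      simp only [cop_id hω hp hN hX]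
      have k1 := ih (X / N p) _ (by positivity) ((div_le_self hX.le p1.le).trans hZ) (hω.comp_mul p)
      have k2 : √(∑ m ∈ S, ‖chi6 (m * k) p * A (fun x => ω (p * x)) (X / N p) w
          (m * k * p ^ 6)‖ ^ 2) ≤ _ := (Real.sqrt_le_sqrt (Finset.sum_le_sum fun m _ => by
        gcongr
        rw [norm_mul]
        exact mul_le_of_le_one_left (norm_nonneg _) (norm_chi6_le _ _))).trans k1
      refine (cop_add S _ _).trans ((add_le_add (h X ω hX hZ hω) k2).trans ?_)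
      calc _ ≤ D * e X + ((1 - ρ)⁻¹ * D * (ρ * e X) + √S.card * C * (X * ρ) * ρ ^ J) := by
            gcongr
            · exact he X hX
            · rw [div_eq_mul_inv]; gcongr
        _ = _ := by field_simp; ring
  have := ((tendsto_pow_atTop_nhds_zero_of_lt_one ρ0 ρ1).const_mul (√S.card * C * X)).const_add
    ((1 - ρ)⁻¹ * D * e X)
  rw [mul_zero, add_zero] at this
  exact ge_of_tendsto' this fun J => key J X ω hX hZ hω

theorem cop_eq (ω : O → ℂ) (X : ℝ) (w : ℂ) (m : O) {k : O} (hk : k ≠ 0) :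
    A ω X w (m * k ^ 6) = A ω X w (m * (∏ p ∈ (divs k).filter Prime, p) ^ 6) := by
  refine tsum_congr fun n => ?_
  split_ifs with hn
  · rw [cop_chi _ _ hn, cop_chi _ _ hn]
    congr 3
    refine if_congr ⟨fun h => IsRelPrime.prod_left fun p hp => h.of_dvd_left
      ((mem_divs hk).1 (Finset.mem_filter.1 hp).1).2, fun h => ?_⟩ rfl rfl
    refine (isCoprime_iff_no_prime (Or.inl hk)).2 fun q hq h1 h2 => ?_
    obtain ⟨p, hp, hP, e⟩ := div_prim_prime hn.1 hq h2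
    exact hp.not_isUnit (h (Finset.dvd_prod_of_mem _ (Finset.mem_filter.2
      ⟨(mem_divs hk).2 ⟨hn.of_dvd hP (e.dvd.trans h2), e.dvd.trans h1⟩, hp⟩)) (e.dvd.trans h2))
  · rfl

theorem ha6_of_ha {γ : ℝ} (hγ : 1 ≤ γ) (h : HA O γ) : HA6 O γ := by
  intro ε hε R0
  obtain ⟨C, C0, hC⟩ := h (ε / 2) (by positivity) R0
  obtain ⟨D, D0, hD⟩ := prod_cop_le (O := O) (ε := ε / 4) (by positivity)
  refine ⟨D ^ 2 * C + C, by positivity, ?_⟩
  intro Z X Y w ω k hZ hX hXZ hY hYZ hw hω hk hkZ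
  have f0 : ∀ p : O, Prime p → 0 ≤ (1 - N p ^ (-(1 / 2) : ℝ))⁻¹ := fun p hp => inv_nonneg.2 (sub_nonneg.2
    (Real.rpow_le_one_of_one_le_of_nonpos (one_le_N hp.ne_zero) (by norm_num)))
  have key : ∀ s : Finset O, (∀ p ∈ s, Prime p ∧ NN p) → ∀ X ω, 0 < X → X ≤ Z → Wt ω →
      √(∑ m ∈ ballO O Y, ‖A ω X w (m * (∏ p ∈ s, p) ^ 6)‖ ^ 2) ≤
        (∏ p ∈ s, (1 - N p ^ (-(1 / 2) : ℝ))⁻¹) *
          √(C * Real.exp (C * |w.im|) * Z ^ (ε / 2) * (X * Y + X ^ γ)) := by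
    intro s
    induction s using Finset.induction_on with
    | empty =>
      intro _ X ω hX hXZ hω
      simp only [Finset.prod_empty, one_pow, mul_one, one_mul]
      exact Real.sqrt_le_sqrt (hC Z X Y w ω hZ hX hXZ hY hYZ hw hω)
    | insert p s hp ih =>
      intro hs
      have h1 := hs p (Finset.mem_insert_self _ _)
      have h2 : ∀ p ∈ s, Prime p ∧ NN p := fun p hp => hs p (Finset.mem_insert_of_mem hp)
      simp only [Finset.prod_insert hp, mul_pow, mul_comm (p ^ 6), ← mul_assoc]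
      refine cop_step _ w _ h1.1 h1.2 (Finset.prod_nonneg fun p hp => f0 p (h2 p hp).1)
        (fun _ => Real.sqrt_nonneg _) (fun X hX => ?_) (ih h2)
      have p1 := one_le_N h1.1.ne_zero
      rw [Real.rpow_neg (by positivity), ← Real.sqrt_eq_rpow, ← Real.sqrt_inv,
        ← Real.sqrt_mul (by positivity), mul_left_comm (N p)⁻¹, mul_add (N p)⁻¹,
        Real.div_rpow hX.le (by positivity)]
      gcongr √(_ * (?_ + ?_))
      · exact le_of_eq (by ring)
      · rw [inv_mul_eq_div]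
        gcongr
        exact Real.self_le_rpow_of_one_le p1 hγ
  have k1 := key _ (fun p hp => ⟨(Finset.mem_filter.1 hp).2,
    ((mem_divs hk).1 (Finset.mem_filter.1 hp).1).1⟩) X ω hX hXZ hω
  simp only [← cop_eq _ _ _ _ hk] at k1
  have k2 := (hD k hk).trans (mul_le_mul_of_nonneg_left
    (Real.rpow_le_rpow (N_nonneg k) hkZ (by positivity)) D0.le)
  have k3 := (Real.sqrt_le_left (by positivity)).1
    (k1.trans (mul_le_mul_of_nonneg_right k2 (Real.sqrt_nonneg _)))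
  have e : (Z ^ (ε / 4)) ^ 2 * Z ^ (ε / 2) = Z ^ ε := by
    rw [sq, ← Real.rpow_add (by positivity), ← Real.rpow_add (by positivity)]
    congr 1; ring
  rw [mul_pow, mul_pow, Real.sq_sqrt (by positivity)] at k3
  calc _ ≤ _ := k3
    _ = D ^ 2 * C * Real.exp (C * |w.im|) * ((Z ^ (ε / 4)) ^ 2 * Z ^ (ε / 2)) * (X * Y + X ^ γ) := by
        ring
    _ ≤ _ := by
        rw [e]
        have : 0 ≤ D ^ 2 * C := by positivity
        gcongr <;> linarith

end

end Vale.Agent.P319N.Ab
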