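import Vale.Agent.P319N.APV
import Vale.Agent.P026.Dual

namespace Vale.Agent.P319N.Ab

open Complex MeasureTheory Filter Topology
open scoped Classical ComplexConjugate Real
open Vale.Agent.P026 (W DualW)
open Vale.Agent.P026 (dual_cover duality dual_split)

noncomputable section

variable {O : Type} [CommMonoidWithZero O] [UniqueFactorizationMonoid O] [Ar O]


theorem dual_flip {S T : Finset O} {D : ℝ} (φ φ' : O → O → ℂ) (ψ : O → G O → ℂ)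
    (hψ : ∀ m c, ‖ψ m c‖ = 1) (e : ∀ m ∈ S, ∀ n ∈ T, φ' m n = ψ m (cls n) * φ m n)
    (h : ∀ a : O → ℂ, ∑ m ∈ S, ‖∑ n ∈ T, a n * φ m n‖ ^ 2 ≤ D * ∑ n ∈ T, ‖a n‖ ^ 2)
    (a : O → ℂ) :
    ∑ m ∈ S, ‖∑ n ∈ T, a n * φ' m n‖ ^ 2 ≤
      (Fintype.card (G O) : ℝ) * D * ∑ n ∈ T, ‖a n‖ ^ 2 := by
  refine dual_split S T Finset.univ cls (fun n _ => Finset.mem_univ _) φ' a fun c _ =>
    le_trans (Finset.sum_le_sum fun m hm => le_of_eq ?_) (h _)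
  have : ∑ n ∈ T, (if cls n = c then a n else 0) * φ' m n =
      ψ m c * ∑ n ∈ T, (if cls n = c then a n else 0) * φ m n := by
    rw [Finset.mul_sum]
    refine Finset.sum_congr rfl fun n hn => ?_
    split_ifs with h1
    · rw [e m hm n hn, h1]; ring
    · simp
  rw [this, norm_mul, hψ, one_mul]

theorem flip_ls {S T : Finset O} (hS : ∀ m ∈ S, m ≠ 0) (hT : ∀ n ∈ T, n ≠ 0) {D : ℝ}
    (hD : 0 ≤ D)
    (h : ∀ a : O → ℂ, ∑ m ∈ S, ‖∑ n ∈ T, a n * sym2 m n‖ ^ 2 ≤ D * ∑ n ∈ T, ‖a n‖ ^ 2)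
    (a : O → ℂ) :
    ∑ m ∈ S, ‖∑ n ∈ T, a n * sym2 n m‖ ^ 2 ≤ (Fintype.card (G O) : ℝ) * D * ∑ n ∈ T, ‖a n‖ ^ 2 := by
  have _ := hD
  exact dual_flip (fun m n => sym2 m n) (fun m n => sym2 n m) (fun m c => epsG c (cls m) ^ 3)
    (fun m c => by rw [norm_pow, Ar.norm_epsG, one_pow])
    (fun m hm n hn => sym2_flip (hT n hn) (hS m hm)) h a

theorem flip_ls' {S T : Finset O} (hS : ∀ m ∈ S, m ≠ 0) (hT : ∀ n ∈ T, n ≠ 0) {D : ℝ}
    (hD : 0 ≤ D)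
    (h : ∀ a : O → ℂ, ∑ m ∈ S, ‖∑ n ∈ T, a n * sym2 n m‖ ^ 2 ≤ D * ∑ n ∈ T, ‖a n‖ ^ 2)
    (a : O → ℂ) :
    ∑ m ∈ S, ‖∑ n ∈ T, a n * sym2 m n‖ ^ 2 ≤ (Fintype.card (G O) : ℝ) * D * ∑ n ∈ T, ‖a n‖ ^ 2 := by
  have _ := hD
  exact dual_flip (fun m n => sym2 n m) (fun m n => sym2 m n) (fun m c => epsG (cls m) c ^ 3)
    (fun m c => by rw [norm_pow, Ar.norm_epsG, one_pow])
    (fun m hm n hn => sym2_flip (hS m hm) (hT n hn)) h a

theorem dual_odd {R : ℝ} : ∀ n ∈ ballN O R, n ≠ 0 := fun _ hn => (mem_ballN.1 hn).1.ne_zero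

theorem dual_sub (R : ℝ) : ballN O R ⊆ ballO O R := Finset.filter_subset _ _

theorem ls0 {ε : ℝ} (hε : 0 < ε) : ∃ C : ℝ, 0 < C ∧ ∀ (Z R K : ℝ) (a : O → ℂ),
    1 ≤ Z → 0 < R → 0 < K → K ≤ Z →
    ∑ b ∈ (ballO O K).filter Squarefree, ‖∑ n ∈ ballN O R, a n * sym2 b n‖ ^ 2 ≤
      C * Z ^ ε * (R + K ^ 2) * ∑ n ∈ ballN O R, ‖a n‖ ^ 2 := by
  obtain ⟨C, C0, hC⟩ := pv_sym2 (O := O) hε
  refine ⟨((ballO O 1).card + 1) * (Fintype.card (G O) : ℝ) * C, by positivity, fun Z R K a hZ hR hK hKZ => ?_⟩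
  have D0 : 0 ≤ C * Z ^ ε * (R + K ^ 2) := by positivity
  have h1 := flip_ls' (S := ballN O K) (T := ballN O R) dual_odd dual_odd D0
    (duality (ballN O K) (ballN O R) (fun i j => sym2 j i) D0 fun c =>
      (Finset.sum_le_sum_of_subset_of_nonneg (dual_sub R) fun _ _ _ => by positivity).trans
        (hC Z K R c hZ hK hKZ hR))
  have A0 : 0 ≤ ∑ n ∈ ballN O R, ‖a n‖ ^ 2 := Finset.sum_nonneg fun _ _ => by positivity
  refine (dual_cover _ (ballO O 1 ×ˢ ballN O K) (fun p => p.1 * p.2)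
    (fun b => ‖∑ n ∈ ballN O R, a n * sym2 b n‖ ^ 2) (fun _ => by positivity) fun b hb => ?_).trans ?_
  · obtain ⟨hb1, hb2⟩ := Finset.mem_filter.1 hb
    obtain ⟨u, b0, hu, h0, rfl⟩ := sqfree_decomp hb2
    obtain ⟨n0, n1⟩ := mem_ballO'.1 hb1
    exact ⟨(u, b0), Finset.mem_product.2 ⟨mem_ballO_one.2 hu,
      mem_ballN.2 ⟨h0, le_trans (N_le_of_dvd (dvd_mul_left _ _) n0) n1⟩⟩, rfl⟩
  · rw [Finset.sum_product]
    calc ∑ s ∈ ballO O 1, ∑ b ∈ ballN O K, ‖∑ n ∈ ballN O R, a n * sym2 (s * b) n‖ ^ 2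
        ≤ ∑ s ∈ ballO O 1, (Fintype.card (G O) : ℝ) * (C * Z ^ ε * (R + K ^ 2)) * ∑ n ∈ ballN O R, ‖a n‖ ^ 2 := by
          refine Finset.sum_le_sum fun s _ => le_trans (le_of_eq ?_)
            ((h1 fun n => a n * sym2 s n).trans (mul_le_mul_of_nonneg_left
              (Finset.sum_le_sum fun n _ => ?_) (by positivity)))
          · refine Finset.sum_congr rfl fun b _ => ?_
            congr 2
            exact Finset.sum_congr rfl fun n hn => by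
              rw [sym2_mul_left _ _ (dual_odd n hn), mul_assoc]
          · rw [norm_mul]
            exact pow_le_pow_left₀ (by positivity)
              (mul_le_of_le_one_right (norm_nonneg _) (norm_sym2_le _ _)) 2
      _ ≤ _ := by
          rw [Finset.sum_const, nsmul_eq_mul]
          nlinarith [mul_nonneg (Nat.cast_nonneg (α := ℝ) (Fintype.card (G O))) (mul_nonneg D0 A0)]

end

end Vale.Agent.P319N.Ab
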