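import Vale.Agent.P319N.ADiv

namespace Vale.Agent.P319N.Ab

open Complex MeasureTheory Filter Topology
open scoped Classical ComplexConjugate Real
open Vale.Agent.P026 (W DualW)

noncomputable section

variable {O : Type} [CommMonoidWithZero O] [UniqueFactorizationMonoid O] [Ar O]


theorem gm_of_dvd {R : ℝ} {m d : O} (hm : m ∈ ballN O R) (hd : Prim d) (h : d ∣ m) :
    d ∈ ballN O R := by
  rw [mem_ballN] at hm ⊢
  exact ⟨hm.1.of_dvd hd h, (N_le_of_dvd h hm.1.ne_zero).trans hm.2⟩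

theorem gm_prim {R : ℝ} {m : O} (hm : m ∈ ballN O R) : Prim m := (mem_ballN.1 hm).1.1

theorem gm_reindex {M : Type*} [AddCommMonoid M] (R : ℝ) {e : O} (he : Prim e) (φ : O → M) :
    ∑ g ∈ ballN O R, (if e ∣ g then φ g else 0) =
      ∑ g ∈ ballN O R, if e * g ∈ ballN O R then φ (e * g) else 0 := by
  rw [← Finset.sum_filter, ← Finset.sum_filter]
  symm
  refine Finset.sum_bij (fun g _ => e * g) (fun g hg => ?_) (fun g _ g' _ h => ?_)
    (fun m hm => ?_) fun _ _ => rfl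
  · exact Finset.mem_filter.2 ⟨(Finset.mem_filter.1 hg).2, dvd_mul_right _ _⟩
  · exact mul_left_cancel₀ he.ne_zero h
  · obtain ⟨hm, g, rfl⟩ := Finset.mem_filter.1 hm
    exact ⟨g, Finset.mem_filter.2 ⟨gm_of_dvd hm ((gm_prim hm).of_mul he) (dvd_mul_left _ _), hm⟩,
      rfl⟩

theorem gm_dvd {g g' a b : O} (h : IsRelPrime a b) (h1 : g ∣ g' * a) (h2 : g ∣ g' * b) :
    g ∣ g' := by
  letI := UniqueFactorizationMonoid.toGCDMonoid O
  have h3 := (dvd_gcd h1 h2).trans (gcd_mul_left' g' a b).dvd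
  exact (gcd_isUnit_iff_isRelPrime.2 h).dvd_mul_right.1 h3

theorem gm_gcd (R : ℝ) (F : O → O → ℂ) :
    ∑ n1 ∈ ballN O R, ∑ n2 ∈ ballN O R, F n1 n2 =
      ∑ g ∈ ballN O R, ∑ n1 ∈ ballN O R, ∑ n2 ∈ ballN O R,
        if g * n1 ∈ ballN O R ∧ g * n2 ∈ ballN O R ∧ IsRelPrime n1 n2 then F (g * n1) (g * n2)
        else 0 := by
  have e : ∑ g ∈ ballN O R, ∑ n1 ∈ ballN O R, ∑ n2 ∈ ballN O R,
      (if g * n1 ∈ ballN O R ∧ g * n2 ∈ ballN O R ∧ IsRelPrime n1 n2 then F (g * n1) (g * n2) else 0) =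
      ∑ t ∈ (ballN O R ×ˢ ballN O R ×ˢ ballN O R).filter (fun t => t.1 * t.2.1 ∈ ballN O R ∧
        t.1 * t.2.2 ∈ ballN O R ∧ IsRelPrime t.2.1 t.2.2), F (t.1 * t.2.1) (t.1 * t.2.2) := by
    simp only [Finset.sum_filter, Finset.sum_product]
  rw [e, ← Finset.sum_product']
  symm
  refine Finset.sum_bij (fun t _ => (t.1 * t.2.1, t.1 * t.2.2)) (fun t ht => ?_)
    (fun t ht t' ht' h => ?_) (fun m hm => ?_) fun _ _ => rfl
  · obtain ⟨-, h1, h2, -⟩ := Finset.mem_filter.1 ht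
    exact Finset.mem_product.2 ⟨h1, h2⟩
  · obtain ⟨g, a, b⟩ := t
    obtain ⟨g', a', b'⟩ := t'
    simp only [Finset.mem_filter, Finset.mem_product, Prod.mk.injEq] at ht ht' h ⊢
    obtain ⟨⟨hg, -⟩, -, -, huv⟩ := ht
    obtain ⟨⟨hg', -⟩, -, -, huv'⟩ := ht'
    have hgg : g = g' := (gm_prim hg).eq_of_associated (gm_prim hg') (associated_of_dvd_dvd
      (gm_dvd huv' ⟨a, h.1.symm⟩ ⟨b, h.2.symm⟩) (gm_dvd huv ⟨a', h.1⟩ ⟨b', h.2⟩))
    subst hgg
    exact ⟨rfl, mul_left_cancel₀ (gm_prim hg).ne_zero h.1,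
      mul_left_cancel₀ (gm_prim hg).ne_zero h.2⟩
  · obtain ⟨m1, m2⟩ := m
    obtain ⟨h1, h2⟩ := Finset.mem_product.1 hm
    obtain ⟨g, hg, ⟨a, ha⟩, ⟨b, hb⟩, hmax⟩ := exists_prim_gcd (gm_prim h1) m2
    simp only at h1 h2 ha
    subst ha hb
    have pa := (gm_prim h1).of_mul hg
    refine ⟨(g, a, b), ?_, rfl⟩
    simp only [Finset.mem_filter, Finset.mem_product]
    refine ⟨⟨gm_of_dvd h1 hg (dvd_mul_right _ _), gm_of_dvd h1 pa (dvd_mul_left _ _),
      gm_of_dvd h2 ((gm_prim h2).of_mul hg) (dvd_mul_left _ _)⟩, h1, h2, ?_⟩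
    refine (isCoprime_iff_no_prime (Or.inl pa.ne_zero)).2 fun p hp ha hb => hp.not_unit ?_
    have := hmax (g * p) (mul_dvd_mul_left g ha) (mul_dvd_mul_left g hb)
    exact isUnit_of_dvd_one ((mul_dvd_mul_iff_left hg.ne_zero).1 (by rwa [mul_one]))

theorem gm_divs {R : ℝ} {g : O} (hg : g ∈ ballN O R) (φ : O → ℂ) :
    ∑ e ∈ divs g, φ e = ∑ e ∈ ballN O R, if e ∣ g then φ e else 0 := by
  rw [← Finset.sum_filter]
  refine Finset.sum_congr ?_ fun _ _ => rfl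
  ext e
  rw [mem_divs (gm_prim hg).ne_zero, Finset.mem_filter]
  exact ⟨fun h => ⟨gm_of_dvd hg h.1.1 h.2, h.2⟩, fun h => ⟨(mem_ballN.1 h.1).1, h.2⟩⟩

theorem gm_comm (B : Finset O) (X : O → O → O → O → ℂ) :
    ∑ a ∈ B, ∑ b ∈ B, ∑ c ∈ B, ∑ d ∈ B, X a b c d =
      ∑ d ∈ B, ∑ a ∈ B, ∑ b ∈ B, ∑ c ∈ B, X a b c d :=
  (Finset.sum_congr rfl fun _ _ => (Finset.sum_congr rfl fun _ _ => Finset.sum_comm).trans
    Finset.sum_comm).trans Finset.sum_comm

theorem gm_trip (R : ℝ) (H : O → O → O → O → ℂ) :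
    ∑ g ∈ ballN O R, ∑ n1 ∈ ballN O R, ∑ n2 ∈ ballN O R,
        (if g * n1 ∈ ballN O R ∧ g * n2 ∈ ballN O R ∧ IsRelPrime n1 n2 then
          ∑ e ∈ divs g, H e g n1 n2 else 0) =
      ∑ t ∈ trip O R, mu t.2.2 * ∑ n1 ∈ ballN O R, ∑ n2 ∈ ballN O R,
        if t.1 * t.2.1 * t.2.2 * n1 ∈ ballN O R ∧ t.1 * t.2.1 * t.2.2 * n2 ∈ ballN O R then
          H t.2.1 (t.1 * t.2.1) (t.2.2 * n1) (t.2.2 * n2) else 0 := by
  let K : O → O → O → O → O → ℂ := fun e f g n1 n2 =>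
    if g * n1 ∈ ballN O R ∧ g * n2 ∈ ballN O R then mu f * H e g n1 n2 else 0
  have A : ∀ g ∈ ballN O R, ∀ n1 ∈ ballN O R, ∀ n2 ∈ ballN O R,
      (if g * n1 ∈ ballN O R ∧ g * n2 ∈ ballN O R ∧ IsRelPrime n1 n2 then
          ∑ e ∈ divs g, H e g n1 n2 else 0) = ∑ e ∈ ballN O R, ∑ f ∈ ballN O R,
        if e ∣ g then (if f ∣ n1 then (if f ∣ n2 then K e f g n1 n2 else 0) else 0) else 0 := by
    intro g hg n1 h1 n2 _
    have h := sum_mu_divs (gm_prim h1) n2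
    rw [gm_divs h1] at h
    by_cases hc : g * n1 ∈ ballN O R ∧ g * n2 ∈ ballN O R
    · have e1 : (if g * n1 ∈ ballN O R ∧ g * n2 ∈ ballN O R ∧ IsRelPrime n1 n2 then
          ∑ e ∈ divs g, H e g n1 n2 else 0) = (∑ e ∈ divs g, H e g n1 n2) *
            if IsRelPrime n2 n1 then 1 else 0 := by
        simp only [hc.1, hc.2, true_and, isRelPrime_comm (x := n1)]
        split_ifs <;> simp
      rw [e1, ← h, gm_divs hg, Finset.sum_mul_sum]
      refine Finset.sum_congr rfl fun e _ => Finset.sum_congr rfl fun f _ => ?_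
      simp only [K, if_pos hc]
      split_ifs <;> simp [mul_comm]
    · rw [if_neg fun h => hc ⟨h.1, h.2.1⟩]
      simp only [K, if_neg hc, ite_self, Finset.sum_const_zero]
  rw [Finset.sum_congr rfl fun g hg => Finset.sum_congr rfl fun n1 h1 =>
    Finset.sum_congr rfl fun n2 h2 => A g hg n1 h1 n2 h2, gm_comm, trip, Finset.sum_filter,
    Finset.sum_product, Finset.sum_comm (s := ballN O R) (t := ballN O R ×ˢ ballN O R),
    Finset.sum_product]
  refine Finset.sum_congr rfl fun e he => ?_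
  rw [gm_comm]
  refine Finset.sum_congr rfl fun f hf => ?_
  simp only [← Finset.sum_ite_irrel, Finset.sum_ite_irrel, Finset.sum_const_zero]
  rw [gm_reindex R (gm_prim he)]
  refine Finset.sum_congr rfl fun g hg => ?_
  rw [gm_reindex R (gm_prim hf)]
  simp only [gm_reindex R (gm_prim hf)]
  have pe := gm_prim he
  have pf := gm_prim hf
  have pg := gm_prim hg
  trans ∑ x ∈ ballN O R, ∑ y ∈ ballN O R, if e * g ∈ ballN O R then (if f * x ∈ ballN O R then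
    (if f * y ∈ ballN O R then K e f (e * g) (f * x) (f * y) else 0) else 0) else 0
  · simp only [Finset.sum_ite_irrel, Finset.sum_const_zero]
  symm
  trans ∑ x ∈ ballN O R, ∑ y ∈ ballN O R, if g * e * f ∈ ballN O R then mu f *
    (if g * e * f * x ∈ ballN O R ∧ g * e * f * y ∈ ballN O R then H e (g * e) (f * x) (f * y) else 0)
      else 0
  · simp only [Finset.sum_ite_irrel, Finset.sum_const_zero, Finset.mul_sum]
  refine Finset.sum_congr rfl fun x hx => Finset.sum_congr rfl fun y hy => ?_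
  simp only [K, mul_comm e g, ← mul_assoc (g * e) f]
  by_cases hc : g * e * f * x ∈ ballN O R ∧ g * e * f * y ∈ ballN O R
  · rw [if_pos hc, if_pos hc, if_pos (gm_of_dvd hc.1 ((pg.mul pe).mul pf) (dvd_mul_right _ _)),
      if_pos (gm_of_dvd hc.1 (pg.mul pe) ⟨f * x, by ac_rfl⟩),
      if_pos (gm_of_dvd hc.1 (pf.mul (gm_prim hx)) ⟨g * e, by ac_rfl⟩),
      if_pos (gm_of_dvd hc.2 (pf.mul (gm_prim hy)) ⟨g * e, by ac_rfl⟩)]
  · simp only [if_neg hc, mul_zero, ite_self]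
theorem sum_trip_le {ε : ℝ} (hε : 0 < ε) : ∃ C : ℝ, 0 < C ∧ ∀ (R : ℝ) (c : O → ℝ), 1 ≤ R →
    (∀ n, 0 ≤ c n) →
    ∑ t ∈ trip O R, ∑ n ∈ ballN O R,
        (if t.1 * t.2.1 * t.2.2 * n ∈ ballN O R then c (t.1 * t.2.1 * t.2.2 * n) else 0) ≤
      C * R ^ ε * ∑ n ∈ ballN O R, c n := by
  obtain ⟨C, hC, h⟩ := dv_le (O := O) (ε := ε / 3) (by positivity)
  refine ⟨C ^ 3, by positivity, fun R c hR hc => ?_⟩
  rw [Finset.sum_congr rfl fun t ht => (gm_reindex R (mem_trip.1 ht).2.2.2.1.1 c).symm,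
    Finset.sum_comm, Finset.mul_sum]
  refine Finset.sum_le_sum fun m hm => ?_
  rw [← Finset.sum_filter, Finset.sum_const, nsmul_eq_mul]
  refine mul_le_mul_of_nonneg_right ?_ (hc m)
  have hm0 := (gm_prim hm).ne_zero
  set D := (ballO O (N m)).filter (· ∣ m) with hD
  have hmem : ∀ d, d ∣ m → d ∈ D := fun d hd => Finset.mem_filter.2
    ⟨mem_ballO'.2 ⟨ne_zero_of_dvd_ne_zero hm0 hd, N_le_of_dvd hd hm0⟩, hd⟩
  have hsub : (trip O R).filter (fun t => t.1 * t.2.1 * t.2.2 ∣ m) ⊆ D ×ˢ D ×ˢ D := fun t ht => by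
    have h1 := (Finset.mem_filter.1 ht).2
    exact Finset.mem_product.2 ⟨hmem _ (dvd_of_mul_right_dvd (dvd_of_mul_right_dvd h1)),
      Finset.mem_product.2 ⟨hmem _ (dvd_of_mul_left_dvd (dvd_of_mul_right_dvd h1)),
        hmem _ (dvd_of_mul_left_dvd h1)⟩⟩
  have h1 : (((trip O R).filter (fun t => t.1 * t.2.1 * t.2.2 ∣ m)).card : ℝ) ≤ dv m ^ 3 := by
    have := Finset.card_le_card hsub
    rw [Finset.card_product, Finset.card_product] at this
    have e : dv m ^ 3 = ((D.card * (D.card * D.card) : ℕ) : ℝ) := by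
      rw [dv, ← hD]; push_cast; ring
    rw [e]; exact_mod_cast this
  have h2 : dv m ≤ C * R ^ (ε / 3) := (h m hm0).trans (mul_le_mul_of_nonneg_left
    (Real.rpow_le_rpow (N_nonneg m) (mem_ballN.1 hm).2 (by positivity)) hC.le)
  refine h1.trans ((pow_le_pow_left₀ (Nat.cast_nonneg _) h2 3).trans_eq ?_)
  rw [mul_pow, ← Real.rpow_natCast (R ^ (ε / 3)), ← Real.rpow_mul (by linarith)]
  norm_num
theorem card_trip_le {ε : ℝ} (hε : 0 < ε) : ∃ C : ℝ, 0 < C ∧ ∀ R : ℝ, 1 ≤ R →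
    ((trip O R).card : ℝ) ≤ C * R ^ (1 + ε) := by
  obtain ⟨C, hC, h⟩ := sum_trip_le (O := O) hε
  obtain ⟨C', hC', h'⟩ := card_ballO_le (O := O)
  refine ⟨C * C', by positivity, fun R hR => ?_⟩
  have hR0 : 0 < R := by linarith
  have h1 := h R (fun _ => 1) hR fun _ => zero_le_one
  have h2 : ((trip O R).card : ℝ) ≤ ∑ t ∈ trip O R, ∑ n ∈ ballN O R,
      (if t.1 * t.2.1 * t.2.2 * n ∈ ballN O R then (1 : ℝ) else 0) := by
    rw [Finset.cast_card]
    refine Finset.sum_le_sum fun t ht => ?_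
    have := Finset.single_le_sum (f := fun n =>
      if t.1 * t.2.1 * t.2.2 * n ∈ ballN O R then (1 : ℝ) else 0)
      (fun n _ => by split_ifs <;> norm_num) (mem_ballN.2 ⟨nn_one, N_one.trans_le hR⟩)
    rwa [mul_one, if_pos (mem_ballN.2 (mem_trip.1 ht).2.2.2)] at this
  have h3 : ∑ _n ∈ ballN O R, (1 : ℝ) ≤ C' * R := by
    rw [← Finset.cast_card]
    exact (Nat.cast_le.2 (Finset.card_filter_le _ _)).trans (h' R hR0.le)
  refine h2.trans (h1.trans ((mul_le_mul_of_nonneg_left h3 (by positivity)).trans_eq ?_))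
  rw [Real.rpow_add hR0, Real.rpow_one]; ring

end

end Vale.Agent.P319N.Ab
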