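import Vale.Agent.P319N.ADiv

namespace Vale.Agent.P319N.Ab

open Complex MeasureTheory Filter Topology
open scoped Classical ComplexConjugate Real
open Vale.Agent.P026 (W DualW)

noncomputable section

variable {O : Type} [CommMonoidWithZero O] [UniqueFactorizationMonoid O] [Ar O]


theorem hb1b_gen {e l : O} (he : Squarefree e) (hl : l ≠ 0) (b : O) :
    ∃ j : O, j ≠ 0 ∧ ∀ a, (e ∣ b * a ^ 2 ∧ l ∣ a) ↔ j ∣ a := by
  letI : GCDMonoid O := UniqueFactorizationMonoid.toGCDMonoid O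
  obtain ⟨e', b', h1, h2, h3⟩ := extract_gcd e b
  have g0 : gcd e b ≠ 0 := fun h => he.ne_zero (by rw [h1, h, zero_mul])
  have e0 : e' ≠ 0 := fun h => he.ne_zero (by rw [h1, h, mul_zero])
  have hI : ∀ a, e ∣ b * a ↔ e' ∣ a := fun a => by
    generalize gcd e b = g at h1 h2 g0
    rw [h1, h2, mul_assoc, mul_dvd_mul_iff_left g0]
    exact ⟨fun h => (gcd_isUnit_iff_isRelPrime.1 h3).dvd_of_dvd_mul_left h, fun h => h.mul_left _⟩
  refine ⟨lcm e' l, fun h => ((lcm_eq_zero_iff _ _).1 h).elim e0 hl, fun a => ?_⟩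
  rw [lcm_dvd_iff, ← hI]
  refine and_congr_left fun _ => ⟨fun h => ?_, fun h => ?_⟩
  · refine (he.dvd_pow_iff_dvd two_ne_zero).1 ?_
    rw [mul_pow, sq b, mul_assoc]
    exact h.mul_left b
  · rw [sq, ← mul_assoc]
    exact h.mul_right a

/-- Gaussian sum over the `a` with `e ∣ b a²` and `l ∣ a` -/
def hb1b_V (T : ℝ) (e l b : O) : ℝ :=
  ∑' a : O, if a ≠ 0 ∧ e ∣ b * a ^ 2 ∧ l ∣ a then V O (T * N a ^ 2) else 0

theorem hb1b_err : ∃ C : ℝ, 0 < C ∧ ∀ (T r : ℝ) (e l b : O), 0 < T → 0 < r → Squarefree e →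
    l ≠ 0 → |hb1b_V T e l b - r * hb1b_V (r ^ 2 * T) e l b| ≤ C * (1 + r) := by
  obtain ⟨c, C, -, h⟩ := Ar.gerr (O := O)
  refine ⟨|C| + 1, by positivity, fun T r e l b hT hr he hl => ?_⟩
  obtain ⟨j, hj, hg⟩ := hb1b_gen he hl b
  have j0 := N_pos hj
  have key : ∀ S : ℝ, 0 < S → |hb1b_V S e l b - c / (√S * N j)| ≤ |C| + 1 := fun S hS => by
    have e1 : hb1b_V S e l b =
        ∑' a : O, (if a ≠ 0 then V O (S * N j ^ 2 * N a ^ 2) else 0) := by
      unfold hb1b_V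
      rw [← (mul_right_injective₀ hj).tsum_eq]
      · refine tsum_congr fun a => ?_
        simp only [hg, dvd_mul_right, and_true, ne_eq, mul_eq_zero, hj, false_or]
        rw [N_mul, mul_pow, mul_assoc]
      · intro m hm
        obtain ⟨x, rfl⟩ : j ∣ m := by
          by_contra hc
          exact hm (if_neg fun hh => hc ((hg m).1 hh.2))
        exact ⟨x, rfl⟩
    have : |∑' a : O, (if a ≠ 0 then V O (S * N j ^ 2 * N a ^ 2) else 0) -
        c / √(S * N j ^ 2)| ≤ C := h (S * N j ^ 2) (by positivity)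
    rw [Real.sqrt_mul hS.le, Real.sqrt_sq j0.le] at this
    rw [e1]
    linarith [le_abs_self C]
  have k1 := key T hT
  have k2 := key (r ^ 2 * T) (by positivity)
  rw [Real.sqrt_mul (by positivity), Real.sqrt_sq hr.le] at k2
  have sT := Real.sqrt_pos.2 hT
  have e2 : hb1b_V T e l b - r * hb1b_V (r ^ 2 * T) e l b =
      (hb1b_V T e l b - c / (√T * N j)) -
        r * (hb1b_V (r ^ 2 * T) e l b - c / (r * √T * N j)) := by field_simp; ring
  rw [e2]
  refine (abs_sub _ _).trans ?_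
  rw [abs_mul, abs_of_pos hr]
  nlinarith

theorem hb1b_sum {T : ℝ} (hT : 0 < T) {u : O → ℂ} (hu : ∀ a, ‖u a‖ ≤ 1) (p : O → Prop)
    [DecidablePred p] :
    Summable fun a : O => if p a then u a * ((V O (T * N a ^ 2) : ℝ) : ℂ) else 0 := by
  refine Summable.of_norm_bounded (summable_V_sq hT) fun a => ?_
  split_ifs
  · rw [norm_mul, Complex.norm_real, Real.norm_of_nonneg (Ar.V_nonneg _)]
    exact mul_le_of_le_one_left (Ar.V_nonneg _) (hu a)
  · simpa using (Ar.V_nonneg _)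

theorem hb1b_sq {x n : O} (hn : n ≠ 0) : sym2 x n ^ 2 = if IsRelPrime x n then 1 else 0 := by
  split_ifs with h
  · exact sym2_sq hn h
  · rw [(sym2_eq_zero_iff hn).2 h, zero_pow two_ne_zero]

theorem hb1b_exp {T : ℝ} (hT : 0 < T) {n1 n2 : O} (h1 : NN n1) (h2 : NN n2) (e b : O) :
    ∑' a : O, (if a ≠ 0 ∧ e ∣ b * a ^ 2 then sym2 (b * a ^ 2) n1 * sym2 (b * a ^ 2) n2 *
      ((V O (T * N a ^ 2) : ℝ) : ℂ) else 0) =
      ∑ l ∈ divs (n1 * n2), mu l * (sym2 b n1 * sym2 b n2) * (hb1b_V T e l b : ℂ) := by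
  have e1 : ∀ l, mu l * (sym2 b n1 * sym2 b n2) * (hb1b_V T e l b : ℂ) =
      ∑' a : O, if a ≠ 0 ∧ e ∣ b * a ^ 2 ∧ l ∣ a then mu l * (sym2 b n1 * sym2 b n2) *
        ((V O (T * N a ^ 2) : ℝ) : ℂ) else 0 := fun l => by
    unfold hb1b_V
    rw [ofReal_tsum, ← tsum_mul_left]
    exact tsum_congr fun a => by split_ifs <;> simp
  simp_rw [e1]
  rw [← Summable.tsum_finsetSum fun l _ => hb1b_sum hT (fun _ => by
    rw [norm_mul, norm_mul]
    exact mul_le_one₀ (norm_mu_le _) (by positivity)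
      (mul_le_one₀ (norm_sym2_le _ _) (norm_nonneg _) (norm_sym2_le _ _))) _]
  refine tsum_congr fun a => ?_
  by_cases ha : a ≠ 0 ∧ e ∣ b * a ^ 2
  · have := sum_mu_divs (h1.1.mul h2.1) a
    rw [if_pos ha, sym2_mul_left _ _ h1.ne_zero, sym2_mul_left _ _ h2.ne_zero, sym2_pow_left _ h1.ne_zero,
      sym2_pow_left _ h2.ne_zero, hb1b_sq h1.ne_zero, hb1b_sq h2.ne_zero]
    simp only [ha.1, ha.2, ne_eq, not_false_eq_true, true_and]
    have e2 : ∀ l, (if l ∣ a then mu l * (sym2 b n1 * sym2 b n2) *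
        ((V O (T * N a ^ 2) : ℝ) : ℂ) else 0) = (if l ∣ a then mu l else 0) *
        (sym2 b n1 * sym2 b n2 * ((V O (T * N a ^ 2) : ℝ) : ℂ)) := fun l => by
      split_ifs <;> ring
    simp_rw [e2]
    rw [← Finset.sum_mul, this, IsRelPrime.mul_right_iff]
    by_cases c1 : IsRelPrime a n1 <;> by_cases c2 : IsRelPrime a n2 <;> simp [c1, c2]
  · rw [if_neg ha]
    exact (Finset.sum_eq_zero fun l _ => if_neg fun hh => ha ⟨hh.1, hh.2.1⟩).symm

theorem hb1b_Sd {M : ℝ} (hM : 0 < M) {g n1 n2 b : O} (hg : NN g) (h1 : NN n1) (h2 : NN n2)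
    (hb : b ≠ 0) : Sd M (g * n1) (g * n2) b = ∑ e ∈ divs g, mu e *
      ∑' a : O, (if a ≠ 0 ∧ e ∣ b * a ^ 2 then sym2 (b * a ^ 2) n1 * sym2 (b * a ^ 2) n2 *
        ((V O (N b / M * N a ^ 2) : ℝ) : ℂ) else 0) := by
  have hT : 0 < N b / M := by have := N_pos hb; positivity
  simp_rw [← tsum_mul_left]
  rw [← Summable.tsum_finsetSum fun e _ => (hb1b_sum hT (fun _ => by
    rw [norm_mul]
    exact mul_le_one₀ (norm_sym2_le _ _) (norm_nonneg _) (norm_sym2_le _ _)) _).mul_left _]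
  refine tsum_congr fun a => ?_
  by_cases ha : a ≠ 0
  · have := sum_mu_divs hg.1 (b * a ^ 2)
    rw [if_pos ha, sym2_mul_right _ hg.ne_zero h1.ne_zero, sym2_mul_right _ hg.ne_zero h2.ne_zero,
      mul_mul_mul_comm, ← sq, hb1b_sq hg.ne_zero, ← this, Finset.sum_mul, Finset.sum_mul,
      show N (b * a ^ 2) / M = N b / M * N a ^ 2 by rw [N_mul, N_pow]; ring]
    refine Finset.sum_congr rfl fun e _ => ?_
    simp only [ha, ne_eq, not_false_eq_true, true_and]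
    split_ifs <;> ring
  · simp [ha]

theorem hb1b : ∃ C : ℝ, 0 < C ∧ ∀ (M : ℝ) (g n1 n2 b : O), 0 < M → NN g → NN n1 → NN n2 →
    IsRelPrime n1 n2 → IsRelPrime g n1 → IsRelPrime g n2 → b ≠ 0 →
    ‖Sd M (g * n1) (g * n2) b - Sds M g n1 n2 b‖ ≤
      C * dv g * dv (n1 * n2) * (1 + M / √(N n1 * N n2)) := by
  obtain ⟨C, hC, h⟩ := hb1b_err (O := O)
  refine ⟨C, hC, fun M g n1 n2 b hM hg h1 h2 _ _ _ hb => ?_⟩
  have hT : 0 < N b / M := by have := N_pos hb; positivity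
  have p1 := N_pos h1.ne_zero
  have p2 := N_pos h2.ne_zero
  have q0 : 0 < √(N n1 * N n2) := Real.sqrt_pos.2 (by positivity)
  have q2 : √(N n1 * N n2) ^ 2 = N n1 * N n2 := Real.sq_sqrt (by positivity)
  rw [hb1b_Sd hM hg h1 h2 hb, Sds, ← Finset.sum_sub_distrib]
  have key : ∀ e ∈ divs g, ‖mu e * ∑' a : O, (if a ≠ 0 ∧ e ∣ b * a ^ 2 then
      sym2 (b * a ^ 2) n1 * sym2 (b * a ^ 2) n2 *
        ((V O (N b / M * N a ^ 2) : ℝ) : ℂ) else 0) -
      mu e * ((M / (N e * √(N n1 * N n2)) : ℝ) : ℂ) *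
        ∑' a : O, (if a ≠ 0 ∧ e ∣ b * a ^ 2 then sym2 (b * a ^ 2) n1 * sym2 (b * a ^ 2) n2 *
          (V O (N (b * a ^ 2) * M / (N e ^ 2 * N n1 * N n2)) : ℝ) else 0)‖ ≤
      dv (n1 * n2) * (C * (1 + M / √(N n1 * N n2))) := fun e he => by
    have hN := ((mem_divs hg.ne_zero).1 he).1
    have e1 := one_le_N hN.ne_zero
    have hr : 0 < M / (N e * √(N n1 * N n2)) := by positivity
    have e2 : ∀ a : O, N (b * a ^ 2) * M / (N e ^ 2 * N n1 * N n2) =
        (M / (N e * √(N n1 * N n2))) ^ 2 * (N b / M) * N a ^ 2 := fun a => by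
      rw [N_mul, N_pow, div_pow, mul_pow, q2]
      field_simp
    simp_rw [e2]
    rw [hb1b_exp hT h1 h2, hb1b_exp (by positivity) h1 h2, mul_assoc, ← mul_sub, norm_mul,
      Finset.mul_sum, ← Finset.sum_sub_distrib]
    refine (mul_le_of_le_one_left (norm_nonneg _) (norm_mu_le _)).trans
      ((norm_sum_le_of_le _ (n := fun _ => C * (1 + M / √(N n1 * N n2))) fun l hl => ?_).trans ?_)
    · have l0 := ((mem_divs (mul_ne_zero h1.ne_zero h2.ne_zero)).1 hl).1.ne_zero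
      rw [mul_left_comm (_ : ℂ) (mu l * _), ← mul_sub, ← ofReal_mul, ← ofReal_sub, norm_mul, norm_mul, norm_mul,
        Complex.norm_real, Real.norm_eq_abs]
      refine (mul_le_of_le_one_left (abs_nonneg _) (mul_le_one₀ (norm_mu_le _) (by positivity)
        (mul_le_one₀ (norm_sym2_le _ _) (norm_nonneg _) (norm_sym2_le _ _)))).trans
        ((h _ _ e l b hT hr hN.2 l0).trans ?_)
      gcongr
      exact le_mul_of_one_le_left q0.le e1
    · rw [Finset.sum_const, nsmul_eq_mul]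
      exact mul_le_mul_of_nonneg_right (card_divs_le _) (by positivity)
  refine (norm_sum_le_of_le _ key).trans ?_
  rw [Finset.sum_const, nsmul_eq_mul]
  have := div_dv_nonneg (n1 * n2)
  refine (mul_le_mul_of_nonneg_right (card_divs_le _) (by positivity)).trans (le_of_eq ?_)
  ring

end

end Vale.Agent.P319N.Ab
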