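import Vale.Agent.P319N.AHB1
import Vale.Agent.P319N.AHB1b
import Vale.Agent.P319N.AGm

namespace Vale.Agent.P319N.Ab

open Complex MeasureTheory Filter Topology
open scoped Classical ComplexConjugate Real
open Vale.Agent.P026 (W DualW)

noncomputable section

variable {O : Type} [CommMonoidWithZero O] [UniqueFactorizationMonoid O] [Ar O]


theorem hb3_summable_a {M : ℝ} (hM : 0 < M) {b : O} (hb : b ≠ 0) :
    Summable (fun a : O => if a ≠ 0 then V O (N (b * a ^ 2) / M) else 0) := by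
  refine Summable.of_nonneg_of_le (fun a => by split_ifs; exacts [Ar.V_nonneg _, le_rfl])
    (fun a => ?_) (summable_V_sq (O := O) (div_pos (N_pos hb) hM))
  split_ifs with ha
  · rw [N_mul, N_pow, mul_div_right_comm]
  · exact Ar.V_nonneg _

theorem hb3_summable_Sd {M : ℝ} (hM : 0 < M) (n1 n2 : O) (K : ℝ) :
    Summable (fun b : O => if Squarefree b ∧ K < N b then Sd M n1 n2 b else 0) := by
  obtain ⟨C, -, h⟩ := sum_norm_Sd (O := O)
  refine Summable.of_norm_bounded (h M n1 n2 hM).1 (fun b => ?_)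
  by_cases hb : Squarefree b ∧ K < N b
  · rw [if_pos hb, if_pos hb.1]
  · rw [if_neg hb, norm_zero]; split_ifs <;> positivity

theorem hb3_summable_Sds {M : ℝ} (hM : 0 < M) {g n1 n2 : O} (hg : g ≠ 0) (h1 : n1 ≠ 0)
    (h2 : n2 ≠ 0) (K : ℝ) :
    Summable (fun b : O => if Squarefree b ∧ K < N b then Sds M g n1 n2 b else 0) := by
  obtain ⟨C, -, h⟩ := sum_norm_Sds (O := O)
  refine Summable.of_norm_bounded (h M g n1 n2 hM hg h1 h2).1 (fun b => ?_)
  by_cases hb : Squarefree b ∧ K < N b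
  · rw [if_pos hb, if_pos hb.1]
  · rw [if_neg hb, norm_zero]; split_ifs <;> positivity

theorem hb3_pos : ∃ C : ℝ, 0 < C ∧ ∀ (M K R : ℝ) (a : O → ℂ), 0 < M →
    ∑ m ∈ (ballN O M).filter (fun m => K < N m), ‖∑ n ∈ ballN O R, a n * sym2 m n‖ ^ 2 ≤
      C * ‖∑ n1 ∈ ballN O R, ∑ n2 ∈ ballN O R, a n1 * conj (a n2) *
        ∑' b : O, (if Squarefree b ∧ K < N b then Sd M n1 n2 b else 0)‖ := by
  obtain ⟨c, hc, hV⟩ := Ar.V_ge (O := O)
  refine ⟨c⁻¹, by positivity, fun M K R a hM => ?_⟩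
  set U : O → ℂ := fun x => ∑ n ∈ ballN O R, a n * sym2 x n with hU
  have hUb : ∀ x, ‖U x‖ ≤ ∑ n ∈ ballN O R, ‖a n‖ := fun x =>
    (norm_sum_le _ _).trans (Finset.sum_le_sum (fun n _ => by
      rw [norm_mul]; exact mul_le_of_le_one_right (norm_nonneg _) (norm_sym2_le _ _)))
  set F : O → O → ℝ := fun b x =>
    if x ≠ 0 then V O (N (b * x ^ 2) / M) * ‖U (b * x ^ 2)‖ ^ 2 else 0 with hF
  have hF0 : ∀ b x, 0 ≤ F b x := fun b x => by
    simp only [hF]
    split_ifs
    exacts [mul_nonneg (Ar.V_nonneg _) (sq_nonneg _), le_rfl]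
  have hFs : ∀ b, b ≠ 0 → Summable (F b) := by
    intro b hb
    refine Summable.of_nonneg_of_le (hF0 b) (fun x => ?_)
      ((hb3_summable_a hM hb).mul_right ((∑ n ∈ ballN O R, ‖a n‖) ^ 2))
    simp only [hF]
    split_ifs
    · exact mul_le_mul_of_nonneg_left (pow_le_pow_left₀ (norm_nonneg _) (hUb _) 2)
        (Ar.V_nonneg _)
    · simp
  have hG : ∀ b, b ≠ 0 → ∑ n1 ∈ ballN O R, ∑ n2 ∈ ballN O R, a n1 * conj (a n2) * Sd M n1 n2 b =
      ((∑' x, F b x : ℝ) : ℂ) := by
    intro b hb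
    have hs : ∀ n1 n2 : O, Summable (fun x : O => a n1 * conj (a n2) * (if x ≠ 0 then
        sym2 (b * x ^ 2) n1 * sym2 (b * x ^ 2) n2 *
          (V O (N (b * x ^ 2) / M) : ℝ) else 0)) := by
      intro n1 n2
      refine Summable.mul_left _ (Summable.of_norm_bounded (hb3_summable_a hM hb) (fun x => ?_))
      split_ifs
      · rw [norm_mul, norm_mul, Complex.norm_real, Real.norm_eq_abs, abs_of_nonneg (Ar.V_nonneg _)]
        exact mul_le_of_le_one_left (Ar.V_nonneg _)
          (mul_le_one₀ (norm_sym2_le _ _) (norm_nonneg _) (norm_sym2_le _ _))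
      · simp
    simp only [Sd, ← tsum_mul_left]
    rw [Complex.ofReal_tsum]
    simp_rw [← Summable.tsum_finsetSum (fun n2 _ => hs _ n2)]
    rw [← Summable.tsum_finsetSum (fun n1 _ => summable_sum (fun n2 _ => hs n1 n2))]
    refine tsum_congr (fun x => ?_)
    simp only [hF]
    split_ifs
    · push_cast
      rw [← Complex.mul_conj', hU]
      simp only [map_sum, map_mul]
      rw [Finset.sum_mul_sum, Finset.mul_sum]
      refine Finset.sum_congr rfl (fun n1 _ => ?_)
      rw [Finset.mul_sum]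
      refine Finset.sum_congr rfl (fun n2 h2 => ?_)
      rw [conj_sym2 _ (mem_ballN.1 h2).1.ne_zero]
      ring
    · simp
  set F2 : O → ℝ := fun b => if Squarefree b ∧ K < N b then ∑' x, F b x else 0 with hGdef
  have hG0 : ∀ b, 0 ≤ F2 b := fun b => by
    simp only [hGdef]; split_ifs
    · exact tsum_nonneg (hF0 b)
    · exact le_rfl
  have hs2 : ∀ n1 n2 : O, Summable (fun b : O => a n1 * conj (a n2) *
      (if Squarefree b ∧ K < N b then Sd M n1 n2 b else 0)) := fun n1 n2 =>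
    (hb3_summable_Sd hM n1 n2 K).mul_left _
  have hGc : ∀ b, ∑ n1 ∈ ballN O R, ∑ n2 ∈ ballN O R, a n1 * conj (a n2) *
      (if Squarefree b ∧ K < N b then Sd M n1 n2 b else 0) = ((F2 b : ℝ) : ℂ) := by
    intro b
    simp only [hGdef]
    split_ifs with h
    · exact hG b h.1.ne_zero
    · simp
  have hGs : Summable F2 := by
    have : Summable (fun b => ((F2 b : ℝ) : ℂ)) := by
      simp_rw [← hGc]
      exact summable_sum (fun n1 _ => summable_sum (fun n2 _ => hs2 n1 n2))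
    exact Complex.summable_ofReal.1 this
  have hT : ∑ n1 ∈ ballN O R, ∑ n2 ∈ ballN O R, a n1 * conj (a n2) *
        ∑' b : O, (if Squarefree b ∧ K < N b then Sd M n1 n2 b else 0) = ((∑' b, F2 b : ℝ) : ℂ) := by
    simp only [← tsum_mul_left]
    rw [Complex.ofReal_tsum]
    simp_rw [← Summable.tsum_finsetSum (fun n2 _ => hs2 _ n2)]
    rw [← Summable.tsum_finsetSum (fun n1 _ => summable_sum (fun n2 _ => hs2 n1 n2))]
    exact tsum_congr hGc
  rw [hT, Complex.norm_real, Real.norm_eq_abs, abs_of_nonneg (tsum_nonneg hG0)]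
  refine le_trans ?_ (mul_le_mul_of_nonneg_left
    (hGs.sum_le_tsum ((ballN O M).filter (fun m => K < N m)) (fun b _ => hG0 b)) (by positivity))
  rw [Finset.mul_sum]
  refine Finset.sum_le_sum (fun m hm => ?_)
  obtain ⟨hm1, hm2⟩ := Finset.mem_filter.1 hm
  obtain ⟨hm3, hm4⟩ := mem_ballN.1 hm1
  have e1 : F2 m = ∑' x, F m x := by simp only [hGdef]; rw [if_pos ⟨hm3.2, hm2⟩]
  have e2 : F m 1 ≤ ∑' x, F m x := (hFs m hm3.ne_zero).le_tsum 1 (fun x _ => hF0 m x)
  have e3 : F m 1 = V O (N m / M) * ‖U m‖ ^ 2 := by simp [hF]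
  have e4 : 1 ≤ c⁻¹ * V O (N m / M) := by
    rw [le_inv_mul_iff₀ hc, mul_one]
    exact hV _ (div_pos (N_pos hm3.ne_zero) hM) ((div_le_one hM).2 hm4)
  calc ‖U m‖ ^ 2 ≤ c⁻¹ * V O (N m / M) * ‖U m‖ ^ 2 :=
        le_mul_of_one_le_left (by positivity) e4
    _ = c⁻¹ * F m 1 := by rw [e3]; ring
    _ ≤ _ := by rw [e1]; exact mul_le_mul_of_nonneg_left e2 (by positivity)

theorem hb3_tsum_split (f : O → ℂ) (K : ℝ)
    (h1 : Summable (fun b => if Squarefree b ∧ K < N b then f b else 0)) :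
    ∑' b : O, (if Squarefree b then f b else 0) =
      ∑' b : O, (if Squarefree b ∧ K < N b then f b else 0) +
        ∑ b ∈ (ballO O K).filter Squarefree, f b := by
  have h2 : HasSum (fun b => if b ∈ (ballO O K).filter Squarefree then f b else 0)
      (∑ b ∈ (ballO O K).filter Squarefree, f b) := by
    have := hasSum_sum_of_ne_finset_zero (s := (ballO O K).filter Squarefree)
      (f := fun b => if b ∈ (ballO O K).filter Squarefree then f b else 0)
      (L := SummationFilter.unconditional O) (fun b hb => if_neg hb)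
    rwa [Finset.sum_congr rfl (fun b hb => if_pos hb)] at this
  rw [← h2.tsum_eq, ← h1.tsum_add h2.summable]
  refine tsum_congr (fun b => ?_)
  by_cases hs : Squarefree b
  · by_cases hK : K < N b
    · rw [if_pos hs, if_pos ⟨hs, hK⟩, if_neg, add_zero]
      intro hb
      exact absurd (mem_ballO'.1 (Finset.mem_filter.1 hb).1).2 (not_le.2 hK)
    · rw [if_pos hs, if_neg (fun h => hK h.2), if_pos, zero_add]
      exact Finset.mem_filter.2 ⟨mem_ballO'.2 ⟨hs.ne_zero, not_lt.1 hK⟩, hs⟩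
  · rw [if_neg hs, if_neg (fun h => hs h.1), if_neg (fun h => hs (Finset.mem_filter.1 h).2),
      add_zero]

theorem hb3_diff : ∃ C : ℝ, 0 < C ∧ ∀ (M K : ℝ) (g n1 n2 : O), 0 < M → 0 ≤ K → NN g → NN n1 →
    NN n2 → IsRelPrime n1 n2 → IsRelPrime g n1 → IsRelPrime g n2 → cls n1 = cls n2 →
    ‖∑' b : O, (if Squarefree b ∧ K < N b then Sd M (g * n1) (g * n2) b else 0) -
      ∑' b : O, (if Squarefree b ∧ K < N b then Sds M g n1 n2 b else 0)‖ ≤
      C * ((if n1 = 1 ∧ n2 = 1 then M + dv g else 0) +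
        K * (dv g * dv (n1 * n2) * (1 + M / √(N n1 * N n2)))) := by
  obtain ⟨C1, hC1, h1⟩ := sum_norm_Sd (O := O)
  obtain ⟨C2, hC2, h2⟩ := sum_norm_Sds (O := O)
  obtain ⟨C3, hC3, h3⟩ := hb1b (O := O)
  obtain ⟨C4, hC4, h4⟩ := card_ballO_le (O := O)
  refine ⟨C1 + C2 + C4 * C3, by positivity, ?_⟩
  intro M K g n1 n2 hM hK hg hn1 hn2 h12 hg1 hg2 h4'
  have s1 := hb3_summable_Sd hM (g * n1) (g * n2) K
  have s2 := hb3_summable_Sds hM hg.ne_zero hn1.ne_zero hn2.ne_zero K
  have d1 := one_le_dv hg.ne_zero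
  have d2 := one_le_dv (mul_ne_zero hn1.ne_zero hn2.ne_zero)
  have hE : 0 ≤ K * (dv g * dv (n1 * n2) * (1 + M / √(N n1 * N n2))) := by positivity
  split_ifs with hd
  · obtain ⟨rfl, rfl⟩ := hd
    have b1 : ‖∑' b : O, (if Squarefree b ∧ K < N b then Sd M (g * 1) (g * 1) b else 0)‖ ≤
        C1 * M := by
      refine le_trans (tsum_of_norm_bounded (h1 M (g * 1) (g * 1) hM).1.hasSum (fun b => ?_))
        (h1 M (g * 1) (g * 1) hM).2
      by_cases hb : Squarefree b ∧ K < N b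
      · rw [if_pos hb, if_pos hb.1]
      · rw [if_neg hb, norm_zero]; split_ifs <;> positivity
    have b2 : ‖∑' b : O, (if Squarefree b ∧ K < N b then Sds M g 1 1 b else 0)‖ ≤
        C2 * dv g := by
      have h5 := h2 M g 1 1 hM hg.ne_zero one_ne_zero' one_ne_zero'
      refine le_trans (tsum_of_norm_bounded h5.1.hasSum (fun b => ?_)) (h5.2.trans ?_)
      · by_cases hb : Squarefree b ∧ K < N b
        · rw [if_pos hb, if_pos hb.1]
        · rw [if_neg hb, norm_zero]; split_ifs <;> positivity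
      · simp [N_one]
    refine (norm_sub_le _ _).trans ((add_le_add b1 b2).trans ?_)
    have : 0 ≤ C4 * C3 := by positivity
    nlinarith [mul_nonneg hC1.le hE, mul_nonneg hC2.le hE, mul_nonneg this hE,
      mul_nonneg this hM.le, mul_nonneg this (zero_le_one.trans d1), mul_nonneg hC2.le hM.le,
      mul_nonneg hC1.le (zero_le_one.trans d1)]
  · have e := hb1a hM hg hn1 hn2 h12 h4' hd
    rw [hb3_tsum_split _ K s1, hb3_tsum_split _ K s2] at e
    have e2 : ∑' b : O, (if Squarefree b ∧ K < N b then Sd M (g * n1) (g * n2) b else 0) -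
        ∑' b : O, (if Squarefree b ∧ K < N b then Sds M g n1 n2 b else 0) =
        -∑ b ∈ (ballO O K).filter Squarefree, (Sd M (g * n1) (g * n2) b - Sds M g n1 n2 b) := by
      rw [Finset.sum_sub_distrib]; linear_combination e
    rw [e2, norm_neg, zero_add]
    calc _ ≤ ∑ b ∈ (ballO O K).filter Squarefree,
          C3 * dv g * dv (n1 * n2) * (1 + M / √(N n1 * N n2)) :=
          (norm_sum_le _ _).trans (Finset.sum_le_sum (fun b hb => h3 M g n1 n2 b hM hg hn1 hn2 h12
            hg1 hg2 (Finset.mem_filter.1 hb).2.ne_zero))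
      _ ≤ C4 * K * (C3 * dv g * dv (n1 * n2) * (1 + M / √(N n1 * N n2))) := by
          rw [Finset.sum_const, nsmul_eq_mul]
          refine mul_le_mul_of_nonneg_right (le_trans ?_ (h4 K hK)) (by positivity)
          exact_mod_cast Finset.card_filter_le _ _
      _ = C4 * C3 * (K * (dv g * dv (n1 * n2) * (1 + M / √(N n1 * N n2)))) := by ring
      _ ≤ _ := mul_le_mul_of_nonneg_right (by linarith) hE

theorem hb3_conv {ε : ℝ} (hε : 0 < ε) : ∃ C : ℝ, 0 < C ∧ ∀ (R : ℝ) (c : O → ℝ), 1 ≤ R →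
    (∀ n, 0 ≤ c n) →
    ∑ g ∈ ballN O R, N g * (∑ n ∈ ballN O R, if g * n ∈ ballN O R then c (g * n) else 0) ^ 2 ≤
      C * R ^ ε * R * ∑ n ∈ ballN O R, c n ^ 2 := by
  obtain ⟨C1, hC1, h1⟩ := sum_trip_le (O := O) hε
  obtain ⟨C2, hC2, h2⟩ := card_ballO_le (O := O)
  refine ⟨C2 * C1, by positivity, fun R c hR hc => ?_⟩
  have b1 : ∀ g ∈ ballN O R, N g * (∑ n ∈ ballN O R, if g * n ∈ ballN O R then c (g * n) else 0) ^ 2 ≤
      C2 * R * ∑ n ∈ ballN O R, if g * n ∈ ballN O R then c (g * n) ^ 2 else 0 := by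
    intro g hg
    have hg0 := N_pos (mem_ballN.1 hg).1.ne_zero
    rw [← Finset.sum_filter, ← Finset.sum_filter]
    have hcard : (((ballN O R).filter (fun n => g * n ∈ ballN O R)).card : ℝ) ≤ C2 * (R / N g) := by
      refine le_trans ?_ (h2 (R / N g) (by positivity))
      have : (ballN O R).filter (fun n => g * n ∈ ballN O R) ⊆ ballO O (R / N g) := by
        intro n hn
        obtain ⟨a1, a2⟩ := Finset.mem_filter.1 hn
        refine mem_ballO'.2 ⟨(mem_ballN.1 a1).1.ne_zero, ?_⟩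
        rw [le_div_iff₀ hg0, mul_comm, ← N_mul]
        exact (mem_ballN.1 a2).2
      exact_mod_cast Finset.card_le_card this
    calc _ ≤ N g * ((((ballN O R).filter (fun n => g * n ∈ ballN O R)).card : ℝ) *
          ∑ n ∈ (ballN O R).filter (fun n => g * n ∈ ballN O R), c (g * n) ^ 2) :=
          mul_le_mul_of_nonneg_left sq_sum_le_card_mul_sum_sq hg0.le
      _ ≤ N g * (C2 * (R / N g) *
          ∑ n ∈ (ballN O R).filter (fun n => g * n ∈ ballN O R), c (g * n) ^ 2) := by gcongr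
      _ = _ := by field_simp
  refine (Finset.sum_le_sum b1).trans ?_
  rw [← Finset.mul_sum]
  have b2 : ∑ g ∈ ballN O R, ∑ n ∈ ballN O R, (if g * n ∈ ballN O R then c (g * n) ^ 2 else 0) ≤
      C1 * R ^ ε * ∑ n ∈ ballN O R, c n ^ 2 := by
    refine le_trans ?_ (h1 R (fun n => c n ^ 2) hR (fun n => sq_nonneg _))
    have hinj : Set.InjOn (fun g : O => ((g, 1, 1) : O × O × O)) (ballN O R) :=
      fun x _ y _ h => (Prod.ext_iff.1 h).1
    have hsub : (ballN O R).image (fun g : O => ((g, 1, 1) : O × O × O)) ⊆ trip O R := by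
      intro t ht
      obtain ⟨g, hg, rfl⟩ := Finset.mem_image.1 ht
      obtain ⟨a1, a2⟩ := mem_ballN.1 hg
      exact mem_trip.2 ⟨a1, nn_one, nn_one, by simpa using a1, by simpa using a2⟩
    refine le_trans (le_of_eq ?_) (Finset.sum_le_sum_of_subset_of_nonneg hsub (fun t _ _ =>
      Finset.sum_nonneg (fun n _ => by split_ifs <;> positivity)))
    rw [Finset.sum_image hinj]
    simp only [mul_one]
  calc C2 * R * ∑ g ∈ ballN O R, ∑ n ∈ ballN O R, (if g * n ∈ ballN O R then c (g * n) ^ 2 else 0)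
      ≤ C2 * R * (C1 * R ^ ε * ∑ n ∈ ballN O R, c n ^ 2) :=
        mul_le_mul_of_nonneg_left b2 (by positivity)
    _ = _ := by ring

end

end Vale.Agent.P319N.Ab
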