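import Vale.Agent.P319N.AHB2
import Vale.Agent.P319N.AHB3a

namespace Vale.Agent.P319N.Ab

open Complex MeasureTheory Filter Topology
open scoped Classical ComplexConjugate Real
open Vale.Agent.P026 (W DualW)

noncomputable section

variable {O : Type} [CommMonoidWithZero O] [UniqueFactorizationMonoid O] [Ar O]


theorem hb3_one (S : Finset O) {v : ℝ} (hv : 0 ≤ v) :
    ∑ n1 ∈ S, ∑ n2 ∈ S, (if n1 = 1 ∧ n2 = 1 then v else 0) ≤ v := by
  have h1 : ∀ n1 : O, ∑ n2 ∈ S, (if n1 = 1 ∧ n2 = 1 then v else 0) ≤ if n1 = 1 then v else 0 := by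
    intro n1
    by_cases h : n1 = 1
    · simp only [h, true_and, if_true, Finset.sum_ite_eq']
      split_ifs
      · exact le_rfl
      · exact hv
    · simp [h]
  refine (Finset.sum_le_sum (fun n1 _ => h1 n1)).trans ?_
  rw [Finset.sum_ite_eq']
  split_ifs
  · exact le_rfl
  · exact hv

set_option maxHeartbeats 800000 in
theorem hb_core {ε : ℝ} (hε : 0 < ε) : ∃ C : ℝ, 0 < C ∧ ∀ (Z M R K : ℝ) (a : O → ℂ) (c : G O),
    1 ≤ M → M ≤ Z → 1 ≤ R → R ≤ Z → 1 ≤ K → K ≤ Z →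
    (∀ n, a n ≠ 0 → cls n = c ∧ R / 2 < N n) →
    ∑ m ∈ (ballN O M).filter (fun m => K < N m), ‖∑ n ∈ ballN O R, a n * sym2 m n‖ ^ 2 ≤
      C * Z ^ ε * (M * K + K * R + R * √(M / K) + R ^ 3 / M) * ∑ n ∈ ballN O R, ‖a n‖ ^ 2 := by
  have hε' : 0 < ε / 5 := by positivity
  obtain ⟨C1, hC1, h1⟩ := hb2 (O := O) hε
  obtain ⟨C2, hC2, h2⟩ := hb3_diff (O := O)
  obtain ⟨C3, hC3, h3⟩ := hb3_conv (O := O) hε'
  obtain ⟨C4, hC4, h4⟩ := dv_le (O := O) hε'
  obtain ⟨C0, hC0, h0⟩ := hb3_pos (O := O)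
  refine ⟨C0 * (C1 + C2 * (1 + C4 + 2 * C4 ^ 2 * C3)), by positivity, ?_⟩
  intro Z M R K a c hM hMZ hR hRZ hK hKZ ha
  have hZ : 1 ≤ Z := hM.trans hMZ
  have hM0 : 0 < M := by linarith
  have hR0 : 0 < R := by linarith
  set P : ℝ := Z ^ (ε / 5) with hP
  have hP1 : 1 ≤ P := Real.one_le_rpow hZ hε'.le
  have hP5 : Z ^ ε = P ^ 5 := by
    rw [hP, ← Real.rpow_natCast, ← Real.rpow_mul (by linarith)]; congr 1; push_cast; ring
  have hd : ∀ n : O, n ≠ 0 → N n ≤ Z ^ 2 → dv n ≤ C4 * P ^ 2 := by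
    intro n hn hle
    refine (h4 n hn).trans (mul_le_mul_of_nonneg_left ?_ hC4.le)
    calc N n ^ (ε / 5) ≤ (Z ^ 2) ^ (ε / 5) := Real.rpow_le_rpow (N_nonneg n) hle hε'.le
      _ = P ^ 2 := by
          rw [hP, ← Real.rpow_natCast, ← Real.rpow_natCast, ← Real.rpow_mul (by linarith),
            ← Real.rpow_mul (by linarith), mul_comm]
  set S : ℝ := ∑ n ∈ ballN O R, ‖a n‖ ^ 2 with hS
  have hS0 : 0 ≤ S := Finset.sum_nonneg (fun _ _ => by positivity)
  set x : O → O → ℝ := fun g n => if g * n ∈ ballN O R then ‖a (g * n)‖ else 0 with hx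
  have hx0 : ∀ g n, 0 ≤ x g n := fun g n => by simp only [hx]; split_ifs <;> positivity
  set E : ℝ := K * (C4 * P ^ 2) ^ 2 * (1 + 2 * M / R) with hE
  have hE0 : 0 ≤ E := by positivity
  refine (h0 M K R a hM0).trans ?_
  rw [gm_gcd R (fun n1 n2 => a n1 * conj (a n2) *
    ∑' b : O, (if Squarefree b ∧ K < N b then Sd M n1 n2 b else 0))]
  have b1 := h1 Z M R K a hM hMZ hR hRZ hK hKZ
  rw [← hS] at b1
  have b2 : ‖(∑ g ∈ ballN O R, ∑ n1 ∈ ballN O R, ∑ n2 ∈ ballN O R,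
        if g * n1 ∈ ballN O R ∧ g * n2 ∈ ballN O R ∧ IsRelPrime n1 n2 then
          a (g * n1) * conj (a (g * n2)) *
            ∑' b : O, (if Squarefree b ∧ K < N b then Sd M (g * n1) (g * n2) b else 0)
        else 0) - ∑ g ∈ ballN O R, ∑ n1 ∈ ballN O R, ∑ n2 ∈ ballN O R,
        if g * n1 ∈ ballN O R ∧ g * n2 ∈ ballN O R ∧ IsRelPrime n1 n2 then
          a (g * n1) * conj (a (g * n2)) *
            ∑' b : O, (if Squarefree b ∧ K < N b then Sds M g n1 n2 b else 0)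
        else 0‖ ≤ C2 * ((M + C4 * P ^ 2) * S + E * (C3 * R ^ (ε / 5) * R * S)) := by
    simp only [← Finset.sum_sub_distrib]
    have t1 : ∀ g ∈ ballN O R, ∀ n1 ∈ ballN O R, ∀ n2 ∈ ballN O R,
        ‖(if g * n1 ∈ ballN O R ∧ g * n2 ∈ ballN O R ∧ IsRelPrime n1 n2 then
          a (g * n1) * conj (a (g * n2)) *
            ∑' b : O, (if Squarefree b ∧ K < N b then Sd M (g * n1) (g * n2) b else 0)
        else 0) - (if g * n1 ∈ ballN O R ∧ g * n2 ∈ ballN O R ∧ IsRelPrime n1 n2 then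
          a (g * n1) * conj (a (g * n2)) *
            ∑' b : O, (if Squarefree b ∧ K < N b then Sds M g n1 n2 b else 0)
        else 0)‖ ≤ C2 * ((if n1 = 1 ∧ n2 = 1 then (M + C4 * P ^ 2) * ‖a g‖ ^ 2 else 0) +
          E * (N g * (x g n1 * x g n2))) := by
      intro g hg n1 hn1 n2 hn2
      obtain ⟨g1, g2⟩ := mem_ballN.1 hg
      obtain ⟨p1, p2⟩ := mem_ballN.1 hn1
      obtain ⟨q1, q2⟩ := mem_ballN.1 hn2
      have hg0 := one_le_N g1.ne_zero
      have hrhs : 0 ≤ C2 * ((if n1 = 1 ∧ n2 = 1 then (M + C4 * P ^ 2) * ‖a g‖ ^ 2 else 0) +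
          E * (N g * (x g n1 * x g n2))) := by
        have := hx0 g n1
        have := hx0 g n2
        split_ifs <;> positivity
      by_cases hc : g * n1 ∈ ballN O R ∧ g * n2 ∈ ballN O R ∧ IsRelPrime n1 n2
      swap
      · rw [if_neg hc, if_neg hc, sub_zero, norm_zero]; exact hrhs
      rw [if_pos hc, if_pos hc, ← mul_sub]
      by_cases z1 : a (g * n1) = 0
      · rw [z1, zero_mul, zero_mul, norm_zero]; exact hrhs
      by_cases z2 : a (g * n2) = 0
      · rw [z2, map_zero, mul_zero, zero_mul, norm_zero]; exact hrhs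
      obtain ⟨u1, u2⟩ := ha _ z1
      obtain ⟨v1, v2⟩ := ha _ z2
      have c1 := ((nn_mul_iff g1.1 p1.1).1 (mem_ballN.1 hc.1).1).2.2
      have c2 := ((nn_mul_iff g1.1 q1.1).1 (mem_ballN.1 hc.2.1).1).2.2
      have h4' : cls n1 = cls n2 := by
        have e1 := u1.trans v1.symm
        rw [Ar.cls_mul _ _ g1.ne_zero p1.ne_zero, Ar.cls_mul _ _ g1.ne_zero q1.ne_zero] at e1
        exact mul_left_cancel e1
      have b := h2 M K g n1 n2 hM0 (by linarith) g1 p1 q1 hc.2.2 c1 c2 h4'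
      have dg := hd g g1.ne_zero ((g2.trans hRZ).trans (le_self_pow₀ hZ two_ne_zero))
      have dn := hd (n1 * n2) (mul_ne_zero p1.ne_zero q1.ne_zero) (by
        rw [N_mul, sq]
        exact mul_le_mul (p2.trans hRZ) (q2.trans hRZ) (N_nonneg _) (by linarith only [hZ]))
      have dg0 := one_le_dv g1.ne_zero
      have dn0 := one_le_dv (mul_ne_zero p1.ne_zero q1.ne_zero)
      have hsq : R / (2 * N g) ≤ √(N n1 * N n2) := by
        rw [N_mul] at u2 v2
        have w1 : R / (2 * N g) ≤ N n1 := by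
          rw [div_le_iff₀ (by positivity)]; linarith only [u2]
        have w2 : R / (2 * N g) ≤ N n2 := by
          rw [div_le_iff₀ (by positivity)]; linarith only [v2]
        refine Real.le_sqrt_of_sq_le ?_
        rw [sq]
        exact mul_le_mul w1 w2 (by positivity) (N_nonneg _)
      have hm : 1 + M / √(N n1 * N n2) ≤ N g * (1 + 2 * M / R) := by
        have : M / √(N n1 * N n2) ≤ N g * (2 * M / R) := by
          calc M / √(N n1 * N n2) ≤ M / (R / (2 * N g)) :=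
                div_le_div_of_nonneg_left hM0.le (by positivity) hsq
            _ = _ := by field_simp
        linarith only [this, hg0]
      have hx1 : x g n1 = ‖a (g * n1)‖ := by simp only [hx]; rw [if_pos hc.1]
      have hx2 : x g n2 = ‖a (g * n2)‖ := by simp only [hx]; rw [if_pos hc.2.1]
      rw [norm_mul, norm_mul, Complex.norm_conj, hx1, hx2]
      refine (mul_le_mul_of_nonneg_left b (by positivity)).trans ?_
      have f1 : K * (dv g * dv (n1 * n2) * (1 + M / √(N n1 * N n2))) ≤ E * N g := by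
        calc K * (dv g * dv (n1 * n2) * (1 + M / √(N n1 * N n2)))
            ≤ K * (C4 * P ^ 2 * (C4 * P ^ 2) * (N g * (1 + 2 * M / R))) := by gcongr
          _ = _ := by rw [hE]; ring
      have f2 : ‖a (g * n1)‖ * ‖a (g * n2)‖ * (if n1 = 1 ∧ n2 = 1 then M + dv g else 0) ≤
          (if n1 = 1 ∧ n2 = 1 then (M + C4 * P ^ 2) * ‖a g‖ ^ 2 else 0) := by
        split_ifs with hd1
        · rw [hd1.1, hd1.2, mul_one, ← sq, mul_comm]
          gcongr
        · simp
      calc ‖a (g * n1)‖ * ‖a (g * n2)‖ * (C2 * ((if n1 = 1 ∧ n2 = 1 then M + dv g else 0) +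
            K * (dv g * dv (n1 * n2) * (1 + M / √(N n1 * N n2)))))
          = C2 * (‖a (g * n1)‖ * ‖a (g * n2)‖ * (if n1 = 1 ∧ n2 = 1 then M + dv g else 0) +
            K * (dv g * dv (n1 * n2) * (1 + M / √(N n1 * N n2))) *
              (‖a (g * n1)‖ * ‖a (g * n2)‖)) := by ring
        _ ≤ C2 * ((if n1 = 1 ∧ n2 = 1 then (M + C4 * P ^ 2) * ‖a g‖ ^ 2 else 0) +
            E * N g * (‖a (g * n1)‖ * ‖a (g * n2)‖)) := by gcongr
        _ = _ := by ring
    calc _ ≤ ∑ g ∈ ballN O R, ∑ n1 ∈ ballN O R, ∑ n2 ∈ ballN O R,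
          C2 * ((if n1 = 1 ∧ n2 = 1 then (M + C4 * P ^ 2) * ‖a g‖ ^ 2 else 0) +
            E * (N g * (x g n1 * x g n2))) :=
          (norm_sum_le _ _).trans (Finset.sum_le_sum (fun g hg => (norm_sum_le _ _).trans
            (Finset.sum_le_sum (fun n1 hn1 => (norm_sum_le _ _).trans
              (Finset.sum_le_sum (fun n2 hn2 => t1 g hg n1 hn1 n2 hn2))))))
      _ ≤ ∑ g ∈ ballN O R, C2 * ((M + C4 * P ^ 2) * ‖a g‖ ^ 2 +
            E * (N g * (∑ n ∈ ballN O R, x g n) ^ 2)) := by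
          refine Finset.sum_le_sum (fun g _ => ?_)
          simp only [← Finset.mul_sum, Finset.sum_add_distrib]
          refine mul_le_mul_of_nonneg_left (add_le_add (hb3_one _ (by positivity))
            (le_of_eq ?_)) hC2.le
          rw [← Finset.sum_mul, sq]
      _ = C2 * ((M + C4 * P ^ 2) * S +
            E * ∑ g ∈ ballN O R, N g * (∑ n ∈ ballN O R, x g n) ^ 2) := by
          rw [← Finset.mul_sum, Finset.sum_add_distrib, ← Finset.mul_sum, ← Finset.mul_sum]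
      _ ≤ _ := by
          gcongr
          exact h3 R (fun n => ‖a n‖) hR (fun n => norm_nonneg _)
  set T : ℝ := M * K + K * R + R * √(M / K) + R ^ 3 / M with hT
  have t0 : 0 ≤ R * √(M / K) := by positivity
  have t1 : 0 ≤ R ^ 3 / M := by positivity
  have t2 : 1 ≤ M * K := one_le_mul_of_one_le_of_one_le hM hK
  have t3 : 0 ≤ K * R := by positivity
  have t4 : M ≤ M * K := le_mul_of_one_le_right hM0.le hK
  have hRP : R ^ (ε / 5) ≤ P := Real.rpow_le_rpow hR0.le hRZ hε'.le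
  have hP2 : P ^ 2 ≤ P ^ 5 := pow_le_pow_right₀ hP1 (by norm_num)
  have hP0 : 1 ≤ P ^ 5 := one_le_pow₀ hP1
  have c1 : (M + C4 * P ^ 2) * S ≤ (1 + C4) * (P ^ 5 * T * S) := by
    have e1 : M ≤ P ^ 5 * T := by
      calc M = 1 * M := (one_mul _).symm
        _ ≤ P ^ 5 * T := by gcongr; linarith
    have e2 : P ^ 2 ≤ P ^ 5 * T := by
      calc P ^ 2 = P ^ 2 * 1 := (mul_one _).symm
        _ ≤ P ^ 5 * T := by gcongr; linarith
    calc (M + C4 * P ^ 2) * S ≤ (P ^ 5 * T + C4 * (P ^ 5 * T)) * S := by gcongr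
      _ = _ := by ring
  have c2 : E * (C3 * R ^ (ε / 5) * R * S) ≤ 2 * C4 ^ 2 * C3 * (P ^ 5 * T * S) := by
    calc E * (C3 * R ^ (ε / 5) * R * S) ≤ E * (C3 * P * R * S) := by gcongr
      _ = C4 ^ 2 * C3 * (P ^ 5 * (K * R + 2 * (M * K)) * S) := by rw [hE]; field_simp
      _ ≤ C4 ^ 2 * C3 * (P ^ 5 * (2 * T) * S) := by gcongr; linarith
      _ = _ := by ring
  have c3 : C1 * Z ^ ε * (R * √(M / K) + R ^ 3 / M) * S ≤ C1 * (P ^ 5 * T * S) := by
    rw [hP5]
    calc _ ≤ C1 * P ^ 5 * T * S := by gcongr; linarith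
      _ = _ := by ring
  have fin := (norm_le_insert' _ _).trans (add_le_add (b1.trans c3)
    (b2.trans (mul_le_mul_of_nonneg_left (add_le_add c1 c2) hC2.le)))
  refine (mul_le_mul_of_nonneg_left fin hC0.le).trans (le_of_eq ?_)
  rw [hP5]; ring

end

end Vale.Agent.P319N.Ab
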