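import Vale.Agent.P319N.ABas

namespace Vale.Agent.P319N.Ab

open Complex MeasureTheory Filter Topology
open scoped Classical ComplexConjugate Real
open Vale.Agent.P026 (W DualW)

noncomputable section

variable {O : Type} [CommMonoidWithZero O] [UniqueFactorizationMonoid O] [Ar O]

theorem card_ballO_le : ∃ C : ℝ, 0 < C ∧ ∀ R : ℝ, 0 ≤ R → ((ballO O R).card : ℝ) ≤ C * R := by
  obtain ⟨C, h⟩ := Ar.card_le (O := O)
  refine ⟨|C| + 1, by positivity, fun R hR => ?_⟩
  have h1 := h R hR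
  rw [Set.ncard_eq_toFinset_card _ (Ar.fin_ball R)] at h1
  exact h1.trans (mul_le_mul_of_nonneg_right (by linarith [le_abs_self C]) hR)
theorem lat_tail_aux {s B : ℝ} (hs : 1 < s) (hB : 0 ≤ B) {c : O → ℝ} (hc : ∀ n, 0 ≤ c n)
    (hb : ∀ R : ℝ, 0 < R → ∑ n ∈ ballO O R, c n ≤ B * R) (J : ℕ) : ∀ R : ℝ, 0 < R →
    ∑ n ∈ ballO O (2 ^ J * R), (if R < N n then c n * N n ^ (-s) else 0) ≤
      2 * B / (1 - 2 ^ (1 - s)) * R ^ (1 - s) := by
  have hq : (2 : ℝ) ^ (1 - s) < 1 := Real.rpow_lt_one_of_one_lt_of_neg (by norm_num) (by linarith)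
  have hq' : 0 < 1 - (2 : ℝ) ^ (1 - s) := by linarith
  induction J with
  | zero =>
    intro R hR
    rw [Finset.sum_eq_zero]
    · positivity
    · intro n hn
      rw [if_neg]
      have := (mem_ballO'.1 hn).2
      simp only [pow_zero, one_mul] at this
      linarith
  | succ J ih =>
    intro R hR
    have h1 := ih (2 * R) (by positivity)
    have h2 : (2 : ℝ) ^ (J + 1) * R = 2 ^ J * (2 * R) := by ring
    rw [h2]
    have h3 : ∀ n ∈ ballO O (2 ^ J * (2 * R)), (if R < N n then c n * N n ^ (-s) else 0) ≤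
        (if 2 * R < N n then c n * N n ^ (-s) else 0) +
          (if n ∈ ballO O (2 * R) then c n else 0) * R ^ (-s) := by
      intro n hn
      have a0 : 0 ≤ c n * N n ^ (-s) := mul_nonneg (hc n) (Real.rpow_nonneg (N_nonneg n) _)
      have a1 : 0 ≤ (if n ∈ ballO O (2 * R) then c n else 0) * R ^ (-s) := by
        apply mul_nonneg _ (by positivity)
        split_ifs
        · exact hc n
        · exact le_rfl
      by_cases b1 : 2 * R < N n
      · rw [if_pos b1, if_pos (by linarith)]; linarith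
      · rw [if_neg b1, if_pos (mem_ballO'.2 ⟨(mem_ballO'.1 hn).1, not_lt.1 b1⟩), zero_add]
        split_ifs with b2
        · exact mul_le_mul_of_nonneg_left
            (Real.rpow_le_rpow_of_nonpos hR b2.le (by linarith)) (hc n)
        · exact mul_nonneg (hc n) (by positivity)
    refine (Finset.sum_le_sum h3).trans ?_
    rw [Finset.sum_add_distrib, ← Finset.sum_mul, Finset.sum_ite_mem]
    have h4 : ∑ n ∈ ballO O (2 ^ J * (2 * R)) ∩ ballO O (2 * R), c n ≤ B * (2 * R) :=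
      (Finset.sum_le_sum_of_subset_of_nonneg Finset.inter_subset_right
        (fun n _ _ => hc n)).trans (hb _ (by positivity))
    have h5 := mul_le_mul_of_nonneg_right h4 (show 0 ≤ R ^ (-s) by positivity)
    have h6 : R ^ (1 - s) = R * R ^ (-s) := by
      rw [sub_eq_add_neg, Real.rpow_add hR, Real.rpow_one]
    rw [Real.mul_rpow (by norm_num) hR.le] at h1
    have h7 : 2 * B / (1 - 2 ^ (1 - s)) * (2 ^ (1 - s) * R ^ (1 - s)) + B * (2 * R) * R ^ (-s) =
        2 * B / (1 - 2 ^ (1 - s)) * R ^ (1 - s) := by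
      rw [h6]; field_simp; ring
    linarith
theorem lat_tail {s B : ℝ} (hs : 1 < s) (hB : 0 ≤ B) {c : O → ℝ} (hc : ∀ n, 0 ≤ c n)
    (hb : ∀ R : ℝ, 0 < R → ∑ n ∈ ballO O R, c n ≤ B * R) {R : ℝ} (hR : 0 < R) :
    Summable (fun n : O => if R < N n then c n * N n ^ (-s) else 0) ∧
    ∑' n : O, (if R < N n then c n * N n ^ (-s) else 0) ≤
      2 * B / (1 - 2 ^ (1 - s)) * R ^ (1 - s) := by
  have hnn : ∀ n : O, 0 ≤ (if R < N n then c n * N n ^ (-s) else 0) := by
    intro n
    split_ifs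
    · exact mul_nonneg (hc n) (Real.rpow_nonneg (N_nonneg n) _)
    · exact le_rfl
  have key : ∀ u : Finset O, ∑ n ∈ u, (if R < N n then c n * N n ^ (-s) else 0) ≤
      2 * B / (1 - 2 ^ (1 - s)) * R ^ (1 - s) := by
    intro u
    obtain ⟨J, hJ⟩ := pow_unbounded_of_one_lt ((∑ n ∈ u, N n) / R) (one_lt_two (α := ℝ))
    refine le_trans ?_ (lat_tail_aux hs hB hc hb J R hR)
    rw [← Finset.sum_filter, ← Finset.sum_filter]
    apply Finset.sum_le_sum_of_subset_of_nonneg
    · intro n hn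
      rw [Finset.mem_filter] at hn ⊢
      refine ⟨mem_ballO'.2 ⟨?_, ?_⟩, hn.2⟩
      · rintro rfl
        have := hn.2
        rw [N_zero] at this
        linarith
      · have := Finset.single_le_sum (fun n _ => N_nonneg n) hn.1
        rw [div_lt_iff₀ hR] at hJ
        linarith
    · exact fun n _ _ => mul_nonneg (hc n) (Real.rpow_nonneg (N_nonneg n) _)
  have hsum := summable_of_sum_le hnn key
  exact ⟨hsum, hsum.tsum_le_of_sum_le key⟩
theorem lat_summable {s B : ℝ} (hs : 1 < s) (hB : 0 ≤ B) {c : O → ℝ} (hc : ∀ n, 0 ≤ c n)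
    (hb : ∀ R : ℝ, 0 < R → ∑ n ∈ ballO O R, c n ≤ B * R) :
    Summable (fun n : O => c n * N n ^ (-s)) := by
  refine (lat_tail hs hB hc hb (R := 1 / 2) (by norm_num)).1.congr (fun n => ?_)
  split_ifs with h
  · rfl
  · have : n = 0 := by
      by_contra h0
      have := one_le_N h0
      linarith
    rw [this, N_zero, Real.zero_rpow (by linarith), mul_zero]
theorem lat_tail_one {s : ℝ} (hs : 1 < s) :
    ∃ C : ℝ, 0 < C ∧ ∀ R : ℝ, 0 < R →
      Summable (fun n : O => if R < N n then N n ^ (-s) else 0) ∧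
      ∑' n : O, (if R < N n then N n ^ (-s) else 0) ≤ C * R ^ (1 - s) := by
  obtain ⟨C, hC, h⟩ := card_ballO_le (O := O)
  have hq : (2 : ℝ) ^ (1 - s) < 1 := Real.rpow_lt_one_of_one_lt_of_neg (by norm_num) (by linarith)
  have hq' : 0 < 1 - (2 : ℝ) ^ (1 - s) := by linarith
  refine ⟨2 * C / (1 - 2 ^ (1 - s)), by positivity, fun R hR => ?_⟩
  have := lat_tail hs hC.le (c := fun _ => 1) (fun _ => zero_le_one)
    (fun R hR => by simpa using h R hR.le) hR
  simpa only [one_mul] using this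
theorem summable_N_rpow {s : ℝ} (hs : 1 < s) : Summable (fun n : O => N n ^ (-s)) := by
  obtain ⟨C, hC, h⟩ := card_ballO_le (O := O)
  have := lat_summable hs hC.le (c := fun _ => 1) (fun _ => zero_le_one)
    (fun R hR => by simpa using h R hR.le)
  simpa only [one_mul] using this
theorem lat_head_aux {a C : ℝ} (ha : -1 < a) (ha0 : a ≤ 0) (hC : 0 < C)
    (h : ∀ R : ℝ, 0 ≤ R → ((ballO O R).card : ℝ) ≤ C * R) (J : ℕ) : ∀ R : ℝ, 0 ≤ R → R < 2 ^ J →
    ∑ n ∈ ballO O R, N n ^ a ≤ 2 * C * 2 ^ (1 + a) / (2 ^ (1 + a) - 1) * R ^ (1 + a) := by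
  have hq : (1 : ℝ) < 2 ^ (1 + a) := Real.one_lt_rpow (by norm_num) (by linarith)
  have hq' : (0 : ℝ) < 2 ^ (1 + a) - 1 := by linarith
  induction J with
  | zero =>
    intro R hR h1
    rw [ballO_eq_empty (by simpa using h1), Finset.sum_empty]
    positivity
  | succ J ih =>
    intro R hR h1
    rcases hR.eq_or_lt with rfl | hR'
    · rw [ballO_eq_empty (by norm_num), Finset.sum_empty]
      positivity
    obtain ⟨r, rfl⟩ : ∃ r, R = 2 * r := ⟨R / 2, by ring⟩
    have hr : 0 < r := by linarith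
    have h2 := ih r hr.le (by rw [pow_succ] at h1; linarith)
    have h3 : ∀ n ∈ ballO O (2 * r), N n ^ a ≤ (if n ∈ ballO O r then N n ^ a else 0) + r ^ a := by
      intro n hn
      split_ifs with b
      · have : 0 ≤ r ^ a := by positivity
        linarith
      · rw [mem_ballO', not_and] at b
        rw [zero_add]
        exact Real.rpow_le_rpow_of_nonpos hr (not_le.1 (b (mem_ballO'.1 hn).1)).le ha0
    refine (Finset.sum_le_sum h3).trans ?_
    rw [Finset.sum_add_distrib, Finset.sum_ite_mem,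
      Finset.inter_eq_right.2 (ballO_mono (by linarith)), Finset.sum_const, nsmul_eq_mul,
      Real.mul_rpow (by norm_num) hr.le]
    have h5 := mul_le_mul_of_nonneg_right (h (2 * r) hR) (show 0 ≤ r ^ a by positivity)
    have h6 : r ^ (1 + a) = r * r ^ a := by
      rw [Real.rpow_add hr, Real.rpow_one]
    have h7 : 2 * C * 2 ^ (1 + a) / (2 ^ (1 + a) - 1) * (2 ^ (1 + a) * r ^ (1 + a)) =
        2 * C * 2 ^ (1 + a) / (2 ^ (1 + a) - 1) * r ^ (1 + a) +
          2 ^ (1 + a) * (C * (2 * r) * r ^ a) := by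
      rw [h6]; field_simp; ring
    have h8 : C * (2 * r) * r ^ a ≤ 2 ^ (1 + a) * (C * (2 * r) * r ^ a) :=
      le_mul_of_one_le_left (by positivity) hq.le
    linarith
theorem sum_N_rpow_le {a : ℝ} (ha : -1 < a) :
    ∃ C : ℝ, 0 < C ∧ ∀ R : ℝ, 0 ≤ R → ∑ n ∈ ballO O R, N n ^ a ≤ C * R ^ (1 + a) := by
  obtain ⟨C, hC, h⟩ := card_ballO_le (O := O)
  rcases le_total a 0 with ha0 | ha0
  · have hq : (1 : ℝ) < 2 ^ (1 + a) := Real.one_lt_rpow (by norm_num) (by linarith)
    have hq' : (0 : ℝ) < 2 ^ (1 + a) - 1 := by linarith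
    refine ⟨2 * C * 2 ^ (1 + a) / (2 ^ (1 + a) - 1), by positivity, fun R hR => ?_⟩
    obtain ⟨J, hJ⟩ := pow_unbounded_of_one_lt R (one_lt_two (α := ℝ))
    exact lat_head_aux ha ha0 hC h J R hR hJ
  · refine ⟨C, hC, fun R hR => ?_⟩
    have h1 : ∀ n ∈ ballO O R, N n ^ a ≤ R ^ a := fun n hn =>
      Real.rpow_le_rpow (N_nonneg n) (mem_ballO'.1 hn).2 ha0
    refine (Finset.sum_le_sum h1).trans ?_
    rw [Finset.sum_const, nsmul_eq_mul, Real.rpow_add' hR (by linarith), Real.rpow_one,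
      ← mul_assoc]
    exact mul_le_mul_of_nonneg_right (h R hR) (by positivity)
theorem sum_inv_N_le {ε : ℝ} (hε : 0 < ε) :
    ∃ C : ℝ, 0 < C ∧ ∀ R : ℝ, 1 ≤ R → ∑ n ∈ ballO O R, (N n)⁻¹ ≤ C * R ^ ε := by
  obtain ⟨C, hC, h⟩ := sum_N_rpow_le (O := O) (a := -1 + ε) (by linarith)
  refine ⟨C, hC, fun R hR => ?_⟩
  have h1 := h R (by linarith)
  rw [show 1 + (-1 + ε) = ε by ring] at h1
  refine le_trans (Finset.sum_le_sum (fun n hn => ?_)) h1
  rw [← Real.rpow_neg_one]
  exact Real.rpow_le_rpow_of_exponent_le (one_le_N (mem_ballO'.1 hn).1) (by linarith)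
theorem tail_N_rpow_le {s : ℝ} (hs : 1 < s) :
    ∃ C : ℝ, 0 < C ∧ ∀ R : ℝ, 0 < R →
      ∑' n : O, (if R < N n then N n ^ (-s) else 0) ≤ C * R ^ (1 - s) := by
  obtain ⟨C, hC, h⟩ := lat_tail_one (O := O) hs
  exact ⟨C, hC, fun R hR => (h R hR).2⟩
theorem lat_split : ∃ C : ℝ, 0 < C ∧ ∀ (f : O → ℝ) (T A B : ℝ), 0 < T → 0 ≤ A → 0 ≤ B →
    (∀ h, 0 ≤ f h) → f 0 = 0 → (∀ h, N h ≤ T → f h ≤ A) → (∀ h, T < N h → f h ≤ B / N h ^ 2) →
    Summable f ∧ ∑' h, f h ≤ C * (A * T + B / T) := by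
  obtain ⟨C1, hC1, h1⟩ := card_ballO_le (O := O)
  obtain ⟨C2, hC2, h2⟩ := lat_tail_one (O := O) (s := 2) (by norm_num)
  refine ⟨C1 + C2, by positivity, fun f T A B hT hA hB hf hf0 ha hb => ?_⟩
  obtain ⟨h3, h4⟩ := h2 T hT
  have h5 : HasSum (fun h : O => if h ∈ ballO O T then A else 0) ((ballO O T).card * A) := by
    have := hasSum_sum_of_ne_finset_zero (f := fun h : O => if h ∈ ballO O T then A else 0)
      (s := ballO O T) (L := SummationFilter.unconditional O) (fun b hb => if_neg hb)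
    rwa [Finset.sum_ite_mem, Finset.inter_self, Finset.sum_const, nsmul_eq_mul] at this
  have h6 := h5.add (h3.hasSum.mul_left B)
  have h7 : ∀ h : O, f h ≤ (if h ∈ ballO O T then A else 0) +
      B * (if T < N h then N h ^ (-(2 : ℝ)) else 0) := by
    intro h
    by_cases b1 : T < N h
    · rw [if_pos b1, if_neg (fun hh => by linarith [(mem_ballO'.1 hh).2]), zero_add,
        Real.rpow_neg (N_nonneg h), Real.rpow_two, ← div_eq_mul_inv]
      exact hb h b1
    · rw [if_neg b1, mul_zero, add_zero]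
      by_cases b2 : h = 0
      · rw [b2, hf0]
        split_ifs
        · exact hA
        · exact le_rfl
      · rw [if_pos (mem_ballO'.2 ⟨b2, not_lt.1 b1⟩)]
        exact ha h (not_lt.1 b1)
  have h8 : Summable f := Summable.of_nonneg_of_le hf h7 h6.summable
  refine ⟨h8, (hasSum_le h7 h8.hasSum h6).trans ?_⟩
  rw [show (1 : ℝ) - 2 = -1 by norm_num, Real.rpow_neg_one] at h4
  have h9 := mul_le_mul_of_nonneg_right (h1 T hT.le) hA
  have h10 := mul_le_mul_of_nonneg_left h4 hB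
  have h11 : 0 ≤ C1 * (B / T) := by positivity
  have h12 : 0 ≤ C2 * (A * T) := by positivity
  have h13 : B * (C2 * T⁻¹) = C2 * (B / T) := by ring
  nlinarith
theorem summable_of_sq_bound {a : O → ℂ} {Bd : ℝ}
    (ha : ∀ R : ℝ, 1 ≤ R → ∑ n ∈ ballO O R, ‖a n‖ ^ 2 ≤ Bd * R) {s : ℝ} (hs : 1 < s) :
    Summable (fun n : O => ‖a n‖ * N n ^ (-s)) := by
  obtain ⟨C, hC, h⟩ := card_ballO_le (O := O)
  refine lat_summable hs (B := |Bd| + C) (by positivity) (fun n => norm_nonneg _)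
    (fun R hR => ?_)
  by_cases h1 : R < 1
  · rw [ballO_eq_empty h1, Finset.sum_empty]; positivity
  · have h2 : ∀ n ∈ ballO O R, ‖a n‖ ≤ ‖a n‖ ^ 2 + 1 := fun n _ => by
      nlinarith [sq_nonneg (‖a n‖ - 1), norm_nonneg (a n)]
    refine (Finset.sum_le_sum h2).trans ?_
    rw [Finset.sum_add_distrib, Finset.sum_const, nsmul_eq_mul, mul_one]
    have h3 := ha R (not_lt.1 h1)
    have h4 := h R hR.le
    have h5 := mul_le_mul_of_nonneg_right (le_abs_self Bd) hR.le
    linarith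
/-- exhaustion of `O` by balls -/
theorem tendsto_sum_ballO {E : Type*} [NormedAddCommGroup E] {f : O → E} (hf : Summable f)
    (h0 : f 0 = 0) :
    Tendsto (fun R : ℝ => ∑ n ∈ ballO O R, f n) atTop (𝓝 (∑' n, f n)) := by
  have h1 : Tendsto (fun R : ℝ => insert 0 (ballO O R)) atTop atTop := by
    apply tendsto_atTop_finset_of_monotone
    · exact fun R R' h => Finset.insert_subset_insert _ (ballO_mono h)
    · intro x
      refine ⟨N x, ?_⟩
      by_cases hx : x = 0
      · simp [hx]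
      · exact Finset.mem_insert_of_mem (mem_ballO'.2 ⟨hx, le_rfl⟩)
  have h2 : Tendsto (fun s : Finset O => ∑ n ∈ s, f n) atTop (𝓝 (∑' n, f n)) := hf.hasSum
  refine (h2.comp h1).congr (fun R => ?_)
  simp only [Function.comp]
  rw [Finset.sum_insert_of_eq_zero_if_notMem (fun _ => h0)]
theorem lat_key {s : ℝ} (hs : 1 < s) : ∃ C : ℝ, 0 < C ∧ ∀ (f g : O → ℝ) (S : Finset O) (T B : ℝ),
    0 < T → 0 ≤ B → (∀ h, 0 ≤ f h) →
    (∀ h, f h ≤ (if h ∈ S then g h else 0) + B * (if T < N h then N h ^ (-s) else 0)) →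
    Summable f ∧ ∑' h, f h ≤ ∑ h ∈ S, g h + B * (C * T ^ (1 - s)) := by
  obtain ⟨C2, hC2, h2⟩ := lat_tail_one (O := O) hs
  refine ⟨C2, hC2, fun f g S T B hT hB hf h7 => ?_⟩
  obtain ⟨h3, h4⟩ := h2 T hT
  have h5 : HasSum (fun h : O => if h ∈ S then g h else 0) (∑ h ∈ S, g h) := by
    have := hasSum_sum_of_ne_finset_zero (f := fun h : O => if h ∈ S then g h else 0)
      (s := S) (L := SummationFilter.unconditional O) (fun b hb => if_neg hb)
    rwa [Finset.sum_ite_mem, Finset.inter_self] at this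
  have h6 := h5.add (h3.hasSum.mul_left B)
  have h8 : Summable f := Summable.of_nonneg_of_le hf h7 h6.summable
  exact ⟨h8, (hasSum_le h7 h8.hasSum h6).trans
    (add_le_add le_rfl (mul_le_mul_of_nonneg_left h4 hB))⟩
theorem lat_add_zero {f : O → ℝ} (h : Summable fun a : O => if a ≠ 0 then f a else 0) :
    Summable f := by
  refine (h.add (hasSum_ite_eq (0 : O) (f 0)).summable).congr (fun h => ?_)
  by_cases b : h = 0
  · simp [b]
  · simp [b]
theorem sum_V_le : ∃ C : ℝ, 0 < C ∧ ∀ T : ℝ, 0 < T → Summable (fun h : O => V O (N h / T)) ∧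
    ∑' h : O, (if h ≠ 0 then V O (N h / T) else 0) ≤ C * T := by
  obtain ⟨C1, hC1, h1⟩ := Ar.V_le (O := O) (1 / 2) (by norm_num)
  obtain ⟨C2, hC2, h2⟩ := Ar.V_le (O := O) 2 (by norm_num)
  obtain ⟨C3, hC3, h3⟩ := lat_key (O := O) (s := 2) (by norm_num)
  obtain ⟨C4, hC4, h4⟩ := sum_N_rpow_le (O := O) (a := -(1 / 2)) (by norm_num)
  refine ⟨C1 * C4 + C2 * C3, by positivity, fun T hT => ?_⟩
  obtain ⟨k1, k2⟩ := h3 (fun h : O => if h ≠ 0 then V O (N h / T) else 0)
    (fun h => C1 * T ^ (1 / 2 : ℝ) * N h ^ (-(1 / 2) : ℝ)) (ballO O T) T (C2 * T ^ (2 : ℝ)) hT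
    (by positivity) (fun h => by split_ifs; exacts [Ar.V_nonneg _, le_rfl]) (fun h => by
      have n0 := N_nonneg h
      by_cases b : h = 0
      · simp only [b, ne_eq, not_true, if_false]
        have := N_nonneg (0 : O)
        positivity
      have np := N_pos b
      rw [if_pos b]
      by_cases b1 : T < N h
      · rw [if_pos b1, if_neg (fun hh => by linarith [(mem_ballO'.1 hh).2]), zero_add]
        refine (h2 _ (by positivity)).trans (le_of_eq ?_)
        rw [Real.div_rpow n0 hT.le, Real.rpow_neg hT.le]; field_simp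
      · rw [if_neg b1, mul_zero, add_zero, if_pos (mem_ballO'.2 ⟨b, not_lt.1 b1⟩)]
        refine (h1 _ (by positivity)).trans (le_of_eq ?_)
        rw [Real.div_rpow n0 hT.le, Real.rpow_neg hT.le]; field_simp)
  refine ⟨lat_add_zero k1, k2.trans ?_⟩
  rw [← Finset.mul_sum]
  have e1 : T ^ (1 / 2 : ℝ) * T ^ (1 + -(1 / 2) : ℝ) = T := by
    rw [← Real.rpow_add hT]; norm_num
  have e2 : T ^ (2 : ℝ) * T ^ (1 - 2 : ℝ) = T := by
    rw [← Real.rpow_add hT]; norm_num
  calc _ ≤ C1 * T ^ (1 / 2 : ℝ) * (C4 * T ^ (1 + -(1 / 2) : ℝ)) +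
        C2 * T ^ (2 : ℝ) * (C3 * T ^ (1 - 2 : ℝ)) :=
        add_le_add (mul_le_mul_of_nonneg_left (h4 T hT.le) (by positivity)) le_rfl
    _ = C1 * C4 * (T ^ (1 / 2 : ℝ) * T ^ (1 + -(1 / 2) : ℝ)) +
        C2 * C3 * (T ^ (2 : ℝ) * T ^ (1 - 2 : ℝ)) := by ring
    _ = _ := by rw [e1, e2]; ring
theorem summable_V_sq {T : ℝ} (hT : 0 < T) : Summable (fun a : O => V O (T * N a ^ 2)) := by
  obtain ⟨C2, hC2, h2⟩ := Ar.V_le (O := O) 1 (by norm_num)
  refine lat_add_zero (Summable.of_nonneg_of_le (fun h => by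
    split_ifs; exacts [Ar.V_nonneg _, le_rfl]) (fun h => ?_)
    ((summable_N_rpow (O := O) (s := 2) (by norm_num)).mul_left (C2 * T⁻¹)))
  have n0 := N_nonneg h
  split_ifs with b
  · have np := N_pos b
    refine (h2 _ (by positivity)).trans (le_of_eq ?_)
    rw [Real.rpow_neg_one, Real.rpow_neg n0, Real.rpow_two]; field_simp
  · positivity
/-- from `Ar.gerr` (positive main term), `Ar.V_le` and `card_ballO_le` -/
theorem card_ballO_ge : ∃ c : ℝ, 0 < c ∧ ∀ R : ℝ, 1 ≤ R → c * R ≤ ((ballO O R).card : ℝ) := by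
  obtain ⟨C1, hC1, h1⟩ := Ar.V_le (O := O) (1 / 4) (by norm_num)
  obtain ⟨C2, hC2, h2⟩ := Ar.V_le (O := O) 1 (by norm_num)
  obtain ⟨C3, hC3, h3⟩ := lat_key (O := O) (s := 2) (by norm_num)
  obtain ⟨C4, hC4, h4⟩ := sum_N_rpow_le (O := O) (a := -(1 / 2)) (by norm_num)
  obtain ⟨c, C, hc, hg⟩ := Ar.gerr (O := O)
  have hC : 0 ≤ C := (abs_nonneg _).trans (hg 1 one_pos)
  set K := C1 * C4 + C2 * C3 with hK
  have hK0 : 0 < K := by positivity
  set η := c / (2 * K) with hη
  have hη0 : 0 < η := by positivity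
  have key : ∀ R : ℝ, 0 < R → c * (η * R) / 2 - C ≤ C1 / η * ((ballO O R).card : ℝ) := by
    intro R hR
    set Y := η * R with hY
    have hY0 : 0 < Y := by positivity
    have g1 := (abs_le.1 (hg (Y ^ 2)⁻¹ (by positivity))).1
    rw [Real.sqrt_inv, Real.sqrt_sq hY0.le, div_inv_eq_mul] at g1
    have hv : ∀ h : O, h ≠ 0 → V O ((Y ^ 2)⁻¹ * N h ^ 2) ≤ C1 * √Y * N h ^ (-(1 / 2) : ℝ) := by
      intro h b
      have np := N_pos b
      refine (h1 _ (by positivity)).trans (le_of_eq ?_)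
      rw [show (Y ^ 2)⁻¹ * N h ^ 2 = (N h / Y) ^ (2 : ℝ) by rw [Real.rpow_two]; field_simp,
        ← Real.rpow_mul (by positivity), Real.div_rpow np.le hY0.le,
        show (2 : ℝ) * -(1 / 4) = -(1 / 2) by norm_num, Real.rpow_neg hY0.le, Real.sqrt_eq_rpow]
      field_simp
    obtain ⟨-, k2⟩ := h3 (fun h : O => if h ≠ 0 then V O ((Y ^ 2)⁻¹ * N h ^ 2) else 0)
      (fun h => (if h ∈ ballO O (η ^ 2 * Y) then C1 * √Y * N h ^ (-(1 / 2) : ℝ) else 0) + C1 / η)
      (ballO O R) R (C2 * Y ^ 2) hR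
      (by positivity) (fun h => by split_ifs; exacts [Ar.V_nonneg _, le_rfl]) (fun h => by
        have n0 := N_nonneg h
        by_cases b : h = 0
        · simp only [b, ne_eq, not_true, if_false]
          have := N_nonneg (0 : O)
          positivity
        have np := N_pos b
        rw [if_pos b]
        by_cases b1 : R < N h
        · rw [if_pos b1, if_neg (fun hh => by linarith [(mem_ballO'.1 hh).2]), zero_add]
          refine (h2 _ (by positivity)).trans (le_of_eq ?_)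
          rw [Real.rpow_neg_one, Real.rpow_neg n0, Real.rpow_two]; field_simp
        · rw [if_neg b1, mul_zero, add_zero, if_pos (mem_ballO'.2 ⟨b, not_lt.1 b1⟩)]
          refine (hv h b).trans ?_
          split_ifs with b2
          · exact le_add_of_nonneg_right (by positivity)
          · have b3 : η ^ 2 * Y ≤ N h := by
              by_contra c1; exact b2 (mem_ballO'.2 ⟨b, (not_le.1 c1).le⟩)
            have b4 := Real.rpow_le_rpow_of_nonpos (by positivity) b3
              (by norm_num : (-(1 / 2) : ℝ) ≤ 0)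
            rw [Real.rpow_neg (x := η ^ 2 * Y) (by positivity), ← Real.sqrt_eq_rpow,
              Real.sqrt_mul (sq_nonneg η), Real.sqrt_sq hη0.le] at b4
            have := Real.sqrt_pos.2 hY0
            calc _ ≤ C1 * √Y * (η * √Y)⁻¹ := by gcongr
              _ = _ := by field_simp; ring)
    rw [Finset.sum_add_distrib, Finset.sum_ite_mem, Finset.sum_const, nsmul_eq_mul] at k2
    have k3 : ∑ h ∈ ballO O R ∩ ballO O (η ^ 2 * Y), C1 * √Y * N h ^ (-(1 / 2) : ℝ) ≤
        C1 * C4 * η * Y := by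
      refine (Finset.sum_le_sum_of_subset_of_nonneg Finset.inter_subset_right fun h _ _ => by
        have := N_nonneg h; positivity).trans ?_
      rw [← Finset.mul_sum]
      refine (mul_le_mul_of_nonneg_left (h4 _ (by positivity)) (by positivity)).trans (le_of_eq ?_)
      rw [show (1 : ℝ) + -(1 / 2) = 1 / 2 by norm_num, ← Real.sqrt_eq_rpow,
        Real.sqrt_mul (sq_nonneg η), Real.sqrt_sq hη0.le]
      linear_combination (C1 * C4 * η) * Real.mul_self_sqrt hY0.le
    have k4 : C2 * Y ^ 2 * (C3 * R ^ (1 - 2 : ℝ)) = C2 * C3 * η * Y := by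
      rw [show (1 : ℝ) - 2 = -1 by norm_num, Real.rpow_neg_one, hY]; field_simp
    have k5 : K * η * Y = c * Y / 2 := by rw [hη]; field_simp
    have k6 : (∑' a : O, if a ≠ 0 then Ar.V O ((Y ^ 2)⁻¹ * (Nm a : ℝ) ^ 2) else 0) =
      ∑' h : O, if h ≠ 0 then V O ((Y ^ 2)⁻¹ * N h ^ 2) else 0 := rfl
    rw [k6] at g1
    rw [hK] at k5
    rw [k4] at k2
    have k7 := k2.trans (add_le_add (add_le_add k3 le_rfl) le_rfl)
    linarith
  set R0 := 4 * C / (c * η) + 1 with hR0
  have hR00 : 0 < R0 := by positivity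
  refine ⟨min (c * η ^ 2 / (4 * C1)) (1 / R0), by positivity, fun R hR => ?_⟩
  rcases le_total R R0 with b | b
  · have : 1 ≤ (ballO O R).card := Finset.card_pos.2
      ⟨1, mem_ballO'.2 ⟨one_ne_zero', by rw [N_one]; exact hR⟩⟩
    have h5 : (1 : ℝ) ≤ (ballO O R).card := by exact_mod_cast this
    calc _ ≤ 1 / R0 * R0 := mul_le_mul (min_le_right _ _) b (by linarith) (by positivity)
      _ ≤ _ := by rw [one_div_mul_cancel hR00.ne']; exact h5
  · have k := key R (by linarith)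
    have b1 : 4 * C ≤ c * η * R := by
      have : 4 * C / (c * η) ≤ R := by linarith
      rw [div_le_iff₀ (by positivity)] at this; linarith
    refine (mul_le_mul_of_nonneg_right (min_le_left _ _) (by linarith)).trans ?_
    have k1 : c * η * R / 4 ≤ C1 / η * ((ballO O R).card : ℝ) := by linarith
    calc _ = η / C1 * (c * η * R / 4) := by field_simp
      _ ≤ η / C1 * (C1 / η * ((ballO O R).card : ℝ)) := by gcongr
      _ = _ := by field_simp

end

end Vale.Agent.P319N.Ab
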