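import Vale.Agent.P319N.AWb
import Vale.Agent.P319N.ADiv

namespace Vale.Agent.P319N.Ab

open Complex MeasureTheory Filter Topology
open scoped Classical ComplexConjugate Real
open Vale.Agent.P026 (W DualW)

noncomputable section

variable {O : Type} [CommMonoidWithZero O] [UniqueFactorizationMonoid O] [Ar O]


theorem mult_coef {ω : O → ℂ} (hω : Wt ω) (n : O) (_ : NN n) : ‖mu n * ω n‖ ≤ 1 := by
  rw [norm_mul]
  exact mul_le_one₀ (norm_mu_le n) (norm_nonneg _) (hω.2 n)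

theorem mult_class {ω : O → ℂ} (hω : Wt ω) {X : ℝ} (hX : 0 < X) (w : ℂ)
    (m : O) : ‖A ω X w m‖ ^ 2 ≤
      Fintype.card (G O) * ∑ c : G O, ‖A (fun x => if cls x = c then 1 else 0) X w m‖ ^ 2 := by
  let η : G O → ℂ := fun c => if h : ∃ x : O, x ≠ 0 ∧ cls x = c then ω h.choose else 0
  have η1 : ∀ c, ‖η c‖ ≤ 1 := fun c => by
    simp only [η]; split_ifs
    · exact hω.2 _
    · simp
  have η2 : ∀ n : O, n ≠ 0 → ω n = η (cls n) := fun n hn => by
    have h : ∃ x : O, x ≠ 0 ∧ cls x = cls n := ⟨n, hn, rfl⟩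
    simp only [η, dif_pos h]
    exact hω.1 _ _ hn h.choose_spec.1 h.choose_spec.2.symm
  have e : A ω X w m = ∑ c : G O, η c * A (fun x => if cls x = c then 1 else 0) X w m := by
    simp only [A, AA, ← tsum_mul_left]
    rw [← Summable.tsum_finsetSum fun c _ =>
      (summable_AA (mult_coef (wt_class c)) 1 hX w m).mul_left (η c)]
    refine tsum_congr fun n => ?_
    split_ifs with hn
    · rw [← sum_class n (mu n * ω n * _ * _)]
      refine Finset.sum_congr rfl fun c _ => ?_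
      split_ifs with h
      · rw [η2 n hn.ne_zero, h]; ring
      · simp
    · simp
  rw [e]
  refine le_trans ?_ (sq_sum_le_card_mul_sum_sq (s := Finset.univ)
    (f := fun c => ‖A (fun x => if cls x = c then 1 else 0) X w m‖))
  gcongr
  refine norm_sum_le_of_le _ fun c _ => ?_
  rw [norm_mul]
  exact mul_le_of_le_one_left (norm_nonneg _) (η1 c)

theorem mult_count {ι : Type} (I : Finset ι) (a : ι → O) (M : ι → ℝ) {Y μ0 : ℝ} {F : O → ℝ}
    (hF : ∀ m, 0 ≤ F m) (h : ∀ i ∈ I, a i ≠ 0 ∧ M i * N (a i) ≤ Y)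
    (hμ : ∀ m ∈ ballO O Y, ((I.filter (fun i => a i ∣ m)).card : ℝ) ≤ μ0) :
    ∑ i ∈ I, ∑ m ∈ ballO O (M i), F (m * a i) ≤ μ0 * ∑ m ∈ ballO O Y, F m := by
  calc _ ≤ ∑ i ∈ I, ∑ m ∈ ballO O Y, if a i ∣ m then F m else 0 := Finset.sum_le_sum fun i hi => by
        rw [← Finset.sum_filter, ← Finset.sum_image (g := fun m => m * a i) (f := F)
          fun x _ y _ e => mul_right_cancel₀ (h i hi).1 e]
        refine Finset.sum_le_sum_of_subset_of_nonneg (fun x hx => ?_) fun _ _ _ => hF _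
        obtain ⟨m, hm, rfl⟩ := Finset.mem_image.1 hx
        rw [mem_ballO'] at hm
        refine Finset.mem_filter.2 ⟨mem_ballO'.2 ⟨mul_ne_zero hm.1 (h i hi).1, ?_⟩, dvd_mul_left _ _⟩
        rw [N_mul]
        exact (mul_le_mul_of_nonneg_right hm.2 (N_nonneg _)).trans (h i hi).2
    _ ≤ _ := by
        rw [Finset.sum_comm, Finset.mul_sum]
        refine Finset.sum_le_sum fun m hm => ?_
        rw [← Finset.sum_filter, Finset.sum_const, nsmul_eq_mul]
        exact mul_le_mul_of_nonneg_right (hμ m hm) (hF m)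

theorem mult {γ : ℝ} (h : HA6 O γ) {ε : ℝ} (hε : 0 < ε) (R0 : ℝ) :
    ∃ C : ℝ, 0 < C ∧ ∀ (ι : Type) (I : Finset ι) (Z X0 P Y μ0 : ℝ) (w : ℂ) (k : O) (a : ι → O)
      (Q M : ι → ℝ) (ω : ι → O → ℂ),
    1 ≤ Z → 0 < X0 → 0 < P → X0 / P ≤ Z → 0 < Y → Y ≤ Z → |w.re| ≤ R0 → k ≠ 0 → N k ≤ Z → 0 ≤ μ0 →
    (∀ i ∈ I, a i ≠ 0 ∧ P ≤ Q i ∧ Q i ≤ 2 * P ∧ M i * N (a i) ≤ Y ∧ Wt (ω i)) →
    (∀ m ∈ ballO O Y, ((I.filter (fun i => a i ∣ m)).card : ℝ) ≤ μ0) →
    ∑ i ∈ I, ∑ m ∈ ballO O (M i), ‖A (ω i) (X0 / Q i) w (m * a i * k ^ 6)‖ ^ 2 ≤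
      C * Real.exp (C * |w.im|) * Z ^ ε * μ0 * (X0 / P * Y + (X0 / P) ^ γ) := by
  obtain ⟨C6, h6, hC6⟩ := h ε hε (R0 + 3)
  obtain ⟨Cs, hs, hCs⟩ := AA_star (O := O) R0
  obtain ⟨r, hr⟩ : ∃ r : ℝ, r = Fintype.card (G O) := ⟨_, rfl⟩
  have r0 : 0 ≤ r := hr ▸ Nat.cast_nonneg _
  refine ⟨r * Cs * (r * (2 * π * (C6 * Real.exp (C6 * 3)))) + C6 + 1, by positivity, ?_⟩
  intro ι I Z X0 P Y μ0 w k a Q M ω hZ hX hP hXZ hY hYZ hw hk hkZ hμ hI hc
  have X0' : 0 < X0 / P := by positivity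
  let F : G O → O → ℝ → ℝ := fun c m θ =>
    ‖A (fun x => if cls x = c then 1 else 0) (X0 / P) (circleMap w 3 θ) (m * k ^ 6)‖ ^ 2
  have cG : ∀ c m, Continuous (F c m) := fun c m =>
    ((differentiable_AA (mult_coef (wt_class c)) 1 X0' _).continuous.comp
      (continuous_circleMap w 3)).norm.pow 2
  have hE : 0 ≤ Z ^ ε * (X0 / P * Y + (X0 / P) ^ γ) := by positivity
  calc _ ≤ ∑ i ∈ I, ∑ m ∈ ballO O (M i), r * Cs * ∑ c : G O,
        ∫ θ in (0 : ℝ)..(2 * π), F c (m * a i) θ := by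
        refine Finset.sum_le_sum fun i hi => Finset.sum_le_sum fun m _ => ?_
        obtain ⟨-, h1, h2, -, h3⟩ := hI i hi
        refine (mult_class h3 (div_pos hX (hP.trans_le h1)) w _).trans ?_
        rw [← hr, mul_assoc r, Finset.mul_sum _ _ Cs]
        gcongr with c
        rw [show X0 / Q i = X0 / P / (Q i / P) by field_simp]
        exact hCs _ 1 _ _ w _ (mult_coef (wt_class c)) X0' ((one_le_div hP).2 h1)
          ((div_le_iff₀ hP).2 h2) hw
    _ ≤ μ0 * ∑ m ∈ ballO O Y, r * Cs * ∑ c : G O, ∫ θ in (0 : ℝ)..(2 * π), F c m θ :=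
        mult_count I a M (F := fun m => r * Cs * ∑ c : G O, ∫ θ in (0 : ℝ)..(2 * π), F c m θ)
          (fun m => mul_nonneg (by positivity) (Finset.sum_nonneg fun c _ =>
            intervalIntegral.integral_nonneg (by positivity) fun θ _ => by positivity))
          (fun i hi => ⟨(hI i hi).1, (hI i hi).2.2.2.1⟩) hc
    _ ≤ μ0 * (r * Cs * ∑ c : G O, 2 * π * (C6 * Real.exp (C6 * (|w.im| + 3)) * Z ^ ε *
        (X0 / P * Y + (X0 / P) ^ γ))) := by
        rw [← Finset.mul_sum, Finset.sum_comm]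
        gcongr with c
        rw [← intervalIntegral.integral_finsetSum fun m _ => (cG c m).intervalIntegrable _ _]
        refine (intervalIntegral.integral_mono_on (by positivity)
          ((continuous_finsetSum _ fun m _ => cG c m).intervalIntegrable _ _)
          (intervalIntegrable_const (c := C6 * Real.exp (C6 * (|w.im| + 3)) * Z ^ ε *
            (X0 / P * Y + (X0 / P) ^ γ))) fun θ _ => ?_).trans_eq
          (by rw [intervalIntegral.integral_const, sub_zero, smul_eq_mul])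
        have e : ‖circleMap w 3 θ - w‖ = 3 := by simp [circleMap]
        have e1 := (abs_re_le_norm _).trans_eq e
        have e2 := (abs_im_le_norm _).trans_eq e
        rw [sub_re] at e1
        rw [sub_im] at e2
        refine (hC6 Z _ Y _ _ k hZ X0' hXZ hY hYZ (by
          linarith [abs_sub_abs_le_abs_sub (circleMap w 3 θ).re w.re]) (wt_class c) hk hkZ).trans ?_
        gcongr
        linarith [abs_sub_abs_le_abs_sub (circleMap w 3 θ).im w.im]
    _ = r * Cs * (r * (2 * π * (C6 * Real.exp (C6 * 3)))) * Real.exp (C6 * |w.im|) * Z ^ ε * μ0 *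
        (X0 / P * Y + (X0 / P) ^ γ) := by
        rw [Finset.sum_const, nsmul_eq_mul, Finset.card_univ, ← hr, mul_add C6, Real.exp_add]
        ring
    _ ≤ _ := by
        have : 0 ≤ r * Cs * (r * (2 * π * (C6 * Real.exp (C6 * 3)))) := by positivity
        gcongr <;> linarith

end

end Vale.Agent.P319N.Ab
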