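import Vale.Agent.P319N.ADiv

namespace Vale.Agent.P319N.Ab

open Complex MeasureTheory Filter Topology
open scoped Classical ComplexConjugate Real
open Vale.Agent.P026 (W DualW)

noncomputable section

variable {O : Type} [CommMonoidWithZero O] [UniqueFactorizationMonoid O] [Ar O]


theorem pp_norm_le (k : ℕ) (m n1 n2 : O) : ‖chi6 m n1 ^ k * conj (chi6 m n2 ^ k)‖ ≤ 1 := by
  rw [norm_mul, Complex.norm_conj, norm_pow, norm_pow]
  exact mul_le_one₀ (pow_le_one₀ (norm_nonneg _) (norm_chi6_le _ _)) (by positivity)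
    (pow_le_one₀ (norm_nonneg _) (norm_chi6_le _ _))

theorem pp_summable {f : O → ℂ} (hf : ∀ m, ‖f m‖ ≤ 1) {v : O → ℝ} (hv : Summable v) :
    Summable fun m => f m * ((v m : ℝ) : ℂ) :=
  Summable.of_norm_bounded hv.abs fun m => by
    rw [norm_mul, Complex.norm_real, Real.norm_eq_abs]
    exact mul_le_of_le_one_left (abs_nonneg _) (hf m)

theorem pp_tsum_dvd {e : O} (he : e ≠ 0) (F : O → ℂ) :
    ∑' m, (if e ∣ m then F m else 0) = ∑' m, F (e * m) := by
  rw [← (mul_right_injective₀ he).tsum_eq (f := fun m => if e ∣ m then F m else 0)]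
  · simp
  · intro m hm
    by_contra h
    exact hm (if_neg fun ⟨c, hc⟩ => h ⟨c, hc.symm⟩)

theorem pair_poisson {g n1 n2 : O} (hg : NN g) (h1 : NN n1)
    (h2 : NN n2) (h12 : IsRelPrime n1 n2) (hne : ¬ (n1 = 1 ∧ n2 = 1)) {k : ℕ} (hk1 : 1 ≤ k)
    (hk5 : k ≤ 5) {Y : ℝ} (hY : 0 < Y) :
    ∑' m : O, chi6 m (g * n1) ^ k * conj (chi6 m (g * n2) ^ k) * ((V O (N m / Y) : ℝ) : ℂ) =
      ∑ e ∈ divs g, mu e * (chi6 e n1 ^ k * conj (chi6 e n2 ^ k)) *
        ((Y / (N e * √(N n1 * N n2)) : ℝ) : ℂ) *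
        (chi6 n2 n1 ^ k * conj (chi6 n1 n2 ^ k) * gt k n1 * conj (gt k n2)) *
        ∑' h : O, chi6 h n1 ^ (6 - k) * conj (chi6 h n2 ^ (6 - k)) *
          ((V O (N h * (Y / (N e * N n1 * N n2))) : ℝ) : ℂ) := by
  have e1 : ∀ m : O, chi6 m (g * n1) ^ k * conj (chi6 m (g * n2) ^ k) * ((V O (N m / Y) : ℝ) : ℂ) =
      ∑ e ∈ divs g, if e ∣ m then
        mu e * (chi6 m n1 ^ k * conj (chi6 m n2 ^ k)) * ((V O (N m / Y) : ℝ) : ℂ) else 0 :=
    fun m => by
    have := sum_mu_divs hg.1 m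
    rw [← chi6_pow_six hg.ne_zero, show 6 = k + (6 - k) by omega, pow_add,
      ← conj_chi6_pow m hg.ne_zero hk1 hk5] at this
    rw [chi6_mul_right m hg.ne_zero h1.ne_zero, chi6_mul_right m hg.ne_zero h2.ne_zero, mul_pow,
      mul_pow, map_mul, mul_mul_mul_comm, ← this, Finset.sum_mul, Finset.sum_mul]
    exact Finset.sum_congr rfl fun e _ => by split_ifs <;> simp
  obtain ⟨C, -, hC⟩ := sum_V_le (O := O)
  have hs := pp_summable (fun m => pp_norm_le k m n1 n2) (hC Y hY).1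
  rw [tsum_congr e1, Summable.tsum_finsetSum fun e _ => Summable.of_norm_bounded hs.norm fun m => by
    split_ifs
    · rw [mul_assoc, norm_mul]
      exact mul_le_of_le_one_left (norm_nonneg _) (norm_mu_le e)
    · simp only [norm_zero, norm_nonneg]]
  refine Finset.sum_congr rfl fun e he => ?_
  have he0 := ((mem_divs hg.ne_zero).1 he).1.ne_zero
  have hN := N_pos he0
  have e2 : ∑' m : O, chi6 m n1 ^ k * conj (chi6 m n2 ^ k) * ((V O (N m / (Y / N e)) : ℝ) : ℂ) =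
      ((Y / N e / √(N n1 * N n2) : ℝ) : ℂ) *
        (chi6 n2 n1 ^ k * conj (chi6 n1 n2 ^ k) * gt k n1 * conj (gt k n2)) *
        ∑' h : O, chi6 h n1 ^ (6 - k) * conj (chi6 h n2 ^ (6 - k)) *
          ((V O (N h * (Y / N e / (N n1 * N n2))) : ℝ) : ℂ) :=
    Ar.poisson k n1 n2 (Y / N e) h1.2 h2.2 h12
      (fun c => hne ⟨h1.1.eq_one_of_isUnit c.1, h2.1.eq_one_of_isUnit c.2⟩) hk1 hk5 (div_pos hY hN)
  simp only [div_div, ← mul_assoc (N e)] at e2
  rw [mul_assoc (mu e * _), mul_assoc (mu e * _), ← e2, pp_tsum_dvd he0, ← tsum_mul_left]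
  refine tsum_congr fun m => ?_
  rw [chi6_mul_left _ _ h1.ne_zero, chi6_mul_left _ _ h2.ne_zero, N_mul, div_div_eq_mul_div,
    mul_comm (N m), mul_pow, mul_pow, map_mul]
  ring

end

end Vale.Agent.P319N.Ab
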