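import Vale.Agent.P319N.ADual
import Vale.Agent.P319N.AHB3
import Vale.Agent.P026.QLS

namespace Vale.Agent.P319N.Ab

open Complex MeasureTheory Filter Topology
open scoped Classical ComplexConjugate Real
open Vale.Agent.P026 (W DualW)

noncomputable section

variable {O : Type} [CommMonoidWithZero O] [UniqueFactorizationMonoid O] [Ar O]


open Vale.Agent.P026 (qls_j qls_j_le qls_lt_j qls_j_mono qls_log qls_sq dual_split)

theorem qls_core {ε : ℝ} (hε : 0 < ε) : ∃ C : ℝ, 0 < C ∧ ∀ (Z M R : ℝ) (a : O → ℂ) (c : G O),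
    1 ≤ M → M ≤ Z → 1 ≤ R → R ≤ Z → (∀ n, a n ≠ 0 → cls n = c ∧ R / 2 < N n) →
    ∑ m ∈ ballN O M, ‖∑ n ∈ ballN O R, a n * sym2 m n‖ ^ 2 ≤
      C * Z ^ ε * (M ^ (8 / 7 : ℝ) + R ^ (8 / 5 : ℝ)) * ∑ n ∈ ballN O R, ‖a n‖ ^ 2 := by
  obtain ⟨C1, c1, h1⟩ := pv_sym2 (O := O) hε
  obtain ⟨C2, c2, h2⟩ := ls0 (O := O) (half_pos hε)
  obtain ⟨C3, c3, h3⟩ := hb_core (O := O) (half_pos hε)
  refine ⟨2 * C1 + 2 * C2 + 4 * C3, by positivity, fun Z M R a c hM hMZ hR hRZ ha => ?_⟩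
  have hZ : 1 ≤ Z := hM.trans hMZ
  set A : ℝ := ∑ n ∈ ballN O R, ‖a n‖ ^ 2 with hA
  have A0 : 0 ≤ A := Finset.sum_nonneg fun _ _ => by positivity
  set S : ℝ := M ^ (8 / 7 : ℝ) + R ^ (8 / 5 : ℝ) with hS
  have m1 : M ≤ M ^ (8 / 7 : ℝ) := Real.self_le_rpow_of_one_le hM (by norm_num)
  have r1 : R ≤ R ^ (8 / 5 : ℝ) := Real.self_le_rpow_of_one_le hR (by norm_num)
  have z0 : 0 < Z ^ ε := by positivity
  have S0 : 0 ≤ S := by positivity
  have q1 := mul_nonneg (mul_nonneg (mul_nonneg c1.le z0.le) S0) A0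
  have q2 := mul_nonneg (mul_nonneg (mul_nonneg c2.le z0.le) S0) A0
  have q3 := mul_nonneg (mul_nonneg (mul_nonneg c3.le z0.le) S0) A0
  rcases le_total (R ^ 2) M with hc | hc
  · have := (Finset.sum_le_sum_of_subset_of_nonneg (dual_sub M) fun _ _ _ => by positivity).trans
      (h1 Z R M a hZ (by linarith) hRZ (by linarith))
    have t : C1 * Z ^ ε * (M + R ^ 2) * A ≤ C1 * Z ^ ε * (2 * S) * A := by
      gcongr
      linarith
    linarith
  obtain ⟨M', e1, e2, e3, e4⟩ : ∃ M' : ℝ, M ≤ M' ∧ R ^ (7 / 5 : ℝ) ≤ M' ∧ M' ≤ R ^ 2 ∧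
      M' ^ (8 / 7 : ℝ) ≤ S := by
    refine ⟨max M (R ^ (7 / 5 : ℝ)), le_max_left _ _, le_max_right _ _, max_le hc ?_, ?_⟩
    · rw [← Real.rpow_natCast]
      exact Real.rpow_le_rpow_of_exponent_le hR (by norm_num)
    · rcases le_total M (R ^ (7 / 5 : ℝ)) with h | h
      · rw [max_eq_right h, ← Real.rpow_mul (by linarith)]
        norm_num
        linarith
      · rw [max_eq_left h]
        linarith
  have R0 : 0 < R := by linarith
  have M0 : 0 < M' := by linarith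
  set K : ℝ := (R ^ 2 / M') ^ ((3 : ℕ)⁻¹ : ℝ) with hK
  have K3 : K ^ 3 = R ^ 2 / M' := Real.rpow_inv_natCast_pow (by positivity) (by norm_num)
  have K1 : 1 ≤ K := Real.one_le_rpow ((one_le_div M0).2 e3) (by positivity)
  have k1 : K ^ 3 ≤ R ^ (3 / 5 : ℝ) := by
    rw [K3, div_le_iff₀ M0]
    calc R ^ 2 = R ^ (3 / 5 : ℝ) * R ^ (7 / 5 : ℝ) := by
          rw [← Real.rpow_add R0, ← Real.rpow_natCast]; norm_num
      _ ≤ _ := by gcongr
  have k2 : R ^ (3 / 5 : ℝ) * R = R ^ (8 / 5 : ℝ) := by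
    rw [← Real.rpow_add_one R0.ne']; norm_num
  have k3 : R ^ (3 / 5 : ℝ) ≤ R ^ (8 / 5 : ℝ) := Real.rpow_le_rpow_of_exponent_le hR (by norm_num)
  have k4 : K ≤ K ^ 3 := le_self_pow₀ K1 (by norm_num)
  have k5 : K ^ 2 ≤ K ^ 3 := pow_le_pow_right₀ K1 (by norm_num)
  have k6 : M' * K ≤ S := by
    have : K ≤ M' ^ (1 / 7 : ℝ) := by
      refine le_of_pow_le_pow_left₀ (n := 3) (by norm_num) (by positivity) ?_
      rw [K3, div_le_iff₀ M0]
      calc R ^ 2 = (R ^ (7 / 5 : ℝ)) ^ (10 / 7 : ℝ) := by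
            rw [← Real.rpow_mul R0.le, ← Real.rpow_natCast]; norm_num
        _ ≤ M' ^ (10 / 7 : ℝ) := by gcongr
        _ = _ := by
            rw [← Real.rpow_natCast, ← Real.rpow_mul M0.le, ← Real.rpow_add_one M0.ne']; norm_num
    calc M' * K ≤ M' * M' ^ (1 / 7 : ℝ) := by gcongr
      _ = M' ^ (8 / 7 : ℝ) := by rw [mul_comm, ← Real.rpow_add_one M0.ne']; norm_num
      _ ≤ S := e4
  have k7 : R * √(M' / K) = M' * K := by
    have : M' / K = (M' * K / R) ^ 2 := by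
      rw [eq_div_iff M0.ne'] at K3
      field_simp
      linarith
    rw [this, Real.sqrt_sq (by positivity)]
    field_simp
  have k8 : R ^ 3 / M' ≤ S := by
    calc R ^ 3 / M' = K ^ 3 * R := by rw [K3]; ring
      _ ≤ R ^ (3 / 5 : ℝ) * R := by gcongr
      _ ≤ S := by linarith
  have k9 : K * R ≤ S := by
    calc K * R ≤ R ^ (3 / 5 : ℝ) * R := by gcongr; linarith
      _ ≤ S := by linarith
  have zz : R ^ 2 ≤ Z ^ 2 := by gcongr
  have z2 : Z ≤ Z ^ 2 := le_self_pow₀ hZ (by norm_num)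
  have KZ : K ≤ Z ^ 2 := by
    have : K ^ 3 ≤ R ^ 2 := by rw [K3]; exact div_le_self (by positivity) (by linarith)
    linarith
  have b2 := h2 (Z ^ 2) R K a (by linarith) R0 (by linarith) KZ
  have b3 := h3 (Z ^ 2) M' R K a c (by linarith) (by linarith) hR (by linarith) K1 KZ ha
  rw [qls_sq hZ] at b2 b3
  have t2 : C2 * Z ^ ε * (R + K ^ 2) * A ≤ C2 * Z ^ ε * (2 * S) * A := by
    gcongr
    linarith
  have t3 : C3 * Z ^ ε * (M' * K + K * R + R * √(M' / K) + R ^ 3 / M') * A ≤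
      C3 * Z ^ ε * (4 * S) * A := by
    gcongr
    linarith
  have s1 := Finset.sum_le_sum_of_subset_of_nonneg (ballN_mono e1)
    (f := fun m => ‖∑ n ∈ ballN O R, a n * sym2 m n‖ ^ 2) fun _ _ _ => by positivity
  rw [← Finset.sum_filter_add_sum_filter_not (ballN O M') (fun m => K < N m)] at s1
  have s2 := Finset.sum_le_sum_of_subset_of_nonneg
    (s := (ballN O M').filter fun m => ¬ K < N m) (t := (ballO O K).filter Squarefree)
    (f := fun m => ‖∑ n ∈ ballN O R, a n * sym2 m n‖ ^ 2)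
    (fun m hm => by
      obtain ⟨x, y⟩ := Finset.mem_filter.1 hm
      have := (mem_ballN.1 x).1
      exact Finset.mem_filter.2 ⟨mem_ballO'.2 ⟨this.ne_zero, not_lt.1 y⟩, this.2⟩)
    fun _ _ _ => by positivity
  linarith

theorem qls_empty {R : ℝ} (h : R < 1) : ballN O R = ∅ := by
  simp [ballN, ballO_eq_empty h]

theorem qls {ε : ℝ} (hε : 0 < ε) : ∃ C : ℝ, 0 < C ∧ ∀ (Z M R : ℝ) (a : O → ℂ),
    1 ≤ Z → 0 < M → M ≤ Z → 0 < R → R ≤ Z →
    ∑ m ∈ ballN O M, ‖∑ n ∈ ballN O R, a n * sym2 m n‖ ^ 2 ≤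
      C * Z ^ ε * (M ^ (8 / 7 : ℝ) + R ^ (8 / 5 : ℝ)) * ∑ n ∈ ballN O R, ‖a n‖ ^ 2 := by
  obtain ⟨C1, c1, h1⟩ := qls_core (O := O) (half_pos hε)
  obtain ⟨C2, c2, h2⟩ := qls_log (half_pos hε)
  have cg : (0 : ℝ) < Fintype.card (G O) := by exact_mod_cast Fintype.card_pos
  refine ⟨Fintype.card (G O) * C2 * C1, by positivity, fun Z M R a hZ hM hMZ hR hRZ => ?_⟩
  have A0 : 0 ≤ ∑ n ∈ ballN O R, ‖a n‖ ^ 2 := Finset.sum_nonneg fun _ _ => by positivity
  rcases lt_or_ge M 1 with hM1 | hM1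
  · rw [qls_empty hM1, Finset.sum_empty]; positivity
  have key := dual_split (ballN O M) (ballN O R) ((Finset.univ : Finset (G O)) ×ˢ Finset.range (qls_j Z + 1))
    (fun n => (cls n, qls_j (R / N n))) (fun n hn => by
      have := one_le_N (mem_ballN.1 hn).1.ne_zero
      exact Finset.mem_product.2 ⟨Finset.mem_univ _, Finset.mem_range.2 (Nat.lt_succ_of_le
        (qls_j_mono ((div_le_self hR.le this).trans hRZ)))⟩)
    (fun m n => sym2 m n) a (D := C1 * Z ^ (ε / 2) * (M ^ (8 / 7 : ℝ) + R ^ (8 / 5 : ℝ)))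
    (fun j _ => by
      set a' : O → ℂ := fun n => if n ∈ ballN O R ∧ (cls n, qls_j (R / N n)) = j then a n else 0
        with ha'
      have e0 : ∀ n ∈ ballN O R, (if (cls n, qls_j (R / N n)) = j then a n else 0) = a' n :=
        fun n hn => by simp [ha', hn]
      have p2 : (1 : ℝ) ≤ 2 ^ j.2 := one_le_pow₀ (by norm_num)
      have le : R / 2 ^ j.2 ≤ R := div_le_self hR.le p2
      have sp : ∀ n, a' n ≠ 0 → n ∈ ballN O (R / 2 ^ j.2) ∧ cls n = j.1 ∧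
          R / 2 ^ j.2 / 2 < N n := fun n hn => by
        have : n ∈ ballN O R ∧ (cls n, qls_j (R / N n)) = j := by
          by_contra h
          exact hn (if_neg h)
        obtain ⟨x, rfl⟩ := this
        obtain ⟨x1, x2⟩ := mem_ballN.1 x
        have n0 := N_pos x1.ne_zero
        have y1 := qls_j_le ((one_le_div n0).2 x2)
        have y2 := qls_lt_j (R / N n)
        refine ⟨mem_ballN.2 ⟨x1, ?_⟩, rfl, ?_⟩
        · rw [le_div_iff₀ n0] at y1
          rw [le_div_iff₀ (by positivity)]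
          linarith
        · rw [div_lt_iff₀ n0] at y2
          rw [div_div, div_lt_iff₀ (by positivity)]
          linarith
      have e1 : ∀ {β : Type} [AddCommMonoid β] (F : O → ℂ → β), (∀ n, F n 0 = 0) →
          ∑ n ∈ ballN O R, F n (if (cls n, qls_j (R / N n)) = j then a n else 0) =
            ∑ n ∈ ballN O (R / 2 ^ j.2), F n (a' n) := fun F hF => by
        rw [Finset.sum_congr rfl fun n hn => by rw [e0 n hn]]
        refine (Finset.sum_subset (ballN_mono le) fun n _ hn => ?_).symm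
        by_cases h : a' n = 0
        · rw [h, hF]
        · exact absurd (sp n h).1 hn
      simp only [fun m => e1 (fun n z => z * sym2 m n) fun _ => zero_mul _]
      rw [e1 (fun _ z => ‖z‖ ^ 2) fun _ => by simp]
      rcases lt_or_ge (R / 2 ^ j.2) 1 with h | h
      · simp [qls_empty h]
      refine (h1 Z M _ a' j.1 hM1 hMZ h (le.trans hRZ) fun n hn => (sp n hn).2).trans ?_
      gcongr)
  refine key.trans (mul_le_mul_of_nonneg_right ?_ A0)
  rw [Finset.card_product, Finset.card_range, Nat.cast_mul, Finset.card_univ]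
  have e : Z ^ ε = Z ^ (ε / 2) * Z ^ (ε / 2) := by
    rw [← Real.rpow_add (by linarith)]; ring_nf
  calc (Fintype.card (G O) : ℝ) * ((qls_j Z + 1 : ℕ) : ℝ) * (C1 * Z ^ (ε / 2) * (M ^ (8 / 7 : ℝ) + R ^ (8 / 5 : ℝ)))
      ≤ (Fintype.card (G O) : ℝ) * (C2 * Z ^ (ε / 2)) * (C1 * Z ^ (ε / 2) * (M ^ (8 / 7 : ℝ) + R ^ (8 / 5 : ℝ))) := by
        gcongr
        exact h2 Z hZ
    _ = _ := by rw [e]; ring
theorem qls' {ε : ℝ} (hε : 0 < ε) : ∃ C : ℝ, 0 < C ∧ ∀ (Z M R : ℝ) (a : O → ℂ),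
    1 ≤ Z → 0 < M → M ≤ Z → 0 < R → R ≤ Z →
    ∑ m ∈ ballN O M, ‖∑ n ∈ ballN O R, a n * sym2 n m‖ ^ 2 ≤
      C * Z ^ ε * (M ^ (8 / 7 : ℝ) + R ^ (8 / 5 : ℝ)) * ∑ n ∈ ballN O R, ‖a n‖ ^ 2 := by
  obtain ⟨C, c, h⟩ := qls (O := O) hε
  have cg : (0 : ℝ) < Fintype.card (G O) := by exact_mod_cast Fintype.card_pos
  refine ⟨Fintype.card (G O) * C, by positivity, fun Z M R a hZ hM hMZ hR hRZ => ?_⟩
  refine (flip_ls (fun m hm => (mem_ballN.1 hm).1.ne_zero) (fun m hm => (mem_ballN.1 hm).1.ne_zero)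
    (by positivity) (fun a => h Z M R a hZ hM hMZ hR hRZ) a).trans
    (le_of_eq ?_)
  ring

end

end Vale.Agent.P319N.Ab
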