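import Vale.Agent.P319N.AQLS
import Vale.Agent.P026.QLS2

namespace Vale.Agent.P319N.Ab

open Complex MeasureTheory Filter Topology
open scoped Classical ComplexConjugate Real
open Vale.Agent.P026 (W DualW)

noncomputable section

variable {O : Type} [CommMonoidWithZero O] [UniqueFactorizationMonoid O] [Ar O]

open Vale.Agent.P026 (qls_j qls_j_le qls_lt_j qls2_cs)

theorem qls2 {ι : Type} {sg : ι → ℝ} (hs : SIdx ι sg) {ε : ℝ} (hε : 0 < ε) :
    ∃ C : ℝ, 0 < C ∧ ∀ (Z H L Bd : ℝ) (τ θ : ι → O → ℂ) (S : Finset (ι × O)),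
    1 ≤ Z → 0 < H → H ≤ Z → 0 < L → L ≤ Z → 0 ≤ Bd → DCoef sg τ Bd → (∀ i n, ‖θ i n‖ ≤ 1) →
    (∀ p ∈ S, p.2 ≠ 0 ∧ sg p.1 * N p.2 ≤ L) →
    ∑ h ∈ ballN O H, ‖∑ p ∈ S, τ p.1 p.2 * θ p.1 p.2 * sym2 p.2 h‖ ^ 2 ≤
      C * Bd * Z ^ ε * L * (H ^ (8 / 7 : ℝ) + L ^ (8 / 5 : ℝ)) := by
  have hε' : 0 < ε / 5 := by positivity
  obtain ⟨C1, c1, h1⟩ := qls' (O := O) hε'
  obtain ⟨C2, c2, h2⟩ := hs.card _ hε'
  obtain ⟨C3, c3, h3⟩ := sum_inv_N_le (O := O) hε'
  obtain ⟨C4, c4, h4⟩ := card_ballO_le (O := O)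
  refine ⟨C1 * (C2 * C4 * C3) ^ 2, by positivity,
    fun Z H L Bd τ θ S hZ hH hHZ hL hLZ hB hτ hθ hS0 => ?_⟩
  have hS1 : ∀ p ∈ S, sg p.1 ≤ L ∧ N p.2 ≤ L := fun p hp => by
    have a1 := hs.one_le p.1
    have a2 := one_le_N (hS0 p hp).1
    have a3 := (hS0 p hp).2
    constructor <;> nlinarith
  rcases lt_or_ge L 1 with hL1 | hL1
  · have : S = ∅ := Finset.eq_empty_of_forall_notMem fun p hp => by
      have := hs.one_le p.1
      have := (hS1 p hp).1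
      linarith
    simp only [this, Finset.sum_empty, norm_zero]
    simp only [ne_eq, OfNat.ofNat_ne_zero, not_false_eq_true, zero_pow, Finset.sum_const_zero]
    positivity
  set T := S.filter (fun p => τ p.1 p.2 ≠ 0) with hT
  have ex : ∀ p : ι × O, ∃ j : ι × O × O, p ∈ T → j.1 = p.1 ∧ IsUnit j.2.1 ∧ Prim j.2.2 ∧
      ∃ b, NN b ∧ p.2 = j.2.1 * b * j.2.2 ^ 3 := fun p => by
    by_cases h : p ∈ T
    · obtain ⟨u, b, d, hu, hb, hd, e⟩ := hτ.supp _ _ (Finset.mem_filter.1 h).2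
      exact ⟨(p.1, u, d), fun _ => ⟨rfl, hu, hd, b, hb, e⟩⟩
    · exact ⟨(p.1, 0, 0), fun h' => absurd h' h⟩
  choose g hg using ex
  set J := (hs.fin L).toFinset ×ˢ ballO O 1 ×ˢ (ballO O L).filter Prim with hJ
  have mp : ∀ p ∈ T, g p ∈ J := fun p hp => by
    obtain ⟨a0, a1, a2, b, -, a3⟩ := hg p hp
    have n0 := (hS0 p (Finset.mem_filter.1 hp).1).1
    obtain ⟨iL, nL⟩ := hS1 p (Finset.mem_filter.1 hp).1
    refine Finset.mem_product.2 ⟨by simpa [a0] using iL, Finset.mem_product.2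
      ⟨mem_ballO_one.2 a1, Finset.mem_filter.2 ⟨mem_ballO'.2 ⟨a2.ne_zero, ?_⟩, a2⟩⟩⟩
    exact (N_le_of_dvd (a3 ▸ Dvd.dvd.mul_left (dvd_pow_self _ (by norm_num)) _) n0).trans nL
  set a : ι × O × O → O → ℂ := fun j b =>
    if (j.1, j.2.1 * b * j.2.2 ^ 3) ∈ T.filter (fun p => g p = j) then
      τ j.1 (j.2.1 * b * j.2.2 ^ 3) * θ j.1 (j.2.1 * b * j.2.2 ^ 3) else 0 with ha
  have J0 : ∀ j ∈ J, j.2.1 ≠ 0 ∧ Prim j.2.2 := fun j hj =>
    ⟨(mem_ballO'.1 (Finset.mem_product.1 (Finset.mem_product.1 hj).2).1).1,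
      (Finset.mem_filter.1 (Finset.mem_product.1 (Finset.mem_product.1 hj).2).2).2⟩
  have e1 : ∀ h ∈ ballN O H, ∑ p ∈ S, τ p.1 p.2 * θ p.1 p.2 * sym2 p.2 h =
      ∑ j ∈ J, sym2 (j.2.1 * j.2.2 ^ 3) h * ∑ b ∈ ballN O L, a j b * sym2 b h := fun h hh => by
    rw [← Finset.sum_subset (Finset.filter_subset (fun p => τ p.1 p.2 ≠ 0) S) fun n x y => by
      have : τ n.1 n.2 = 0 := by simpa [x] using y
      simp [this]]
    rw [← Finset.sum_fiberwise_of_maps_to mp]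
    refine Finset.sum_congr rfl fun j hj => ?_
    have e : ∀ b, sym2 (j.2.1 * j.2.2 ^ 3) h * (a j b * sym2 b h) =
        if (j.1, j.2.1 * b * j.2.2 ^ 3) ∈ T.filter (fun n => g n = j) then
          τ j.1 (j.2.1 * b * j.2.2 ^ 3) * θ j.1 (j.2.1 * b * j.2.2 ^ 3) *
            sym2 (j.2.1 * b * j.2.2 ^ 3) h else 0 := by
      intro b
      simp only [ha]
      split_ifs
      · rw [show j.2.1 * b * j.2.2 ^ 3 = j.2.1 * j.2.2 ^ 3 * b from mul_right_comm _ _ _,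
          sym2_mul_left _ b (mem_ballN.1 hh).1.ne_zero]
        ring
      · simp
    rw [Finset.mul_sum, Finset.sum_congr rfl fun b _ => e b, ← Finset.sum_filter]
    symm
    refine Finset.sum_bij (fun b _ => (j.1, j.2.1 * b * j.2.2 ^ 3))
      (fun b hb => (Finset.mem_filter.1 hb).2)
      (fun b _ b' _ e => mul_left_cancel₀ (J0 j hj).1
        (mul_right_cancel₀ (pow_ne_zero 3 (J0 j hj).2.ne_zero) (Prod.ext_iff.1 e).2))
      (fun n hn => ?_) fun _ _ => rfl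
    obtain ⟨x, rfl⟩ := Finset.mem_filter.1 hn
    obtain ⟨a0, -, -, b, hb, a3⟩ := hg n x
    have n0 := (hS0 n (Finset.mem_filter.1 x).1).1
    have nL := (hS1 n (Finset.mem_filter.1 x).1).2
    have e0 : ((g n).1, (g n).2.1 * b * (g n).2.2 ^ 3) = n := Prod.ext a0 a3.symm
    refine ⟨b, Finset.mem_filter.2 ⟨mem_ballN.2 ⟨hb, le_trans (N_le_of_dvd ?_ n0) nL⟩, ?_⟩, e0⟩
    · exact a3 ▸ Dvd.dvd.mul_right (dvd_mul_left _ _) _
    · rwa [e0]
  have e2 : ∀ j ∈ J, ∑ b ∈ ballN O L, ‖a j b‖ ^ 2 ≤ Bd * L * ((N j.2.2)⁻¹) ^ 2 := fun j hj => by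
    have d0 := N_pos (J0 j hj).2.ne_zero
    have s0 : 0 < sg j.1 := one_pos.trans_le (hs.one_le _)
    have s1 : ∑ b ∈ ballN O L, ‖a j b‖ ^ 2 ≤ ∑ b ∈ (ballN O L).filter
        (fun b => j.2.1 * b ∈ ballO O (L / (sg j.1 * N j.2.2 ^ 3))),
          ‖τ j.1 (j.2.1 * b * j.2.2 ^ 3)‖ ^ 2 := by
      rw [Finset.sum_filter]
      refine Finset.sum_le_sum fun b _ => ?_
      simp only [ha]
      by_cases h : (j.1, j.2.1 * b * j.2.2 ^ 3) ∈ T.filter (fun n => g n = j)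
      · obtain ⟨x, y⟩ := Finset.mem_filter.1 h
        obtain ⟨n0, nL⟩ := hS0 _ (Finset.mem_filter.1 x).1
        rw [if_pos h, if_pos (mem_ballO'.2 ⟨left_ne_zero_of_mul n0, by
          rw [le_div_iff₀ (by positivity), mul_left_comm, ← N_pow, ← N_mul]; exact nL⟩), norm_mul]
        exact pow_le_pow_left₀ (by positivity) (mul_le_of_le_one_right (norm_nonneg _) (hθ _ _)) 2
      · rw [if_neg h]
        split_ifs
        · rw [norm_zero, zero_pow two_ne_zero]; positivity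
        · simp
    refine s1.trans ?_
    have s2 : ∑ b ∈ (ballN O L).filter
        (fun b => j.2.1 * b ∈ ballO O (L / (sg j.1 * N j.2.2 ^ 3))),
          ‖τ j.1 (j.2.1 * b * j.2.2 ^ 3)‖ ^ 2 ≤
        ∑ n ∈ ballO O (L / (sg j.1 * N j.2.2 ^ 3)), ‖τ j.1 (n * j.2.2 ^ 3)‖ ^ 2 := by
      rw [← Finset.sum_image (f := fun n => ‖τ j.1 (n * j.2.2 ^ 3)‖ ^ 2)
        fun b _ b' _ e => mul_left_cancel₀ (J0 j hj).1 e]
      refine Finset.sum_le_sum_of_subset_of_nonneg (fun n hn => ?_) fun _ _ _ => by positivity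
      obtain ⟨b, hb, rfl⟩ := Finset.mem_image.1 hn
      exact (Finset.mem_filter.1 hb).2
    refine (s2.trans (hτ.l2 _ _ _ (J0 j hj).2 (by positivity))).trans (le_of_eq ?_)
    field_simp
  set S1 : ℝ := H ^ (8 / 7 : ℝ) + L ^ (8 / 5 : ℝ) with hS
  set W1 : ℝ := ∑ j ∈ J, (N j.2.2)⁻¹ with hW
  have W0 : 0 ≤ W1 := Finset.sum_nonneg fun j _ => inv_nonneg.2 (N_nonneg _)
  set z : ℝ := Z ^ (ε / 5) with hz
  have W2 : W1 ≤ C2 * C4 * C3 * z ^ 2 := by
    rw [hW, hJ, Finset.sum_product]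
    simp only [Finset.sum_product, Finset.sum_const, nsmul_eq_mul]
    have a1 : ((hs.fin L).toFinset.card : ℝ) ≤ C2 * z := by
      rw [← Set.ncard_eq_toFinset_card _ (hs.fin L)]
      exact (h2 L hL1).trans (by rw [hz]; gcongr)
    have a2 : ((ballO O 1).card : ℝ) ≤ C4 := by simpa using h4 1 zero_le_one
    have a3 : ∑ n ∈ (ballO O L).filter Prim, (N n)⁻¹ ≤ C3 * z :=
      (Finset.sum_le_sum_of_subset_of_nonneg (Finset.filter_subset _ _)
        fun j _ _ => inv_nonneg.2 (N_nonneg _)).trans ((h3 L hL1).trans (by rw [hz]; gcongr))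
    have a4 : 0 ≤ ∑ n ∈ (ballO O L).filter Prim, (N n)⁻¹ :=
      Finset.sum_nonneg fun j _ => inv_nonneg.2 (N_nonneg _)
    calc _ ≤ C2 * z * (C4 * (C3 * z)) := by gcongr
      _ = _ := by ring
  calc ∑ h ∈ ballN O H, ‖∑ p ∈ S, τ p.1 p.2 * θ p.1 p.2 * sym2 p.2 h‖ ^ 2
      ≤ ∑ h ∈ ballN O H, W1 * ∑ j ∈ J, ‖∑ b ∈ ballN O L, a j b * sym2 b h‖ ^ 2 / (N j.2.2)⁻¹ := by
        refine Finset.sum_le_sum fun h hh => ?_
        rw [e1 h hh]
        refine (qls2_cs J _ (fun j hj => inv_pos.2 (N_pos (J0 j hj).2.ne_zero)) _).trans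
          (mul_le_mul_of_nonneg_left (Finset.sum_le_sum fun j hj => ?_) W0)
        refine div_le_div_of_nonneg_right ?_ (inv_nonneg.2 (N_nonneg _))
        rw [norm_mul]
        exact pow_le_pow_left₀ (by positivity)
          (mul_le_of_le_one_left (norm_nonneg _) (norm_sym2_le _ _)) 2
    _ = W1 * ∑ j ∈ J, (∑ h ∈ ballN O H, ‖∑ b ∈ ballN O L, a j b * sym2 b h‖ ^ 2) / (N j.2.2)⁻¹ := by
        rw [← Finset.mul_sum, Finset.sum_comm]
        simp only [Finset.sum_div]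
    _ ≤ W1 * ∑ j ∈ J, C1 * z * S1 * (Bd * L) * (N j.2.2)⁻¹ := by
        refine mul_le_mul_of_nonneg_left (Finset.sum_le_sum fun j hj => ?_) W0
        have d0 := N_pos (J0 j hj).2.ne_zero
        rw [div_le_iff₀ (by positivity)]
        refine (h1 Z H L (a j) hZ hH hHZ hL hLZ).trans
          ((mul_le_mul_of_nonneg_left (e2 j hj) (by positivity)).trans (le_of_eq ?_))
        ring
    _ = C1 * z * S1 * (Bd * L) * W1 ^ 2 := by rw [← Finset.mul_sum]; ring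
    _ ≤ C1 * z * S1 * (Bd * L) * (C2 * C4 * C3 * z ^ 2) ^ 2 := by gcongr
    _ = _ := by
        have : Z ^ ε = z ^ 5 := by
          rw [hz, ← Real.rpow_natCast, ← Real.rpow_mul (by linarith)]
          congr 1
          push_cast
          ring
        rw [this]; ring

theorem qls2_summ {ι : Type} {sg : ι → ℝ} (hs : SIdx ι sg) :
    Summable (fun i => (sg i ^ 2)⁻¹) := by
  obtain ⟨C, c0, hC⟩ := hs.card 1 one_pos
  refine summable_of_sum_le (c := 2 * C * 2) (fun i => by positivity) fun u => ?_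
  have mp : ∀ i ∈ u, qls_j (sg i) ∈ Finset.range (u.sup (fun i => qls_j (sg i)) + 1) :=
    fun i hi => Finset.mem_range.2 (Nat.lt_succ_of_le (Finset.le_sup (f := fun i => qls_j (sg i)) hi))
  rw [← Finset.sum_fiberwise_of_maps_to mp]
  have g2 : ∀ J, ∑ j ∈ Finset.range J, ((2 : ℝ) ^ j)⁻¹ ≤ 2 := fun J => by
    simpa using sum_geometric_two_le J
  refine le_trans (Finset.sum_le_sum (g := fun j => 2 * C * ((2 : ℝ) ^ j)⁻¹) fun j _ => ?_) ?_
  · have p1 : (1 : ℝ) ≤ 2 ^ j := one_le_pow₀ (by norm_num)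
    have b1 : ∀ i ∈ u.filter (fun i => qls_j (sg i) = j), (sg i ^ 2)⁻¹ ≤ (((2 : ℝ) ^ j) ^ 2)⁻¹ :=
      fun i hi => by
        have := qls_j_le (hs.one_le i)
        rw [(Finset.mem_filter.1 hi).2] at this
        gcongr
    have b2 : ((u.filter (fun i => qls_j (sg i) = j)).card : ℝ) ≤ C * (2 * 2 ^ j) := by
      have := hC (2 * 2 ^ j) (by linarith)
      rw [Real.rpow_one, Set.ncard_eq_toFinset_card _ (hs.fin _)] at this
      refine le_trans (Nat.cast_le.2 (Finset.card_le_card fun i hi => ?_)) this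
      have := qls_lt_j (sg i)
      rw [(Finset.mem_filter.1 hi).2] at this
      simpa using this.le
    refine (Finset.sum_le_card_nsmul _ _ _ b1).trans ?_
    rw [nsmul_eq_mul]
    refine (mul_le_mul_of_nonneg_right b2 (by positivity)).trans (le_of_eq ?_)
    field_simp
  · rw [← Finset.mul_sum]
    exact mul_le_mul_of_nonneg_left (g2 _) (by positivity)

theorem dcoef_zero {ι : Type} {sg : ι → ℝ} {τ : ι → O → ℂ} {Bd : ℝ}
    (h : DCoef sg τ Bd) (i : ι) : τ i 0 = 0 := by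
  by_contra h0
  obtain ⟨u, b, d, hu, hb, hd, e⟩ := h.supp i 0 h0
  exact mul_ne_zero (mul_ne_zero (mem_ballO'.1 (mem_ballO_one.2 hu)).1 hb.ne_zero)
    (pow_ne_zero 3 hd.ne_zero) e.symm

theorem dcoef_summable {ι : Type} {sg : ι → ℝ} (hs : SIdx ι sg) {τ : ι → O → ℂ} {Bd : ℝ}
    (h : DCoef sg τ Bd) :
    Summable (fun p : ι × O => ‖τ p.1 p.2‖ * (sg p.1 * N p.2) ^ (-3 : ℝ)) := by
  have h1 := (qls2_summ hs).mul_of_nonneg (summable_N_rpow (O := O) (s := 2) (by norm_num))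
    (fun i => by positivity) (fun n => Real.rpow_nonneg (N_nonneg _) _)
  refine Summable.of_nonneg_of_le (fun p => mul_nonneg (norm_nonneg _) (Real.rpow_nonneg
    (mul_nonneg (zero_le_one.trans (hs.one_le _)) (N_nonneg _)) _)) (fun p => ?_)
    (h1.mul_left (√Bd))
  obtain ⟨i, n⟩ := p
  have s1 := hs.one_le i
  by_cases hn : n = 0
  · simp only [hn, dcoef_zero h, norm_zero, zero_mul]
    have := N_nonneg (0 : O)
    positivity
  have n1 := one_le_N hn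
  have a1 := h.l2 i 1 (N n) prim_one (by linarith)
  have a2 : ‖τ i n‖ ^ 2 ≤ Bd * (sg i * N n) := by
    have := Finset.single_le_sum (f := fun m => ‖τ i (m * 1 ^ 3)‖ ^ 2) (fun _ _ => by positivity)
      (mem_ballO'.2 ⟨hn, le_rfl⟩ : n ∈ ballO O (N n))
    simp only [one_pow, mul_one, N_one] at this a1
    linarith
  have x1 : 1 ≤ sg i * N n := one_le_mul_of_one_le_of_one_le s1 n1
  have B0 : 0 ≤ Bd := nonneg_of_mul_nonneg_left ((sq_nonneg _).trans a2) (by linarith)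
  have a3 : ‖τ i n‖ ≤ √Bd * (sg i * N n) := by
    refine (Real.le_sqrt_of_sq_le a2).trans ?_
    rw [Real.sqrt_mul B0]
    exact mul_le_mul_of_nonneg_left (Real.sqrt_le_self_iff.2 (Or.inr x1)) (Real.sqrt_nonneg _)
  refine (mul_le_mul_of_nonneg_right a3 (by positivity)).trans (le_of_eq ?_)
  simp only
  rw [Real.rpow_neg (by positivity), Real.rpow_neg (by positivity), Real.rpow_two,
    show (3 : ℝ) = ((3 : ℕ) : ℝ) by norm_num, Real.rpow_natCast]
  field_simp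

end

end Vale.Agent.P319N.Ab
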