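import Vale.Agent.P319N.AMult
import Vale.Agent.P319N.AGm
import Vale.Agent.P026.RevA
import Vale.Agent.P026.QLS

namespace Vale.Agent.P319N.Ab

open Complex MeasureTheory Filter Topology
open scoped Classical ComplexConjugate Real
open Vale.Agent.P026 (W DualW)
open Vale.Agent.P026 (qls_j qls_j_le qls_j_mono qls_log qls_lt_j revA_num)

noncomputable section

variable {O : Type} [CommMonoidWithZero O] [UniqueFactorizationMonoid O] [Ar O]


theorem revA_nm {Z x y u : ℝ} (hx : 1 ≤ x) (hy : 1 ≤ y) (hu : 1 ≤ u) (e : x * y * u ≤ Z) :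
    x ≤ Z ∧ u ≤ Z ∧ x * y ≤ Z ∧ y * u ≤ Z := by
  have b1 : 1 ≤ x * y := one_le_mul_of_one_le_of_one_le hx hy
  have b2 : 1 ≤ y * u := one_le_mul_of_one_le_of_one_le hy hu
  refine ⟨?_, ?_, ?_, ?_⟩ <;> nlinarith

theorem revA_cnt (F : Finset ((O × O × O) × O × O × O)) {g f m : O} (m0 : m ≠ 0)
    (hF : ∀ i ∈ F, i.1.1 = g ∧ i.2.2.2 = f) :
    ((F.filter (fun i => i.2.2.1 * i.2.1 ^ 2 * i.1.2.1 * i.1.2.2 ^ 2 ∣ m)).card : ℝ) ≤ dv m ^ 4 := by
  set Dm := (ballO O (N m)).filter (· ∣ m) with hDm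
  have md : ∀ d, d ∣ m → d ∈ Dm := fun d e => Finset.mem_filter.2
    ⟨mem_ballO'.2 ⟨ne_zero_of_dvd_ne_zero m0 e, N_le_of_dvd e m0⟩, e⟩
  have c1 := Finset.card_le_card_of_injOn
    (s := F.filter (fun i => i.2.2.1 * i.2.1 ^ 2 * i.1.2.1 * i.1.2.2 ^ 2 ∣ m))
    (t := Dm ×ˢ Dm ×ˢ Dm ×ˢ Dm) (fun i => (i.1.2.1, i.1.2.2, i.2.1, i.2.2.1))
    (fun i hi => by
      have e := (Finset.mem_filter.1 hi).2
      simp only [Finset.coe_product, Set.mem_prod, Finset.mem_coe]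
      have e1 := dvd_of_mul_right_dvd e
      have e2 := dvd_of_mul_right_dvd e1
      exact ⟨md _ (dvd_of_mul_left_dvd e1),
        md _ ((dvd_pow_self _ two_ne_zero).trans (dvd_of_mul_left_dvd e)),
        md _ ((dvd_pow_self _ two_ne_zero).trans (dvd_of_mul_left_dvd e2)),
        md _ (dvd_of_mul_right_dvd e2)⟩)
    (fun i hi i' hi' e => by
      obtain ⟨e1, e2⟩ := hF i (Finset.mem_filter.1 hi).1
      obtain ⟨e3, e4⟩ := hF i' (Finset.mem_filter.1 hi').1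
      simp only [Prod.mk.injEq] at e
      exact Prod.ext (Prod.ext (e1.trans e3.symm) (Prod.ext e.1 e.2.1))
        (Prod.ext e.2.2.1 (Prod.ext e.2.2.2 (e2.trans e4.symm))))
  simp only [Finset.card_product] at c1
  refine (Nat.cast_le.2 c1).trans (le_of_eq ?_)
  rw [dv, ← hDm]
  push_cast
  ring

theorem revA {γ : ℝ} (hγ : 2 ≤ γ) (h : HA6 O γ) {ε : ℝ} (hε : 0 < ε)
    (R0 : ℝ) : ∃ C : ℝ, 0 < C ∧ ∀ (Z X Y U K K2 Δ : ℝ) (w : ℂ) (I : Finset (O × O × O))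
      (ω : O × O × O → O × O × O → O → ℂ),
    1 ≤ X → X ≤ Z → 1 ≤ Y → Y ≤ Z → 1 ≤ U → 1 ≤ K → 1 ≤ K2 → 1 ≤ Δ → |w.re| ≤ R0 → I ⊆ trip O Z →
    (∀ t ∈ I, Δ ≤ N (pr t)) → (∀ t ∈ I, ∀ t2 ∈ trip O Z, Wt (ω t t2)) →
    ∑ t ∈ I, ∑ t2 ∈ trip O Z, K * U * N t.2.2 * N t2.1 *
        ∑ m ∈ ballO O (K2 * (Y / (K * U ^ 2 * N (t2.2.1 * t2.1 ^ 2 * t.2.1 * t.2.2 ^ 2)))),
          ‖A (ω t t2) (X / (U * N (pr t)) / N (pr t2)) w
            (m * (t2.2.1 * t2.1 ^ 2 * t.2.1 * t.2.2 ^ 2) * (t.1 * t2.2.2) ^ 6)‖ ^ 2 ≤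
      C * Real.exp (C * |w.im|) * (Z * K2) ^ ε * K2 * K *
        (X * Y / U ^ 2 + U ^ (1 - γ) * X ^ γ / Δ) := by
  have hε' : 0 < ε / 10 := by positivity
  obtain ⟨C1, c1, h1⟩ := mult h hε' R0
  obtain ⟨C2, c2, h2⟩ := dv_le (O := O) hε'
  obtain ⟨C3, c3, h3⟩ := sum_inv_N_le (O := O) hε'
  obtain ⟨C4, c4, h4⟩ := qls_log hε'
  refine ⟨C1 + 4 * C1 * C2 ^ 4 * C3 ^ 2 * C4, by positivity,
    fun Z X Y U K K2 Δ w I ω hX hXZ hY hYZ hU hK hK2 hΔ hw hI hd hω => ?_⟩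
  have hZ : 1 ≤ Z := hX.trans hXZ
  set V : ℝ := Z * K2 with hV
  have ZV : Z ≤ V := le_mul_of_one_le_right (by linarith) hK2
  have V1 : 1 ≤ V := hZ.trans ZV
  set z : ℝ := V ^ (ε / 10) with hz
  have z0 : 0 < z := by positivity
  have zz : (V * V) ^ (ε / 10) = z * z := Real.mul_rpow (by linarith) (by linarith)
  set Y' : ℝ := K2 * (Y / (K * U ^ 2)) with hY'
  have KU : 1 ≤ K * U ^ 2 := one_le_mul_of_one_le_of_one_le hK (one_le_pow₀ hU)
  have YV : Y' ≤ V := by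
    rw [hY', hV, mul_comm]
    exact mul_le_mul_of_nonneg_right ((div_le_self (by linarith) KU).trans hYZ) (by linarith)
  have VV : V ≤ V * V := le_mul_of_one_le_right (by linarith) V1
  set S : ℝ := X * Y / U ^ 2 + U ^ (1 - γ) * X ^ γ / Δ with hS
  have S0 : 0 ≤ S := by positivity
  set a : (O × O × O) × O × O × O → O := fun i =>
    i.2.2.1 * i.2.1 ^ 2 * i.1.2.1 * i.1.2.2 ^ 2 with ha
  set Q : (O × O × O) × O × O × O → ℝ := fun i =>
    N i.1.2.1 * N i.1.2.2 * N i.2.2.1 * N i.2.1 with hQ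
  set φ : (O × O × O) × O × O × O → O × O × ℕ := fun i => (i.1.1, i.2.2.2, qls_j (Q i)) with hφ
  have tr : ∀ t ∈ trip O Z, (t.1 ≠ 0 ∧ t.2.1 ≠ 0 ∧ t.2.2 ≠ 0) ∧ (1 ≤ N t.1 ∧ 1 ≤ N t.2.1 ∧ 1 ≤ N t.2.2) ∧
      N t.1 * N t.2.1 * N t.2.2 ≤ Z := fun t ht => by
    obtain ⟨a1, a2, a3, -, a5⟩ := mem_trip.1 ht
    exact ⟨⟨a1.ne_zero, a2.ne_zero, a3.ne_zero⟩, ⟨one_le_N a1.ne_zero, one_le_N a2.ne_zero,
      one_le_N a3.ne_zero⟩, by rwa [N_mul, N_mul] at a5⟩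
  have mp : ∀ i ∈ I ×ˢ trip O Z,
      φ i ∈ ballO O Z ×ˢ ballO O Z ×ˢ Finset.range (qls_j (V * V) + 1) := fun i hi => by
    obtain ⟨i1, i2⟩ := Finset.mem_product.1 hi
    obtain ⟨a1, a2, a3⟩ := tr _ (hI i1)
    obtain ⟨b1, b2, b3⟩ := tr _ i2
    have a4 := revA_nm a2.1 a2.2.1 a2.2.2 a3
    have b4 := revA_nm b2.1 b2.2.1 b2.2.2 b3
    refine Finset.mem_product.2 ⟨mem_ballO'.2 ⟨a1.1, a4.1⟩, Finset.mem_product.2
      ⟨mem_ballO'.2 ⟨b1.2.2, b4.2.1⟩, Finset.mem_range.2 (Nat.lt_succ_of_le (qls_j_mono ?_))⟩⟩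
    calc Q i = (N i.1.2.1 * N i.1.2.2) * (N i.2.1 * N i.2.2.1) := by rw [hQ]; ring
      _ ≤ V * V := mul_le_mul (a4.2.2.2.trans ZV) (b4.2.2.1.trans ZV) (mul_nonneg (N_nonneg _) (N_nonneg _))
          (by linarith)
  rw [← Finset.sum_product' (f := fun t t2 : O × O × O => K * U * N t.2.2 * N t2.1 *
      ∑ m ∈ ballO O (K2 * (Y / (K * U ^ 2 * N (t2.2.1 * t2.1 ^ 2 * t.2.1 * t.2.2 ^ 2)))),
        ‖A (ω t t2) (X / (U * N (pr t)) / N (pr t2)) w
          (m * (t2.2.1 * t2.1 ^ 2 * t.2.1 * t.2.2 ^ 2) * (t.1 * t2.2.2) ^ 6)‖ ^ 2),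
    ← Finset.sum_fiberwise_of_maps_to mp]
  set E : ℝ := Real.exp (C1 * |w.im|) with hE
  have E0 : 0 < E := Real.exp_pos _
  refine (Finset.sum_le_sum (g := fun c : O × O × ℕ => C1 * E * (z * z) * (C2 * z) ^ 4 *
    (4 * K2 * K * S) * ((N c.1)⁻¹ * (N c.2.1)⁻¹)) fun c hc => ?_).trans ?_
  · obtain ⟨g, f, j⟩ := c
    obtain ⟨x1, x2⟩ := Finset.mem_product.1 hc
    obtain ⟨g0, gZ⟩ := mem_ballO'.1 x1
    obtain ⟨f0, fZ⟩ := mem_ballO'.1 (Finset.mem_product.1 x2).1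
    simp only at g0 gZ f0 fZ ⊢
    have g1 := one_le_N g0
    have f1 := one_le_N f0
    have G1 : 1 ≤ N g * N f := one_le_mul_of_one_le_of_one_le g1 f1
    set F := (I ×ˢ trip O Z).filter (fun i => φ i = (g, f, j)) with hF
    have P1 : (1 : ℝ) ≤ 2 ^ j := one_le_pow₀ (by norm_num)
    have fb : ∀ i ∈ F, i.1 ∈ I ∧ i.2 ∈ trip O Z ∧ i.1.1 = g ∧ i.2.2.2 = f ∧ 2 ^ j ≤ Q i ∧
        Q i ≤ 2 * 2 ^ j := fun i hi => by
      obtain ⟨y1, y2⟩ := Finset.mem_filter.1 hi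
      obtain ⟨i1, i2⟩ := Finset.mem_product.1 y1
      simp only [hφ, Prod.mk.injEq] at y2
      obtain ⟨-, a2, -⟩ := tr _ (hI i1)
      obtain ⟨-, b2, -⟩ := tr _ i2
      have : 1 ≤ Q i := one_le_mul_of_one_le_of_one_le (one_le_mul_of_one_le_of_one_le
        (one_le_mul_of_one_le_of_one_le a2.2.1 a2.2.2) b2.2.1) b2.1
      exact ⟨i1, i2, y2.1, y2.2.1, y2.2.2 ▸ qls_j_le this, y2.2.2 ▸ (qls_lt_j _).le⟩
    rcases F.eq_empty_or_nonempty with h0 | ⟨i0, h0⟩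
    · rw [h0, Finset.sum_empty]; positivity
    have dl : Δ ≤ 2 * 2 ^ j * (N g * N f) := by
      obtain ⟨i1, i2, e1, -, -, e4⟩ := fb i0 h0
      obtain ⟨-, a2, -⟩ := tr _ (hI i1)
      obtain ⟨-, b2, -⟩ := tr _ i2
      have := hd _ i1
      rw [pr, N_mul, N_mul, e1, mul_assoc] at this
      have u1 : N i0.1.2.1 * N i0.1.2.2 ≤ Q i0 := by
        rw [hQ]
        simp only [mul_assoc (N i0.1.2.1 * N i0.1.2.2)]
        exact le_mul_of_one_le_right (mul_nonneg (N_nonneg _) (N_nonneg _))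
          (one_le_mul_of_one_le_of_one_le b2.2.1 b2.1)
      calc Δ ≤ N g * (2 * 2 ^ j) * 1 := by rw [mul_one]; exact this.trans (mul_le_mul_of_nonneg_left (u1.trans e4) (by linarith))
        _ ≤ N g * (2 * 2 ^ j) * N f := by gcongr
        _ = _ := by ring
    have key := h1 _ F (V * V) (X / (U * (N g * N f))) (2 ^ j) Y' ((C2 * z) ^ 4) w (g * f) a Q
      (fun i => K2 * (Y / (K * U ^ 2 * N (a i)))) (fun i => ω i.1 i.2) (V1.trans VV)
      (by positivity) (by positivity)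
      ((div_le_self (by positivity) P1).trans ((div_le_self (by linarith)
        (one_le_mul_of_one_le_of_one_le hU G1)).trans (hXZ.trans (ZV.trans VV))))
      (by positivity) (YV.trans VV) hw (mul_ne_zero g0 f0)
      (by rw [N_mul]; exact mul_le_mul (gZ.trans ZV) (fZ.trans ZV) (by linarith) (by linarith))
      (by positivity)
      (fun i hi => by
        obtain ⟨i1, i2, -, -, e3, e4⟩ := fb i hi
        obtain ⟨a1, -, -⟩ := tr _ (hI i1)
        obtain ⟨b1, -, -⟩ := tr _ i2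
        have a0 : a i ≠ 0 := mul_ne_zero (mul_ne_zero (mul_ne_zero b1.2.1 (pow_ne_zero _ b1.1))
          a1.2.1) (pow_ne_zero _ a1.2.2)
        refine ⟨a0, e3, e4, le_of_eq ?_, hω _ i1 _ i2⟩
        have := N_pos a0
        rw [hY']
        field_simp)
      (fun m hm => by
        obtain ⟨m0, mY⟩ := mem_ballO'.1 hm
        refine (revA_cnt F m0 fun i hi => ⟨(fb i hi).2.2.1, (fb i hi).2.2.2.1⟩).trans
          (pow_le_pow_left₀ (div_dv_nonneg m) ((h2 m m0).trans ?_) 4)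
        exact mul_le_mul_of_nonneg_left (Real.rpow_le_rpow (N_nonneg m) (mY.trans YV) hε'.le) c2.le)
    rw [zz] at key
    calc _ ≤ ∑ i ∈ F, K * U * (2 * 2 ^ j) * ∑ m ∈ ballO O (K2 * (Y / (K * U ^ 2 * N (a i)))),
          ‖A (ω i.1 i.2) (X / (U * (N g * N f)) / Q i) w (m * a i * (g * f) ^ 6)‖ ^ 2 := by
          refine Finset.sum_le_sum fun i hi => ?_
          obtain ⟨i1, i2, e1, e2, -, e4⟩ := fb i hi
          obtain ⟨-, a2, -⟩ := tr _ (hI i1)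
          obtain ⟨-, b2, -⟩ := tr _ i2
          have e : X / (U * N (pr i.1)) / N (pr i.2) = X / (U * (N g * N f)) / Q i := by
            simp only [pr, N_mul, hQ, e1, e2, div_div]
            congr 1
            ring
          rw [e, e1, e2, mul_assoc (K * U)]
          refine mul_le_mul_of_nonneg_right (mul_le_mul_of_nonneg_left (le_trans ?_ e4)
            (by positivity)) (Finset.sum_nonneg fun _ _ => by positivity)
          calc _ = 1 * N i.1.2.2 * 1 * N i.2.1 := by ring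
            _ ≤ Q i := by
              have v1 := b2.1
              have v2 := a2.2.2
              have v3 := a2.2.1
              exact mul_le_mul_of_nonneg_right (mul_le_mul (mul_le_mul_of_nonneg_right v3
                (by linarith)) b2.2.1 zero_le_one (by positivity)) (by linarith)
      _ ≤ K * U * (2 * 2 ^ j) * (C1 * E * (z * z) * (C2 * z) ^ 4 *
          (X / (U * (N g * N f)) / 2 ^ j * Y' + (X / (U * (N g * N f)) / 2 ^ j) ^ γ)) := by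
          rw [← Finset.mul_sum]
          exact mul_le_mul_of_nonneg_left key (by positivity)
      _ = C1 * E * (z * z) * (C2 * z) ^ 4 * (K * U * (2 * 2 ^ j) *
          (X / (U * (N g * N f)) / 2 ^ j * Y' + (X / (U * (N g * N f)) / 2 ^ j) ^ γ)) := by ring
      _ ≤ C1 * E * (z * z) * (C2 * z) ^ 4 * (4 * K2 * K * S * (N g * N f)⁻¹) :=
          mul_le_mul_of_nonneg_left (revA_num hγ hX hY hU hK hK2 hΔ G1 P1 dl) (by positivity)
      _ = _ := by rw [mul_inv]; ring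
  · rw [← Finset.mul_sum]
    have s0 : 0 ≤ ∑ n ∈ ballO O Z, (N n)⁻¹ := Finset.sum_nonneg fun j _ => inv_nonneg.2 (N_nonneg _)
    have s1 : ∑ n ∈ ballO O Z, (N n)⁻¹ ≤ C3 * z := (h3 Z hZ).trans (by rw [hz]; gcongr)
    have s2 : ((qls_j (V * V) + 1 : ℕ) : ℝ) ≤ C4 * (z * z) := zz ▸ h4 _ (V1.trans VV)
    have s3 : ∑ c ∈ ballO O Z ×ˢ ballO O Z ×ˢ Finset.range (qls_j (V * V) + 1),
        (N c.1)⁻¹ * (N c.2.1)⁻¹ = (∑ n ∈ ballO O Z, (N n)⁻¹) * ((∑ n ∈ ballO O Z, (N n)⁻¹) *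
          ((qls_j (V * V) + 1 : ℕ) : ℝ)) := by
      simp only [Finset.sum_product, Finset.sum_const, Finset.card_range, nsmul_eq_mul,
        Finset.sum_mul, Finset.mul_sum]
      exact Finset.sum_congr rfl fun _ _ => Finset.sum_congr rfl fun _ _ => by ring
    have e : V ^ ε = z ^ 10 := by
      rw [hz, ← Real.rpow_natCast, ← Real.rpow_mul (by linarith)]
      congr 1
      push_cast
      ring
    rw [s3, e]
    calc _ ≤ C1 * E * (z * z) * (C2 * z) ^ 4 * (4 * K2 * K * S) *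
          (C3 * z * (C3 * z * (C4 * (z * z)))) := by gcongr
      _ = 4 * C1 * C2 ^ 4 * C3 ^ 2 * C4 * E * z ^ 10 * K2 * K * S := by ring
      _ ≤ _ := by
          rw [hE]
          gcongr
          · linarith
          · exact le_add_of_nonneg_right (by positivity)

end

end Vale.Agent.P319N.Ab
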