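import Vale.Agent.P319N.AGm
import Vale.Agent.P026.StepA

namespace Vale.Agent.P319N.Ab

open Complex MeasureTheory Filter Topology
open scoped Classical ComplexConjugate Real
open Vale.Agent.P026 (W DualW)
open Vale.Agent.P026 (stepA_num)

noncomputable section

variable {O : Type} [CommMonoidWithZero O] [UniqueFactorizationMonoid O] [Ar O]


theorem stepA {t : O → ℂ} (h : SMALL t) {ε : ℝ} (hε : 0 < ε) (R0 : ℝ) :
    ∃ C : ℝ, 0 < C ∧ ∀ (Z X Y K : ℝ) (w : ℂ) (I : Finset (O × O × O))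
      (ω : O × O × O → O → O → ℂ),
    1 ≤ X → X ≤ Z → X ^ (239 / 200 : ℝ) ≤ Y → Y ≤ Z → 1 ≤ K → |w.re| ≤ R0 →
    I ⊆ trip O (X ^ (1 / 1000 : ℝ)) → (∀ i ∈ I, ∀ d, Wt (ω i d)) →
    ∑ i ∈ I, Y * N i.1 / X * ∑ h ∈ ballO O (K * Ht X Y i),
        (∑ d ∈ ballN O (X ^ (1 / 1000 : ℝ)),
          √(N d) * ‖TH t (ω i d) (X / N (pr i) / N d ^ 3) w (h * kt i)‖) ^ 2 ≤
      C * Real.exp (C * |w.im|) * Z ^ ε * K ^ (7 / 2 : ℝ) * X ^ (439 / 200 : ℝ) := by
  obtain ⟨ε', hε0, hε1, hε2⟩ : ∃ ε' : ℝ, 0 < ε' ∧ ε' ≤ ε / 2 ∧ ε' ≤ 1 / 10 :=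
    ⟨min (ε / 2) (1 / 10), lt_min (by linarith) (by norm_num), min_le_left _ _, min_le_right _ _⟩
  obtain ⟨C0, hC0, h0⟩ := h ε' hε0 R0
  obtain ⟨C1, hC1, h1⟩ := card_ballO_le (O := O)
  obtain ⟨C2, hC2, h2⟩ := card_trip_le (O := O) (ε := 1) one_pos
  refine ⟨C0 + 1 + 2 * C0 * C1 ^ 2 * C2, by positivity,
    fun Z X Y K w I ω hX hXZ hXY hYZ hK hw hI hω => ?_⟩
  obtain ⟨x, rfl⟩ : ∃ x, X = Real.exp x := ⟨Real.log X, (Real.exp_log (by linarith)).symm⟩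
  obtain ⟨κ, rfl⟩ : ∃ x, K = Real.exp x := ⟨Real.log K, (Real.exp_log (by linarith)).symm⟩
  obtain ⟨z, rfl⟩ : ∃ x, Z = Real.exp x := ⟨Real.log Z, (Real.exp_log (by linarith)).symm⟩
  rw [← Real.exp_mul] at hXY
  obtain ⟨y, rfl⟩ : ∃ x, Y = Real.exp x :=
    ⟨Real.log Y, (Real.exp_log ((Real.exp_pos _).trans_le hXY)).symm⟩
  rw [Real.one_le_exp_iff] at hX hK
  rw [Real.exp_le_exp] at hXZ hXY hYZ
  simp only [← Real.exp_mul] at hI ⊢
  rw [show x * (1 / 1000) = x / 1000 by ring] at hI ⊢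
  set Δ := Real.exp (x / 1000) with hΔ
  have hΔ1 : 1 ≤ Δ := Real.one_le_exp (by linarith)
  obtain ⟨M, hM⟩ : ∃ M, M = C0 * Real.exp (C0 * |w.im|) * Real.exp ((κ + 2 * z) * ε') := ⟨_, rfl⟩
  have hM0 : 0 ≤ M := hM ▸ by positivity
  obtain ⟨Q, hQ⟩ : ∃ Q, Q = 2 * Real.exp (16 / 5 * κ + (439 / 200 - 4 / 1000) * x) := ⟨_, rfl⟩
  have hQ0 : 0 ≤ Q := hQ ▸ by positivity
  have hcard : ((ballN O Δ).card : ℝ) ≤ C1 * Δ :=
    (Nat.cast_le.2 (Finset.card_filter_le _ _)).trans (h1 Δ (by linarith))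
  have key : ∀ i ∈ I, Real.exp y * N i.1 / Real.exp x *
      ∑ h ∈ ballO O (Real.exp κ * Ht (Real.exp x) (Real.exp y) i), (∑ d ∈ ballN O Δ,
        √(N d) * ‖TH t (ω i d) (Real.exp x / N (pr i) / N d ^ 3) w (h * kt i)‖) ^ 2 ≤
      (C1 * Δ) ^ 2 * (M * Q) := by
    intro i hi
    obtain ⟨t1, t2, t3, t4, t5⟩ := mem_trip.1 (hI hi)
    have hp : pr i ≠ 0 := t4.ne_zero
    have hP := N_pos hp
    have hP1 := one_le_N hp
    have n1 := one_le_N t1.ne_zero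
    have n2 := one_le_N t2.ne_zero
    have hG : N i.1 ≤ Δ := (N_le_of_dvd ⟨i.2.1 * i.2.2, by rw [pr, mul_assoc]⟩ hp).trans t5
    set H := Real.exp κ * Ht (Real.exp x) (Real.exp y) i with hH
    have hH0 : 0 < H := by rw [hH, Ht]; positivity
    have hH1 : H ≤ Real.exp (κ + 2 * x - y) := by
      have e : Real.exp (κ + 2 * x - y) = Real.exp κ * (Real.exp x ^ 2 / (1 * 1 ^ 2 * Real.exp y)) := by
        rw [Real.exp_sub, Real.exp_add, ← Real.exp_nat_mul]; push_cast; ring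
      rw [e, hH, Ht]
      gcongr
    have each : ∀ d ∈ ballN O Δ, Real.exp y * N i.1 / Real.exp x * (N d * ∑ h ∈ ballO O H,
        ‖TH t (ω i d) (Real.exp x / N (pr i) / N d ^ 3) w (h * kt i)‖ ^ 2) ≤ M * Q := by
      intro d hd
      obtain ⟨d1, d2⟩ := mem_ballN.1 hd
      have d3 := one_le_N d1.ne_zero
      have b1 : 1 ≤ Real.exp x / N (pr i) / N d ^ 3 := by
        rw [div_div, one_le_div (by positivity)]
        calc N (pr i) * N d ^ 3 ≤ Δ * Δ ^ 3 := by gcongr; exact t5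
          _ ≤ _ := by
            rw [hΔ, ← Real.exp_nat_mul, ← Real.exp_add, Real.exp_le_exp]; push_cast; linarith
      have b2 : Real.exp x / N (pr i) / N d ^ 3 ≤ Real.exp (κ + 2 * z) :=
        ((div_le_self (by positivity) (one_le_pow₀ d3)).trans
          (div_le_self (by positivity) hP1)).trans (Real.exp_le_exp.2 (by linarith))
      have b3 := h0 (Real.exp (κ + 2 * z)) _ H w (ω i d) (pr i) (kt i) b1 b2 hH0
        (hH1.trans (Real.exp_le_exp.2 (by linarith))) hp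
        (t5.trans (Real.exp_le_exp.2 (by linarith)))
        (by
          rw [pr, kt, mul_assoc i.1, mul_comm i.1, mul_pow, mul_pow]
          exact mul_dvd_mul_right (mul_dvd_mul (pow_dvd_pow _ (by norm_num))
            (pow_dvd_pow _ (by norm_num))) _) hw (hω i hi d)
      rw [← Real.exp_mul, ← hM] at b3
      have b4 := stepA_num hX (by linarith) hK hG hP t5 d3 d2 hH0.le hH1 rfl
      rw [← hQ] at b4
      calc _ ≤ Real.exp y * N i.1 / Real.exp x * (N d * _) :=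
            mul_le_mul_of_nonneg_left (mul_le_mul_of_nonneg_left b3 (by positivity)) (by positivity)
        _ = M * (Real.exp y * N i.1 / Real.exp x * (N d * (N (pr i) *
            (Real.exp x / N (pr i) / N d ^ 3) * (H ^ (8 / 7 : ℝ) +
              (H ^ 2 * N (pr i) ^ 2 / (Real.exp x / N (pr i) / N d ^ 3)) ^ (8 / 5 : ℝ))))) := by
            ring
        _ ≤ M * Q := mul_le_mul_of_nonneg_left b4 hM0
    calc _ ≤ Real.exp y * N i.1 / Real.exp x * ∑ h ∈ ballO O H, ((ballN O Δ).card : ℝ) *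
          ∑ d ∈ ballN O Δ, N d * ‖TH t (ω i d) (Real.exp x / N (pr i) / N d ^ 3) w (h * kt i)‖ ^ 2 := by
          refine mul_le_mul_of_nonneg_left (Finset.sum_le_sum fun h _ => ?_) (by positivity)
          refine sq_sum_le_card_mul_sum_sq.trans_eq ?_
          simp only [mul_pow, Real.sq_sqrt (N_nonneg _)]
      _ = ((ballN O Δ).card : ℝ) * ∑ d ∈ ballN O Δ, Real.exp y * N i.1 / Real.exp x *
          (N d * ∑ h ∈ ballO O H,
            ‖TH t (ω i d) (Real.exp x / N (pr i) / N d ^ 3) w (h * kt i)‖ ^ 2) := by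
          rw [← Finset.mul_sum, Finset.sum_comm, ← Finset.mul_sum, mul_left_comm]
          simp only [Finset.mul_sum]
      _ ≤ ((ballN O Δ).card : ℝ) * (((ballN O Δ).card : ℝ) * (M * Q)) := by
          refine mul_le_mul_of_nonneg_left ((Finset.sum_le_sum each).trans_eq ?_) (by positivity)
          rw [Finset.sum_const, nsmul_eq_mul]
      _ ≤ (C1 * Δ) * ((C1 * Δ) * (M * Q)) := by gcongr
      _ = _ := by ring
  refine (Finset.sum_le_sum key).trans ?_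
  rw [Finset.sum_const, nsmul_eq_mul]
  have c1 : (I.card : ℝ) ≤ C2 * Δ ^ 2 := by
    have := h2 Δ hΔ1
    rw [one_add_one_eq_two, Real.rpow_two] at this
    exact (Nat.cast_le.2 (Finset.card_le_card hI)).trans this
  have c2 : Δ ^ 4 * Real.exp ((κ + 2 * z) * ε') *
      Real.exp (16 / 5 * κ + (439 / 200 - 4 / 1000) * x) ≤
      Real.exp (z * ε) * Real.exp (κ * (7 / 2)) * Real.exp (x * (439 / 200)) := by
    simp only [hΔ, ← Real.exp_nat_mul, ← Real.exp_add, Real.exp_le_exp]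
    push_cast
    nlinarith [mul_le_mul_of_nonneg_left hε1 (by linarith : 0 ≤ z),
      mul_le_mul_of_nonneg_left hε2 hK]
  have c3 : 2 * C0 * C1 ^ 2 * C2 ≤ C0 + 1 + 2 * C0 * C1 ^ 2 * C2 := by linarith
  have c4 : C0 ≤ C0 + 1 + 2 * C0 * C1 ^ 2 * C2 := by
    have : 0 ≤ 2 * C0 * C1 ^ 2 * C2 := by positivity
    linarith
  calc _ ≤ C2 * Δ ^ 2 * ((C1 * Δ) ^ 2 * (M * Q)) := by gcongr
    _ = 2 * C0 * C1 ^ 2 * C2 * Real.exp (C0 * |w.im|) * (Δ ^ 4 * Real.exp ((κ + 2 * z) * ε') *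
        Real.exp (16 / 5 * κ + (439 / 200 - 4 / 1000) * x)) := by rw [hM, hQ]; ring
    _ ≤ (C0 + 1 + 2 * C0 * C1 ^ 2 * C2) * Real.exp ((C0 + 1 + 2 * C0 * C1 ^ 2 * C2) * |w.im|) *
        (Real.exp (z * ε) * Real.exp (κ * (7 / 2)) * Real.exp (x * (439 / 200))) := by gcongr
    _ = _ := by ring

end

end Vale.Agent.P319N.Ab
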