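import Vale.Agent.P319N.APP
import Vale.Agent.P319N.AGm

namespace Vale.Agent.P319N.Ab

open Complex MeasureTheory Filter Topology
open scoped Classical ComplexConjugate Real
open Vale.Agent.P026 (W DualW)

noncomputable section

variable {O : Type} [CommMonoidWithZero O] [UniqueFactorizationMonoid O] [Ar O]


theorem tl1_summV {T : ℝ} (hT : 0 < T) : Summable (fun h : O => V O (N h * T)) := by
  obtain ⟨C, -, h⟩ := sum_V_le (O := O)
  simpa only [div_inv_eq_mul] using (h T⁻¹ (by positivity)).1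

theorem tl1_summ_norm {b : O → ℂ} {Bd T : ℝ} (hb : ∀ h, ‖b h‖ ≤ Bd) (hT : 0 < T) :
    Summable (fun h : O => ‖b h * ((V O (N h * T) : ℝ) : ℂ)‖) := by
  refine Summable.of_nonneg_of_le (fun _ => norm_nonneg _) (fun h => ?_)
    ((tl1_summV hT).mul_left Bd)
  rw [norm_mul, Complex.norm_real, Real.norm_of_nonneg (Ar.V_nonneg _)]
  exact mul_le_mul_of_nonneg_right (hb h) (Ar.V_nonneg _)

/-- the summand after Poisson summation -/
def tl1_T (a : O → ℂ) (k : ℕ) (Y : ℝ) (e g n1 n2 h : O) : ℂ :=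
  a (g * n1) * conj (a (g * n2)) * (mu e * (chi6 e n1 ^ k * conj (chi6 e n2 ^ k)) *
    ((Y / (N e * √(N n1 * N n2)) : ℝ) : ℂ)) * (eps n2 n1 ^ k * gt k n1 *
      conj (gt k n2)) * (chi6 h n1 ^ (6 - k) * conj (chi6 h n2 ^ (6 - k))) *
      ((V O (N h * (Y / (N e * N n1 * N n2))) : ℝ) : ℂ)

theorem tl1_chi_le (h n1 n2 : O) (j : ℕ) : ‖chi6 h n1 ^ j * conj (chi6 h n2 ^ j)‖ ≤ 1 := by
  rw [norm_mul, Complex.norm_conj, norm_pow, norm_pow]
  exact mul_le_one₀ (pow_le_one₀ (norm_nonneg _) (norm_chi6_le _ _)) (by positivity)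
    (pow_le_one₀ (norm_nonneg _) (norm_chi6_le _ _))

theorem tl1_T_summ (a : O → ℂ) (k : ℕ) {Y : ℝ} (hY : 0 < Y) {e : O} (g : O) {n1 n2 : O}
    (he : e ≠ 0) (h1 : n1 ≠ 0) (h2 : n2 ≠ 0) : Summable (fun h => ‖tl1_T a k Y e g n1 n2 h‖) := by
  have := N_pos he
  have := N_pos h1
  have := N_pos h2
  refine tl1_summ_norm (fun h => ?_) (by positivity)
    (Bd := ‖a (g * n1) * conj (a (g * n2)) * (mu e * (chi6 e n1 ^ k * conj (chi6 e n2 ^ k)) *
    ((Y / (N e * √(N n1 * N n2)) : ℝ) : ℂ)) * (eps n2 n1 ^ k * gt k n1 *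
      conj (gt k n2))‖)
  rw [norm_mul]
  exact mul_le_of_le_one_right (norm_nonneg _) (tl1_chi_le _ _ _ _)

/-- the defect of the Poisson formula -/
def tl1_D (a : O → ℂ) (k : ℕ) (Y : ℝ) (g n1 n2 : O) : ℂ :=
  a (g * n1) * conj (a (g * n2)) * (∑' m : O, if m ≠ 0 then
      chi6 m (g * n1) ^ k * conj (chi6 m (g * n2) ^ k) * ((V O (N m / Y) : ℝ) : ℂ) else 0) -
    ∑ e ∈ divs g, ∑' h : O, if h ≠ 0 then tl1_T a k Y e g n1 n2 h else 0

theorem tl1_zero {g n1 n2 : O} (hg : g ≠ 0) (h1 : NN n1) (h2 : NN n2) (hne : ¬ (n1 = 1 ∧ n2 = 1))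
    {j : ℕ} (hj : j ≠ 0) : chi6 0 (g * n1) ^ j * conj (chi6 0 (g * n2) ^ j) = 0 := by
  have hz : ∀ n : O, NN n → n ≠ 1 → chi6 0 (g * n) ^ j = 0 := fun n hn hne => by
    rw [chi6_zero_left (mul_ne_zero hg hn.ne_zero)
      fun hu => hne (hn.1.eq_one_of_isUnit (isUnit_of_mul_isUnit_right hu)), zero_pow hj]
  by_cases c : n1 = 1
  · rw [hz n2 h2 fun h => hne ⟨c, h⟩, map_zero, mul_zero]
  · rw [hz n1 h1 c, zero_mul]

theorem tl1_pair {a : O → ℂ} {k : ℕ} (hk : k = 1 ∨ k = 5) {Y : ℝ} (hY : 0 < Y) {g n1 n2 : O}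
    (hg : NN g) (h1 : NN n1) (h2 : NN n2) (h12 : IsRelPrime n1 n2) (hne : ¬ (n1 = 1 ∧ n2 = 1)) :
    tl1_D a k Y g n1 n2 = 0 := by
  have e0 : (∑' m : O, if m ≠ 0 then
      chi6 m (g * n1) ^ k * conj (chi6 m (g * n2) ^ k) * ((V O (N m / Y) : ℝ) : ℂ) else 0) =
      ∑' m : O, chi6 m (g * n1) ^ k * conj (chi6 m (g * n2) ^ k) * ((V O (N m / Y) : ℝ) : ℂ) := by
    refine tsum_congr fun m => ?_
    split_ifs with hm
    · rfl
    · rw [not_not.mp hm, tl1_zero hg.ne_zero h1 h2 hne (by omega), zero_mul]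
  rw [tl1_D, sub_eq_zero, e0, pair_poisson hg h1 h2 h12 hne (by omega) (by omega) hY,
    Finset.mul_sum]
  refine Finset.sum_congr rfl fun e he => ?_
  have e1 : chi6 n2 n1 ^ k * conj (chi6 n1 n2 ^ k) = eps n2 n1 ^ k := by
    rw [chi6_flip h2.ne_zero h1.ne_zero, mul_pow,
      mul_assoc, Complex.mul_conj', norm_pow, norm_chi6 h2.ne_zero h12]
    simp
  rw [← tsum_mul_left, ← tsum_mul_left]
  refine tsum_congr fun h => ?_
  split_ifs with hh
  · rw [e1, tl1_T]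
    ring
  · have := tl1_zero (g := 1) (j := 6 - k) one_ne_zero' h1 h2 hne (by omega)
    rw [one_mul, one_mul] at this
    rw [not_not.mp hh, this]
    simp

theorem tl1_tsum_le {F : O → ℂ} {Bd T C : ℝ} (hB : 0 ≤ Bd)
    (hs : Summable (fun h : O => V O (N h / T)))
    (hC : ∑' h : O, (if h ≠ 0 then V O (N h / T) else 0) ≤ C)
    (hF : ∀ h, ‖F h‖ ≤ Bd * V O (N h / T)) :
    ‖∑' h : O, if h ≠ 0 then F h else 0‖ ≤ Bd * C := by
  have hs' : Summable (fun h : O => if h ≠ 0 then V O (N h / T) else 0) :=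
    Summable.of_nonneg_of_le (fun h => by split_ifs; exacts [Ar.V_nonneg _, le_rfl])
      (fun h => by split_ifs; exacts [le_rfl, Ar.V_nonneg _]) hs
  refine (tsum_of_norm_bounded (hs'.hasSum.mul_left Bd) fun h => ?_).trans
    (mul_le_mul_of_nonneg_left hC hB)
  split_ifs
  · exact hF h
  · simp

theorem tl1_diag : ∃ C : ℝ, 0 < C ∧ ∀ {a : O → ℂ} {k : ℕ} (_ : k = 1 ∨ k = 5) {R Y : ℝ}
    (_ : 1 ≤ Y) {g : O} (_ : g ∈ ballN O R),
    ‖∑ n1 ∈ ballN O R, ∑ n2 ∈ ballN O R,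
        if g * n1 ∈ ballN O R ∧ g * n2 ∈ ballN O R ∧ IsRelPrime n1 n2 then
          tl1_D a k Y g n1 n2 else 0‖ ≤ C * (Y * (‖a g‖ ^ 2 * dv g)) := by
  obtain ⟨C, hC, hV⟩ := sum_V_le (O := O)
  refine ⟨2 * C, by positivity, fun {a k} hk {R Y} hY1 {g} hg => ?_⟩
  have hY : 0 < Y := by linarith
  obtain ⟨hgN, hgR⟩ := mem_ballN.mp hg
  have h1 : (1 : O) ∈ ballN O R := mem_ballN.mpr ⟨nn_one, by
    rw [N_one]; exact (one_le_N hgN.ne_zero).trans hgR⟩
  rw [Finset.sum_eq_single_of_mem 1 h1, Finset.sum_eq_single_of_mem 1 h1]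
  · rw [if_pos ⟨by rwa [mul_one], by rwa [mul_one], isRelPrime_one_left⟩]
    have hb : ∀ e ∈ divs g, ‖∑' h : O, if h ≠ 0 then tl1_T a k Y e g 1 1 h else 0‖ ≤
        ‖a g‖ ^ 2 * C := fun e he => by
      have he' := N_pos ((mem_divs hgN.ne_zero).mp he).1.ne_zero
      obtain ⟨v1, v2⟩ := hV (N e / Y) (by positivity)
      refine (tl1_tsum_le (Bd := ‖a g‖ ^ 2 * (Y / N e)) (by positivity) v1 v2
        fun h => ?_).trans_eq (by field_simp)
      have hp := Ar.V_nonneg (O := O) (N h / (N e / Y))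
      have e1 : N h * (Y / N e) = N h / (N e / Y) := by field_simp
      simp only [tl1_T, mul_one, chi6_one_right, one_pow, map_one, gt_one, N_one, e1,
        norm_mul, Complex.norm_conj, Complex.norm_real, Real.norm_of_nonneg hp,
        norm_eps, norm_pow, Real.sqrt_one]
      rw [Real.norm_of_nonneg (by positivity)]
      have := norm_mu_le e
      calc ‖a g‖ * ‖a g‖ * (‖mu e‖ * (Y / N e)) * V O (N h / (N e / Y))
          ≤ ‖a g‖ * ‖a g‖ * (1 * (Y / N e)) * V O (N h / (N e / Y)) := by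
            gcongr
        _ = _ := by ring
    have b1 : ‖∑ e ∈ divs g, ∑' h : O, if h ≠ 0 then tl1_T a k Y e g 1 1 h else 0‖ ≤
        dv g * (‖a g‖ ^ 2 * C) := by
      refine (norm_sum_le _ _).trans ((Finset.sum_le_card_nsmul _ _ _ hb).trans ?_)
      rw [nsmul_eq_mul]
      exact mul_le_mul_of_nonneg_right (card_divs_le g) (by positivity)
    obtain ⟨v1, v2⟩ := hV Y hY
    have b2 := tl1_tsum_le (Bd := 1) (F := fun m : O => chi6 m (g * 1) ^ k *
      conj (chi6 m (g * 1) ^ k) * ((V O (N m / Y) : ℝ) : ℂ)) zero_le_one v1 v2 fun m => by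
        rw [norm_mul, Complex.norm_real, Real.norm_of_nonneg (Ar.V_nonneg _)]
        exact mul_le_mul_of_nonneg_right (tl1_chi_le _ _ _ _) (Ar.V_nonneg _)
    have d1 := one_le_dv hgN.ne_zero
    refine (norm_sub_le _ _).trans ?_
    rw [norm_mul, norm_mul, Complex.norm_conj, mul_one g] at *
    have b3 := mul_le_mul_of_nonneg_left b2 (mul_nonneg (norm_nonneg (a g)) (norm_nonneg (a g)))
    have q1 : 0 ≤ ‖a g‖ ^ 2 * C := by positivity
    have q2 : ‖a g‖ ^ 2 * C * Y ≤ ‖a g‖ ^ 2 * C * (Y * dv g) :=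
      mul_le_mul_of_nonneg_left (le_mul_of_one_le_right hY.le d1) q1
    have q3 : ‖a g‖ ^ 2 * C * dv g ≤ ‖a g‖ ^ 2 * C * (Y * dv g) :=
      mul_le_mul_of_nonneg_left (le_mul_of_one_le_left (by linarith) hY1) q1
    nlinarith
  · intro n hn hne
    split_ifs with hc
    · exact tl1_pair hk hY hgN nn_one (mem_ballN.mp hn).1 hc.2.2 fun h => hne h.2
    · rfl
  · intro n hn hne
    refine Finset.sum_eq_zero fun n2 hn2 => ?_
    split_ifs with hc
    · exact tl1_pair hk hY hgN (mem_ballN.mp hn).1 (mem_ballN.mp hn2).1 hc.2.2 fun h => hne h.1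
    · rfl

theorem tl1_off {a : O → ℂ} {k : ℕ} {R Y : ℝ} (hY : 0 < Y) {t : O × O × O} (ht : t ∈ trip O R) :
    ‖mu t.2.2 * ∑ n1 ∈ ballN O R, ∑ n2 ∈ ballN O R,
        if t.1 * t.2.1 * t.2.2 * n1 ∈ ballN O R ∧ t.1 * t.2.1 * t.2.2 * n2 ∈ ballN O R then
          (∑' h : O, if h ≠ 0 then
            tl1_T a k Y t.2.1 (t.1 * t.2.1) (t.2.2 * n1) (t.2.2 * n2) h else 0) else 0‖ ≤
      Y / (N t.2.1 * N t.2.2) * ∑' h : O, if h ≠ 0 then ‖Off R a k Y t h‖ else 0 := by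
  obtain ⟨g, e, f⟩ := t
  obtain ⟨-, he, hf, -, -⟩ := mem_trip.mp ht
  simp only at he hf ⊢
  have he0 := N_pos he.ne_zero
  have hf0 := N_pos hf.ne_zero
  let U : O → O → O → ℂ := fun n1 n2 h =>
    if g * e * f * n1 ∈ ballN O R ∧ g * e * f * n2 ∈ ballN O R then
      (if h ≠ 0 then tl1_T a k Y e (g * e) (f * n1) (f * n2) h else 0) else 0
  have hU : ∀ n1 ∈ ballN O R, ∀ n2 ∈ ballN O R, Summable fun h => ‖U n1 n2 h‖ := by
    intro n1 h1 n2 h2
    refine Summable.of_nonneg_of_le (fun _ => norm_nonneg _) (fun h => ?_)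
      (tl1_T_summ a k hY (g * e) he.ne_zero
        (mul_ne_zero hf.ne_zero (mem_ballN.mp h1).1.ne_zero)
        (mul_ne_zero hf.ne_zero (mem_ballN.mp h2).1.ne_zero))
    simp only [U]
    split_ifs <;> simp
  have hsum : ∀ h, ∑ n1 ∈ ballN O R, ∑ n2 ∈ ballN O R, U n1 n2 h
      = mu e * ((Y / (N e * N f) : ℝ) : ℂ) * if h ≠ 0 then Off R a k Y (g, e, f) h else 0 := by
    intro h
    by_cases h0 : h = 0
    · simp [U, h0]
    rw [if_pos h0, Off, Finset.mul_sum]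
    refine Finset.sum_congr rfl fun n1 h1 => ?_
    rw [Finset.mul_sum]
    refine Finset.sum_congr rfl fun n2 h2 => ?_
    have p1 := N_pos (mem_ballN.mp h1).1.ne_zero
    have p2 := N_pos (mem_ballN.mp h2).1.ne_zero
    simp only [U, vv, if_pos h0]
    by_cases c1 : g * e * f * n1 ∈ ballN O R
    swap
    · simp [c1]
    by_cases c2 : g * e * f * n2 ∈ ballN O R
    swap
    · simp [c2]
    have hr : Y / (N e * √(N (f * n1) * N (f * n2)))
        = Y / (N e * N f) * (√(N n1 * N n2))⁻¹ := by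
      rw [N_mul, N_mul, show N f * N n1 * (N f * N n2) = N f * N f * (N n1 * N n2) by ring,
        Real.sqrt_mul (by positivity), Real.sqrt_mul_self hf0.le]
      field_simp
    have harg : N h * (Y / (N e * N (f * n1) * N (f * n2)))
        = N h * Y / (N e * N f ^ 2 * N n1 * N n2) := by
      rw [N_mul, N_mul]
      field_simp
    rw [if_pos ⟨c1, c2⟩, if_pos c1, if_pos c2, tl1_T, harg, hr, ← mul_assoc (g * e),
      ← mul_assoc (g * e)]
    simp only [map_mul, Complex.ofReal_mul]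
    ring
  have hs2 : Summable fun h => ∑ n1 ∈ ballN O R, ∑ n2 ∈ ballN O R, U n1 n2 h :=
    summable_sum fun n1 h1 => summable_sum fun n2 h2 => (hU n1 h1 n2 h2).of_norm
  have e1 : (∑ n1 ∈ ballN O R, ∑ n2 ∈ ballN O R,
      if g * e * f * n1 ∈ ballN O R ∧ g * e * f * n2 ∈ ballN O R then
        (∑' h : O, if h ≠ 0 then tl1_T a k Y e (g * e) (f * n1) (f * n2) h else 0) else 0)
      = ∑' h, ∑ n1 ∈ ballN O R, ∑ n2 ∈ ballN O R, U n1 n2 h := by
    rw [Summable.tsum_finsetSum fun n1 h1 => summable_sum fun n2 h2 => (hU n1 h1 n2 h2).of_norm]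
    refine Finset.sum_congr rfl fun n1 h1 => ?_
    rw [Summable.tsum_finsetSum fun n2 h2 => (hU n1 h1 n2 h2).of_norm]
    refine Finset.sum_congr rfl fun n2 h2 => ?_
    simp only [U]
    split_ifs <;> simp
  have hn : ∀ h, ‖∑ n1 ∈ ballN O R, ∑ n2 ∈ ballN O R, U n1 n2 h‖
      = Y / (N e * N f) * if h ≠ 0 then ‖Off R a k Y (g, e, f) h‖ else 0 := fun h => by
    rw [hsum, norm_mul, norm_mul, norm_mu he.2, one_mul, Complex.norm_real,
      Real.norm_of_nonneg (by positivity)]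
    split_ifs <;> simp
  rw [e1, norm_mul, norm_mu hf.2, one_mul, ← tsum_mul_left, ← tsum_congr hn]
  exact norm_tsum_le_tsum_norm hs2.norm

theorem tl1 : ∃ C : ℝ, 0 < C ∧ ∀ (k : ℕ) (R Y : ℝ) (a : O → ℂ), k = 1 ∨ k = 5 → 0 < Y →
    ∑ m ∈ ballO O Y, ‖∑ n ∈ ballN O R, a n * chi6 m n ^ k‖ ^ 2 ≤
      C * (Y * ∑ n ∈ ballN O R, ‖a n‖ ^ 2 * dv n +
        ∑ t ∈ trip O R, Y / (N t.2.1 * N t.2.2) *
          ∑' h : O, if h ≠ 0 then ‖Off R a k Y t h‖ else 0) := by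
  obtain ⟨c, hc, hcw⟩ := Ar.V_ge (O := O)
  obtain ⟨Cd, hCd, hdiag⟩ := tl1_diag (O := O)
  obtain ⟨CV, -, hV⟩ := sum_V_le (O := O)
  refine ⟨(Cd + 1) / c, by positivity, fun k R Y a hk hY => ?_⟩
  have h7 : 0 ≤ Y * ∑ n ∈ ballN O R, ‖a n‖ ^ 2 * dv n :=
    mul_nonneg hY.le (Finset.sum_nonneg fun n _ => mul_nonneg (by positivity) (Nat.cast_nonneg _))
  have h8 : 0 ≤ ∑ t ∈ trip O R, Y / (N t.2.1 * N t.2.2) *
      ∑' h : O, if h ≠ 0 then ‖Off R a k Y t h‖ else 0 :=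
    Finset.sum_nonneg fun t _ => mul_nonneg
      (div_nonneg hY.le (mul_nonneg (N_nonneg _) (N_nonneg _)))
      (tsum_nonneg fun h => by split_ifs <;> simp)
  by_cases hY1 : Y < 1
  · rw [ballO_eq_empty hY1, Finset.sum_empty]
    positivity
  rw [not_lt] at hY1
  have hw := (hV Y hY).1
  let wz : O → ℝ := fun m => if m ≠ 0 then V O (N m / Y) else 0
  have hwz0 : ∀ m, 0 ≤ wz m := fun m => by
    simp only [wz]; split_ifs; exacts [Ar.V_nonneg _, le_rfl]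
  have hwz1 : ∀ m, wz m ≤ V O (N m / Y) := fun m => by
    simp only [wz]; split_ifs; exacts [le_rfl, Ar.V_nonneg _]
  let P : O → O → O → ℂ := fun n1 n2 m =>
    a n1 * conj (a n2) * (chi6 m n1 ^ k * conj (chi6 m n2 ^ k) * ((wz m : ℝ) : ℂ))
  have hP : ∀ n1 n2, Summable (P n1 n2) := fun n1 n2 => by
    refine Summable.mul_left _ (Summable.of_norm_bounded hw fun m => ?_)
    rw [norm_mul, Complex.norm_real, Real.norm_of_nonneg (hwz0 _)]
    exact (mul_le_of_le_one_left (hwz0 _) (tl1_chi_le _ _ _ _)).trans (hwz1 m)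
  have hterm : ∀ m, ((‖∑ n ∈ ballN O R, a n * chi6 m n ^ k‖ ^ 2 * wz m : ℝ) : ℂ)
      = ∑ n1 ∈ ballN O R, ∑ n2 ∈ ballN O R, P n1 n2 m := fun m => by
    push_cast
    rw [← Complex.mul_conj', map_sum, Finset.sum_mul_sum, Finset.sum_mul]
    refine Finset.sum_congr rfl fun n1 _ => ?_
    rw [Finset.sum_mul]
    refine Finset.sum_congr rfl fun n2 _ => ?_
    simp only [P, map_mul]
    ring
  have hs : Summable fun m => ‖∑ n ∈ ballN O R, a n * chi6 m n ^ k‖ ^ 2 * wz m := by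
    rw [← Complex.summable_ofReal]
    simp only [hterm]
    exact summable_sum fun n1 _ => summable_sum fun n2 _ => hP n1 n2
  have h1 : c * ∑ m ∈ ballO O Y, ‖∑ n ∈ ballN O R, a n * chi6 m n ^ k‖ ^ 2
      ≤ ∑' m, ‖∑ n ∈ ballN O R, a n * chi6 m n ^ k‖ ^ 2 * wz m := by
    refine le_trans ?_ (hs.sum_le_tsum (ballO O Y)
      fun m _ => mul_nonneg (by positivity) (hwz0 _))
    rw [Finset.mul_sum]
    refine Finset.sum_le_sum fun m hm => ?_
    obtain ⟨m0, m1⟩ := mem_ballO'.mp hm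
    rw [mul_comm]
    refine mul_le_mul_of_nonneg_left ?_ (by positivity)
    simp only [wz, if_pos m0]
    exact hcw _ (div_pos (N_pos m0) hY) ((div_le_one hY).mpr m1)
  have h2 : (((∑' m, ‖∑ n ∈ ballN O R, a n * chi6 m n ^ k‖ ^ 2 * wz m : ℝ)) : ℂ)
      = (∑ g ∈ ballN O R, ∑ n1 ∈ ballN O R, ∑ n2 ∈ ballN O R,
          if g * n1 ∈ ballN O R ∧ g * n2 ∈ ballN O R ∧ IsRelPrime n1 n2 then
            tl1_D a k Y g n1 n2 else 0) +
        ∑ g ∈ ballN O R, ∑ n1 ∈ ballN O R, ∑ n2 ∈ ballN O R,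
          if g * n1 ∈ ballN O R ∧ g * n2 ∈ ballN O R ∧ IsRelPrime n1 n2 then
            ∑ e ∈ divs g, (∑' h : O, if h ≠ 0 then tl1_T a k Y e g n1 n2 h else 0) else 0 := by
    rw [Complex.ofReal_tsum]
    simp only [hterm]
    rw [Summable.tsum_finsetSum fun n1 _ => summable_sum fun n2 _ => hP n1 n2]
    simp only [Summable.tsum_finsetSum fun n2 _ => hP _ n2]
    rw [gm_gcd R fun n1 n2 => ∑' m, P n1 n2 m]
    simp only [← Finset.sum_add_distrib]
    refine Finset.sum_congr rfl fun g hg => Finset.sum_congr rfl fun n1 h1 =>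
      Finset.sum_congr rfl fun n2 h2 => ?_
    split_ifs with hc
    · rw [tl1_D, sub_add_cancel, ← tsum_mul_left]
      refine tsum_congr fun m => ?_
      simp only [P, wz]
      split_ifs <;> simp
    · simp
  rw [gm_trip R fun e g n1 n2 => ∑' h : O, if h ≠ 0 then tl1_T a k Y e g n1 n2 h else 0] at h2
  have h3 := (Complex.re_le_norm _).trans_eq (congrArg norm h2)
  rw [Complex.ofReal_re] at h3
  have h4 := (norm_sum_le _ _).trans
    (Finset.sum_le_sum fun g hg => hdiag (a := a) (R := R) hk hY1 hg)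
  have h5 := (norm_sum_le _ _).trans
    (Finset.sum_le_sum fun t ht => tl1_off (a := a) (k := k) hY (R := R) ht)
  have h6 := h1.trans (h3.trans ((norm_add_le _ _).trans (add_le_add h4 h5)))
  rw [← Finset.mul_sum, ← Finset.mul_sum] at h6
  rw [div_mul_eq_mul_div, le_div_iff₀ hc]
  nlinarith

end

end Vale.Agent.P319N.Ab
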