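import Vale.Agent.P319N.ADiv
import Vale.Agent.P026.TL2

namespace Vale.Agent.P319N.Ab

open Complex MeasureTheory Filter Topology
open scoped Classical ComplexConjugate Real
open Vale.Agent.P026 (W DualW)

noncomputable section

variable {O : Type} [CommMonoidWithZero O] [UniqueFactorizationMonoid O] [Ar O]


theorem tl2_core {ι : Type} {σ C x : ℝ} {m : ℝ → ℂ} (hC : 0 < C) (hm : Continuous m)
    (hb : ∀ τ, ‖m τ‖ ≤ C * Real.exp (-τ ^ 2 / 4))
    (hP : ∀ x : ℝ, 0 < x → ((V O x : ℝ) : ℂ) = ∫ τ : ℝ, m τ * (x : ℂ) ^ (-(σ + τ * I)))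
    (hx : 0 < x) (B : Finset O) (P : Finset ι) (hB : ∀ n ∈ B, n ≠ 0) (β : ι → O → ℂ)
    (E : ι → ι → ℂ) (hE : ∀ c d, ‖E c d‖ ≤ 8) :
    ‖∑ n1 ∈ B, ∑ n2 ∈ B, (∑ c ∈ P, ∑ d ∈ P, E c d * β c n1 * conj (β d n2)) *
        (((√(N n1 * N n2))⁻¹ * V O (x / (N n1 * N n2)) : ℝ) : ℂ)‖ ≤
      8 * C * P.card * x ^ (-σ) * ∫ τ : ℝ, Real.exp (-τ ^ 2 / 4) * ∑ c ∈ P,
        ‖∑ n ∈ B, β c n * ((N n : ℝ) : ℂ) ^ (σ - 1 / 2 + τ * I)‖ ^ 2 := by
  let U : ι → ℝ → ℂ := fun c τ => ∑ n ∈ B, β c n * ((N n : ℝ) : ℂ) ^ (σ - 1 / 2 + τ * I)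
  let S : ℝ → ℝ := fun τ => ∑ c ∈ P, ‖U c τ‖ ^ 2
  have hI : ∀ y : ℝ, 0 < y → Integrable fun τ : ℝ => m τ * (y : ℂ) ^ (-(σ + τ * I)) := by
    intro y hy
    refine Vale.Agent.P026.tl2_integrable (hm.mul (Continuous.const_cpow (by fun_prop)
      (Or.inl (by exact_mod_cast hy.ne')))) (y ^ (-σ) * C) fun τ => ?_
    rw [norm_mul, Complex.norm_cpow_eq_rpow_re_of_pos hy, mul_comm, mul_assoc]
    simpa using mul_le_mul_of_nonneg_left (hb τ) (Real.rpow_nonneg hy.le (-σ))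
  have hU : ∀ c, Continuous (U c) := fun c => continuous_finsetSum _ fun n hn =>
    continuous_const.mul (Continuous.const_cpow (by fun_prop)
      (Or.inl (by exact_mod_cast (N_pos (hB n hn)).ne')))
  have hS : Continuous S := continuous_finsetSum _ fun c _ => (hU c).norm.pow 2
  have hS0 : ∀ τ, 0 ≤ S τ := fun τ => Finset.sum_nonneg fun c _ => sq_nonneg _
  have hSM : ∀ τ, S τ ≤ ∑ c ∈ P, (∑ n ∈ B, ‖β c n‖ * N n ^ (σ - 1 / 2)) ^ 2 := fun τ =>
    Finset.sum_le_sum fun c _ => pow_le_pow_left₀ (norm_nonneg _) ((norm_sum_le _ _).trans_eq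
      (Finset.sum_congr rfl fun n hn => by
        rw [norm_mul, Complex.norm_cpow_eq_rpow_re_of_pos (N_pos (hB n hn))]; simp)) 2
  have i1 := Vale.Agent.P026.tl2_integrable' hS _ hS0 hSM
  have i2 := Vale.Agent.P026.tl2_integrable' (g := fun τ => S (-τ)) (hS.comp continuous_neg) _
    (fun τ => hS0 _) fun τ => hSM _
  have e1 : ∑ n1 ∈ B, ∑ n2 ∈ B, (∑ c ∈ P, ∑ d ∈ P, E c d * β c n1 * conj (β d n2)) *
      (((√(N n1 * N n2))⁻¹ * V O (x / (N n1 * N n2)) : ℝ) : ℂ) =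
      ∫ τ : ℝ, ∑ n1 ∈ B, ∑ n2 ∈ B, ((∑ c ∈ P, ∑ d ∈ P, E c d * β c n1 * conj (β d n2)) *
        (((√(N n1 * N n2))⁻¹ : ℝ) : ℂ)) *
          (m τ * ((x / (N n1 * N n2) : ℝ) : ℂ) ^ (-(σ + τ * I))) := by
    have hpos : ∀ n1 ∈ B, ∀ n2 ∈ B, 0 < x / (N n1 * N n2) := fun n1 h1 n2 h2 =>
      div_pos hx (mul_pos (N_pos (hB _ h1)) (N_pos (hB _ h2)))
    rw [integral_finsetSum _ fun n1 h1 => integrable_finsetSum _ fun n2 h2 =>
      (hI _ (hpos n1 h1 n2 h2)).const_mul _]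
    refine Finset.sum_congr rfl fun n1 h1 => ?_
    rw [integral_finsetSum _ fun n2 h2 => (hI _ (hpos n1 h1 n2 h2)).const_mul _]
    refine Finset.sum_congr rfl fun n2 h2 => ?_
    rw [integral_const_mul, ← hP _ (hpos n1 h1 n2 h2), Complex.ofReal_mul, mul_assoc]
  have e2 : ∀ τ : ℝ, ∑ n1 ∈ B, ∑ n2 ∈ B, ((∑ c ∈ P, ∑ d ∈ P, E c d * β c n1 * conj (β d n2)) *
      (((√(N n1 * N n2))⁻¹ : ℝ) : ℂ)) * (m τ * ((x / (N n1 * N n2) : ℝ) : ℂ) ^ (-(σ + τ * I))) =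
      m τ * (x : ℂ) ^ (-(σ + τ * I)) * ∑ c ∈ P, ∑ d ∈ P, E c d * (U c τ * conj (U d (-τ))) := by
    intro τ
    simp only [U, map_sum, Finset.sum_mul, Finset.mul_sum]
    rw [Finset.sum_congr rfl fun n1 _ => Finset.sum_comm, Finset.sum_comm]
    refine Finset.sum_congr rfl fun c _ => ?_
    rw [Finset.sum_congr rfl fun n1 _ => Finset.sum_comm, Finset.sum_comm]
    refine Finset.sum_congr rfl fun d _ => ?_
    rw [Finset.sum_comm]
    refine Finset.sum_congr rfl fun n2 h2 => Finset.sum_congr rfl fun n1 h1 => ?_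
    have := Vale.Agent.P026.tl2_split hx (N_pos (hB _ h1)) (N_pos (hB _ h2)) σ τ
    rw [map_mul]
    linear_combination (E c d * β c n1 * conj (β d n2) * m τ) * this
  rw [e1]
  simp only [e2]
  have hx0 : 0 ≤ x ^ (-σ) := Real.rpow_nonneg hx.le _
  refine (norm_integral_le_of_norm_le ((i1.add i2).const_mul (4 * C * P.card * x ^ (-σ)))
    (Eventually.of_forall fun τ => ?_)).trans_eq ?_
  · have a1 : ‖∑ c ∈ P, ∑ d ∈ P, E c d * (U c τ * conj (U d (-τ)))‖ ≤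
        4 * P.card * (S τ + S (-τ)) := by
      have : 4 * P.card * (S τ + S (-τ)) =
          ∑ c ∈ P, ∑ d ∈ P, 4 * (‖U c τ‖ ^ 2 + ‖U d (-τ)‖ ^ 2) := by
        simp only [S, mul_add, Finset.sum_add_distrib, Finset.sum_const, nsmul_eq_mul,
          ← Finset.mul_sum]
        ring
      rw [this]
      refine (norm_sum_le _ _).trans (Finset.sum_le_sum fun c _ =>
        (norm_sum_le _ _).trans (Finset.sum_le_sum fun d _ => ?_))
      rw [norm_mul, norm_mul, Complex.norm_conj]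
      have := mul_le_mul_of_nonneg_right (hE c d)
        (mul_nonneg (norm_nonneg (U c τ)) (norm_nonneg (U d (-τ))))
      nlinarith [sq_nonneg (‖U c τ‖ - ‖U d (-τ)‖)]
    have a2 : ‖(x : ℂ) ^ (-(σ + τ * I))‖ = x ^ (-σ) := by
      rw [Complex.norm_cpow_eq_rpow_re_of_pos hx]; simp
    rw [norm_mul, norm_mul, a2]
    refine (mul_le_mul (mul_le_mul_of_nonneg_right (hb τ) hx0) a1 (norm_nonneg _)
      (by positivity)).trans_eq ?_
    simp only [Pi.add_apply]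
    ring
  · rw [integral_const_mul, integral_add' i1 i2]
    have := integral_neg_eq_self (fun τ : ℝ => Real.exp (-τ ^ 2 / 4) * S τ) volume
    simp only [neg_sq] at this
    rw [this]
    simp only [S, U]
    ring

theorem tl2 {σ : ℝ} (hσ : 0 < σ) : ∃ C : ℝ, 0 < C ∧
    ∀ (k : ℕ) (R Y : ℝ) (a : O → ℂ) (t : O × O × O) (h : O), 0 < Y → t ∈ trip O R → h ≠ 0 →
    ‖Off R a k Y t h‖ ≤ C * (N h * Y / (N t.2.1 * N t.2.2 ^ 2)) ^ (-σ) *
      ∫ τ : ℝ, Real.exp (-τ ^ 2 / 4) * ∑ c : G O,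
        ‖∑ n ∈ ballN O R, if pr t * n ∈ ballN O R then
          alp a k t c n * chi6 h n ^ (6 - k) * ((N n : ℝ) : ℂ) ^ (σ - 1 / 2 + τ * Complex.I)
          else 0‖ ^ 2 := by
  obtain ⟨C, m, hC, hm, hb, hP⟩ := Ar.V_mellin (O := O) σ hσ
  have hc4 : (0 : ℝ) < (Finset.univ : Finset (G O)).card := by
    exact_mod_cast Finset.card_pos.mpr Finset.univ_nonempty
  refine ⟨8 * C * (Finset.univ : Finset (G O)).card, by positivity,
    fun k R Y a t h hY ht hh => ?_⟩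
  obtain ⟨g, e, f⟩ := t
  obtain ⟨-, he, hf, -⟩ := mem_trip.1 ht
  simp only at he hf ⊢
  have Ne := N_pos he.ne_zero
  have Nf := N_pos hf.ne_zero
  have Nh := N_pos hh
  let u : ℂ := chi6 e f ^ k * chi6 h f ^ (6 - k)
  have hu : ‖u‖ ≤ 1 := by
    rw [norm_mul, norm_pow, norm_pow]
    exact mul_le_one₀ (pow_le_one₀ (norm_nonneg _) (norm_chi6_le _ _)) (by positivity)
      (pow_le_one₀ (norm_nonneg _) (norm_chi6_le _ _))
  have key := tl2_core hC hm hb hP (x := N h * Y / (N e * N f ^ 2)) (by positivity) (ballN O R)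
    (Finset.univ : Finset (G O))
    (fun n hn => (mem_ballN.1 hn).1.ne_zero)
    (fun c n => if pr (g, e, f) * n ∈ ballN O R then alp a k (g, e, f) c n * chi6 h n ^ (6 - k) else 0)
    (fun c d => u * conj u * epsG (cls f * d) (cls f * c) ^ k) (fun c d => by
      simp only [norm_mul, Complex.norm_conj, norm_pow, Ar.norm_epsG, one_pow]
      calc _ ≤ 1 * 1 * (8 : ℝ) := by gcongr; norm_num
        _ = 8 := by norm_num)
  simp only [ite_mul, zero_mul] at key ⊢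
  refine le_of_eq_of_le (congrArg norm ?_) key
  refine Finset.sum_congr rfl fun n1 h1 => Finset.sum_congr rfl fun n2 h2 => ?_
  have ex : N h * Y / (N e * N f ^ 2) / (N n1 * N n2) = N h * Y / (N e * N f ^ 2 * N n1 * N n2) := by
    rw [div_div, mul_assoc (N e * N f ^ 2)]
  rw [ex]
  congr 1
  simp only [vv, pr]
  by_cases c1 : g * e * f * n1 ∈ ballN O R
  swap
  · simp [c1]
  by_cases c2 : g * e * f * n2 ∈ ballN O R
  swap
  · simp [c2]
  have z1 := (mem_ballN.1 h1).1.ne_zero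
  have z2 := (mem_ballN.1 h2).1.ne_zero
  simp only [if_pos c1, if_pos c2, alp, (mem_ballN.1 c1).1, (mem_ballN.1 c2).1, true_and]
  rw [← sum_class n1 (_ * _ * _)]
  refine Finset.sum_congr rfl fun c _ => ?_
  split_ifs with hc
  swap
  · simp
  rw [← sum_class n2 (_ * _ * _)]
  refine Finset.sum_congr rfl fun d _ => ?_
  split_ifs with hd
  swap
  · simp
  rw [eps, Ar.cls_mul _ _ hf.ne_zero z1, Ar.cls_mul _ _ hf.ne_zero z2, hc, hd]
  simp only [u, chi6_mul_right _ hf.ne_zero z1, chi6_mul_right _ hf.ne_zero z2, mul_pow, map_mul]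
  ring

end

end Vale.Agent.P319N.Ab
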