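import Vale.Agent.P319N.Defs2

namespace Vale.Agent.P319N

open NumberField Complex MeasureTheory Filter Topology
open scoped Classical ComplexConjugate Real
open Vale.Agent.P026 (omC kap psi W)

noncomputable section

variable {K : Type} [Field K] [NumberField K] [Setup K]

theorem mem_R_of_isI {x : K} (h : IsI x) : x ∈ R K := ⟨0, by simpa using h⟩

theorem mem_A_of_isI {x : K} (h : IsI x) : x ∈ A K := ⟨1, by simp, one_ne_zero, by simpa using h⟩

theorem rng_int (n : ℤ) : IsI (n : K) := by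
  have : IsIntegral ℤ (algebraMap ℤ K n) := isIntegral_algebraMap
  simpa using this

theorem rng_bezout {b : ℕ} (hb : b.Coprime (Setup.M K)) (j : ℕ) :
    ∃ s t : ℤ, (s : K) * b + t * MK K ^ j = 1 := by
  obtain ⟨s, t, h⟩ := Nat.isCoprime_iff_coprime.2 (hb.pow_right j)
  refine ⟨s, t, ?_⟩
  have := congrArg (Int.cast : ℤ → K) h
  push_cast at this
  exact this

theorem isI_of_mem {x : K} (h1 : x ∈ R K) (h2 : x ∈ A K) : IsI x := by
  obtain ⟨j, hj⟩ := h1
  obtain ⟨b, hb, -, hx⟩ := h2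
  obtain ⟨s, t, h⟩ := rng_bezout hb j
  have : x = s * (b * x) + t * (MK K ^ j * x) := by linear_combination (-x) * h
  rw [this]
  exact ((rng_int s).mul hx).add ((rng_int t).mul hj)

theorem div_MK_pow_mem_R {x : K} (h : x ∈ R K) (j : ℕ) : x / MK K ^ j ∈ R K := by
  obtain ⟨i, hi⟩ := h
  refine ⟨i + j, ?_⟩
  have : MK K ^ (i + j) * (x / MK K ^ j) = MK K ^ i * x := by
    have := pow_ne_zero j (MK_ne (K := K))
    field_simp; ring
  rw [this]; exact hi

/-- a natural number all of whose prime factors divide `M` is invertible in `R` -/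
theorem inv_nat_mem_R {n j : ℕ} (h : n ∣ Setup.M K ^ j) : (n : K)⁻¹ ∈ R K := by
  obtain ⟨k, hk⟩ := h
  have hn : n ≠ 0 := by
    rintro rfl
    exact pow_ne_zero j Setup.Mne (by simpa using hk)
  refine ⟨j, ?_⟩
  have : ((Setup.M K : ℕ) : K) ^ j * (n : K)⁻¹ = k := by
    have h1 : (n : K) ≠ 0 := Nat.cast_ne_zero.2 hn
    rw [← Nat.cast_pow, hk]; push_cast; field_simp
  rw [this]; exact isI_nat k

theorem inv_nat_mem_A {n : ℕ} (h : n.Coprime (Setup.M K)) : (n : K)⁻¹ ∈ A K := by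
  by_cases hn : n = 0
  · simp [hn]
  · exact ⟨n, h, hn, by rw [mul_inv_cancel₀ (Nat.cast_ne_zero.2 hn)]; exact isIntegral_one⟩

theorem rng_den (x : K) : ∃ n : ℕ, n ≠ 0 ∧ IsI ((n : K) * x) := by
  obtain ⟨d, hd, h⟩ := ((IsFractionRing.isAlgebraic_iff ℤ ℚ K).2
    (Algebra.IsAlgebraic.isAlgebraic (R := ℚ) x)).exists_integral_multiple
  refine ⟨d.natAbs, by simpa using hd, ?_⟩
  rw [zsmul_eq_mul] at h
  rcases Int.natAbs_eq d with e | e
  · rw [e] at h; simpa using h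
  · rw [e] at h; simpa using h.neg

theorem rng_split (M : ℕ) {n : ℕ} (hn : n ≠ 0) :
    ∃ a b j : ℕ, n = a * b ∧ a ∣ M ^ j ∧ b.Coprime M := by
  induction n using Nat.recOnMul with
  | zero => exact absurd rfl hn
  | one => exact ⟨1, 1, 0, rfl, by simp, by simp⟩
  | prime p hp =>
    by_cases h : p ∣ M
    · exact ⟨p, 1, 1, by simp, by simpa using h, by simp⟩
    · exact ⟨1, p, 0, by simp, by simp, (Nat.Prime.coprime_iff_not_dvd hp).2 h⟩
  | mul x y hx hy =>
    obtain ⟨a, b, j, rfl, h1, h2⟩ := hx (left_ne_zero_of_mul hn)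
    obtain ⟨a', b', j', rfl, h1', h2'⟩ := hy (right_ne_zero_of_mul hn)
    exact ⟨a * a', b * b', j + j', by ring, by rw [pow_add]; exact mul_dvd_mul h1 h1',
      Nat.Coprime.mul_left h2 h2'⟩

theorem exists_mul_mem_R (x : K) :
    ∃ b : ℕ, b.Coprime (Setup.M K) ∧ b ≠ 0 ∧ (b : K) * x ∈ R K := by
  obtain ⟨n, hn, h⟩ := rng_den x
  obtain ⟨a, b, j, rfl, h1, h2⟩ := rng_split (Setup.M K) hn
  refine ⟨b, h2, right_ne_zero_of_mul hn, ?_⟩
  have ha : (a : K) ≠ 0 := Nat.cast_ne_zero.2 (left_ne_zero_of_mul hn)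
  have : (b : K) * x = (a : K)⁻¹ * (((a * b : ℕ) : K) * x) := by push_cast; field_simp
  rw [this]
  exact (R K).mul_mem (inv_nat_mem_R h1) (mem_R_of_isI h)

theorem exists_mul_mem_A (x : K) : ∃ j : ℕ, MK K ^ j * x ∈ A K := by
  obtain ⟨n, hn, h⟩ := rng_den x
  obtain ⟨a, b, j, rfl, ⟨c, h1⟩, h2⟩ := rng_split (Setup.M K) hn
  refine ⟨j, b, h2, right_ne_zero_of_mul hn, ?_⟩
  have : (b : K) * (MK K ^ j * x) = c * (((a * b : ℕ) : K) * x) := by
    rw [← Nat.cast_pow, h1]; push_cast; ring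
  rw [this]
  exact (isI_nat c).mul h

theorem exists_div_R (x : K) : ∃ a b : R K, b ≠ 0 ∧ x = (a : K) / b := by
  obtain ⟨b, -, hb, h⟩ := exists_mul_mem_R x
  have h0 : (b : K) ≠ 0 := Nat.cast_ne_zero.2 hb
  refine ⟨⟨_, h⟩, b, fun e => h0 (by simpa using congrArg Subtype.val e), ?_⟩
  simp only [SubringClass.coe_natCast]
  field_simp

theorem approx {y x : K} (hy : y ≠ 0) (hx : x ≠ 0) (z1 z2 : K) :
    ∃ r : K, (r - z1) / y ∈ R K ∧ (r - z2) / x ∈ A K := by
  obtain ⟨b, hb, -, h1⟩ := exists_mul_mem_R ((z2 - z1) / y)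
  obtain ⟨j, h2⟩ := exists_mul_mem_A ((z2 - z1) / x)
  obtain ⟨s, t, h⟩ := rng_bezout hb j
  refine ⟨z1 + s * b * (z2 - z1), ?_, ?_⟩
  · have : (z1 + s * b * (z2 - z1) - z1) / y = s * (b * ((z2 - z1) / y)) := by ring
    rw [this]
    exact (R K).mul_mem (intCast_mem _ s) h1
  · have : (z1 + s * b * (z2 - z1) - z2) / x = (-t : ℤ) * (MK K ^ j * ((z2 - z1) / x)) := by
      push_cast
      linear_combination ((z2 - z1) / x) * h
    rw [this]
    exact (A K).mul_mem (intCast_mem _ _) h2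

theorem rng_M_ge : 6 ≤ Setup.M K := Nat.le_of_dvd (Nat.pos_of_ne_zero Setup.Mne) Setup.six

theorem rng_dvd_of_isI {a b : ℕ} (hb : b ≠ 0) (h : IsI ((a : K) / b)) : b ∣ a := by
  have h1 : IsIntegral ℤ (algebraMap ℚ K ((a : ℚ) / b)) := by simpa using h
  rw [isIntegral_algebraMap_iff (algebraMap ℚ K).injective] at h1
  obtain ⟨k, hk⟩ := IsIntegrallyClosed.isIntegral_iff.1 h1
  have h2 : (b : ℚ) ≠ 0 := Nat.cast_ne_zero.2 hb
  have : (a : ℤ) = b * k := by
    have : (a : ℚ) = b * k := by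
      simp only [algebraMap_int_eq, eq_intCast] at hk
      rw [hk]; field_simp
    exact_mod_cast this
  exact Int.natCast_dvd_natCast.1 ⟨k, this⟩

theorem One.ne_zero {j : ℕ} (hj : 1 ≤ j) {z : K} (h : One j z) : z ≠ 0 := by
  rintro rfl
  obtain ⟨b, hb, -, h⟩ := h
  have h1 : IsI ((b : K) / ((Setup.M K ^ j : ℕ) : K)) := by
    have := h.neg
    push_cast
    convert this using 1
    ring
  have h2 := rng_dvd_of_isI (pow_ne_zero j Setup.Mne) h1
  have h3 : Setup.M K ∣ b := (dvd_pow_self _ (by omega)).trans h2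
  have := Nat.Coprime.eq_one_of_dvd hb.symm h3
  have := rng_M_ge (K := K)
  omega

/-- an integer prime to `M` is a unit of `A` -/
theorem rng_inv_mem {α : 𝓞 K} (h0 : α ≠ 0) {b : ℕ} (hb : b.Coprime (Setup.M K)) {c : 𝓞 K}
    (h : α = b + (Setup.M K : 𝓞 K) * c) : (α : K)⁻¹ ∈ A K := by
  set I : Ideal (𝓞 K) := Ideal.span {α} with hI
  have hI0 : I ≠ ⊥ := by simpa [hI] using h0
  have hn0 : Ideal.absNorm I ≠ 0 := fun h => hI0 (Ideal.absNorm_eq_zero_iff.1 h)
  obtain ⟨a, b', j, e, h1, h2⟩ := rng_split (Setup.M K) hn0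
  have hm : ((a * b' : ℕ) : 𝓞 K) ∈ I := e ▸ Ideal.absNorm_mem I
  have hc : IsCoprime α (Setup.M K : 𝓞 K) := by
    have : IsCoprime (b : 𝓞 K) (Setup.M K : 𝓞 K) := by
      simpa using (Nat.isCoprime_iff_coprime.2 hb).map (Int.castRingHom (𝓞 K))
    rw [h]; exact this.add_mul_left_left c
  have hc' : IsCoprime α (a : 𝓞 K) :=
    (hc.pow_right (n := j)).of_isCoprime_of_dvd_right (by exact_mod_cast Nat.cast_dvd_cast h1)
  rw [Ideal.mem_span_singleton, Nat.cast_mul] at hm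
  obtain ⟨d, hd⟩ := hc'.dvd_of_dvd_mul_left hm
  refine ⟨b', h2, right_ne_zero_of_mul (e ▸ hn0), ?_⟩
  have : (b' : K) * (α : K)⁻¹ = d := by
    have h3 : (α : K) ≠ 0 := by exact_mod_cast h0
    have := congrArg (fun x : 𝓞 K => (x : K)) hd
    simp only [map_natCast, map_mul] at this
    rw [this]; field_simp
  rw [this]; exact d.2

theorem One.inv {j : ℕ} (hj : 1 ≤ j) {z : K} (h : One j z) : One j z⁻¹ := by
  have hz := h.ne_zero hj
  have hi : z⁻¹ ∈ A K := by
    obtain ⟨b, hb, hb0, h'⟩ := h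
    have hM := MK_ne (K := K)
    obtain ⟨i, rfl⟩ : ∃ i, j = i + 1 := ⟨j - 1, by omega⟩
    let c : 𝓞 K := ⟨_, ((isI_nat (Setup.M K)).pow i).mul h'⟩
    have hc : (c : K) = MK K ^ i * (b * ((z - 1) / MK K ^ (i + 1))) := rfl
    have e : ((((b : 𝓞 K) + (Setup.M K : 𝓞 K) * c : 𝓞 K)) : K) = b * z := by
      have : ((((b : 𝓞 K) + (Setup.M K : 𝓞 K) * c : 𝓞 K)) : K) = b + MK K * c := by
        simp only [RingOfIntegers.coe_eq_algebraMap, map_add, map_mul, map_natCast]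
      rw [this, hc]
      field_simp; ring
    have hb' : (b : K) ≠ 0 := Nat.cast_ne_zero.2 hb0
    have := rng_inv_mem (α := (b : 𝓞 K) + (Setup.M K : 𝓞 K) * c) (fun h0 => by
      rw [h0] at e; exact mul_ne_zero hb' hz (by simpa using e.symm)) hb rfl
    rw [e] at this
    have e2 : z⁻¹ = b * (b * z)⁻¹ := by field_simp
    rw [e2]
    exact (A K).mul_mem (natCast_mem _ b) this
  have : (z⁻¹ - 1) / MK K ^ j = -(z⁻¹ * ((z - 1) / MK K ^ j)) := by field_simp; ring
  unfold One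
  rw [this]
  exact (A K).neg_mem ((A K).mul_mem hi h)

theorem One.mono {i j : ℕ} (hij : i ≤ j) {z : K} (h : One j z) : One i z := by
  obtain ⟨k, rfl⟩ := Nat.exists_eq_add_of_le hij
  have : (z - 1) / MK K ^ i = MK K ^ k * ((z - 1) / MK K ^ (i + k)) := by
    have := MK_ne (K := K)
    field_simp; ring
  unfold One
  rw [this]
  exact (A K).mul_mem ((A K).pow_mem MK_mem_A k) h

theorem mem_H1 {j : ℕ} (hj : 1 ≤ j) {z : Kˣ} : z ∈ H1 K j ↔ One j (z : K) :=
  ⟨fun h => h.1, fun h => ⟨h, by simpa using h.inv hj⟩⟩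

theorem dvd_iff_div_mem {q x : R K} (hq : q ≠ 0) : q ∣ x ↔ (x : K) / q ∈ R K := by
  have h0 : (q : K) ≠ 0 := by exact_mod_cast hq
  constructor
  · rintro ⟨c, rfl⟩
    simp only [Subring.coe_mul]
    rw [mul_div_cancel_left₀ _ h0]; exact c.2
  · intro h
    exact ⟨⟨_, h⟩, Subtype.ext (by simp only [Subring.coe_mul]; field_simp)⟩

theorem approx_one {z : K} (hz : z ≠ 0) (j : ℕ) {b : R K} (hb : b ≠ 0) (r0 : R K) :
    ∃ r : R K, b ∣ r - r0 ∧ One j ((r : K) / z) := by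
  have h0 : (b : K) ≠ 0 := by exact_mod_cast hb
  have hM := pow_ne_zero j (MK_ne (K := K))
  obtain ⟨r, h1, h2⟩ := approx h0 (mul_ne_zero hz hM) r0 z
  have hr : r ∈ R K := by
    have : r = r0 + b * ((r - r0) / b) := by field_simp; ring
    rw [this]
    exact (R K).add_mem r0.2 ((R K).mul_mem b.2 h1)
  refine ⟨⟨r, hr⟩, (dvd_iff_div_mem hb).2 h1, ?_⟩
  unfold One
  convert h2 using 1
  field_simp

theorem rng_om_prim : IsPrimitiveRoot (omK K) 3 :=
  (Setup.hzeta (K := K)).pow (by norm_num) (by norm_num)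

theorem omK_sq_add : omK K ^ 2 + omK K + 1 = 0 := by
  have := (rng_om_prim (K := K)).geom_sum_eq_zero (by norm_num)
  simp only [Finset.sum_range_succ, Finset.sum_range_zero] at this
  linear_combination this

theorem om_sq_add : om K ^ 2 + om K + 1 = 0 := Subtype.ext (by simpa [om] using omK_sq_add)

theorem lamK_sq : lamK K ^ 2 = -3 := by
  unfold lamK; linear_combination 4 * omK_sq_add (K := K)

theorem lamK_ne : lamK K ≠ 0 := fun h => by
  have := lamK_sq (K := K)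
  rw [h] at this
  norm_num at this

theorem isI_omK : IsI (omK K) := rng_om_prim.isIntegral (by norm_num)

theorem isI_lamK : IsI (lamK K) := isIntegral_one.add ((isI_nat 2).mul isI_omK)

theorem isUnit_six : IsUnit (6 : R K) := by
  have h := inv_nat_mem_R (K := K) (n := 6) (j := 1) (by simpa using Setup.six)
  refine IsUnit.of_mul_eq_one ⟨_, h⟩ (Subtype.ext ?_)
  have : ((6 : R K) : K) = 6 := rfl
  simp [this]

theorem exists_zeta_R : ∃ z : R K, IsPrimitiveRoot z 12 ∧ z ^ 4 = om K ∧ z ^ 6 = -1 := by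
  have hz := Setup.hzeta (K := K)
  refine ⟨⟨Setup.zeta, mem_R_of_isI (hz.isIntegral (by norm_num))⟩,
    IsPrimitiveRoot.of_map_of_injective (f := (R K).subtype) hz Subtype.val_injective,
    Subtype.ext rfl, Subtype.ext ?_⟩
  simpa using (hz.pow (by norm_num) (show 12 = 6 * 2 by norm_num)).eq_neg_one_of_two_right

theorem mem_unitsR {u : Kˣ} : u ∈ unitsR K ↔ ∃ v : (R K)ˣ, ((v : R K) : K) = u := by
  constructor
  · rintro ⟨h1, h2⟩
    exact ⟨⟨⟨_, h1⟩, ⟨_, h2⟩, Subtype.ext (by simp), Subtype.ext (by simp)⟩, rfl⟩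
  · rintro ⟨v, hv⟩
    refine ⟨hv ▸ (v : R K).2, ?_⟩
    have : ((u⁻¹ : Kˣ) : K) = ((v⁻¹ : (R K)ˣ) : R K) := by
      rw [Units.val_inv_eq_inv_val, ← hv]
      refine inv_eq_of_mul_eq_one_right ?_
      rw [← Subring.coe_mul, Units.mul_inv, Subring.coe_one]
    rw [this]; exact Subtype.prop _

instance countable_K : Countable K :=
  (Module.finBasis ℚ K).equivFun.injective.countable

end

end Vale.Agent.P319N
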