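import Vale.Agent.P319N.BD
import Vale.Agent.P319N.Rng
import Vale.Agent.P026.Bas

namespace Vale.Agent.P319N

open NumberField Complex MeasureTheory Filter Topology
open scoped Classical ComplexConjugate Real MatrixGroups
open Vale.Agent.P026 (omC kap psi W Hs ht QQ act uu muH hh LL Gs bb kk UU DualW)

noncomputable section

variable {K : Type} [Field K] [NumberField K] [Setup K]

instance bl_countable : Countable K := countable_K

theorem blat_conj_ne : conj omC ≠ omC := by
  intro h
  have h1 := congrArg Complex.im h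
  have h3 : (0 : ℝ) < √3 := by positivity
  simp [omC] at h1
  linarith

theorem blat_conj_omC : conj omC = -1 - omC := by
  apply Complex.ext
  · simp [omC]; norm_num
  · simp [omC]

theorem bl_emb (φ : K →+* ℂ) : φ (omK K) = omC ∨ (starRingEnd ℂ).comp φ (omK K) = omC := by
  have h := congrArg φ (omK_sq_add (K := K))
  simp only [map_add, map_pow, map_one, map_zero] at h
  have h2 : (φ (omK K) - omC) * (φ (omK K) - conj omC) = 0 := by
    rw [blat_conj_omC]
    linear_combination h - Vale.Agent.P026.omC_mul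
  rcases mul_eq_zero.1 h2 with h3 | h3
  · exact Or.inl (sub_eq_zero.1 h3)
  · right
    rw [RingHom.comp_apply, sub_eq_zero.1 h3, Complex.conj_conj]

/-- conjugation exchanges the two kinds of embeddings -/
def blatConj (K : Type) [Field K] [NumberField K] [Setup K] :
    Emb K ≃ {φ : K →+* ℂ // ¬ φ (omK K) = omC} where
  toFun σ := ⟨ComplexEmbedding.conjugate σ.1, by
    rw [ComplexEmbedding.conjugate_coe_eq, σ.2]; exact blat_conj_ne⟩
  invFun φ := ⟨ComplexEmbedding.conjugate φ.1, (bl_emb φ.1).resolve_left φ.2⟩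
  left_inv σ := Subtype.ext (ComplexEmbedding.involutive_conjugate K σ.1)
  right_inv φ := Subtype.ext (ComplexEmbedding.involutive_conjugate K φ.1)

theorem blat_prod_emb {M : Type} [CommMonoid M] (f : (K →+* ℂ) → M) :
    ∏ φ, f φ = ∏ σ : Emb K, (f σ.1 * f (ComplexEmbedding.conjugate σ.1)) := by
  rw [← Fintype.prod_subtype_mul_prod_subtype (fun φ : K →+* ℂ => φ (omK K) = omC) f,
    Finset.prod_mul_distrib]
  congr 1
  exact (Fintype.prod_equiv (blatConj K) _ _ (fun _ => rfl)).symm

theorem blat_sum_emb {M : Type} [AddCommMonoid M] (f : (K →+* ℂ) → M) :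
    ∑ φ, f φ = ∑ σ : Emb K, (f σ.1 + f (ComplexEmbedding.conjugate σ.1)) :=
  blat_prod_emb (M := Multiplicative M) f

theorem blat_two_mul_rk : 2 * rk K = Module.finrank ℚ K := by
  rw [← Embeddings.card K ℂ, Fintype.card_eq_sum_ones, blat_sum_emb]
  simp [rk, mul_comm]

instance bl_nonempty : Nonempty (Emb K) := by
  have h := blat_two_mul_rk (K := K)
  have h2 : 0 < Module.finrank ℚ K := Module.finrank_pos
  exact Fintype.card_pos_iff.1 (by unfold rk at h; omega)
theorem rk_pos : 0 < rk K := Fintype.card_pos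
theorem bl_card : Fintype.card (BI K) = 2 * rk K := by
  rw [blat_two_mul_rk, Module.finrank_eq_card_basis (integralBasis K)]

theorem blat_norm (x : K) : ((Algebra.norm ℚ x : ℚ) : ℝ) = ∏ σ : Emb K, normSq (σ.1 x) := by
  have h := Algebra.norm_eq_prod_embeddings ℚ ℂ x
  rw [← Fintype.prod_equiv (RingHom.equivRatAlgHom K ℂ) (fun f => f x) (fun φ => φ x)
    (fun _ => by simp [RingHom.equivRatAlgHom_apply]), blat_prod_emb] at h
  apply Complex.ofReal_injective
  rw [Complex.ofReal_prod]
  simp only [ComplexEmbedding.conjugate_coe_eq, Complex.mul_conj] at h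
  rw [← h]
  simp

theorem blat_trace (x : K) :
    ((Algebra.trace ℚ K x : ℚ) : ℝ) = ∑ σ : Emb K, 2 * (σ.1 x).re := by
  have h := trace_eq_sum_embeddings (K := ℚ) (L := K) ℂ (x := x)
  rw [← Fintype.sum_equiv (RingHom.equivRatAlgHom K ℂ) (fun f => f x) (fun φ => φ x)
    (fun _ => by simp [RingHom.equivRatAlgHom_apply]), blat_sum_emb] at h
  apply Complex.ofReal_injective
  rw [Complex.ofReal_sum]
  simp only [ComplexEmbedding.conjugate_coe_eq, Complex.add_conj] at h
  rw [← h]
  simp

theorem bl_absN (x : K) : absN x = ∏ σ : Emb K, normSq (σ.1 x) := by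
  rw [absN, blat_norm]
  exact abs_of_nonneg (Finset.prod_nonneg fun _ _ => normSq_nonneg _)

theorem blat_lam (σ : Emb K) : σ.1 (lamK K) = (√3 : ℝ) * Complex.I := by
  rw [lamK, map_add, map_mul, map_one, σ.2, map_ofNat]
  apply Complex.ext
  · simp [omC]; norm_num
  · simp [omC]; ring

theorem blat_trK (x : K) : ((trK x : ℚ) : ℝ) = ∑ σ : Emb K, 2 / √3 * (σ.1 x).im := by
  rw [trK, blat_trace]
  refine Finset.sum_congr rfl fun σ _ => ?_
  have h3 : (0 : ℝ) < √3 := by positivity
  have h : σ.1 x / ((√3 : ℝ) * Complex.I) = ((√3 : ℝ)⁻¹ : ℝ) * (-Complex.I * σ.1 x) := by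
    have : ((√3 : ℝ) : ℂ) ≠ 0 := by exact_mod_cast h3.ne'
    rw [div_eq_mul_inv, mul_inv, Complex.inv_I]
    push_cast
    ring
  rw [map_div₀, blat_lam, h, Complex.re_ofReal_mul]
  simp
  ring

theorem blat_psi (z : ℂ) :
    psi z = Complex.exp (2 * π * Complex.I * ((2 / √3 * z.im : ℝ) : ℂ)) := by
  rw [Vale.Agent.P026.psi_eq_im, kap]
  congr 1
  push_cast
  ring

theorem blat_psiV (z : Emb K → ℂ) :
    psiV z = Complex.exp (2 * π * Complex.I * ((∑ σ, 2 / √3 * (z σ).im : ℝ) : ℂ)) := by
  rw [psiV, Complex.ofReal_sum, Finset.mul_sum, Complex.exp_sum]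
  exact Finset.prod_congr rfl fun σ _ => blat_psi _

theorem bl_psiK (x : K) : psiK x = psiV (jj x) := by
  rw [blat_psiV, psiK]
  have := blat_trK x
  simp only [jj]
  rw [← this]
  simp

theorem bl_absN_mul (x y : K) : absN (x * y) = absN x * absN y := by
  simp [absN, abs_mul]
theorem bl_absN_pos {x : K} (hx : x ≠ 0) : 0 < absN x := by
  have : Algebra.norm ℚ x ≠ 0 := Algebra.norm_ne_zero_iff.2 hx
  exact abs_pos.2 (by exact_mod_cast this)
theorem bl_absN_nonneg (x : K) : 0 ≤ absN x := abs_nonneg _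
theorem bl_absN_one : absN (1 : K) = 1 := by simp [absN]
theorem bl_one_le {x : K} (hx : IsI x) (h0 : x ≠ 0) : 1 ≤ absN x := by
  have h1 : IsIntegral ℤ (Algebra.norm ℚ x) := Algebra.isIntegral_norm ℚ hx
  obtain ⟨k, hk⟩ := IsIntegrallyClosed.isIntegral_iff.1 h1
  have hp := bl_absN_pos h0
  rw [absN, ← hk] at hp ⊢
  simp only [eq_intCast, Rat.cast_intCast] at hp ⊢
  have h2 : (0 : ℤ) < |k| := by exact_mod_cast hp
  have h3 : (1 : ℤ) ≤ |k| := h2
  exact_mod_cast h3
theorem blat_normSq_pos {x : K} (hx : x ≠ 0) (σ : Emb K) : 0 < normSq (σ.1 x) :=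
  normSq_pos.2 ((map_ne_zero σ.1).2 hx)
theorem bl_Lg_mul {x y : K} (hx : x ≠ 0) (hy : y ≠ 0) : Lg (x * y) = Lg x + Lg y := by
  funext σ
  simp only [Lg, map_mul, Pi.add_apply]
  exact Real.log_mul (blat_normSq_pos hx σ).ne' (blat_normSq_pos hy σ).ne'
theorem bl_sum_Lg {x : K} (hx : x ≠ 0) : ∑ σ, Lg x σ = Real.log (absN x) := by
  rw [bl_absN, Real.log_prod (fun σ _ => (blat_normSq_pos hx σ).ne')]
  rfl
theorem bl_jj_add (x y : K) : jj (x + y) = jj x + jj y := by
  funext σ; simp [jj]
theorem bl_jj_mul (x y : K) : jj (x * y) = jj x * jj y := by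
  funext σ; simp [jj]
theorem bl_psiV_add (z z' : Emb K → ℂ) : psiV (z + z') = psiV z * psiV z' := by
  simp only [psiV, Pi.add_apply, Vale.Agent.P026.psi_add, Finset.prod_mul_distrib]
theorem bl_norm_psiV (z : Emb K → ℂ) : ‖psiV z‖ = 1 := by
  simp [psiV, Vale.Agent.P026.norm_psi]
theorem bl_continuous_psiV : Continuous (psiV (K := K)) :=
  continuous_finsetProd _ fun σ _ => Vale.Agent.P026.continuous_psi.comp (continuous_apply σ)
theorem bl_isI_iff (x : K) :
    IsI x ↔ ∃ k : BI K → ℤ, x = ∑ i, (k i : K) * integralBasis K i := by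
  have h1 : IsI x ↔ x ∈ (algebraMap (𝓞 K) K).range :=
    ⟨fun h => ⟨⟨x, h⟩, rfl⟩, fun ⟨y, hy⟩ => hy ▸ y.isIntegral_coe⟩
  rw [h1, ← mem_span_integralBasis, Submodule.mem_span_range_iff_exists_fun]
  simp only [zsmul_eq_mul]
  exact ⟨fun ⟨k, hk⟩ => ⟨k, hk.symm⟩, fun ⟨k, hk⟩ => ⟨k, hk.symm⟩⟩

theorem blat_isI_basis (i : BI K) : IsI (integralBasis K i) := by
  rw [integralBasis_apply]
  exact RingOfIntegers.isIntegral_coe _

/-- the coordinate map as a linear map -/
def blatL (K : Type) [Field K] [NumberField K] [Setup K] : (BI K → ℝ) →ₗ[ℝ] (Emb K → ℂ) where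
  toFun := Lm K
  map_add' x y := by
    funext σ
    simp [Lm, add_mul, Finset.sum_add_distrib]
  map_smul' c x := by
    funext σ
    simp [Lm, Finset.mul_sum, mul_assoc]

theorem blat_im_Lm (n : K) (x : BI K → ℝ) :
    ∑ σ, 2 / √3 * ((jj n * Lm K x) σ).im =
      ∑ i, x i * ((trK (n * integralBasis K i) : ℚ) : ℝ) := by
  simp only [blat_trK, Finset.mul_sum, Pi.mul_apply, jj, Lm, Complex.im_sum]
  rw [Finset.sum_comm]
  refine Finset.sum_congr rfl fun i _ => Finset.sum_congr rfl fun σ _ => ?_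
  rw [map_mul, mul_left_comm (σ.1 n), Complex.im_ofReal_mul]
  ring

theorem blat_trK_dual (i j : BI K) :
    trK (lamK K * (integralBasis K).traceDual i * integralBasis K j) = if j = i then 1 else 0 := by
  rw [trK, mul_assoc, mul_div_cancel_left₀ _ lamK_ne, Module.Basis.trace_traceDual_mul]

theorem bl_exists_L : ∃ L : (BI K → ℝ) ≃L[ℝ] (Emb K → ℂ), ∀ x, L x = Lm K x := by
  have hinj : Function.Injective (blatL K) := by
    rw [injective_iff_map_eq_zero]
    intro x hx
    funext i
    have h := blat_im_Lm (lamK K * (integralBasis K).traceDual i) x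
    have hx' : Lm K x = 0 := hx
    simp only [hx', blat_trK_dual] at h
    simpa [apply_ite] using h.symm
  have hdim : Module.finrank ℝ (BI K → ℝ) = Module.finrank ℝ (Emb K → ℂ) := by
    rw [Module.finrank_fintype_fun_eq_card, bl_card, Module.finrank_pi_fintype]
    simp [rk, Complex.finrank_real_complex, mul_comm]
  exact ⟨(LinearEquiv.ofInjectiveOfFinrankEq (blatL K) hinj hdim).toContinuousLinearEquiv,
    fun x => rfl⟩
theorem bl_Lm_int (k : BI K → ℤ) :
    Lm K (fun i => (k i : ℝ)) = jj (∑ i, (k i : K) * integralBasis K i) := by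
  funext σ
  simp [Lm, jj]
theorem bl_psiV_Lm (n : K) (x : BI K → ℝ) : psiV (jj n * Lm K x) =
    Complex.exp (2 * π * Complex.I * ∑ i, (x i : ℂ) * ((trK (n * integralBasis K i) : ℚ) : ℂ)) := by
  rw [blat_psiV, blat_im_Lm]
  push_cast
  rfl

theorem blat_psiK_eq_one (x : K) : psiK x = 1 ↔ ∃ k : ℤ, trK x = k := by
  rw [psiK, Complex.exp_eq_one_iff]
  refine exists_congr fun k => ?_
  have h : (2 * π * Complex.I : ℂ) ≠ 0 := Complex.two_pi_I_ne_zero
  rw [mul_comm (k : ℂ), mul_right_inj' h]
  exact_mod_cast Iff.rfl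

theorem blat_trK_sum (n : K) (k : BI K → ℤ) (c : BI K → K) :
    trK (n * ∑ i, (k i : K) * c i) = ∑ i, (k i : ℚ) * trK (n * c i) := by
  simp only [trK, Finset.mul_sum, Finset.sum_div, map_sum]
  refine Finset.sum_congr rfl fun i _ => ?_
  have : n * ((k i : K) * c i) / lamK K = (k i : ℚ) • (n * c i / lamK K) := by
    rw [Algebra.smul_def]
    simp
    ring
  rw [this, map_smul, smul_eq_mul]

theorem blat_mem_dual {m : K} (hm : m ≠ 0) (n : K) :
    n ∈ dualL (latt m) ↔ ∀ i, ∃ k : ℤ, trK (n * m * integralBasis K i) = k := by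
  constructor
  · intro h i
    rw [← blat_psiK_eq_one, mul_assoc]
    apply h
    show IsI (m * integralBasis K i / m)
    rw [mul_div_cancel_left₀ _ hm]
    exact blat_isI_basis i
  · intro h x hx
    choose c hc using h
    obtain ⟨k, hk⟩ := (bl_isI_iff _).1 (show IsI (x / m) from hx)
    have hx' : n * x = n * m * ∑ i, (k i : K) * integralBasis K i := by
      rw [← hk]; field_simp
    rw [blat_psiK_eq_one, hx', blat_trK_sum]
    refine ⟨∑ i, k i * c i, ?_⟩
    simp only [hc]
    push_cast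
    rfl

theorem bl_dual_equiv {m : K} (hm : m ≠ 0) : ∃ e : (BI K → ℤ) ≃ dualL (latt m),
    ∀ k i, trK ((e k : K) * m * integralBasis K i) = k i := by
  have key : ∀ (k : BI K → ℤ) (i : BI K),
      trK ((lamK K / m * ∑ j, (k j : K) * (integralBasis K).traceDual j) * m *
        integralBasis K i) = k i := by
    intro k i
    have : (lamK K / m * ∑ j, (k j : K) * (integralBasis K).traceDual j) * m *
        integralBasis K i = (lamK K * integralBasis K i) *
          ∑ j, (k j : K) * (integralBasis K).traceDual j := by field_simp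
    rw [this, blat_trK_sum]
    have h2 : ∀ j, trK (lamK K * integralBasis K i * (integralBasis K).traceDual j) =
        if i = j then 1 else 0 := fun j => by
      rw [mul_right_comm, blat_trK_dual]
    simp only [h2]
    simp
  let f : (BI K → ℤ) → dualL (latt m) := fun k =>
    ⟨lamK K / m * ∑ j, (k j : K) * (integralBasis K).traceDual j,
      (blat_mem_dual hm _).2 fun i => ⟨k i, key k i⟩⟩
  have hinj : Function.Injective f := by
    intro k k' h
    funext i
    have h1 := key k i
    have h2 : (lamK K / m * ∑ j, (k j : K) * (integralBasis K).traceDual j) =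
      (lamK K / m * ∑ j, (k' j : K) * (integralBasis K).traceDual j) := congrArg Subtype.val h
    rw [h2, key] at h1
    exact_mod_cast h1.symm
  have hsurj : Function.Surjective f := by
    rintro ⟨n, hn⟩
    choose c hc using (blat_mem_dual hm n).1 hn
    refine ⟨c, Subtype.ext ?_⟩
    show lamK K / m * ∑ j, (c j : K) * (integralBasis K).traceDual j = n
    have h1 := (integralBasis K).traceDual.sum_repr (n * m / lamK K)
    have h2 : ∀ j, (integralBasis K).traceDual.repr (n * m / lamK K) j = c j := fun j => by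
      rw [Module.Basis.traceDual_repr_apply, Algebra.traceForm_apply, ← hc, trK]
      congr 1
      ring
    simp only [h2, Algebra.smul_def, eq_ratCast, Rat.cast_intCast] at h1
    rw [h1]
    have := lamK_ne (K := K)
    field_simp
  exact ⟨Equiv.ofBijective f ⟨hinj, hsurj⟩, key⟩
theorem bl_dual_int {m : K} (hm : m ≠ 0) :
    ∃ m' : K, m' ≠ 0 ∧ ∀ n ∈ dualL (latt m), IsI (m' * n) := by
  refine ⟨MK K * m / lamK K, div_ne_zero (mul_ne_zero MK_ne hm) lamK_ne, fun n hn => ?_⟩
  have h := Setup.diff (K := K) (m * n / lamK K) (fun y hy => by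
    have h1 : psiK (n * (m * y)) = 1 := hn _ (by
      show IsI (m * y / m)
      rwa [mul_div_cancel_left₀ _ hm])
    obtain ⟨k, hk⟩ := (blat_psiK_eq_one _).1 h1
    refine ⟨k, ?_⟩
    rw [← hk, trK]
    congr 1
    ring)
  have e : MK K * m / lamK K * n = MK K * (m * n / lamK K) := by ring
  rw [e]
  exact h
theorem bl_relIndex {x m : K} (hx : x ≠ 0) (hm : IsI m) (h0 : m ≠ 0) :
    (((latt (x * m)).relIndex (latt x) : ℕ) : ℝ) = absN m := by
  let f : 𝓞 K →+ K := (AddMonoidHom.mulLeft x).comp (algebraMap (𝓞 K) K).toAddMonoidHom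
  have hf : ∀ y : 𝓞 K, f y = x * y := fun y => rfl
  have h1 : f.range = latt x := by
    ext z
    constructor
    · rintro ⟨y, rfl⟩
      show IsI (f y / x)
      rw [hf, mul_div_cancel_left₀ _ hx]
      exact y.isIntegral_coe
    · intro hz
      refine ⟨⟨z / x, hz⟩, ?_⟩
      show x * (z / x) = z
      field_simp
  let m' : 𝓞 K := ⟨m, hm⟩
  have h2 : (latt (x * m)).comap f = (Ideal.span {m'}).toAddSubgroup := by
    ext y
    show IsI (f y / (x * m)) ↔ y ∈ Ideal.span {m'}
    rw [hf, mul_div_mul_left _ _ hx, Ideal.mem_span_singleton']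
    constructor
    · intro h
      refine ⟨⟨y / m, h⟩, RingOfIntegers.ext ?_⟩
      show (y : K) / m * m = y
      field_simp
    · rintro ⟨a, rfl⟩
      have : ((a * m' : 𝓞 K) : K) / m = a := by
        show (a : K) * m / m = a
        field_simp
      rw [this]
      exact a.isIntegral_coe
  rw [← h1, ← AddSubgroup.index_comap, h2, ← Ideal.absNorm_eq_index, Ideal.absNorm_span_singleton,
    absN, Nat.cast_natAbs]
  have h3 : (Algebra.norm ℤ m' : ℚ) = Algebra.norm ℚ m := Algebra.coe_norm_int m'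
  rw [← h3]
  simp

end

end Vale.Agent.P319N
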