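import Vale.Agent.P319N.Nrm
import Vale.Agent.P319N.BLat

namespace Vale.Agent.P319N

open NumberField Complex MeasureTheory Filter Topology
open scoped Classical ComplexConjugate Real
open Vale.Agent.P026 (omC kap psi W)

noncomputable section

variable {K : Type} [Field K] [NumberField K] [Setup K]

theorem emb_om (σ : Emb K) : σ.1 (omK K) = omC := σ.2

theorem emb_lam (σ : Emb K) : σ.1 (lamK K) = (√3 : ℝ) * Complex.I := blat_lam σ

theorem emb_not_real (φ : K →+* ℂ) : ¬ ComplexEmbedding.IsReal φ := by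
  intro h
  have h1 : conj (φ (omK K)) = φ (omK K) := by
    have := ComplexEmbedding.isReal_iff.1 h
    rw [← ComplexEmbedding.conjugate_coe_eq, this]
  rcases bl_emb φ with h2 | h2
  · rw [h2] at h1
    exact blat_conj_ne h1
  · rw [RingHom.comp_apply] at h2
    rw [h2] at h1
    rw [← h1] at h2
    exact blat_conj_ne h2

theorem isTotallyComplex : IsTotallyComplex K :=
  ⟨fun _ => InfinitePlace.isComplex_iff.2 (emb_not_real _)⟩

theorem emb_bij : Function.Bijective (fun σ : Emb K => InfinitePlace.mk σ.1) := by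
  constructor
  · intro σ τ h
    rcases InfinitePlace.mk_eq_iff.1 h with h1 | h1
    · exact Subtype.ext h1
    · exfalso
      have h2 := τ.2
      rw [← h1, ComplexEmbedding.conjugate_coe_eq, σ.2] at h2
      exact blat_conj_ne h2
  · intro v
    rcases bl_emb v.embedding with h | h
    · exact ⟨⟨v.embedding, h⟩, InfinitePlace.mk_embedding v⟩
    · exact ⟨⟨ComplexEmbedding.conjugate v.embedding, h⟩,
        (InfinitePlace.mk_conjugate_eq _).trans (InfinitePlace.mk_embedding v)⟩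

theorem sum_emb {M : Type} [AddCommMonoid M] (f : (K →+* ℂ) → M) :
    ∑ φ, f φ = ∑ σ : Emb K, (f σ.1 + f (ComplexEmbedding.conjugate σ.1)) := blat_sum_emb f

theorem prod_emb {M : Type} [CommMonoid M] (f : (K →+* ℂ) → M) :
    ∏ φ, f φ = ∏ σ : Emb K, (f σ.1 * f (ComplexEmbedding.conjugate σ.1)) := blat_prod_emb f

theorem two_mul_rk : 2 * rk K = Module.finrank ℚ K := blat_two_mul_rk

theorem absN_eq_prod (x : K) : absN x = ∏ σ : Emb K, normSq (σ.1 x) := bl_absN x

theorem trace_eq_sum (x : K) :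
    ((Algebra.trace ℚ K x : ℚ) : ℝ) = ∑ σ : Emb K, 2 * (σ.1 x).re := blat_trace x

theorem trK_eq_sum (x : K) : ((trK x : ℚ) : ℝ) = ∑ σ : Emb K, 2 / √3 * (σ.1 x).im := blat_trK x

theorem psi_eq (z : ℂ) : psi z = Complex.exp (2 * π * Complex.I * ((2 / √3 * z.im : ℝ) : ℂ)) :=
  blat_psi z

theorem psiK_eq (x : K) : psiK x = psiV (jj x) := bl_psiK x

theorem psiV_add (z w : Emb K → ℂ) : psiV (z + w) = psiV z * psiV w := bl_psiV_add z w

theorem norm_psiV (z : Emb K → ℂ) : ‖psiV z‖ = 1 := bl_norm_psiV z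

theorem jj_add (x y : K) : jj (x + y) = jj x + jj y := bl_jj_add x y

theorem jj_mul (x y : K) : jj (x * y) = jj x * jj y := bl_jj_mul x y

theorem Lg_mul {x y : K} (hx : x ≠ 0) (hy : y ≠ 0) : Lg (x * y) = Lg x + Lg y := bl_Lg_mul hx hy

theorem Lg_inv (x : K) : Lg x⁻¹ = -Lg x := by
  funext σ
  simp [Lg]

theorem Lg_one : Lg (1 : K) = 0 := by
  funext σ
  simp [Lg]

theorem exp_Lg {x : K} (hx : x ≠ 0) (σ : Emb K) : Real.exp (Lg x σ) = normSq (σ.1 x) :=
  Real.exp_log (blat_normSq_pos hx σ)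

theorem sum_Lg {x : K} (hx : x ≠ 0) : ∑ σ, Lg x σ = Real.log (absN x) := bl_sum_Lg hx

theorem angK_mul (x y : K) : angK (x * y) = angK x * angK y := by
  simp only [angK, ← Finset.prod_mul_distrib, map_mul, norm_mul]
  refine Finset.prod_congr rfl fun σ _ => ?_
  push_cast
  rw [mul_div_mul_comm]

theorem norm_angK {x : K} (hx : x ≠ 0) : ‖angK x‖ = 1 := by
  rw [angK, norm_prod]
  refine Finset.prod_eq_one fun σ _ => ?_
  have : ‖σ.1 x‖ ≠ 0 := norm_ne_zero_iff.2 ((map_ne_zero σ.1).2 hx)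
  simp [this]

theorem angK_eq (x : K) : angK x = (∏ σ : Emb K, σ.1 x) / ((√(absN x) : ℝ) : ℂ) := by
  rw [angK, Finset.prod_div_distrib, bl_absN, Real.sqrt_prod _ (fun σ _ => normSq_nonneg _),
    Complex.ofReal_prod]
  rfl

theorem len_pos {x : K} (hx : x ≠ 0) : 0 < len x :=
  Finset.sum_pos (fun σ _ => blat_normSq_pos hx σ) Finset.univ_nonempty

end

end Vale.Agent.P319N
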