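import Vale.Agent.P319N.Jac
import Vale.Agent.P319N.Emb

namespace Vale.Agent.P319N

open NumberField Complex MeasureTheory Filter Topology
open scoped Classical ComplexConjugate Real
open Vale.Agent.P026 (omC kap psi W)

noncomputable section

variable {K : Type} [Field K] [NumberField K] [Setup K]

theorem emb_iota (σ : Emb K) (x : P026.O) : σ.1 (iota K x : K) = P026.toC x := by
  have : σ.1 ((om K : R K) : K) = omC := emb_om σ
  simp only [iota, Subring.coe_add, Subring.coe_mul, Subring.coe_intCast, map_add, map_mul,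
    map_intCast, this]
  rfl

theorem ang_rat {q : ℚ} (h : IsIntegral ℤ (q : ℂ)) : ∃ k : ℤ, (k : ℚ) = q :=
  IsIntegrallyClosed.isIntegral_iff.1
    ((isIntegral_algebraMap_iff (algebraMap ℚ ℂ).injective).1 h)

theorem ang_eq {x y : ℂ} (h : IsIntegral ℤ x) (e : y = x) : IsIntegral ℤ y := e ▸ h

theorem ang_int {a b : ℚ} (h : IsIntegral ℤ ((a : ℂ) + b * omC)) :
    ∃ w : P026.O, P026.toC w = a + b * omC := by
  have e := P026.omC_mul
  have ho : IsIntegral ℤ omC := IsIntegral.of_pow three_pos (P026.omC_cube ▸ isIntegral_one)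
  have h' : IsIntegral ℤ ((a : ℂ) + b * (-1 - omC)) := by
    have := map_isIntegral_int (starRingEnd ℂ) h
    rwa [map_add, map_mul, map_ratCast, map_ratCast, P026.conj_omC, sq, e] at this
  obtain ⟨s, hs⟩ := ang_rat (q := 2 * a - b) (ang_eq (h.add h') (by
    push_cast
    ring))
  obtain ⟨t, ht⟩ := ang_rat (q := a + b)
    (ang_eq ((h.mul ho).add (h'.mul (ho.mul ho))).neg (by
      push_cast
      linear_combination ((a : ℂ) + b - b * omC) * e))
  obtain ⟨n, hn⟩ := ang_rat (q := a ^ 2 - a * b + b ^ 2) (ang_eq (h.mul h') (by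
    push_cast
    linear_combination (b : ℂ) ^ 2 * e))
  have h3 : (s + t) ^ 2 = 3 * (n + s * t) := by
    have : ((s : ℚ) + t) ^ 2 = 3 * (n + s * t) := by
      rw [hs, ht, hn]
      ring
    exact_mod_cast this
  obtain ⟨c, hc⟩ := Int.prime_three.dvd_of_dvd_pow (n := 2) ⟨_, h3⟩
  have ha : a = c := by
    have : (s : ℚ) + t = 3 * c := by exact_mod_cast hc
    linarith
  have hb : b = ((t - c : ℤ) : ℚ) := by
    push_cast
    linarith
  exact ⟨⟨c, t - c⟩, by rw [ha, hb, Rat.cast_intCast, Rat.cast_intCast]; rfl⟩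

theorem ang_nr (y : K) : ∃ a b : ℚ, ∏ σ : Emb K, σ.1 y = a + b * omC := by
  have : Fact (∀ r : ℚ, r ^ 2 ≠ -1 + -1 * r) := ⟨fun r h => by nlinarith [sq_nonneg (2 * r + 1)]⟩
  let f : QuadraticAlgebra ℚ (-1) (-1) →ₐ[ℚ] K := QuadraticAlgebra.lift ⟨omK K, by
    simp only [neg_smul, one_smul]
    linear_combination omK_sq_add (K := K)⟩
  let g : QuadraticAlgebra ℚ (-1) (-1) →ₐ[ℚ] ℂ := QuadraticAlgebra.lift ⟨omC, by
    simp only [neg_smul, one_smul]
    linear_combination P026.omC_mul⟩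
  have hf : ∀ z, f z = z.re + z.im * omK K := fun z => by
    change z.re • (1 : K) + z.im • omK K = _
    simp [Algebra.smul_def]
  have hg : ∀ z, g z = z.re + z.im * omC := fun z => by
    change z.re • (1 : ℂ) + z.im • omC = _
    simp [Rat.smul_def]
  let := f.toRingHom.toAlgebra
  let := g.toRingHom.toAlgebra
  have : IsScalarTower ℚ (QuadraticAlgebra ℚ (-1) (-1)) K :=
    IsScalarTower.of_algebraMap_eq fun x => (f.commutes x).symm
  have : FiniteDimensional (QuadraticAlgebra ℚ (-1) (-1)) K :=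
    Module.Finite.of_restrictScalars_finite ℚ _ _
  have h := Algebra.norm_eq_prod_embeddings (QuadraticAlgebra ℚ (-1) (-1)) ℂ y
  refine ⟨_, _, Eq.trans ?_ (h.symm.trans (hg _))⟩
  let e : Emb K ≃ (K →ₐ[QuadraticAlgebra ℚ (-1) (-1)] ℂ) :=
    { toFun := fun σ => ⟨σ.1, fun z => by
        change σ.1 (f z) = g z
        rw [hf, hg, map_add, map_mul, map_ratCast, map_ratCast, emb_om]⟩
      invFun := fun σ => ⟨σ.toRingHom, by
        have : σ (f QuadraticAlgebra.omega) = g QuadraticAlgebra.omega := σ.commutes _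
        simpa [hf, hg] using this⟩
      left_inv := fun _ => rfl
      right_inv := fun _ => rfl }
  exact Fintype.prod_equiv e _ _ fun _ => rfl

theorem ang_isI {y : K} (hy : IsI y) : IsIntegral ℤ (∏ σ : Emb K, σ.1 y) :=
  IsIntegral.prod _ fun σ _ => map_isIntegral_int σ.1 hy

/-- the relative norm of an integer is an Eisenstein integer -/
theorem exists_nr {y : K} (hy : IsI y) : ∃ w : P026.O, P026.toC w = ∏ σ : Emb K, σ.1 y := by
  obtain ⟨a, b, h⟩ := ang_nr y
  rw [h]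
  exact ang_int (h ▸ ang_isI hy)

theorem ang_R {t : K} (ht : t ∈ R K) : ∃ (k : ℕ) (c : P026.O),
    P026.toC c = (Setup.M K : ℂ) ^ k * ∏ σ : Emb K, σ.1 t := by
  obtain ⟨j, hj⟩ := ht
  obtain ⟨c, hc⟩ := exists_nr hj
  refine ⟨j * rk K, c, ?_⟩
  simp only [hc, map_mul, map_pow, map_natCast, Finset.prod_mul_distrib, Finset.prod_const,
    pow_mul]
  rfl

theorem ang_N {y : K} {w : P026.O} (h : P026.toC w = ∏ σ : Emb K, σ.1 y) :
    (P026.Nm w : ℝ) = absN y := by
  rw [absN_eq_prod, ← map_prod, ← h, P026.normSq_toC]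
  rfl

theorem ang_sN {l : ℕ} (hl : l.Coprime (Setup.M K)) (x : K) :
    ∃ a b : ℕ, l.Coprime a ∧ sN x * b = a := by
  refine Finset.prod_induction _ (fun z : ℝ => ∃ a b : ℕ, l.Coprime a ∧ z * b = a) ?_
    ⟨1, 1, by simp⟩ fun p hp => ?_
  · rintro u v ⟨a, b, h1, h2⟩ ⟨c, d, h3, h4⟩
    refine ⟨a * c, b * d, h1.mul_right h3, ?_⟩
    push_cast
    rw [← h2, ← h4]
    ring
  · have h1 := hl.coprime_dvd_right (Nat.dvd_of_mem_primeFactors hp)
    have h2 : (p : ℝ) ≠ 0 := Nat.cast_ne_zero.2 (Nat.prime_of_mem_primeFactors hp).ne_zero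
    obtain ⟨n, h | h⟩ := Int.eq_nat_or_neg (padicValRat p (Algebra.norm ℚ x))
    · exact ⟨p ^ n, 1, h1.pow_right n, by simp [h]⟩
    · exact ⟨1, p ^ n, by simp, by simp [h, h2]⟩

theorem ang_prime {p : R K} (hp : Prime p) {w : P026.O} (hN : P026.Nm w = Nm p)
    (hw : ∀ π' : P026.O, Prime π' → π' ∣ w → p ∣ iota K π') : ∃ (k : ℕ) (c : P026.O),
    (Setup.M K : ℂ) ^ k * P026.toC w = P026.toC c * ∏ σ : Emb K, σ.1 (p : K) := by
  obtain ⟨l, f, hl, f1, hf, -, lM⟩ := Nm_prime hp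
  have h4 := four_le_Nm hp
  have w0 : w ≠ 0 := fun h => by
    rw [h, P026.Nm_eq_zero.2 rfl] at hN
    omega
  obtain ⟨q, hq, hqw⟩ := WfDvdMonoid.exists_irreducible_factor
    (fun h => by rw [P026.isUnit_iff_Nm] at h; omega) w0
  have pq := hw q hq.prime hqw
  obtain ⟨e, u, hu, rfl⟩ := WfDvdMonoid.max_power_factor w0 hq
  have uu : IsUnit u := by
    by_contra h
    obtain ⟨q', hq', hd⟩ := WfDvdMonoid.exists_irreducible_factor h (right_ne_zero_of_mul w0)
    obtain ⟨a, b, hab⟩ := hq.coprime_iff_not_dvd.2 fun h' => hu (h'.trans hd)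
    have := congrArg (iota K) hab
    rw [iota_add, iota_mul, iota_mul, iota_one] at this
    exact hp.not_dvd_one (this ▸ dvd_add (pq.mul_left _)
      ((hw q' hq'.prime (hd.mul_left _)).mul_left _))
  obtain ⟨j, hj⟩ := p.2
  obtain ⟨v, hv⟩ := exists_nr hj
  have p0 : (p : K) ≠ 0 := fun h => hp.ne_zero (Subtype.ext h)
  have j0 : MK K ^ j * p ≠ 0 := mul_ne_zero (pow_ne_zero _ MK_ne) p0
  have hv' : P026.toC v = (Setup.M K : ℂ) ^ (j * rk K) * ∏ σ : Emb K, σ.1 (p : K) := by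
    simp only [hv, map_mul, map_pow, map_natCast, Finset.prod_mul_distrib, Finset.prod_const,
      pow_mul]
    rfl
  have v0 : v ≠ 0 := fun h => by
    have := ang_N hv
    rw [h, P026.Nm_eq_zero.2 rfl, Nat.cast_zero] at this
    exact (absN_pos j0).ne this
  obtain ⟨e', v', hv1, rfl⟩ := WfDvdMonoid.max_power_factor v0 hq
  obtain ⟨t, ht⟩ := pq
  obtain ⟨k, c, hc⟩ := ang_R t.2
  have d1 : q ^ e' * v' ∣ (Setup.M K : P026.O) ^ (j * rk K + k) * q ^ rk K := by
    refine ⟨c, P026.toC_inj ?_⟩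
    have : P026.toC q ^ rk K = ∏ σ : Emb K, σ.1 (iota K q : K) := by
      simp only [emb_iota, Finset.prod_const]
      rfl
    rw [map_mul _ _ c, hv', hc, map_mul, map_pow, map_pow, this, ht, map_natCast]
    simp only [Subring.coe_mul, map_mul, Finset.prod_mul_distrib]
    ring
  have d2 : v' ∣ (Setup.M K : P026.O) ^ (j * rk K + k) :=
    (hq.coprime_iff_not_dvd.2 hv1).symm.pow_right.dvd_of_dvd_mul_right
      ((dvd_mul_left _ _).trans d1)
  have le : e' ≤ e := by
    rw [P026.Nm_mul, P026.Nm_pow, P026.isUnit_iff_Nm.1 uu, mul_one] at hN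
    have e0 : e ≠ 0 := fun h => by
      rw [h, pow_zero] at hN
      omega
    have q1 : 1 < P026.Nm q := by
      have a1 : P026.Nm q ≠ 0 := fun h => hq.ne_zero (P026.Nm_eq_zero.1 h)
      have a2 : P026.Nm q ≠ 1 := fun h => hq.not_isUnit (P026.isUnit_iff_Nm.2 h)
      omega
    obtain ⟨a, b, h1, h2⟩ := ang_sN lM (MK K ^ j * p)
    have hM : IsUnit ((Setup.M K : R K) ^ j) := by
      refine IsUnit.pow _ (isUnit_iff_exists_inv.2 ⟨⟨_, inv_nat_mem_R (n := Setup.M K) (j := 1) (by simp)⟩, ?_⟩)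
      exact Subtype.ext (mul_inv_cancel₀ MK_ne)
    have h3 := absN_eq (x := (Setup.M K : R K) ^ j * p) (mul_ne_zero hM.ne_zero hp.ne_zero)
    rw [N_mul, N, Nm_eq_one.2 hM, Nat.cast_one, one_mul] at h3
    have h5 : (P026.Nm (q ^ e' * v') : ℝ) * b = Nm p * a := by
      rw [ang_N hv, ← h2, ← mul_assoc]
      exact congrArg (· * (b : ℝ)) h3
    have h6 : P026.Nm q ^ e' * (P026.Nm v' * b) = P026.Nm q ^ e * a := by
      rw [← mul_assoc, ← P026.Nm_pow, ← P026.Nm_mul, hN]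
      exact_mod_cast h5
    have h7 : (P026.Nm q).Coprime a :=
      (h1.pow_left f).coprime_dvd_left (hf ▸ hN ▸ dvd_pow_self _ e0)
    exact (Nat.pow_dvd_pow_iff_le_right q1).1
      ((h7.pow_left e').dvd_of_dvd_mul_right ⟨_, h6.symm⟩)
  obtain ⟨c', hc'⟩ := (mul_dvd_mul (pow_dvd_pow q le) d2).mul_right u
  refine ⟨j * rk K + k, c' * (Setup.M K : P026.O) ^ (j * rk K), ?_⟩
  have := congrArg P026.toC hc'
  rw [map_mul _ _ c', hv'] at this
  simp only [map_mul, map_pow, map_natCast] at this ⊢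
  linear_combination this

theorem ang_all (y : R K) : y ≠ 0 → ∃ w : P026.O, P026.Prim w ∧ P026.Nm w = Nm y ∧
    lamA y = P026.toC w / ((√(N y) : ℝ) : ℂ) ∧ ∃ (k : ℕ) (c : P026.O),
    (Setup.M K : ℂ) ^ k * P026.toC w = P026.toC c * ∏ σ : Emb K, σ.1 (y : K) := by
  induction y using UniqueFactorizationMonoid.induction_on_prime with
  | h₁ => exact fun h => absurd rfl h
  | h₂ u hu =>
    intro _
    obtain ⟨v, hv⟩ := hu.exists_left_inv
    obtain ⟨k, c, hc⟩ := ang_R v.2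
    refine ⟨1, P026.prim_one, (P026.isUnit_iff_Nm.1 isUnit_one).trans (Nm_eq_one.2 hu).symm,
      by simp [lamA_unit hu, N, Nm_eq_one.2 hu], k, c, ?_⟩
    rw [hc, mul_assoc, ← Finset.prod_mul_distrib]
    simp only [← map_mul, ← Subring.coe_mul, hv]
    simp
  | h₃ a p ha hp ih =>
    intro _
    obtain ⟨w, w1, w2, w3, k, c, w4⟩ := ih ha
    obtain ⟨v, v1, v2, v3, v4⟩ := Jp_spec hp
    obtain ⟨k', c', v5⟩ := ang_prime hp v3 v4
    refine ⟨v * w, v2.mul w1, by rw [P026.Nm_mul, Nm_mul, v3, w2], ?_, k' + k, c' * c, ?_⟩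
    · rw [lamA_mul hp.ne_zero ha, lamA_prime hp, w3, ← v1, N_mul, Real.sqrt_mul (N_pos hp.ne_zero).le,
        map_mul, div_mul_div_comm, ofReal_mul]
    · simp only [Subring.coe_mul, map_mul, Finset.prod_mul_distrib]
      rw [pow_add, mul_mul_mul_comm, v5, w4]
      ring

theorem lamA_eq {j : ℕ} (hj : 1 ≤ j) {y : R K} (hy : One j (y : K)) : lamA y = angK (y : K) := by
  have y0 := hy.ne_zero hj
  have y1 : y ≠ 0 := fun h => y0 (by simp [h])
  obtain ⟨w, w1, w2, w3, k, c, w4⟩ := ang_all y y1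
  obtain ⟨v, hv⟩ := exists_nr (isI_of_mem y.2 hy.mem)
  have s1 : sN (y : K) = 1 :=
    sN_unit (u := Units.mk0 _ y0) ⟨hy.mem, by simpa using (hy.inv hj).mem⟩
  have a1 : absN (y : K) = N y := by rw [absN_eq y1, s1, mul_one]
  have M0 : (Setup.M K : ℂ) ≠ 0 := Nat.cast_ne_zero.2 Setup.Mne
  have d1 : (Setup.M K : P026.O) ∣ v - 1 := by
    have hz : IsI (((y : K) - 1) / MK K ^ 1) :=
      isI_of_mem (div_MK_pow_mem_R ((R K).sub_mem y.2 (R K).one_mem) 1) (hy.mono hj)
    have i1 : IsIntegral ℤ ((∏ σ : Emb K, σ.1 (y : K) - 1) / (Setup.M K : ℂ)) := by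
      refine Finset.prod_induction _ (fun z : ℂ => IsIntegral ℤ ((z - 1) / (Setup.M K : ℂ))) ?_
        (by simpa using isIntegral_zero) fun σ _ => by simpa using map_isIntegral_int σ.1 hz
      intro a b ha hb
      refine ang_eq ((ha.add hb).add ((isIntegral_natCast (Setup.M K)).mul (ha.mul hb))) ?_
      field_simp
      ring
    have e : (∏ σ : Emb K, σ.1 (y : K) - 1) / (Setup.M K : ℂ) =
        (((v.re - 1) / Setup.M K : ℚ) : ℂ) + ((v.im / Setup.M K : ℚ) : ℂ) * omC := by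
      rw [← hv, show P026.toC v = v.re + v.im * omC from rfl]
      push_cast
      ring
    obtain ⟨z, hz⟩ := ang_int (e ▸ i1)
    refine ⟨z, P026.toC_inj ?_⟩
    rw [map_sub, map_one, map_mul, map_natCast, hz, ← e, hv, mul_div_cancel₀ _ M0]
  have pv : P026.Prim v := by
    obtain ⟨m, hm⟩ := Setup.six (K := K)
    refine Dvd.dvd.trans ⟨2 * m, ?_⟩ d1
    rw [hm]
    push_cast
    ring
  have cv : IsCoprime v (Setup.M K : P026.O) := by
    obtain ⟨z, hz⟩ := d1
    exact ⟨1, -z, by linear_combination hz⟩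
  obtain ⟨t, ht⟩ : v ∣ w := (cv.pow_right (n := k)).dvd_of_dvd_mul_left ⟨c, P026.toC_inj (by
    rw [map_mul, map_pow, map_natCast, w4, map_mul, hv, mul_comm])⟩
  have n1 : P026.Nm v = Nm y := by
    have := (ang_N hv).trans a1
    unfold N at this
    exact_mod_cast this
  have ut : IsUnit t := by
    rw [ht, P026.Nm_mul, n1] at w2
    exact P026.isUnit_iff_Nm.2 ((mul_eq_left₀ fun h => y1 (Nm_eq_zero.1 h)).1 w2)
  have : v = w := pv.eq_of_associated w1 (ht ▸ associated_mul_unit_right _ _ ut)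
  rw [w3, angK_eq, ← hv, this, a1]

theorem lamA_ratio {j : ℕ} (hj : 1 ≤ j) {y y' : R K} (hy : y ≠ 0) (h : One j ((y' : K) / y)) :
    lamA y' * angK (y : K) = lamA y * angK (y' : K) := by
  have y0 : (y : K) ≠ 0 := fun e => hy (Subtype.ext e)
  have hy' : y' ≠ 0 := fun e => h.ne_zero hj (by simp [e])
  obtain ⟨c, -, hc⟩ := approx_one (inv_ne_zero y0) j (b := 1) one_ne_zero 0
  rw [div_inv_eq_mul] at hc
  have c0 : c ≠ 0 := fun e => hc.ne_zero hj (by simp [e])
  have h1 := lamA_eq hj (y := c * y) hc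
  have h2 := lamA_eq hj (y := c * y') (by
    have := hc.mul h
    rwa [mul_assoc, mul_div_cancel₀ _ y0] at this)
  rw [lamA_mul c0 hy, Subring.coe_mul, angK_mul] at h1
  rw [lamA_mul c0 hy', Subring.coe_mul, angK_mul] at h2
  have l0 : lamA c ≠ 0 := norm_ne_zero_iff.1 (by rw [norm_lamA]; exact one_ne_zero)
  refine mul_left_cancel₀ l0 ?_
  linear_combination angK (y : K) * h2 - angK (y' : K) * h1

end

end Vale.Agent.P319N
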