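import Vale.Agent.P026.Defs2

/-! Abstract arithmetic setting: a factorial monoid with norm, classes, sextic symbol,
Gauss sums and a self-dual Poisson weight. -/

namespace Vale.Agent.P319N.Ab

open Complex MeasureTheory Filter Topology
open scoped Classical ComplexConjugate Real
open Vale.Agent.P026 (W DualW)

noncomputable section

class Ar (O : Type) [CommMonoidWithZero O] where
  Nm : O → ℕ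
  Nm_mul : ∀ x y, Nm (x * y) = Nm x * Nm y
  Nm_eq_zero : ∀ x, Nm x = 0 ↔ x = 0
  Nm_eq_one : ∀ x, Nm x = 1 ↔ IsUnit x
  four_le : ∀ p, Prime p → 4 ≤ Nm p
  fin_ball : ∀ R : ℝ, {x | x ≠ 0 ∧ (Nm x : ℝ) ≤ R}.Finite
  card_le : ∃ C : ℝ, ∀ R : ℝ, 0 ≤ R → ({x | x ≠ 0 ∧ (Nm x : ℝ) ≤ R}.ncard : ℝ) ≤ C * R
  G : Type
  [grpG : CommGroup G]
  [finG : Fintype G]
  cls : O → G
  cls_mul : ∀ a b, a ≠ 0 → b ≠ 0 → cls (a * b) = cls a * cls b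
  Om : Subgroup G
  prim_ex : ∀ x, x ≠ 0 → ∃ u, IsUnit u ∧ cls (u * x) ∈ Om
  prim_unit : ∀ u, IsUnit u → cls u ∈ Om → u = 1
  chi6 : O → O → ℂ
  chi6_mul_left : ∀ x y n, n ≠ 0 → chi6 (x * y) n = chi6 x n * chi6 y n
  chi6_mul_right : ∀ x n m, n ≠ 0 → m ≠ 0 → chi6 x (n * m) = chi6 x n * chi6 x m
  chi6_pow_six : ∀ x n, n ≠ 0 → chi6 x n ^ 6 = if IsRelPrime x n then 1 else 0
  chi6_unit_right : ∀ x u, IsUnit u → chi6 x u = 1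
  chi6_zero_right : ∀ x, ‖chi6 x 0‖ ≤ 1
  epsG : G → G → ℂ
  norm_epsG : ∀ c d, ‖epsG c d‖ = 1
  chi6_flip : ∀ a b, a ≠ 0 → b ≠ 0 → chi6 a b = epsG (cls a) (cls b) * chi6 b a
  gt : ℕ → O → ℂ
  norm_gt : ∀ k n, Squarefree n → 1 ≤ k → k ≤ 5 → ‖gt k n‖ = 1
  gt_mul : ∀ k a b, Squarefree a → Squarefree b → IsRelPrime a b →
    gt k (a * b) = gt k a * gt k b * chi6 a b ^ k * chi6 b a ^ k
  gt_one : ∀ k, gt k 1 = 1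
  gt_five : ∀ n, Squarefree n → gt 5 n = conj (gt 1 n)
  gt_three_real : ∀ n, Squarefree n → conj (gt 3 n) = gt 3 n
  gt_three_cls : ∀ a b, Squarefree a → Squarefree b → IsRelPrime a b → cls a = cls b →
    gt 3 (a * b) = 1
  V : ℝ → ℝ
  V_nonneg : ∀ x, 0 ≤ V x
  V_ge : ∃ c : ℝ, 0 < c ∧ ∀ x, 0 < x → x ≤ 1 → c ≤ V x
  V_le : ∀ a : ℝ, 0 < a → ∃ C : ℝ, 0 < C ∧ ∀ x : ℝ, 0 < x → V x ≤ C * x ^ (-a)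
  V_mellin : ∀ σ : ℝ, 0 < σ → ∃ (C : ℝ) (m : ℝ → ℂ), 0 < C ∧ Continuous m ∧
    (∀ τ, ‖m τ‖ ≤ C * Real.exp (-τ ^ 2 / 4)) ∧
    ∀ x : ℝ, 0 < x → ((V x : ℝ) : ℂ) = ∫ τ : ℝ, m τ * (x : ℂ) ^ (-(σ + τ * Complex.I))
  poisson : ∀ (k : ℕ) (n1 n2 : O) (Y : ℝ), Squarefree n1 → Squarefree n2 → IsRelPrime n1 n2 →
    ¬ (IsUnit n1 ∧ IsUnit n2) → 1 ≤ k → k ≤ 5 → 0 < Y →
    ∑' m : O, chi6 m n1 ^ k * conj (chi6 m n2 ^ k) * ((V ((Nm m : ℝ) / Y) : ℝ) : ℂ) =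
      ((Y / √((Nm n1 : ℝ) * (Nm n2 : ℝ)) : ℝ) : ℂ) *
        (chi6 n2 n1 ^ k * conj (chi6 n1 n2 ^ k) * gt k n1 * conj (gt k n2)) *
        ∑' h : O, chi6 h n1 ^ (6 - k) * conj (chi6 h n2 ^ (6 - k)) *
          ((V ((Nm h : ℝ) * (Y / ((Nm n1 : ℝ) * (Nm n2 : ℝ)))) : ℝ) : ℂ)
  gerr : ∃ c C : ℝ, 0 < c ∧ ∀ T : ℝ, 0 < T →
    |∑' a : O, (if a ≠ 0 then V (T * (Nm a : ℝ) ^ 2) else 0) - c / √T| ≤ C

attribute [instance] Ar.grpG Ar.finG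

export Ar (Nm G cls chi6 gt epsG)

variable {O : Type} [CommMonoidWithZero O] [UniqueFactorizationMonoid O] [Ar O]

/-- the norm as a real number -/
def N (x : O) : ℝ := (Nm x : ℝ)
/-- the self-dual weight -/
abbrev V (O : Type) [CommMonoidWithZero O] [Ar O] : ℝ → ℝ := Ar.V O

/-- nonzero elements of norm at most `R` -/
def ballO (O : Type) [CommMonoidWithZero O] [Ar O] (R : ℝ) : Finset O :=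
  (Ar.fin_ball (O := O) R).toFinset

theorem mem_ballO {O : Type} [CommMonoidWithZero O] [Ar O] {R : ℝ} {x : O} :
    x ∈ ballO O R ↔ x ≠ 0 ∧ (Nm x : ℝ) ≤ R := by
  simp [ballO]

def Prim (x : O) : Prop := x ≠ 0 ∧ cls x ∈ Ar.Om (O := O)
/-- primary and squarefree -/
def NN (x : O) : Prop := Prim x ∧ Squarefree x

def ballN (O : Type) [CommMonoidWithZero O] [UniqueFactorizationMonoid O] [Ar O] (R : ℝ) :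
    Finset O := (ballO O R).filter NN
def divs (n : O) : Finset O := (ballN O (N n)).filter (· ∣ n)
def dv (n : O) : ℝ := (((ballO O (N n)).filter (· ∣ n)).card : ℝ)

def mu (n : O) : ℂ :=
  if Squarefree n then (-1) ^ (UniqueFactorizationMonoid.factors n).card else 0

/-- bounded class functions -/
def Wt (f : O → ℂ) : Prop :=
  (∀ x y, x ≠ 0 → y ≠ 0 → cls x = cls y → f x = f y) ∧ ∀ x, ‖f x‖ ≤ 1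

def sym2 (x n : O) : ℂ := chi6 x n ^ 3
def eps (a b : O) : ℂ := epsG (cls a) (cls b)

def AA (α : O → ℂ) (k : ℕ) (X : ℝ) (w : ℂ) (m : O) : ℂ :=
  ∑' n : O, if NN n then α n * chi6 m n ^ k * W w (N n / X) else 0
def A (ω : O → ℂ) (X : ℝ) (w : ℂ) (m : O) : ℂ := AA (fun n => mu n * ω n) 1 X w m
def B (ω : O → ℂ) (X : ℝ) (w : ℂ) (h : O) : ℂ := AA (fun n => mu n * gt 1 n * ω n) 5 X w h
def TH (t ω : O → ℂ) (X : ℝ) (w : ℂ) (m : O) : ℂ :=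
  ∑' n : O, if Prim n then t n * ω n * chi6 m n ^ 5 * W w (N n / X) else 0

def HA (O : Type) [CommMonoidWithZero O] [UniqueFactorizationMonoid O] [Ar O] (γ : ℝ) : Prop :=
  ∀ ε > (0 : ℝ), ∀ R0 : ℝ, ∃ C : ℝ, 0 ≤ C ∧ ∀ (Z X Y : ℝ) (w : ℂ) (ω : O → ℂ),
    1 ≤ Z → 0 < X → X ≤ Z → 0 < Y → Y ≤ Z → |w.re| ≤ R0 → Wt ω →
    ∑ m ∈ ballO O Y, ‖A ω X w m‖ ^ 2 ≤ C * Real.exp (C * |w.im|) * Z ^ ε * (X * Y + X ^ γ)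

def HA6 (O : Type) [CommMonoidWithZero O] [UniqueFactorizationMonoid O] [Ar O] (γ : ℝ) : Prop :=
  ∀ ε > (0 : ℝ), ∀ R0 : ℝ, ∃ C : ℝ, 0 ≤ C ∧ ∀ (Z X Y : ℝ) (w : ℂ) (ω : O → ℂ) (k : O),
    1 ≤ Z → 0 < X → X ≤ Z → 0 < Y → Y ≤ Z → |w.re| ≤ R0 → Wt ω → k ≠ 0 → N k ≤ Z →
    ∑ m ∈ ballO O Y, ‖A ω X w (m * k ^ 6)‖ ^ 2 ≤
      C * Real.exp (C * |w.im|) * Z ^ ε * (X * Y + X ^ γ)

def trip (O : Type) [CommMonoidWithZero O] [UniqueFactorizationMonoid O] [Ar O] (R : ℝ) :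
    Finset (O × O × O) :=
  (ballN O R ×ˢ ballN O R ×ˢ ballN O R).filter (fun t => t.1 * t.2.1 * t.2.2 ∈ ballN O R)

def vv (R : ℝ) (a : O → ℂ) (k : ℕ) (t : O × O × O) (h n : O) : ℂ :=
  if t.1 * t.2.1 * t.2.2 * n ∈ ballN O R then
    a (t.1 * t.2.1 * t.2.2 * n) * chi6 t.2.1 (t.2.2 * n) ^ k * chi6 h (t.2.2 * n) ^ (6 - k) *
      gt k (t.2.2 * n)
  else 0

def Off (R : ℝ) (a : O → ℂ) (k : ℕ) (Y : ℝ) (t : O × O × O) (h : O) : ℂ :=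
  ∑ n1 ∈ ballN O R, ∑ n2 ∈ ballN O R,
    vv R a k t h n1 * conj (vv R a k t h n2) * eps (t.2.2 * n2) (t.2.2 * n1) ^ k *
      (((√(N n1 * N n2))⁻¹ * V O (N h * Y / (N t.2.1 * N t.2.2 ^ 2 * N n1 * N n2)) : ℝ) : ℂ)

def alp (α : O → ℂ) (k : ℕ) (t : O × O × O) (c : G O) (n : O) : ℂ :=
  if NN (t.1 * t.2.1 * t.2.2 * n) ∧ cls n = c then
    α (t.1 * t.2.1 * t.2.2 * n) * chi6 t.2.1 n ^ k * gt k (t.2.2 * n)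
  else 0

def Sd (M : ℝ) (n1 n2 b : O) : ℂ :=
  ∑' a : O, if a ≠ 0 then
    sym2 (b * a ^ 2) n1 * sym2 (b * a ^ 2) n2 * (V O (N (b * a ^ 2) / M) : ℝ) else 0

def Sds (M : ℝ) (g n1 n2 b : O) : ℂ :=
  ∑ e ∈ divs g, mu e * ((M / (N e * √(N n1 * N n2)) : ℝ) : ℂ) *
    ∑' a : O, if a ≠ 0 ∧ e ∣ b * a ^ 2 then
      sym2 (b * a ^ 2) n1 * sym2 (b * a ^ 2) n2 *
        (V O (N (b * a ^ 2) * M / (N e ^ 2 * N n1 * N n2)) : ℝ) else 0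

/-- Voronoi plus large sieve bound for a coefficient sequence `t` -/
def VORLS (t : O → ℂ) : Prop :=
  ∀ ε > (0 : ℝ), ∀ R0 : ℝ, ∃ C : ℝ, 0 ≤ C ∧ ∀ (Z X H : ℝ) (w : ℂ) (M0 s : O) (f : O → O → ℂ),
    1 ≤ X → X ≤ Z → 0 < H → H ≤ Z → M0 ≠ 0 → N M0 ≤ Z → (∃ j : ℕ, s ∣ M0 ^ j) → |w.re| ≤ R0 →
    (∀ h, Wt (f h)) →
    ∑ h ∈ (ballN O H).filter (fun h => IsRelPrime h M0),
        ‖∑' n : O, if Prim n then t n * f h n * chi6 s n ^ 5 * chi6 n h ^ 5 * W w (N n / X)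
          else 0‖ ^ 2 ≤
      C * Real.exp (C * |w.im|) * Z ^ ε * N M0 * X *
        (H ^ (8 / 7 : ℝ) + (H ^ 2 * N M0 ^ 2 / X) ^ (8 / 5 : ℝ))

structure CoefPkg (t : O → ℂ) : Prop where
  gauss : ∃ η : O → ℂ, Wt η ∧ ∀ n, NN n → mu n * gt 1 n = t n * η n ∧ ‖η n‖ = 1
  cube : ∃ a : O → ℂ, a 1 = 1 ∧ (∀ x y, x ≠ 0 → y ≠ 0 → a (x * y) = a x * a y) ∧
    (∀ x, ‖a x‖ ≤ 1) ∧
    ∀ n d, Prim n → Prim d → t (n * d ^ 3) = ((√(N d) : ℝ) : ℂ) * a d * t n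
  sq : ∀ n p, Prim n → Prime p → Prim p → ¬ p ∣ n → t (n * p ^ 2) = 0
  bound : ∃ C : ℝ, ∀ R : ℝ, 1 ≤ R → ∑ n ∈ ballO O R, ‖t n‖ ^ 2 ≤ C * R
  vorls : VORLS t

def SMALL (t : O → ℂ) : Prop :=
  ∀ ε > (0 : ℝ), ∀ R0 : ℝ, ∃ C : ℝ, 0 ≤ C ∧ ∀ (Z X H : ℝ) (w : ℂ) (ω : O → ℂ) (r k : O),
    1 ≤ X → X ≤ Z → 0 < H → H ≤ Z → r ≠ 0 → N r ≤ Z → k ∣ r ^ 6 → |w.re| ≤ R0 → Wt ω →
    ∑ h ∈ ballO O H, ‖TH t ω X w (h * k)‖ ^ 2 ≤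
      C * Real.exp (C * |w.im|) * Z ^ ε * N r * X *
        (H ^ (8 / 7 : ℝ) + (H ^ 2 * N r ^ 2 / X) ^ (8 / 5 : ℝ))

def kt (t : O × O × O) : O := t.2.1 ^ 5 * t.2.2 ^ 4 * t.1 ^ 6
def pr (t : O × O × O) : O := t.1 * t.2.1 * t.2.2
def Ht (X Y : ℝ) (t : O × O × O) : ℝ := X ^ 2 / (N t.2.1 * N t.1 ^ 2 * Y)

def REV (O : Type) [CommMonoidWithZero O] [UniqueFactorizationMonoid O] [Ar O] (γ : ℝ) : Prop :=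
  ∀ ε > (0 : ℝ), ∀ R0 : ℝ, ∃ C : ℝ, 0 ≤ C ∧ ∀ (Z X Y U K Δ : ℝ) (w : ℂ)
    (I : Finset (O × O × O)) (ω : O × O × O → O → ℂ),
    1 ≤ X → X ≤ Z → 1 ≤ Y → Y ≤ Z → 1 ≤ U → 1 ≤ K → 1 ≤ Δ → |w.re| ≤ R0 → I ⊆ trip O Z →
    (∀ t ∈ I, Wt (ω t) ∧ Δ ≤ N (pr t)) →
    ∑ t ∈ I, Y * N t.1 / X * ∑ h ∈ ballO O (K * Ht X Y t),
        ‖B (ω t) (X / (U * N (pr t))) w (h * kt t)‖ ^ 2 ≤
      C * Real.exp (C * |w.im|) * (Z * K) ^ ε * K *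
        (X ^ 2 / U + X * Y / U ^ 2 + U ^ (1 - γ) * X ^ γ / Δ)

def HB (O : Type) [CommMonoidWithZero O] [UniqueFactorizationMonoid O] [Ar O] (γ : ℝ) : Prop :=
  ∀ ε > (0 : ℝ), ∀ R0 : ℝ, ∃ C : ℝ, 0 ≤ C ∧ ∀ (Z X Y K : ℝ) (w : ℂ) (ω : O × O × O → O → ℂ),
    1 ≤ X → X ≤ Z → X ^ (239 / 200 : ℝ) ≤ Y → Y ≤ Z → 1 ≤ K → |w.re| ≤ R0 →
    (∀ t ∈ trip O (Z ^ 3), Wt (ω t)) →
    ∑ t ∈ trip O (Z ^ 3), Y * N t.1 / X * ∑ h ∈ ballO O (K * Ht X Y t),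
        ‖B (ω t) (X / N (pr t)) w (h * kt t)‖ ^ 2 ≤
      C * Real.exp (C * |w.im|) * Z ^ ε * K ^ (7 / 2 : ℝ) * (X * Y + X ^ γ)

/-- a sparse index set with sizes -/
structure SIdx (ι : Type) (sg : ι → ℝ) : Prop where
  one_le : ∀ i, 1 ≤ sg i
  fin : ∀ L : ℝ, {i | sg i ≤ L}.Finite
  card : ∀ ε > (0 : ℝ), ∃ C : ℝ, 0 < C ∧ ∀ L : ℝ, 1 ≤ L → ({i | sg i ≤ L}.ncard : ℝ) ≤ C * L ^ ε

/-- hypotheses on a family of dual coefficients -/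
structure DCoef {ι : Type} (sg : ι → ℝ) (τ : ι → O → ℂ) (Bd : ℝ) : Prop where
  supp : ∀ i n, τ i n ≠ 0 → ∃ u b d, IsUnit u ∧ NN b ∧ Prim d ∧ n = u * b * d ^ 3
  l2 : ∀ i d (R : ℝ), Prim d → 0 < R →
    ∑ n ∈ ballO O R, ‖τ i (n * d ^ 3)‖ ^ 2 ≤ Bd * N d * sg i * R

end

end Vale.Agent.P319N.Ab
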