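import Vale.Agent.P319N.BD
import Vale.Agent.P026.DL2

namespace Vale.Agent.P319N

open Complex MeasureTheory Filter Topology
open scoped Classical ComplexConjugate Real MatrixGroups
open Vale.Agent.P026 (dl2_rem)

noncomputable section

theorem dl2_maj {X : Type*} [MeasurableSpace X] (ν : Measure X) (g : X → ℝ) (hg : MemLp g 2 ν)
    (hg0 : ∀ x, 0 ≤ g x)
    (F : ℂ → X → ℂ) (hm : ∀ s, Measurable (F s)) (hd : ∀ x, Differentiable ℂ (fun s => F s x))
    (hb : ∀ R : ℝ, ∃ C : ℝ, ∀ s, ‖s‖ ≤ R → ∀ x, ‖F s x‖ ≤ C * g x) :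
    ∃ p : ℂ → Lp ℂ 2 ν, Differentiable ℂ p ∧ ∀ s, (p s : X → ℂ) =ᵐ[ν] F s := by
  have hL : ∀ s, MemLp (F s) 2 ν := fun s => by
    obtain ⟨C, hC⟩ := hb ‖s‖
    exact (hg.const_mul C).of_le (hm s).aestronglyMeasurable
      (ae_of_all _ fun x => (hC s le_rfl x).trans (le_abs_self _))
  refine ⟨fun s => (hL s).toLp (F s), fun c => ?_, fun s => (hL s).coeFn_toLp⟩
  obtain ⟨C0, hC0⟩ := hb (‖c‖ + 1)
  set C := max C0 0 with hCdef
  have hC : ∀ x, ∀ s ∈ Metric.ball c 1, ‖F s x‖ ≤ C * g x := fun x s hs => by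
    refine (hC0 s ?_ x).trans (mul_le_mul_of_nonneg_right (le_max_left _ _) (hg0 x))
    have := norm_sub_norm_le s c
    linarith [mem_ball_iff_norm.1 hs]
  have hCpos : 0 ≤ C := le_max_right _ _
  set G : X → ℂ := fun x => deriv (fun s => F s x) c with hG
  have hGm : Measurable G := by
    refine measurable_of_tendsto_metrizable' (f := fun z x => (z - c)⁻¹ * (F z x - F c x))
      (𝓝[≠] c) (fun z => ((hm z).sub (hm c)).const_mul _) (tendsto_pi_nhds.2 fun x => ?_)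
    simpa only [slope_fun_def_field, div_eq_inv_mul] using
      hasDerivAt_iff_tendsto_slope.1 (hd x c).hasDerivAt
  have hGL : MemLp G 2 ν := (hg.const_mul (2 * C)).of_le hGm.aestronglyMeasurable
    (ae_of_all _ fun x => by
      refine le_trans ?_ (le_abs_self _)
      rw [mul_assoc]
      exact (dl2_rem (hd x) (hC x)).1)
  refine (HasDerivAt.differentiableAt (f' := hGL.toLp G) ?_)
  rw [hasDerivAt_iff_isLittleO]
  refine Asymptotics.IsBigO.trans_isLittleO (g := fun z => ‖z - c‖ ^ 2)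
    (Asymptotics.IsBigO.of_bound (4 * C * ‖hg.toLp g‖) ?_)
    (Asymptotics.isLittleO_pow_sub_sub c one_lt_two)
  filter_upwards [Metric.ball_mem_nhds c one_pos] with z hz
  rw [Real.norm_of_nonneg (by positivity), mul_right_comm]
  refine Lp.norm_le_mul_norm_of_ae_le_mul ?_
  filter_upwards [Lp.coeFn_sub ((hL z).toLp (F z) - (hL c).toLp (F c)) ((z - c) • hGL.toLp G),
    Lp.coeFn_sub ((hL z).toLp (F z)) ((hL c).toLp (F c)), Lp.coeFn_smul (z - c) (hGL.toLp G),
    (hL z).coeFn_toLp, (hL c).coeFn_toLp, hGL.coeFn_toLp, hg.coeFn_toLp] with x h1 h2 h3 h4 h5 h6 h7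
  rw [h1, Pi.sub_apply, h2, h3, Pi.sub_apply, Pi.smul_apply, h4, h5, h6, smul_eq_mul, h7,
    Real.norm_of_nonneg (hg0 x)]
  refine ((dl2_rem (hd x) (hC x)).2 z hz).trans (le_of_eq ?_)
  ring

end

end Vale.Agent.P319N
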