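import Vale.Agent.P319N.BD
import Vale.Agent.P026.Res

namespace Vale.Agent.P319N

open NumberField Complex MeasureTheory Filter Topology
open scoped Classical ComplexConjugate Real MatrixGroups
open Vale.Agent.P026 (UU UU_le tendsto_UU hil_lower res_lim)

noncomputable section

variable {η : ℝ}

theorem isOpen_Om : IsOpen (Om η) :=
  (isOpen_lt continuous_const Complex.continuous_re).inter
    ((isOpen_lt continuous_const Complex.continuous_im).inter
      (isOpen_lt Complex.continuous_im continuous_const))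
theorem convex_Om : Convex ℝ (Om η) :=
  (convex_halfSpace_re_gt 1).inter ((convex_halfSpace_im_gt 0).inter (convex_halfSpace_im_lt η))
theorem eventually_mem_Om (hη : 0 < η) :
    ∀ᶠ ε : ℝ in (UU : Filter ℝ), (4 / 3 + ε * Complex.I : ℂ) ∈ Om η ∧ 0 < ε ∧ ε < η := by
  filter_upwards [UU_le (Ioo_mem_nhdsGT hη)] with ε hε
  refine ⟨⟨by simp; norm_num, by simpa using hε.1, by simpa using hε.2⟩, hε.1, hε.2⟩

theorem hil (hη : 0 < η) {E : Type*} [NormedAddCommGroup E] [InnerProductSpace ℂ E] [CompleteSpace E]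
    (T : E →L[ℂ] E) (hT : IsSelfAdjoint T) (h : ℂ → ℂ) (hd : Differentiable ℂ h) (p : ℂ → E)
    (hp : Differentiable ℂ p) (hpos : ∀ s ∈ Om η, 0 < (h s).im) (c : ℝ) (hc : 0 < c)
    (hge : ∀ ε : ℝ, 0 < ε → ε < η → c * ε ≤ (h (4 / 3 + ε * Complex.I)).im)
    (hre : (h (4 / 3)).im = 0) :
    ∃ (g : ℂ → E) (u : E), DifferentiableOn ℂ g (Om η) ∧
      (∀ s ∈ Om η, ∀ y, T y - h s • y = p s → y = g s) ∧
      (∀ y, Tendsto (fun ε : ℝ => (ε : ℂ) * inner ℂ y (g (4 / 3 + ε * Complex.I)))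
        (UU : Filter ℝ) (𝓝 (inner ℂ y u))) ∧
      T u = h (4 / 3) • u ∧ ((∀ s, inner ℂ u (p s) = 0) → u = 0) := by
  have hres : ∀ s ∈ Om η, h s ∈ resolventSet ℂ T := by
    intro s hs
    by_contra hn
    have := congrArg Complex.im (hT.mem_spectrum_eq_re hn)
    rw [Complex.ofReal_im] at this
    exact (hpos s hs).ne' this
  let g : ℂ → E := fun s => -(resolvent T (h s) (p s))
  have hg : ∀ s ∈ Om η, T (g s) - h s • g s = p s := by
    intro s hs
    have h1 := congrArg (fun A : E →L[ℂ] E => A (p s)) (Ring.mul_inverse_cancel _ (hres s hs))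
    simp only [ContinuousLinearMap.mul_apply, ContinuousLinearMap.sub_apply,
      Algebra.algebraMap_eq_smul_one, ContinuousLinearMap.smul_apply,
      ContinuousLinearMap.one_apply] at h1
    simp only [g, resolvent, Algebra.algebraMap_eq_smul_one, map_neg, smul_neg]
    rw [← h1]
    conv_lhs => rw [h1]
    abel
  have hgd : DifferentiableOn ℂ g (Om η) := fun s hs =>
    (((spectrum.hasDerivAt_resolvent_const_left (hres s hs)).differentiableAt.comp s
      (hd s)).clm_apply (hp s)).neg.differentiableWithinAt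
  clear_value g
  have hps : Tendsto (fun ε : ℝ => p (4 / 3 + ε * Complex.I)) (UU : Filter ℝ) (𝓝 (p (4 / 3))) :=
    (hp.continuous.tendsto _).comp tendsto_UU
  have hhs : Tendsto (fun ε : ℝ => h (4 / 3 + ε * Complex.I)) (UU : Filter ℝ) (𝓝 (h (4 / 3))) :=
    (hd.continuous.tendsto _).comp tendsto_UU
  set v : ℝ → E := fun ε => (ε : ℂ) • g (4 / 3 + ε * Complex.I) with hv
  have hvb : ∀ᶠ ε in (UU : Filter ℝ), ‖v ε‖ ≤ (‖p (4 / 3)‖ + 1) / c := by
    filter_upwards [eventually_mem_Om hη, hps.norm.eventually (eventually_le_nhds (lt_add_one _))]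
      with ε hε hb
    have h1 := hil_lower hT (h (4 / 3 + ε * Complex.I)) (g (4 / 3 + ε * Complex.I))
    rw [hg _ hε.1] at h1
    have h2 := mul_le_mul_of_nonneg_right (hge ε hε.2.1 hε.2.2)
      (norm_nonneg (g (4 / 3 + ε * Complex.I)))
    rw [le_div_iff₀ hc, hv, norm_smul, Complex.norm_real, Real.norm_of_nonneg hε.2.1.le]
    linarith
  have hlim : ∀ y : E, ∃ L : ℂ, ‖L‖ ≤ (‖p (4 / 3)‖ + 1) / c * ‖y‖ ∧
      Tendsto (fun ε => inner ℂ (v ε) y) (UU : Filter ℝ) (𝓝 L) := by
    intro y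
    obtain ⟨L, hL, hL'⟩ := (isCompact_closedBall (0 : ℂ)
      ((‖p (4 / 3)‖ + 1) / c * ‖y‖)).ultrafilter_le_nhds (UU.map fun ε => inner ℂ (v ε) y) (by
        rw [Ultrafilter.coe_map, le_principal_iff, mem_map]
        filter_upwards [hvb] with ε hε
        exact mem_closedBall_zero_iff.2 ((norm_inner_le_norm _ _).trans
          (mul_le_mul_of_nonneg_right hε (norm_nonneg y))))
    exact ⟨L, mem_closedBall_zero_iff.1 hL, hL'⟩
  choose L hLb hL using hlim
  let ℓ : E →ₗ[ℂ] ℂ :=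
    { toFun := L
      map_add' := fun x y => tendsto_nhds_unique (hL (x + y))
        (by simpa only [inner_add_right] using (hL x).add (hL y))
      map_smul' := fun a x => tendsto_nhds_unique (hL (a • x))
        (by simpa only [inner_smul_right, smul_eq_mul, RingHom.id_apply]
          using (hL x).const_mul a) }
  let u : E := (InnerProductSpace.toDual ℂ E).symm (ℓ.mkContinuous _ hLb)
  have hu : ∀ y, Tendsto (fun ε : ℝ => inner ℂ y (v ε)) (UU : Filter ℝ) (𝓝 (inner ℂ y u)) := by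
    intro y
    have h1 : inner ℂ u y = L y := InnerProductSpace.toDual_symm_apply
    have h2 := (Complex.continuous_conj.tendsto _).comp (hL y)
    rw [← h1, inner_conj_symm] at h2
    exact h2.congr fun ε => inner_conj_symm _ _
  clear_value u
  have hsym : ∀ x y : E, inner ℂ (T x) y = inner ℂ x (T y) := hT.isSymmetric
  have hTu : T u = h (4 / 3) • u := by
    refine ext_inner_left ℂ fun y => ?_
    have h1 := (hu (T y)).sub (hhs.mul (hu y))
    have h2 : Tendsto (fun ε : ℝ => (ε : ℂ) * inner ℂ y (p (4 / 3 + ε * Complex.I)))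
        (UU : Filter ℝ) (𝓝 (((0 : ℝ) : ℂ) * inner ℂ y (p (4 / 3)))) :=
      ((Complex.continuous_ofReal.tendsto 0).mono_left (UU_le.trans nhdsWithin_le_nhds)).mul
        (tendsto_const_nhds.inner hps)
    have h3 := tendsto_nhds_unique_of_eventuallyEq h1 h2 (by
      filter_upwards [eventually_mem_Om hη] with ε hε
      rw [← hg _ hε.1, hsym, hv]
      simp only [map_smul, inner_smul_right, inner_sub_right]
      ring)
    rw [inner_smul_right, ← hsym, ← sub_eq_zero, h3]
    simp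
  refine ⟨g, u, hgd, fun s hs y hy => ?_, fun y => ?_, hTu, fun h0 => ?_⟩
  · have h1 := hil_lower hT (h s) (y - g s)
    have h2 : T (y - g s) - h s • (y - g s) = 0 := by
      rw [map_sub, smul_sub, sub_sub_sub_comm, hy, hg s hs, sub_self]
    rw [h2, norm_zero] at h1
    exact sub_eq_zero.1 (norm_le_zero_iff.1 (nonpos_of_mul_nonpos_right h1 (hpos s hs)))
  · simpa only [hv, inner_smul_right] using hu y
  · have h1 : ∀ s ∈ Om η, inner ℂ u (g s) = 0 := by
      intro s hs
      have h2 := h0 s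
      rw [← hg s hs, inner_sub_right, inner_smul_right, ← hsym, hTu, inner_smul_left,
        ← sub_mul] at h2
      refine (mul_eq_zero.1 h2).resolve_left fun h3 => ?_
      have h4 := congrArg Complex.im h3
      simp only [Complex.sub_im, Complex.conj_im, hre, Complex.zero_im] at h4
      linarith [hpos s hs]
    have h2 := tendsto_nhds_unique_of_eventuallyEq (hu u) tendsto_const_nhds (g := fun _ => 0) (by
      filter_upwards [eventually_mem_Om hη] with ε hε
      simp only [hv, inner_smul_right, h1 _ hε.1, mul_zero])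
    exact inner_self_eq_zero.1 h2

theorem res_Om {β : ℂ → ℂ} (hβ : DifferentiableOn ℂ β {s | 1 < s.re}) :
    DifferentiableOn ℂ β (Om η) := hβ.mono fun _ hs => hs.1

/-- identity theorem on `Om` -/
theorem eqOn_Om (hη : 0 < η) {f g : ℂ → ℂ} (hf : DifferentiableOn ℂ f (Om η)) (hg : DifferentiableOn ℂ g (Om η))
    (h : ∀ s ∈ Om η, 3 < s.re → f s = g s) : ∀ s ∈ Om η, f s = g s := by
  have hm : (4 + ((η / 2 : ℝ) : ℂ) * Complex.I : ℂ) ∈ Om η := by
    refine ⟨?_, ?_, ?_⟩ <;> simp <;> linarith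
  have ho : IsOpen {s : ℂ | 3 < s.re} := isOpen_lt continuous_const continuous_re
  have hm' : (4 + ((η / 2 : ℝ) : ℂ) * Complex.I : ℂ) ∈ {s : ℂ | 3 < s.re} := by
    show 3 < (4 + ((η / 2 : ℝ) : ℂ) * Complex.I : ℂ).re
    norm_num
  refine (hf.analyticOnNhd isOpen_Om).eqOn_of_preconnected_of_eventuallyEq
    (hg.analyticOnNhd isOpen_Om) convex_Om.isPreconnected hm ?_
  filter_upwards [isOpen_Om.mem_nhds hm, ho.mem_nhds hm'] with s h1 h2 using h s h1 h2

theorem IsRes.unique (hη : 0 < η) {D : ℂ → ℂ} {r r' : ℂ} (h : IsRes η D r) (h' : IsRes η D r') : r = r' := by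
  obtain ⟨I1, β1, a1, a2, a3, a4, a5⟩ := h
  obtain ⟨I2, β2, b1, b2, b3, b4, b5⟩ := h'
  have e := eqOn_Om hη (a1.mul (res_Om b2)) (b1.mul (res_Om a2)) fun s hs h3 => by
    simp only [Pi.mul_apply]
    rw [a4 s hs h3, b4 s hs h3]
    ring
  have := tendsto_nhds_unique_of_eventuallyEq (a5.mul (res_lim b2)) (b5.mul (res_lim a2)) (by
    filter_upwards [eventually_mem_Om hη] with ε hε
    have := e _ hε.1
    simp only [Pi.mul_apply] at this
    rw [mul_assoc, mul_assoc, this])
  rw [mul_right_comm, mul_assoc, mul_assoc] at this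
  exact mul_right_cancel₀ (mul_ne_zero b3 a3) this
theorem IsRes.congr {D D' : ℂ → ℂ} {r : ℂ} (h : IsRes η D r) (hD : ∀ s, 3 < s.re → D s = D' s) :
    IsRes η D' r := by
  obtain ⟨I1, β1, a1, a2, a3, a4, a5⟩ := h
  exact ⟨I1, β1, a1, a2, a3, fun s hs h3 => by rw [a4 s hs h3, hD s h3], a5⟩
theorem IsRes.add {D D' : ℂ → ℂ} {r r' : ℂ} (h : IsRes η D r) (h' : IsRes η D' r') :
    IsRes η (fun s => D s + D' s) (r + r') := by
  obtain ⟨I1, β1, a1, a2, a3, a4, a5⟩ := h
  obtain ⟨I2, β2, b1, b2, b3, b4, b5⟩ := h'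
  refine ⟨fun s => I1 s * β2 s + I2 s * β1 s, fun s => β1 s * β2 s,
    (a1.mul (res_Om b2)).add (b1.mul (res_Om a2)), a2.mul b2, mul_ne_zero a3 b3,
    fun s hs h3 => ?_, ?_⟩
  · beta_reduce
    rw [a4 s hs h3, b4 s hs h3]
    ring
  · have := (a5.mul (res_lim b2)).add (b5.mul (res_lim a2))
    refine (this.congr fun ε => by ring).trans (le_of_eq ?_)
    congr 1
    ring
theorem IsRes.mul {D f : ℂ → ℂ} {r : ℂ} (h : IsRes η D r)
    (hf : DifferentiableOn ℂ f {s | 1 < s.re}) :
    IsRes η (fun s => f s * D s) (f (4 / 3) * r) := by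
  obtain ⟨I1, β1, a1, a2, a3, a4, a5⟩ := h
  refine ⟨fun s => f s * I1 s, β1, (res_Om hf).mul a1, a2, a3, fun s hs h3 => ?_, ?_⟩
  · beta_reduce
    rw [a4 s hs h3]
    ring
  · have := (res_lim hf).mul a5
    refine (this.congr fun ε => by ring).trans (le_of_eq ?_)
    congr 1
    ring
theorem IsRes.const_mul {D : ℂ → ℂ} {r : ℂ} (h : IsRes η D r) (c : ℂ) :
    IsRes η (fun s => c * D s) (c * r) := h.mul (f := fun _ => c) (differentiableOn_const c)
theorem IsRes.sub {D D' : ℂ → ℂ} {r r' : ℂ} (h : IsRes η D r) (h' : IsRes η D' r') :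
    IsRes η (fun s => D s - D' s) (r - r') := by
  have := (h.add (h'.const_mul (-1))).congr (D' := fun s => D s - D' s) fun s _ => by ring
  rwa [neg_one_mul, ← sub_eq_add_neg] at this
theorem IsRes.of_mul {D f : ℂ → ℂ} {r : ℂ} (h : IsRes η (fun s => f s * D s) r)
    (hf : DifferentiableOn ℂ f {s | 1 < s.re}) (h0 : f (4 / 3) ≠ 0) :
    IsRes η D (r / f (4 / 3)) := by
  obtain ⟨I1, β1, a1, a2, a3, a4, a5⟩ := h
  refine ⟨I1, fun s => f s * β1 s, a1, hf.mul a2, mul_ne_zero h0 a3, fun s hs h3 => ?_, ?_⟩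
  · beta_reduce
    rw [a4 s hs h3]
    ring
  · beta_reduce
    rwa [← mul_assoc, div_mul_cancel₀ _ h0]
theorem isRes_zero : IsRes η (fun _ => 0) 0 :=
  ⟨fun _ => 0, fun _ => 1, differentiableOn_const _, differentiableOn_const _, one_ne_zero,
    fun _ _ _ => by simp, by simp⟩

end

end Vale.Agent.P319N
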