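import Vale.Agent.P319N.BD
import Vale.Agent.P026.Hfun
import Vale.Agent.P026.Bes

namespace Vale.Agent.P319N

open NumberField Complex MeasureTheory Filter Topology
open scoped Classical ComplexConjugate Real MatrixGroups
open Vale.Agent.P026 (omC kap psi W Hs ht QQ act uu muH hh LL Gs bb kk UU DualW)

noncomputable section

variable {ι : Type} [Fintype ι]

theorem bhf_rot {s : ℂ} (h2 : 0 < s.im) (h3 : s.im ≤ 1) :
    (hh s * Complex.exp (-(3 / 2 * s.im : ℝ) * I)).im ≤ 0 := by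
  have hi : Integrable fun τ : ℝ =>
      Complex.exp ((s - 1) * τ) * ((max (2 - Real.cosh τ) 0 : ℝ) : ℂ) :=
    Continuous.integrable_of_hasCompactSupport (by fun_prop) (HasCompactSupport.intro
      (isCompact_Icc (a := -2) (b := 2)) fun τ h => by simp [P026.hf_out h])
  have h := integral_im (hi.mul_const (Complex.exp (-(3 / 2 * s.im : ℝ) * I)))
  rw [hh, mul_assoc, ← integral_mul_const, show (2 * π : ℂ) = ((2 * π : ℝ) : ℂ) by push_cast; rfl,
    im_ofReal_mul]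
  refine mul_nonpos_of_nonneg_of_nonpos (by positivity) (le_of_eq_of_le h.symm
    (integral_nonpos fun τ => ?_))
  by_cases e : max (2 - Real.cosh τ) 0 = 0
  · simp [e]
  have := abs_lt.1 (P026.hf_supp e).2.2
  simp only [RCLike.im_to_complex, Pi.zero_apply]
  rw [mul_right_comm, ← Complex.exp_add, im_mul_ofReal, exp_im]
  refine mul_nonpos_of_nonpos_of_nonneg (mul_nonpos_of_nonneg_of_nonpos (Real.exp_pos _).le ?_)
    (le_max_right _ _)
  have e2 : ((s - 1) * τ + -(3 / 2 * s.im : ℝ) * I).im = s.im * (τ - 3 / 2) := by simp; ring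
  rw [e2]
  exact Real.sin_nonpos_of_nonpos_of_neg_pi_le (by nlinarith) (by nlinarith [Real.pi_gt_three])

theorem bhf_pow {r : ℕ} (hr : 0 < r) {s : ℂ} (hs : s ∈ Om (r : ℝ)⁻¹) :
    0 < (hh s).im ∧ ‖hh s‖ ^ (r - 1) * (hh s).im ≤ (hh s ^ r).im := by
  obtain ⟨h1, h2, h3⟩ := hs
  have r1 : (1 : ℝ) ≤ r := by exact_mod_cast hr
  have h4 : s.im * r < 1 := by rwa [← lt_div_iff₀ (by linarith), one_div]
  have h5 : s.im ≤ 1 := by nlinarith
  have p := P026.im_hh_pos ⟨h1, h2, by linarith⟩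
  have k := bhf_rot h2 h5
  refine ⟨p, ?_⟩
  generalize hh s = z at p k
  have a0 : 0 ≤ arg z := arg_nonneg_iff.2 p.le
  have a1 : arg z < π := arg_lt_pi_iff.2 (Or.inr p.ne')
  have n0 : 0 < ‖z‖ := p.trans_le ((le_abs_self _).trans (abs_im_le_norm z))
  have a2 : arg z ≤ 3 / 2 * s.im := by
    by_contra c
    rw [← norm_mul_exp_arg_mul_I z, mul_assoc, ← Complex.exp_add, ← add_mul, ← ofReal_neg,
      ← ofReal_add, im_ofReal_mul, exp_ofReal_mul_I_im] at k
    exact k.not_gt (mul_pos n0 (Real.sin_pos_of_pos_of_lt_pi (by linarith) (by linarith)))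
  have e : (z ^ r).im = ‖z‖ ^ r * Real.sin (r * arg z) := by
    conv_lhs => rw [← norm_mul_exp_arg_mul_I z, mul_pow, ← Complex.exp_nat_mul, ← mul_assoc,
      ← ofReal_pow, ← ofReal_natCast, ← ofReal_mul, im_ofReal_mul, exp_ofReal_mul_I_im]
  rw [e, ← norm_mul_sin_arg, ← mul_assoc, ← pow_succ, Nat.sub_add_cancel hr]
  have := Real.pi_gt_three
  exact mul_le_mul_of_nonneg_left (Real.sin_le_sin_of_le_of_le_pi_div_two (by linarith)
    (by nlinarith) (by nlinarith)) (by positivity)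

theorem im_hh_pow_pos {r : ℕ} (hr : 0 < r) {s : ℂ} (hs : s ∈ Om (r : ℝ)⁻¹) :
    0 < (hh s ^ r).im := by
  obtain ⟨p, h⟩ := bhf_pow hr hs
  exact (mul_pos (pow_pos (p.trans_le ((le_abs_self _).trans (abs_im_le_norm _))) _) p).trans_le h

theorem im_hh_pow_ge {r : ℕ} (hr : 0 < r) : ∃ c : ℝ, 0 < c ∧
    ∀ ε : ℝ, 0 < ε → ε < (r : ℝ)⁻¹ → c * ε ≤ (hh (4 / 3 + ε * Complex.I) ^ r).im := by
  obtain ⟨c, hc, h⟩ := P026.im_hh_ge
  obtain ⟨e, he, hm⟩ := (isCompact_Icc (a := (0 : ℝ)) (b := 1)).exists_isMinOn ⟨0, by simp⟩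
    (f := fun ε : ℝ => ‖hh (4 / 3 + ε * Complex.I)‖)
    (P026.differentiable_hh.continuous.comp (by fun_prop)).norm.continuousOn
  have n0 : 0 < ‖hh (4 / 3 + e * Complex.I)‖ := by
    rcases he.1.eq_or_lt with rfl | h0
    · simpa using P026.hh_real.2.trans_le (re_le_norm _)
    · exact ((mul_pos hc h0).trans_le (h e h0 he.2)).trans_le
        ((le_abs_self _).trans (abs_im_le_norm _))
  refine ⟨‖hh (4 / 3 + e * Complex.I)‖ ^ (r - 1) * c, by positivity, fun ε h0 h1 => ?_⟩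
  have h2 : ε ≤ 1 := h1.le.trans (inv_le_one_of_one_le₀ (by exact_mod_cast hr))
  refine le_trans ?_ (bhf_pow hr (s := 4 / 3 + ε * Complex.I)
    ⟨by simp; norm_num, by simpa using h0, by simpa using h1⟩).2
  rw [mul_assoc]
  exact mul_le_mul (pow_le_pow_left₀ n0.le (hm ⟨h0.le, h2⟩) _) (h ε h0 h2) (by positivity)
    (by positivity)

theorem measurable_pisP (s : ℂ) : Measurable (pisP ι s) := by
  have := P026.measurable_Gs s
  refine Measurable.sub (StronglyMeasurable.integral_prod_right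
    (Measurable.stronglyMeasurable ?_)).measurable (this.const_mul _)
  exact (this.comp (by fun_prop)).mul (by fun_prop)

theorem bhf_exp {τ : ι → ℝ} (h : ∀ σ, max (2 - Real.cosh (τ σ)) 0 ≠ 0) :
    Real.exp (∑ σ, τ σ) ≤ 4 ^ Fintype.card ι ∧ Real.exp (-∑ σ, τ σ) ≤ 4 ^ Fintype.card ι := by
  rw [← Finset.sum_neg_distrib, Real.exp_sum, Real.exp_sum, ← Finset.card_univ, ← Finset.prod_const]
  exact ⟨Finset.prod_le_prod (fun _ _ => (Real.exp_pos _).le) fun σ _ => (P026.hf_supp (h σ)).1.le,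
    Finset.prod_le_prod (fun _ _ => (Real.exp_pos _).le) fun σ _ => (P026.hf_supp (h σ)).2.1.le⟩

theorem bhf_zero {τ : ι → ℝ} (h : ¬ ∀ σ, max (2 - Real.cosh (τ σ)) 0 ≠ 0) :
    ∏ σ, 2 * π * (Real.exp (-τ σ) * max (2 - Real.cosh (τ σ)) 0) = 0 := by
  obtain ⟨σ, e⟩ := not_forall.1 h
  exact Finset.prod_eq_zero (Finset.mem_univ σ) (by rw [not_not.1 e, mul_zero, mul_zero])

theorem pisP_support (s : ℂ) {q : ℝ} (hq : 0 < q)
    (h : q < (4 ^ Fintype.card ι)⁻¹ ∨ 4 ^ Fintype.card ι < q) : pisP ι s q = 0 := by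
  rw [pisP, sub_eq_zero, LLP, hh, ← integral_const_mul, ← integral_fintype_prod_volume_eq_pow,
    ← integral_mul_const]
  congr 1
  ext τ
  have f1 : (1 : ℝ) ≤ 4 ^ Fintype.card ι := one_le_pow₀ (by norm_num)
  by_cases e : ∀ σ, max (2 - Real.cosh (τ σ)) 0 ≠ 0
  swap
  · obtain ⟨σ, e1⟩ := not_forall.1 e
    rw [bhf_zero e, Finset.prod_eq_zero (Finset.mem_univ σ) (by rw [not_not.1 e1]; simp)]
    simp
  obtain ⟨h1, h2⟩ := bhf_exp e
  have h3 := Real.exp_pos (-∑ σ, τ σ)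
  rcases h with h | h
  · have := inv_le_one_of_one_le₀ f1
    rw [lt_inv_comm₀ hq (by linarith), ← one_div, lt_div_iff₀ hq] at h
    rw [Gs, Gs, if_neg (by nlinarith), if_neg (by nlinarith), zero_mul, mul_zero]
  · have h4 : Real.exp (∑ σ, τ σ) * Real.exp (-∑ σ, τ σ) = 1 := by rw [← Real.exp_add]; simp
    rw [Gs, Gs, if_pos (by nlinarith), if_pos (by linarith), ofReal_mul,
      mul_cpow_ofReal_nonneg hq.le h3.le, P026.bes_cpow, mul_assoc, mul_comm, ofReal_prod,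
      ofReal_neg, ofReal_sum, neg_mul_neg, Finset.sum_mul, Complex.exp_sum, ← Finset.prod_mul_distrib]
    congr 1
    refine Finset.prod_congr rfl fun σ _ => ?_
    rw [show (s - 1) * τ σ = τ σ * s + -τ σ by ring, Complex.exp_add]
    push_cast
    ring

theorem bhf_bd {s : ℂ} {R q : ℝ} (hs : ‖s‖ ≤ R) (hq : 0 < q) (τ : ι → ℝ) :
    ‖Gs s (q * Real.exp (-∑ σ, τ σ)) *
      ((∏ σ, 2 * π * (Real.exp (-τ σ) * max (2 - Real.cosh (τ σ)) 0) : ℝ) : ℂ)‖ ≤
      (q * 4 ^ Fintype.card ι) ^ R * ∏ _σ : ι, 2 * π * 4 := by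
  by_cases e : ∀ σ, max (2 - Real.cosh (τ σ)) 0 ≠ 0
  swap
  · rw [bhf_zero e, ofReal_zero, mul_zero, norm_zero]; positivity
  rw [norm_mul, Complex.norm_real, Real.norm_of_nonneg (by positivity)]
  refine mul_le_mul (P026.hf_Gs_le hs (by gcongr; exact (bhf_exp e).2) (by positivity))
    (Finset.prod_le_prod (fun _ _ => by positivity) fun σ _ => mul_le_mul_of_nonneg_left ?_
      (by positivity)) (by positivity) (by positivity)
  exact (mul_le_of_le_one_right (by positivity) (P026.hf_le _)).trans (P026.hf_supp (e σ)).2.1.le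

theorem bhf_set (s : ℂ) (q : ℝ) : LLP ι (Gs s) q =
    ∫ τ in Set.univ.pi fun _ : ι => Set.Icc (-2 : ℝ) 2, Gs s (q * Real.exp (-∑ σ, τ σ)) *
      ((∏ σ, 2 * π * (Real.exp (-τ σ) * max (2 - Real.cosh (τ σ)) 0) : ℝ) : ℂ) :=
  (setIntegral_eq_integral_of_forall_compl_eq_zero fun τ h => by
    rw [bhf_zero fun e => h fun σ _ => not_not.1 fun c => e σ (P026.hf_out c), ofReal_zero,
      mul_zero]).symm

theorem bhf_fin : (volume : Measure (ι → ℝ)) (Set.univ.pi fun _ : ι => Set.Icc (-2 : ℝ) 2) < ⊤ :=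
  (isCompact_univ_pi fun _ => isCompact_Icc).measure_lt_top

theorem differentiable_pisP {q : ℝ} (hq : 0 < q) : Differentiable ℂ (fun s => pisP ι s q) := by
  simp only [pisP, bhf_set]
  have := isFiniteMeasure_restrict.2 (bhf_fin (ι := ι)).ne
  refine (P026.dl_integral _ _ (fun s => ?_) (fun x => (P026.hf_dGs _).mul_const _)
    fun R => ⟨_, fun s hs τ => bhf_bd hs hq τ⟩).sub
      ((P026.differentiable_hh.pow _).mul (P026.hf_dGs q))
  exact ((P026.measurable_Gs s).comp (by fun_prop)).mul (by fun_prop)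

theorem pisP_bound (R : ℝ) : ∃ C : ℝ, ∀ s, ‖s‖ ≤ R → ∀ q, 0 < q → ‖pisP ι s q‖ ≤ C := by
  obtain ⟨B, hB⟩ := (isCompact_closedBall (0 : ℂ) R).exists_bound_of_continuousOn
    (P026.differentiable_hh.pow (Fintype.card ι)).continuous.continuousOn
  refine ⟨((4 ^ Fintype.card ι * 4 ^ Fintype.card ι) ^ R * ∏ _σ : ι, 2 * π * 4) *
    volume.real (Set.univ.pi fun _ : ι => Set.Icc (-2 : ℝ) 2) + B * (4 ^ Fintype.card ι) ^ R,
    fun s hs q hq => ?_⟩
  have h1 := hB s (mem_closedBall_zero_iff.2 hs)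
  have h2 := (norm_nonneg _).trans h1
  rcases lt_or_ge (4 ^ Fintype.card ι) q with h | h
  · rw [pisP_support s hq (Or.inr h), norm_zero]; positivity
  refine (norm_sub_le _ _).trans (add_le_add ?_ ?_)
  · rw [bhf_set]
    refine norm_setIntegral_le_of_norm_le_const bhf_fin fun τ _ => (bhf_bd hs hq τ).trans ?_
    have := (norm_nonneg s).trans hs
    gcongr
  · rw [norm_mul]
    exact mul_le_mul h1 (P026.hf_Gs_le hs h (by positivity)) (norm_nonneg _) h2

end

end Vale.Agent.P319N
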