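import Vale.Agent.P319N.BD
import Vale.Agent.P026.Rad

namespace Vale.Agent.P319N

open NumberField Complex MeasureTheory Filter Topology
open scoped Classical ComplexConjugate Real MatrixGroups
open Vale.Agent.P026 (omC kap psi W Hs ht QQ act uu muH hh LL Gs bb kk UU DualW)

noncomputable section

theorem bmu_fin {n : ℕ} {X : Type} [MeasurableSpace X] (μ : Fin n → Measure X)
    [∀ i, SigmaFinite (μ i)] {f : Fin n → X → ENNReal} (hf : ∀ i, Measurable (f i)) :
    ∫⁻ x : Fin n → X, ∏ i, f i (x i) ∂(Measure.pi μ) = ∏ i, ∫⁻ x, f i x ∂(μ i) := by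
  induction n with
  | zero => simp
  | succ n ih =>
    rw [((measurePreserving_piFinSuccAbove μ 0).symm).lintegral_map_equiv, Fin.prod_univ_succ,
      ← ih (fun i => μ i.succ) fun i => hf _, ← lintegral_prod_mul (hf 0).aemeasurable
        (g := fun x : Fin n → X => ∏ i, f i.succ (x i))
        (Finset.measurable_prod _ fun i _ => (hf _).comp (measurable_pi_apply i)).aemeasurable]
    refine lintegral_congr fun x => ?_
    rw [Fin.prod_univ_succ]
    rfl

variable {ι : Type} [Fintype ι]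

theorem bmu_lint {X : Type} [MeasurableSpace X] (μ : ι → Measure X)
    [∀ i, SigmaFinite (μ i)] {f : ι → X → ENNReal} (hf : ∀ i, Measurable (f i)) :
    ∫⁻ x : ι → X, ∏ i, f i (x i) ∂(Measure.pi μ) = ∏ i, ∫⁻ x, f i x ∂(μ i) := by
  let e := (Fintype.equivFin ι).symm
  rw [(measurePreserving_piCongrLeft μ e).lintegral_map_equiv]
  simp_rw [← e.prod_comp, MeasurableEquiv.coe_piCongrLeft, Equiv.piCongrLeft_apply_apply]
  exact bmu_fin _ fun i => hf _

theorem bmu_wd {X : Type} [MeasurableSpace X] (μ : ι → Measure X) [∀ i, SigmaFinite (μ i)]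
    {f : ι → X → ENNReal} (hf : ∀ i, Measurable (f i))
    [∀ i, SigmaFinite ((μ i).withDensity (f i))] :
    (Measure.pi fun i => (μ i).withDensity (f i)) =
      (Measure.pi μ).withDensity fun x => ∏ i, f i (x i) :=
  Measure.pi_eq fun s hs => by
    rw [withDensity_apply _ (MeasurableSet.univ_pi hs), Measure.restrict_pi_pi, bmu_lint _ hf]
    exact Finset.prod_congr rfl fun i _ => (withDensity_apply _ (hs i)).symm

instance muP_locallyFinite : IsLocallyFiniteMeasure (muP ι) := inferInstance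
instance muP_openPos : (muP ι).IsOpenPosMeasure := inferInstance
theorem continuous_zc : Continuous (zc (ι := ι)) := by unfold zc; fun_prop
theorem continuous_tc : Continuous (tc (ι := ι)) := by unfold tc; fun_prop
theorem continuous_mkP : Continuous fun p : (ι → ℂ) × (ι → ℝ) => mkP p.1 p.2 := by
  unfold mkP; fun_prop
theorem zc_mkP (z : ι → ℂ) (t : ι → ℝ) : zc (mkP z t) = z := rfl
theorem tc_mkP (z : ι → ℂ) (t : ι → ℝ) : tc (mkP z t) = t := rfl
theorem mkP_zc_tc (w : ι → Hs) : mkP (zc w) (tc w) = w := rfl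

theorem bmu_meas : Measurable fun p : (ι → ℂ) × (ι → ℝ) =>
    ENNReal.ofReal (Real.exp (-2 * ∑ σ, p.2 σ)) := by fun_prop

theorem bmu_emb : MeasurableEmbedding fun p : (ι → ℂ) × (ι → ℝ) => mkP p.1 p.2 :=
  (MeasurableEquiv.arrowProdEquivProdArrow ℂ ℝ ι).symm.measurableEmbedding

theorem muP_eq : muP ι = ((volume : Measure ((ι → ℂ) × (ι → ℝ))).withDensity
    fun p => ENNReal.ofReal (Real.exp (-2 * ∑ σ, p.2 σ))).map fun p => mkP p.1 p.2 := by
  have : SigmaFinite ((volume : Measure Hs).withDensity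
    fun w => ENNReal.ofReal (Real.exp (-2 * w.2))) := P026.muH_sigmaFinite
  refine (bmu_wd (fun _ : ι => (volume : Measure Hs)) fun _ => P026.geoM_meas).trans
    (Measure.ext_of_lintegral _ fun F hF => ?_)
  have h : Measurable fun p : (ι → ℂ) × (ι → ℝ) => F (mkP p.1 p.2) :=
    hF.comp continuous_mkP.measurable
  rw [lintegral_withDensity_eq_lintegral_mul _ (by fun_prop) hF, bmu_emb.lintegral_map,
    lintegral_withDensity_eq_lintegral_mul _ bmu_meas h]
  refine ((measurePreserving_arrowProdEquivProdArrow ℂ ℝ ι (fun _ => volume)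
    (fun _ => volume)).symm.lintegral_map_equiv _).trans (lintegral_congr fun p => ?_)
  simp only [Pi.mul_apply]
  rw [Finset.mul_sum, Real.exp_sum, ENNReal.ofReal_prod_of_nonneg fun _ _ => (Real.exp_pos _).le]
  rfl

theorem lintegral_muP {F : (ι → Hs) → ENNReal} (hF : Measurable F) :
    ∫⁻ w, F w ∂(muP ι) = ∫⁻ t : ι → ℝ, ENNReal.ofReal (Real.exp (-2 * ∑ σ, t σ)) *
      ∫⁻ z : ι → ℂ, F (mkP z t) := by
  have h : Measurable fun p : (ι → ℂ) × (ι → ℝ) => F (mkP p.1 p.2) :=
    hF.comp continuous_mkP.measurable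
  rw [muP_eq, bmu_emb.lintegral_map, lintegral_withDensity_eq_lintegral_mul _ bmu_meas h,
    Measure.volume_eq_prod, lintegral_prod_symm _ (bmu_meas.mul h).aemeasurable]
  refine lintegral_congr fun t => ?_
  rw [← lintegral_const_mul' _ _ ENNReal.ofReal_ne_top]
  rfl

theorem integrable_muP_iff {F : (ι → Hs) → ℂ} :
    Integrable F (muP ι) ↔ Integrable (fun p : (ι → ℂ) × (ι → ℝ) =>
      ((Real.exp (-2 * ∑ σ, p.2 σ) : ℝ) : ℂ) * F (mkP p.1 p.2)) volume := by
  rw [muP_eq, bmu_emb.integrable_map_iff, integrable_withDensity_iff_integrable_smul' bmu_meas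
    (ae_of_all _ fun w => ENNReal.ofReal_lt_top)]
  simp only [ENNReal.toReal_ofReal (Real.exp_pos _).le, Complex.real_smul, Function.comp]

theorem integral_muP {F : (ι → Hs) → ℂ} (hF : Integrable F (muP ι)) :
    ∫ w, F w ∂(muP ι) = ∫ t : ι → ℝ, ((Real.exp (-2 * ∑ σ, t σ) : ℝ) : ℂ) *
      ∫ z : ι → ℂ, F (mkP z t) := by
  have h := integrable_muP_iff.1 hF
  rw [muP_eq, bmu_emb.integral_map, integral_withDensity_eq_integral_toReal_smul bmu_meas
    (ae_of_all _ fun w => ENNReal.ofReal_lt_top)]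
  simp only [ENNReal.toReal_ofReal (Real.exp_pos _).le, Complex.real_smul]
  rw [Measure.volume_eq_prod] at h ⊢
  rw [integral_prod_symm _ h]
  simp only [integral_const_mul]

theorem setIntegral_muP {S : Set (ι → ℂ)} (hS : MeasurableSet S) {F : (ι → Hs) → ℂ}
    (hF : IntegrableOn F {w | zc w ∈ S} (muP ι)) :
    ∫ w in {w | zc w ∈ S}, F w ∂(muP ι) = ∫ t : ι → ℝ,
      ((Real.exp (-2 * ∑ σ, t σ) : ℝ) : ℂ) * ∫ z in S, F (mkP z t) := by
  have h : MeasurableSet {w : ι → Hs | zc w ∈ S} := continuous_zc.measurable hS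
  rw [← integral_indicator h, integral_muP ((integrable_indicator_iff h).2 hF)]
  simp only [← integral_indicator hS]
  rfl

theorem ae_muP {p : (ι → Hs) → Prop} (hp : MeasurableSet {w | p w})
    (h : ∀ᵐ t : ι → ℝ, ∀ᵐ z : ι → ℂ, p (mkP z t)) : ∀ᵐ w ∂(muP ι), p w := by
  have hc : MeasurableSet {w | ¬ p w} := hp.compl
  rw [ae_iff, ← lintegral_indicator_one hc, lintegral_muP (measurable_one.indicator hc)]
  refine (lintegral_congr_ae (h.mono fun t ht => ?_)).trans lintegral_zero
  exact mul_eq_zero_of_right _ ((lintegral_congr_ae (ht.mono fun z hz =>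
    Set.indicator_of_notMem (not_not.2 hz) _)).trans lintegral_zero)

theorem isCompact_box {S : Set (ι → ℂ)} (hS : Bornology.IsBounded S) (T : ℝ) :
    IsCompact (closure {w : ι → Hs | zc w ∈ S ∧ ‖tc w‖ ≤ T}) := by
  have h := (hS.isCompact_closure.prod (isCompact_closedBall (0 : ι → ℝ) T)).image continuous_mkP
  exact h.closure_of_subset fun w hw =>
    ⟨(zc w, tc w), ⟨subset_closure hw.1, mem_closedBall_zero_iff.2 hw.2⟩, rfl⟩

theorem measurePreserving_actP (g : ι → SL(2, ℂ)) :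
    MeasurePreserving (fun (w : ι → Hs) σ => act (g σ) (w σ)) (muP ι) (muP ι) :=
  measurePreserving_pi _ _ fun σ => P026.measurePreserving_act (g σ)

theorem bmu_ball (w : ι → Hs) : ballP w = Set.univ.pi fun σ => {w' | uu (w σ) w' ≤ 2} := by
  ext w'; simp [ballP]

theorem measurableSet_ballP (w : ι → Hs) : MeasurableSet (ballP w) :=
  bmu_ball w ▸ MeasurableSet.univ_pi fun _ => P026.measurableSet_uball _

theorem isCompact_ballP (w : ι → Hs) : IsCompact (ballP w) :=
  bmu_ball w ▸ isCompact_univ_pi fun _ => P026.rad_compact _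

theorem ballP_vol : ∃ V : ℝ, ∀ w : ι → Hs, muP ι (ballP w) = ENNReal.ofReal V := by
  obtain ⟨V, hV⟩ := P026.uball_vol
  refine ⟨(∏ _σ : ι, ENNReal.ofReal V).toReal, fun w => ?_⟩
  rw [bmu_ball, Measure.pi_pi,
    ENNReal.ofReal_toReal (ENNReal.prod_ne_top fun _ _ => ENNReal.ofReal_ne_top)]
  exact Finset.prod_congr rfl fun σ _ => hV _

theorem continuous_gw : Continuous (gw (ι := ι)) :=
  Real.continuous_exp.comp (continuous_finsetSum _ fun σ _ =>
    P026.continuous_uu.comp ((continuous_apply σ).prodMk continuous_const)).neg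

theorem bmu_bal {D : ℝ} {y : ι → ℝ} (h : Bal D y) (σ : ι) : |y σ| ≤ |∑ σ, y σ| + D := by
  have r1 : (1 : ℝ) ≤ Fintype.card ι := by exact_mod_cast Fintype.card_pos_iff.2 ⟨σ⟩
  have h1 : |∑ τ, (y σ - y τ)| ≤ Fintype.card ι * D := by
    refine (Finset.abs_sum_le_sum_abs _ _).trans ((Finset.sum_le_card_nsmul _ _ D
      fun τ _ => h σ τ).trans (le_of_eq (nsmul_eq_mul _ _)))
  rw [Finset.sum_sub_distrib, Finset.sum_const, nsmul_eq_mul, Finset.card_univ] at h1
  have h2 := abs_sub_abs_le_abs_sub (Fintype.card ι * y σ) (∑ τ, y τ)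
  rw [abs_mul, abs_of_nonneg (by linarith : (0 : ℝ) ≤ Fintype.card ι)] at h2
  refine le_of_mul_le_mul_left ?_ (by linarith : (0 : ℝ) < Fintype.card ι)
  nlinarith [abs_nonneg (∑ τ, y τ)]

theorem bmu_exp {b : ℝ} (hb : 0 < b) : Integrable fun x : ℝ => Real.exp (-(b * |x|)) := by
  rw [← integrableOn_univ, ← Set.Iic_union_Ioi (a := 0)]
  exact ((integrableOn_exp_mul_Iic hb 0).congr_fun (fun x hx => by
    simp only [abs_of_nonpos (Set.mem_Iic.1 hx), mul_neg, neg_neg]) measurableSet_Iic).union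
    ((exp_neg_integrableOn_Ioi 0 hb).congr_fun (fun x hx => by
      simp only [abs_of_pos (Set.mem_Ioi.1 hx), neg_mul]) measurableSet_Ioi)

theorem integrableOn_bal (D : ℝ) {a : ℝ} (ha : 0 < a) :
    IntegrableOn (fun y : ι → ℝ => Real.exp (-(a * |∑ σ, y σ|))) {y | Bal D y} := by
  have hm : MeasurableSet {y : ι → ℝ | Bal D y} := by
    simp only [Bal, Set.ofPred_forall]
    exact (isClosed_iInter fun σ => isClosed_iInter fun τ =>
      isClosed_le (by fun_prop) continuous_const).measurableSet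
  have r0 : (0 : ℝ) ≤ Fintype.card ι := Nat.cast_nonneg _
  have hi := (Integrable.fintype_prod (ι := ι) fun _ =>
    bmu_exp (b := a / (Fintype.card ι + 1)) (by positivity)).const_mul (Real.exp (a * |D|))
  refine hi.integrableOn.mono' (Continuous.aestronglyMeasurable (by fun_prop))
    ((ae_restrict_iff' hm).2 (.of_forall fun y hy => ?_))
  rw [Real.norm_of_nonneg (Real.exp_pos _).le, ← Real.exp_sum, ← Real.exp_add, Real.exp_le_exp,
    Finset.sum_neg_distrib, ← Finset.mul_sum]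
  have h1 := Finset.sum_le_card_nsmul Finset.univ (fun σ => |y σ|) (|∑ σ, y σ| + |D|)
    fun σ _ => (bmu_bal hy σ).trans (by linarith [le_abs_self D])
  rw [nsmul_eq_mul, Finset.card_univ] at h1
  have h2 : a / (Fintype.card ι + 1) * ∑ σ, |y σ| ≤ a * (|∑ σ, y σ| + |D|) := by
    rw [div_mul_eq_mul_div, mul_div_assoc]
    refine mul_le_mul_of_nonneg_left ((div_le_iff₀ (by positivity)).2 ?_) ha.le
    nlinarith [abs_nonneg (∑ σ, y σ), abs_nonneg D]
  linarith

theorem bal_norm_le [Nonempty ι] {D : ℝ} {y : ι → ℝ} (h : Bal D y) : ‖y‖ ≤ |∑ σ, y σ| + D :=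
  (pi_norm_le_iff_of_nonempty _).2 (bmu_bal h)

end

end Vale.Agent.P319N
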