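import Vale.Agent.P319N.BQ
import Vale.Agent.P319N.BMu

namespace Vale.Agent.P319N

open NumberField Complex MeasureTheory Filter Topology
open scoped Classical ComplexConjugate Real MatrixGroups
open Vale.Agent.P026 (omC kap psi W Hs ht QQ act uu muH hh LL Gs bb kk UU DualW)

noncomputable section

variable {ι : Type} [Fintype ι]

theorem brad_origin {H : (ι → ℝ) → ℂ} (hH : Measurable H) {Bd : ℝ} (hb : ∀ q, ‖H q‖ ≤ Bd) :
    ∫ w' in ballP fun _ : ι => ((0, 0) : Hs), H (tc w') ∂(muP ι) = ∫ τ : ι → ℝ, H τ *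
      ((∏ σ, 2 * π * (Real.exp (-τ σ) * max (2 - Real.cosh (τ σ)) 0) : ℝ) : ℂ) := by
  have hi : IntegrableOn (fun w' => H (tc w')) (ballP fun _ : ι => ((0, 0) : Hs)) (muP ι) :=
    Measure.integrableOn_of_bounded (isCompact_ballP _).measure_lt_top.ne
      (hH.comp continuous_tc.measurable).aestronglyMeasurable (Eventually.of_forall fun w => hb _)
  rw [← integral_indicator (measurableSet_ballP _),
    integral_muP ((integrable_indicator_iff (measurableSet_ballP _)).2 hi)]
  congr 1
  ext t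
  have e : (fun z : ι → ℂ => (ballP fun _ : ι => ((0, 0) : Hs)).indicator
      (fun w' => H (tc w')) (mkP z t)) = (Set.univ.pi fun σ =>
        {z : ℂ | normSq z ≤ 2 * Real.exp (t σ) * (2 - Real.cosh (t σ))}).indicator fun _ => H t := by
    ext z
    simp only [Set.indicator, ballP, mkP, Set.mem_ofPred_eq, P026.rad_mem, Set.mem_univ_pi]
    rfl
  rw [e, integral_indicator_const _ (MeasurableSet.univ_pi fun σ =>
    measurableSet_le (by fun_prop) measurable_const), measureReal_def, volume_pi_pi,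
    ENNReal.toReal_prod, real_smul, ← mul_assoc, mul_comm, ← ofReal_mul, Finset.mul_sum,
    Real.exp_sum, ← Finset.prod_mul_distrib]
  congr 2
  refine Finset.prod_congr rfl fun σ _ => ?_
  have h4 : Real.exp (-2 * t σ) * Real.exp (t σ) = Real.exp (-t σ) := by
    rw [← Real.exp_add]; ring_nf
  rw [← measureReal_def, P026.rad_disc, ← mul_zero (2 * Real.exp (t σ)),
    ← mul_max_of_nonneg _ _ (by positivity), ← h4]
  ring

theorem LopP_radial {G : ℝ → ℂ} (hG : Measurable G) {Bd : ℝ} (hb : ∀ q, ‖G q‖ ≤ Bd)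
    {c d : ι → ℂ} (h : ∀ σ, c σ ≠ 0 ∨ d σ ≠ 0) (w : ι → Hs) :
    LopP (fun w' => G (∏ σ, QQ (w' σ) (c σ) (d σ))) w =
      LLP ι G (∏ σ, QQ (w σ) (c σ) (d σ)) := by
  choose g e2 e3 using fun σ => bq_exists (h σ) (w σ)
  have hm : Measurable fun w' : ι → Hs => G (∏ σ, QQ (w' σ) (c σ) (d σ)) :=
    hG.comp (continuous_finsetProd _ fun σ _ =>
      (continuous_QQ _ _).comp (continuous_apply σ)).measurable
  have mp := measurePreserving_actP g
  rw [LopP, ← integral_indicator (measurableSet_ballP w), ← mp.map_eq, integral_map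
    mp.measurable.aemeasurable (hm.indicator (measurableSet_ballP w)).aestronglyMeasurable, LLP,
    ← brad_origin (H := fun τ => G ((∏ σ, QQ (w σ) (c σ) (d σ)) * Real.exp (-∑ σ, τ σ)))
      (hG.comp (by fun_prop)) fun _ => hb _, ← integral_indicator (measurableSet_ballP _)]
  refine integral_congr_ae (.of_forall fun w' => ?_)
  have e : (fun σ => act (g σ) (w' σ)) ∈ ballP w ↔ w' ∈ ballP fun _ : ι => ((0, 0) : Hs) :=
    forall_congr' fun σ => by rw [← e2 σ, P026.uu_act]
  simp only [Set.indicator, e, e3, Finset.prod_mul_distrib, ← Real.exp_sum, Finset.sum_neg_distrib]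
  rfl

end

end Vale.Agent.P319N
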