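import Vale.Agent.P319N.BCnt
import Vale.Agent.P319N.BRad
import Vale.Agent.P319N.BHf

namespace Vale.Agent.P319N

open NumberField Complex MeasureTheory Filter Topology
open scoped Classical ComplexConjugate Real MatrixGroups
open Vale.Agent.P026 (omC kap psi W Hs ht QQ act uu muH hh LL Gs bb kk UU DualW)

noncomputable section

variable {K : Type} [Field K] [NumberField K] [Level K]

theorem Adm.ad1 {q : K} {κ : SLK K → ℂ} {Φ : K × K → ℂ} (h : Adm q κ Φ) (σ : SLK K) {j : ℕ}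
    (hσ : Ent j σ) : ∃ i B, Ad1 i B (tw Φ σ) := by
  obtain ⟨B, hB⟩ := h.bd
  obtain ⟨i, hi⟩ := h.supp
  refine ⟨i + j, B, fun x => hB _, fun x hx => ?_, fun u hu x => ?_⟩
  · have := (hi _ hx).rmul hσ
    rwa [← rmul_mul, inv_mul_cancel, rmul_one] at this
  · rw [tw, tw, rmul_smul, h.unit u hu]
theorem Adm.val {q : K} {κ : SLK K → ℂ} {Φ : K × K → ℂ} (h : Adm q κ Φ) (σ : SLK K) {j : ℕ}
    (hσ : Ent j σ) : Val (pd q j) (tw Φ σ) := by
  refine ⟨pd_ne h.qne j, pd_isI h.qint j, fun c d k hk => ?_⟩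
  rw [tw, tw, mul_assoc c, ← rmul_Tm, ← rmul_mul,
    show Tm (pd q j * k) * σ⁻¹ = σ⁻¹ * (σ * Tm (pd q j * k) * σ⁻¹) by group, rmul_mul,
    h.eqv _ (conj_Tm_mem h.qint h.qne hσ hk), h.unip j σ hσ k hk, one_mul]
theorem Inc_actK (Φ : K × K → ℂ) (G : ℝ → ℂ) (σ : SLK K) (w : HH K) :
    Inc Φ G (actK σ w) = Inc (tw Φ σ) G w := by
  unfold Inc
  rw [← (Equiv.ofBijective _ (rmul_bijective σ)).tsum_eq
    fun x => if lq w x ∈ DD K then tw Φ σ x * G (QK w x) else 0]
  refine tsum_congr fun x => ?_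
  simp only [Equiv.ofBijective_apply, tw, ← rmul_mul, mul_inv_cancel, rmul_one, QK_actK, lq_actK]

theorem inc_inv {q : K} {κ : SLK K → ℂ} {Φ : K × K → ℂ} (h : Adm q κ Φ) {γ : SLK K}
    (hγ : γ ∈ Gam q) : κ γ⁻¹ = conj (κ γ) := by
  have ne : ∀ γ ∈ Gam q, κ γ ≠ 0 := fun γ hg h0 => by simpa [h0] using h.norm γ hg
  have a1 : κ 1 = 1 := by
    have := h.mul 1 (one_mem _) 1 (one_mem _)
    rw [mul_one] at this
    exact (mul_left_cancel₀ (ne 1 (one_mem _)) (this.symm.trans (mul_one _).symm))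
  have a2 := h.mul γ hγ γ⁻¹ (inv_mem hγ)
  rw [mul_inv_cancel, a1] at a2
  refine mul_left_cancel₀ (ne γ hγ) ?_
  rw [← a2, Complex.mul_conj', h.norm γ hγ]
  simp

theorem aut_Inc {q : K} {κ : SLK K → ℂ} {Φ : K × K → ℂ} (h : Adm q κ Φ) (G : ℝ → ℂ) :
    Aut q κ (Inc Φ G) := by
  intro γ hγ w
  rw [Inc_actK, Inc, Inc, ← tsum_mul_left]
  refine tsum_congr fun x => ?_
  rw [tw, h.eqv _ (inv_mem hγ), inc_inv h hγ, mul_ite, mul_zero, mul_assoc]
theorem measurable_Inc (Φ : K × K → ℂ) {G : ℝ → ℂ} (hG : Measurable G) :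
    Measurable (Inc Φ G) :=
  Measurable.tsum fun x => Measurable.ite (measurable_lq x isFD_DD.1)
    ((hG.comp (continuous_QK x).measurable).const_mul _) measurable_const

theorem inc_sum {j : ℕ} {q0 : ℝ} (hq : 0 < q0) (w : HH K) : Summable (mt j q0 w) := by
  obtain ⟨C, -, h⟩ := maj_bound (K := K) j hq
  exact (h w).1

theorem Inc_maj {j : ℕ} {B : ℝ} {Φ : K × K → ℂ} (hΦ : Ad1 j B Φ) {G : ℝ → ℂ} {q0 C : ℝ}
    (hq : 0 < q0) (w : HH K)
    (hG : ∀ x : K × K, Φ x ≠ 0 →
      ‖G (QK w x)‖ ≤ C * if q0 ≤ QK w x then QK w x ^ (-3 : ℝ) else 0) :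
    (∀ x, ‖if lq w x ∈ DD K then Φ x * G (QK w x) else 0‖ ≤ |B| * |C| * mt j q0 w x) ∧
    Summable (fun x : K × K => if lq w x ∈ DD K then Φ x * G (QK w x) else 0) ∧
      ‖Inc Φ G w‖ ≤ |B| * |C| * Maj j q0 w := by
  have h1 : ∀ x, ‖if lq w x ∈ DD K then Φ x * G (QK w x) else 0‖ ≤ |B| * |C| * mt j q0 w x := by
    intro x
    have m0 := mt_nonneg j q0 w x
    by_cases h0 : Φ x = 0
    · simp only [h0, zero_mul, ite_self, norm_zero]
      positivity
    split_ifs with hd
    · have hp := QK_pos w (hΦ.supp x h0).ne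
      have e : mt j q0 w x = if q0 ≤ QK w x then QK w x ^ (-3 : ℝ) else 0 := by
        simp only [mt, hΦ.supp x h0, hd, true_and]
      rw [norm_mul, mul_assoc]
      refine mul_le_mul ((hΦ.bd x).trans (le_abs_self B)) ((hG x h0).trans ?_) (norm_nonneg _)
        (abs_nonneg _)
      rw [← e]
      exact mul_le_mul_of_nonneg_right (le_abs_self C) m0
    · rw [norm_zero]
      positivity
  have h2 := (inc_sum (j := j) hq w).hasSum.mul_left (|B| * |C|)
  exact ⟨h1, h2.summable.of_norm_bounded h1, tsum_of_norm_bounded h2 h1⟩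

theorem differentiable_Inc_band {j : ℕ} {B : ℝ} {Φ : K × K → ℂ} (hΦ : Ad1 j B Φ)
    {G : ℂ → ℝ → ℂ} (hd : ∀ x, 0 < x → Differentiable ℂ (fun s => G s x)) {q1 : ℝ}
    (hs : ∀ s x, q1 < x → G s x = 0) (w : HH K) :
    Differentiable ℂ (fun s => Inc Φ (G s) w) := by
  obtain ⟨D, -, hD⟩ := DD_bal (K := K)
  obtain ⟨C, -, h⟩ := count_supp (K := K) j D
  obtain ⟨hf, -⟩ := h w _ (le_max_right q1 0)
  rw [show (fun s => Inc Φ (G s) w) = fun s => ∑ x ∈ hf.toFinset,
      if lq w x ∈ DD K then Φ x * G s (QK w x) else 0 from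
    funext fun s => tsum_eq_sum fun x hx => ?_]
  · refine Differentiable.fun_sum fun x hx => ?_
    split_ifs
    · exact (hd _ (QK_pos w (hf.mem_toFinset.1 hx).1.ne)).const_mul _
    · exact differentiable_const _
  · split_ifs with c
    · by_cases h0 : Φ x = 0
      · rw [h0, zero_mul]
      · rw [hs _ _ (lt_of_le_of_lt (le_max_left q1 0) (not_le.1 fun h1 =>
          hx (hf.mem_toFinset.2 ⟨hΦ.supp x h0, hD _ c, h1⟩))), mul_zero]
    · rfl

theorem inc_change {j : ℕ} {B : ℝ} {Φ : K × K → ℂ} (hΦ : Ad1 j B Φ) {E : Type} [AddCommMonoid E]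
    [TopologicalSpace E] (g : ℂ → ℝ → E) (hg : ∀ t, g 0 t = 0) (w w' : HH K) {a : E}
    (h : HasSum (fun x : K × K => if lq w' x ∈ DD K then g (Φ x) (QK w' x) else 0) a) :
    HasSum (fun x : K × K => if lq w x ∈ DD K then g (Φ x) (QK w' x) else 0) a := by
  have k : ∀ v : HH K, ∀ u ∈ U1 K, ∀ x : K × K, g (Φ x) (QK w' x) ≠ 0 →
      lq v ((u : K) * x.1, (u : K) * x.2) = lq v x + Lg (u : K) := fun v u _ x hx =>
    lq_smul v u.ne_zero (hΦ.supp x fun h0 => hx (by rw [h0, hg])).ne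
  refine (rep_change (K := K) (fun (u : Kˣ) (x : K × K) => ((u : K) * x.1, (u : K) * x.2))
    (fun x => by simp) (fun u v x => by simp [mul_assoc]) (fun x => g (Φ x) (QK w' x))
    (lq w') (lq w) (fun u hu x => ?_) (k w') (k w) a).1 h
  simp only [hΦ.unit u hu, QK_smul, U1_absN hu, one_mul]

theorem LopP_Inc {j : ℕ} {B : ℝ} {Φ : K × K → ℂ} (hΦ : Ad1 j B Φ) {s : ℂ} (hs : 3 < s.re)
    (w : HH K) :
    LopP (Inc Φ (Gs s)) w - hh s ^ rk K * Inc Φ (Gs s) w = Inc Φ (pisP (Emb K) s) w := by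
  obtain ⟨C, hC, h⟩ := maj_bound (K := K) j one_pos
  set μ := (muP (Emb K)).restrict (ballP w) with hμ
  haveI : IsFiniteMeasure μ := isFiniteMeasure_restrict.2 (isCompact_ballP w).measure_lt_top.ne
  have mj := fun w' : HH K => Inc_maj hΦ (G := Gs s) (C := 1) one_pos w' fun x _ => by
    rw [Vale.Agent.P026.norm_Gs, one_mul]
    split_ifs with d
    · exact Real.rpow_le_rpow_of_exponent_le d (by linarith)
    · exact le_rfl
  set F : HH K → K × K → ℂ := fun w' x => if lq w x ∈ DD K then Φ x * Gs s (QK w' x) else 0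
    with hF
  have f1 : ∀ w', HasSum (F w') (Inc Φ (Gs s) w') := fun w' =>
    inc_change hΦ (fun z t => z * Gs s t) (fun t => zero_mul _) w w' (mj w').2.1.hasSum
  have bd : ∀ w' (S : Finset (K × K)), ∑ x ∈ S, ‖F w' x‖ ≤ |B| * |1| * C := fun w' S => by
    have a1 := ((h w').1.mul_left (|B| * |1|)).of_nonneg_of_le (fun _ => norm_nonneg _) (mj w').1
    have a2 := (a1.tsum_le_tsum (mj w').1 ((h w').1.mul_left _)).trans_eq tsum_mul_left
    simp only [apply_ite norm, norm_zero] at a1 a2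
    have a3 := inc_change hΦ (fun z t => ‖z * Gs s t‖) (fun t => by rw [zero_mul, norm_zero])
      w w' a1.hasSum
    simp only [hF, apply_ite norm, norm_zero]
    exact (sum_le_hasSum S (fun x _ => ite_nonneg (norm_nonneg _) le_rfl) a3).trans
      (a2.trans (mul_le_mul_of_nonneg_left (h w').2 (by positivity)))
  have it : ∀ x : K × K, Integrable (fun w' => F w' x) μ := fun x => by
    refine .of_bound ?_ (|B| * |1| * C) (.of_forall fun w' => by simpa using bd w' {x})
    simp only [hF]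
    split_ifs
    · exact (((Vale.Agent.P026.measurable_Gs s).comp (continuous_QK x).measurable).const_mul
        _).aestronglyMeasurable
    · exact aestronglyMeasurable_const
  have hs1 := hasSum_integral_of_summable_integral_norm it
    (summable_of_sum_le (c := ∫ _, |B| * |1| * C ∂μ)
      (fun _ => integral_nonneg fun _ => norm_nonneg _) fun S => by
        rw [← integral_finset_sum _ fun x _ => (it x).norm]
        exact integral_mono (integrable_finset_sum _ fun x _ => (it x).norm) (integrable_const _)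
          fun w' => bd w' S)
  have g1 : ∀ q, ‖Gs s q‖ ≤ 1 := fun q => by
    rw [Vale.Agent.P026.norm_Gs]
    split_ifs with c
    · exact Real.rpow_le_one_of_one_le_of_nonpos c (by linarith)
    · exact zero_le_one
  have e : ∀ x : K × K, ∫ w', F w' x ∂μ =
      if lq w x ∈ DD K then Φ x * LLP (Emb K) (Gs s) (QK w x) else 0 := fun x => by
    simp only [hF]
    split_ifs
    · by_cases c : Φ x = 0
      · simp [c]
      · rw [integral_const_mul]
        exact congrArg (Φ x * ·) (LopP_radial (c := jj x.1) (d := jj x.2)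
          (Vale.Agent.P026.measurable_Gs s) g1 (fun σ : Emb K =>
            (hΦ.supp x c).ne.imp (map_ne_zero σ.1).2 (map_ne_zero σ.1).2) w)
    · exact integral_zero _ _
  simp only [e, fun w' => (f1 w').tsum_eq] at hs1
  have hs2 := hs1.sub ((f1 w).mul_left (hh s ^ rk K))
  refine (hs2.tsum_eq.symm.trans (tsum_congr fun x => ?_))
  simp only [hF, pisP, rk]
  split_ifs
  · ring
  · ring

end

end Vale.Agent.P319N
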