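import Vale.Agent.P319N.Emb
import Vale.Agent.P319E.Arch

namespace Vale.Agent.P319N

open NumberField Complex MeasureTheory Filter Topology
open scoped Classical ComplexConjugate Real
open Vale.Agent.P026 (omC kap psi W)

noncomputable section

variable {K : Type} [Field K] [NumberField K] [Setup K]

theorem Uj_le (j : ℕ) : Uj K j ≤ unitsR K ⊓ unitsA K :=
  inf_le_inf_left _ (H1_le_unitsA j)

theorem isI_of_unit {u : Kˣ} (h : u ∈ unitsR K ⊓ unitsA K) : IsI (u : K) :=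
  isI_of_mem h.1.1 h.2.1

theorem Uj_index (j : ℕ) : (Uj K j).relIndex (unitsR K ⊓ unitsA K) ≠ 0 := by
  rw [Uj, inf_comm (unitsR K), inf_comm (unitsR K)]
  exact Subgroup.relIndex_inter_ne_zero (finite_unitsA_H1 j) _

theorem Lg_inj {j : ℕ} (hj : 1 ≤ j) {u : Kˣ} (hu : u ∈ Uj K j) (h : Lg (u : K) = 0) : u = 1 := by
  by_contra h1
  have hz : ((u : K) - 1) / MK K ^ j ≠ 0 := div_ne_zero
    (sub_ne_zero.2 fun e => h1 (Units.ext e)) (pow_ne_zero _ MK_ne)
  have := one_le_absN hz (isI_of_mem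
    (div_MK_pow_mem_R ((R K).sub_mem hu.1.1 (R K).one_mem) j) hu.2.1)
  rw [absN_eq_prod] at this
  have h2 : ∏ σ : Emb K, normSq (σ.1 (((u : K) - 1) / MK K ^ j)) ≤ ∏ _σ : Emb K, (1 / 9 : ℝ) := by
    refine Finset.prod_le_prod (fun σ _ => normSq_nonneg _) fun σ _ => ?_
    have e := exp_Lg u.ne_zero σ
    rw [h, Pi.zero_apply, Real.exp_zero, normSq_eq_norm_sq, eq_comm,
      pow_eq_one_iff_of_nonneg (norm_nonneg _) two_ne_zero] at e
    have a1 : ‖σ.1 u - 1‖ ≤ 2 := (norm_sub_le _ _).trans (by rw [e, norm_one]; norm_num)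
    have a2 : (6 : ℝ) ≤ Setup.M K := by exact_mod_cast rng_M_ge
    have a3 : (6 : ℝ) ≤ (Setup.M K : ℝ) ^ j := a2.trans (le_self_pow₀ (by linarith) (by omega))
    rw [normSq_eq_norm_sq, map_div₀, map_sub, map_one, map_pow, map_natCast, norm_div, norm_pow,
      norm_natCast]
    calc _ ≤ (2 / 6 : ℝ) ^ 2 := by gcongr
      _ = _ := by norm_num
  rw [Finset.prod_const] at h2
  have := pow_lt_one₀ (a := (1 / 9 : ℝ)) (by norm_num) (by norm_num) (rk_pos (K := K)).ne'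
  rw [rk] at this
  rw [Finset.card_univ] at h2
  linarith

open mixedEmbedding.fundamentalCone Units.dirichletUnitTheorem

/-- coordinates with respect to the fundamental units -/
def fdc (y : Emb K → ℝ) (i : Fin (Units.rank K)) : ℝ :=
  (completeBasis K).equivFun (fun w => y ((Equiv.ofBijective _ emb_bij).symm w))
    (equivFinRank i : {w : InfinitePlace K // w ≠ w₀})

theorem fd_add (y z : Emb K → ℝ) : fdc (y + z) = fdc y + fdc z := by
  ext i
  rw [Pi.add_apply, fdc, fdc, fdc, ← Pi.add_apply, ← map_add]; rfl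

theorem fd_cont : Continuous (fdc (K := K)) :=
  continuous_pi fun _ => (continuous_apply _).comp
    ((completeBasis K).equivFunL.continuous.comp (by fun_prop))

theorem fd_const (c : ℝ) : fdc (fun _ : Emb K => c) = 0 := by
  ext i
  have := isTotallyComplex (K := K)
  have e : (fun _ => c) = (c / 2) • completeBasis K w₀ := by
    ext w; simp [completeBasis_apply_of_eq]
  rw [fdc, e]
  simp [Finsupp.single_apply, (equivFinRank i).2.symm]

theorem fd_bd : ∃ B : ℝ, 0 ≤ B ∧ ∀ (y : Emb K → ℝ) (N : ℝ), (∀ i, |fdc y i| ≤ N) →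
    ∀ σ τ, |y σ - y τ| ≤ B * N := by
  refine ⟨∑ i : Fin (Units.rank K), 2 * ‖completeBasis K
    (equivFinRank i : {w : InfinitePlace K // w ≠ w₀})‖, by positivity, fun y N h σ τ => ?_⟩
  have := isTotallyComplex (K := K)
  have e := (completeBasis K).sum_equivFun fun w => y ((Equiv.ofBijective _ emb_bij).symm w)
  rw [Fintype.sum_eq_add_sum_subtype_ne _ w₀, ← Equiv.sum_comp equivFinRank] at e
  have e1 := congrFun e (Equiv.ofBijective _ emb_bij σ)
  have e2 := congrFun e (Equiv.ofBijective _ emb_bij τ)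
  simp only [Pi.add_apply, Pi.smul_apply, Finset.sum_apply, completeBasis_apply_of_eq,
    IsTotallyComplex.mult_eq, Equiv.symm_apply_apply, smul_eq_mul] at e1 e2
  rw [← e1, ← e2, add_sub_add_left_eq_sub, ← Finset.sum_sub_distrib, Finset.sum_mul]
  refine (Finset.abs_sum_le_sum_abs _ _).trans (Finset.sum_le_sum fun i _ => ?_)
  rw [← mul_sub, abs_mul, mul_comm, two_mul]
  exact mul_le_mul ((abs_sub _ _).trans (add_le_add (norm_le_pi_norm (G := fun _ => ℝ) _ _)
    (norm_le_pi_norm (G := fun _ => ℝ) _ _))) (h i) (abs_nonneg _) (by positivity)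

theorem fd_unit (ζ : Units.torsion K) (e : Fin (Units.rank K) → ℤ) :
    (fun w => Lg ((((ζ : (𝓞 K)ˣ) * ∏ i, Units.fundSystem K i ^ e i : (𝓞 K)ˣ) : 𝓞 K) : K)
      ((Equiv.ofBijective _ emb_bij).symm w)) = (completeBasis K).equivFun.symm (P319E.uv e) := by
  have := isTotallyComplex (K := K)
  ext w
  obtain ⟨σ, rfl⟩ := (Equiv.ofBijective _ emb_bij).surjective w
  apply Real.exp_injective
  rw [Equiv.symm_apply_apply, exp_Lg (Units.coe_ne_zero _), normSq_eq_norm_sq,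
    ← InfinitePlace.apply]
  have a1 := P319E.arch_uv e (InfinitePlace.mk σ.1)
  rw [P319E.yy, expMapBasis_apply, expMap_apply, IsTotallyComplex.mult_eq, ← Real.exp_nat_mul,
    Nat.cast_ofNat, mul_inv_cancel_left₀ two_ne_zero] at a1
  refine Eq.trans ?_ a1.symm
  congr 1
  have e2 := (Units.mem_torsion K).1 ζ.2 (InfinitePlace.mk σ.1)
  rw [Units.val_mul, map_mul, map_mul, e2, one_mul,
    Units.coe_prod, map_prod, map_prod]
  exact Finset.prod_congr rfl fun i _ => by rw [Units.coe_zpow, map_zpow₀]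

theorem fd_uv (ζ : Units.torsion K) (e : Fin (Units.rank K) → ℤ) :
    fdc (Lg ((((ζ : (𝓞 K)ˣ) * ∏ i, Units.fundSystem K i ^ e i : (𝓞 K)ˣ) : 𝓞 K) : K)) =
      fun i => (e i : ℝ) := by
  ext i
  rw [fdc, fd_unit, LinearEquiv.apply_symm_apply, P319E.arch_uv_eq]

theorem fd_int {u : Kˣ} (h : u ∈ unitsR K ⊓ unitsA K) : ∃ e : Fin (Units.rank K) → ℤ,
    fdc (Lg (u : K)) = (fun i => (e i : ℝ)) ∧ (e = 0 → Lg (u : K) = 0) := by
  obtain ⟨⟨ζ, e⟩, he, -⟩ := Units.exist_unique_eq_mul_prod K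
    ⟨⟨u, isI_of_unit h⟩, ⟨(u⁻¹ : Kˣ), isI_of_unit (inv_mem h)⟩, Subtype.ext u.mul_inv,
      Subtype.ext u.inv_mul⟩
  have e1 : (u : K) = _ := congrArg (fun v : (𝓞 K)ˣ => ((v : 𝓞 K) : K)) he
  refine ⟨e, by rw [e1]; exact fd_uv ζ e, fun h0 => funext fun σ => ?_⟩
  have := congrFun (fd_unit ζ e) (Equiv.ofBijective _ emb_bij σ)
  rw [Equiv.symm_apply_apply, ← e1, h0, show P319E.uv (K := K) 0 = 0 by ext; simp [P319E.uv],
    map_zero] at this
  exact this

theorem fd_surj (e : Fin (Units.rank K) → ℤ) :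
    ∃ u ∈ unitsR K ⊓ unitsA K, fdc (Lg (u : K)) = fun i => (e i : ℝ) := by
  have p : ∀ v : (𝓞 K)ˣ, IsI ((Units.map (algebraMap (𝓞 K) K : 𝓞 K →* K) v : Kˣ) : K) :=
    fun v => v.1.2
  refine ⟨Units.map (algebraMap (𝓞 K) K : 𝓞 K →* K)
    ((1 : Units.torsion K) * ∏ i, Units.fundSystem K i ^ e i), ⟨⟨mem_R_of_isI (p _), ?_⟩,
    mem_A_of_isI (p _), ?_⟩, fd_uv 1 e⟩
  · rw [← map_inv]; exact mem_R_of_isI (p _)
  · rw [← map_inv]; exact mem_A_of_isI (p _)

theorem fd_pow (u : Kˣ) (n : ℕ) : fdc (Lg ((u ^ n : Kˣ) : K)) = n • fdc (Lg (u : K)) := by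
  induction n with
  | zero => rw [pow_zero, Units.val_one, Lg_one, zero_smul]; exact fd_const 0
  | succ n ih => rw [pow_succ, Units.val_mul, Lg_mul (Units.ne_zero _) u.ne_zero, fd_add, ih,
      succ_nsmul]

theorem fd_inv (u : Kˣ) : fdc (Lg ((u⁻¹ : Kˣ) : K)) = -fdc (Lg (u : K)) := by
  rw [eq_neg_iff_add_eq_zero, ← fd_add, Units.val_inv_eq_inv_val, Lg_inv, neg_add_cancel]
  exact fd_const 0

theorem exists_FD {j : ℕ} (hj : 1 ≤ j) {U : Subgroup Kˣ} (hU : U ≤ Uj K j)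
    (hi : U.relIndex (Uj K j) ≠ 0) : ∃ D, IsFD U D := by
  have hN := Subgroup.relIndex_ne_zero_trans hi (Uj_index j)
  set N := U.relIndex (unitsR K ⊓ unitsA K)
  let Λ : AddSubgroup (Fin (Units.rank K) → ℤ) :=
    { carrier := {e | ∃ u ∈ U, fdc (Lg (u : K)) = fun i => (e i : ℝ)}
      zero_mem' := ⟨1, U.one_mem, by
        rw [Units.val_one, Lg_one]; exact (fd_const 0).trans (by ext; simp)⟩
      add_mem' := by
        rintro a b ⟨u, hu, h1⟩ ⟨v, hv, h2⟩
        refine ⟨u * v, U.mul_mem hu hv, ?_⟩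
        rw [Units.val_mul, Lg_mul u.ne_zero v.ne_zero, fd_add, h1, h2]
        ext; simp
      neg_mem' := by
        rintro a ⟨u, hu, h1⟩
        refine ⟨u⁻¹, U.inv_mem hu, ?_⟩
        rw [fd_inv, h1]
        ext; simp }
  have h1 : ∀ q : (Fin (Units.rank K) → ℤ) ⧸ Λ, ∃ r : Fin (Units.rank K) → ℤ,
      QuotientAddGroup.mk r = q ∧ ∀ i, 0 ≤ r i ∧ r i < N := fun q => by
    have N0 : (0 : ℤ) < N := by exact_mod_cast Nat.pos_of_ne_zero hN
    refine ⟨fun i => q.out i % N, ?_, fun i => ⟨Int.emod_nonneg _ N0.ne', Int.emod_lt_of_pos _ N0⟩⟩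
    rw [← q.out_eq', QuotientAddGroup.eq, q.out_eq']
    obtain ⟨u, hu, h⟩ := fd_surj (K := K) fun i => q.out i / N
    refine ⟨u ^ N, U.pow_relIndex_mem hu, ?_⟩
    rw [fd_pow, h]
    ext i
    have := Int.emod_add_mul_ediv (q.out i) N
    simp only [Pi.smul_apply, nsmul_eq_mul, Pi.add_apply, Pi.neg_apply]
    exact_mod_cast (by linarith : (N : ℤ) * (q.out i / N) = -(q.out i % N) + q.out i)
  choose ρ hρ hb using h1
  obtain ⟨B, B0, hB⟩ := fd_bd (K := K)
  have fl : ∀ (y : Emb K → ℝ) (u : Kˣ) (e : Fin (Units.rank K) → ℤ),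
      fdc (Lg (u : K)) = (fun i => (e i : ℝ)) →
      (fun i => ⌊fdc (y + Lg (u : K)) i⌋) = (fun i => ⌊fdc y i⌋) + e := fun y u e h => by
    ext i; simp [fd_add, h]
  refine ⟨{y | ρ (QuotientAddGroup.mk fun i => ⌊fdc y i⌋) = fun i => ⌊fdc y i⌋}, ?_, fun y => ?_,
    fun y hy c => ?_, B * N, fun y hy => hB y N fun i => ?_⟩
  · have m : Measurable fun (y : Emb K → ℝ) i => ⌊fdc y i⌋ := measurable_pi_lambda _ fun i =>
      ((continuous_apply i).comp fd_cont).measurable.floor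
    exact m (MeasurableSet.of_discrete (s := {f | ρ (QuotientAddGroup.mk f) = f}))
  · set f := fun i => ⌊fdc y i⌋ with hf
    obtain ⟨u, hu, h⟩ := QuotientAddGroup.eq.1 (hρ (QuotientAddGroup.mk f)).symm
    refine ⟨⟨u, hu⟩, ?_, fun v hv => ?_⟩
    · show ρ _ = _
      rw [fl y u _ h, add_neg_cancel_left, hρ]
    · obtain ⟨e, he, -⟩ := fd_int (Uj_le j (hU v.2))
      replace hv : ρ _ = _ := hv
      rw [fl y v e he, QuotientAddGroup.mk_add_of_mem _ (show e ∈ Λ from ⟨v, v.2, he⟩)] at hv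
      rw [hv, neg_add_cancel_left] at h
      have m := U.mul_mem v.2 (U.inv_mem hu)
      obtain ⟨d, hd, h0⟩ := fd_int (Uj_le j (hU m))
      rw [Units.val_mul, Lg_mul (Units.ne_zero _) (Units.ne_zero _), fd_add, fd_inv, he, h,
        add_neg_cancel] at hd
      exact Subtype.ext (mul_inv_eq_one.1 (Lg_inj hj (hU m)
        (h0 (funext fun i => Int.cast_eq_zero.1 (congrFun hd i).symm))))
  · have : fdc (fun σ => y σ + c) = fdc y := by
      rw [← add_zero (fdc y), ← fd_const c, ← fd_add]; rfl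
    simpa only [Set.mem_setOf_eq, this] using hy
  · have := hb (QuotientAddGroup.mk fun i => ⌊fdc y i⌋) i
    rw [show ρ _ = _ from hy, Int.floor_nonneg, Int.floor_lt] at this
    rw [abs_of_nonneg this.1]
    exact_mod_cast this.2.le

theorem IsFD.neg_sub {U : Subgroup Kˣ} {D : Set (Emb K → ℝ)} (hD : IsFD U D) (v : Emb K → ℝ) :
    IsFD U {y | -y - v ∈ D} := by
  obtain ⟨h1, h2, h3, B, h4⟩ := hD
  refine ⟨(measurable_neg.sub_const v) h1, fun y => ?_, fun y hy c => ?_, B + 2 * ‖v‖,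
    fun y hy σ τ => ?_⟩
  · refine ((Equiv.inv U).existsUnique_congr fun u => ?_).1 (h2 (-y - v))
    simp only [Equiv.inv_apply, Subgroup.coe_inv, Units.val_inv_eq_inv_val, Lg_inv,
      Set.mem_setOf_eq]
    rw [show -(y + -Lg ((u : Kˣ) : K)) - v = -y - v + Lg ((u : Kˣ) : K) by abel]
  · refine cast (congrArg (· ∈ D) (funext fun σ => ?_)) (h3 _ hy (-c))
    simp; ring
  · have a := abs_le.1 (h4 _ hy σ τ)
    have b := abs_le.1 (norm_le_pi_norm (G := fun _ => ℝ) v σ)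
    have c := abs_le.1 (norm_le_pi_norm (G := fun _ => ℝ) v τ)
    simp only [Pi.sub_apply, Pi.neg_apply] at a
    rw [abs_le]; constructor <;> linarith [a.1, a.2, b.1, b.2, c.1, c.2]

theorem IsFD.exists_rep {U : Subgroup Kˣ} {D : Set (Emb K → ℝ)} (hD : IsFD U D) {m : K}
    (hm : m ≠ 0) : ∃! u : U, Lg (((u : Kˣ) : K) * m) ∈ D := by
  simpa only [Lg_mul (Units.ne_zero _) hm, add_comm] using hD.2.1 (Lg m)

theorem fd_exp_abs : Integrable fun x : ℝ => Real.exp (-|x|) := by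
  rw [← integrableOn_univ, ← Set.Iic_union_Ioi (a := (0 : ℝ))]
  refine ((integrableOn_exp_Iic 0).congr_fun (fun x hx => ?_) measurableSet_Iic).union
    ((integrableOn_exp_neg_Ioi 0).congr_fun (fun x hx => ?_) measurableSet_Ioi)
  · simp [abs_of_nonpos (Set.mem_Iic.1 hx)]
  · simp [abs_of_pos (Set.mem_Ioi.1 hx)]

theorem fd_sum_abs {y : Emb K → ℝ} {B : ℝ} (h : ∀ σ τ, |y σ - y τ| ≤ B) :
    ∑ σ, |y σ| ≤ |∑ σ, y σ| + rk K * B := by
  have r : (0 : ℝ) < rk K := by exact_mod_cast rk_pos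
  have a : ∀ σ, rk K * |y σ| ≤ |∑ σ, y σ| + rk K * B := fun σ => by
    have e : rk K * y σ = ∑ τ, y τ + ∑ τ, (y σ - y τ) := by simp [rk]
    rw [← abs_of_pos r, ← abs_mul, e, abs_of_pos r]
    refine (abs_add_le _ _).trans (add_le_add_right ((Finset.abs_sum_le_sum_abs _ _).trans
      ((Finset.sum_le_sum fun τ _ => h σ τ).trans (by simp [rk]))) _)
  have := Finset.sum_le_sum fun σ (_ : σ ∈ Finset.univ) => a σ
  rw [← Finset.mul_sum, Finset.sum_const, nsmul_eq_mul] at this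
  exact le_of_mul_le_mul_left this r

theorem IsFD.integrable {U : Subgroup Kˣ} {D : Set (Emb K → ℝ)} (hD : IsFD U D) {h : ℝ → ℂ}
    (hm : Measurable h) {C : ℝ} (hb : ∀ u, ‖h u‖ ≤ C * Real.exp (-|u|)) :
    IntegrableOn (fun y : Emb K → ℝ => h (∑ σ, y σ)) D := by
  obtain ⟨h1, -, -, B, h4⟩ := hD
  have C0 : 0 ≤ C := by simpa using (norm_nonneg _).trans (hb 0)
  refine (((Integrable.fintype_prod fun _ : Emb K => fd_exp_abs).const_mul
    (C * Real.exp (rk K * B))).integrableOn).mono'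
    (hm.comp (by fun_prop)).aestronglyMeasurable ((ae_restrict_mem h1).mono fun y hy => ?_)
  refine (hb _).trans ?_
  rw [← Real.exp_sum, mul_assoc, ← Real.exp_add, Finset.sum_neg_distrib]
  have := fd_sum_abs (h4 y hy)
  gcongr
  linarith

theorem IsFD.shift {U : Subgroup Kˣ} {D : Set (Emb K → ℝ)} (hD : IsFD U D) (h : ℝ → ℂ) (a : ℝ) :
    ∫ y in D, h (∑ σ, y σ - a) = ∫ y in D, h (∑ σ, y σ) := by
  have r : (rk K : ℝ) ≠ 0 := by exact_mod_cast rk_pos.ne'
  rw [← integral_indicator hD.1, ← integral_indicator hD.1,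
    ← integral_add_right_eq_self _ fun _ => a / rk K]
  refine integral_congr_ae (ae_of_all _ fun y => ?_)
  have e : ∑ σ, (y + fun _ => a / rk K : Emb K → ℝ) σ - a = ∑ σ, y σ := by
    simp only [Pi.add_apply, Finset.sum_add_distrib, Finset.sum_const, nsmul_eq_mul]
    rw [show ((Finset.univ : Finset (Emb K)).card : ℝ) = rk K from rfl]
    field_simp; ring
  beta_reduce
  by_cases hy : y ∈ D
  · rw [Set.indicator_of_mem hy, Set.indicator_of_mem
      (show (y + fun _ => a / rk K) ∈ D from hD.2.2.1 y hy _), e]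
  · rw [Set.indicator_of_notMem hy, Set.indicator_of_notMem fun h' => hy ?_]
    simpa using hD.2.2.1 _ h' (-(a / rk K))

end

end Vale.Agent.P319N
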