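import Vale.Agent.P319N.BLat
import Vale.Agent.P319N.BMu
import Vale.Agent.P319N.FD

namespace Vale.Agent.P319N

open NumberField Complex MeasureTheory Filter Topology
open scoped Classical ComplexConjugate Real MatrixGroups
open Vale.Agent.P026 (omC kap psi W Hs ht QQ act uu muH hh LL Gs bb kk UU DualW)

noncomputable section

variable {K : Type} [Field K] [NumberField K] [Level K]

theorem isFD_DD : IsFD (U1 K) (DD K) :=
  Classical.epsilon_spec (exists_FD Level.he le_rfl (by simp))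
theorem U1_isI {u : Kˣ} (hu : u ∈ U1 K) : IsI (u : K) := isI_of_unit (Uj_le _ hu)
theorem U1_absN {u : Kˣ} (hu : u ∈ U1 K) : absN (u : K) = 1 := by
  have h1 := bl_one_le (U1_isI hu) u.ne_zero
  have h2 := bl_one_le (U1_isI (inv_mem hu)) (u⁻¹).ne_zero
  have h3 := bl_absN_mul (u : K) ((u⁻¹ : Kˣ) : K)
  rw [Units.mul_inv, bl_absN_one] at h3
  nlinarith
theorem DD_bal : ∃ D : ℝ, 0 ≤ D ∧ ∀ y ∈ DD K, Bal D y := by
  obtain ⟨-, -, -, B, h⟩ := isFD_DD (K := K)
  exact ⟨max B 0, le_max_right _ _, fun y hy σ τ => (h y hy σ τ).trans (le_max_left _ _)⟩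

theorem brep_one {y : Emb K → ℝ} (hy : y ∈ DD K) {u : Kˣ} (hu : u ∈ U1 K)
    (h : y + Lg (u : K) ∈ DD K) : u = 1 :=
  congrArg Subtype.val (((isFD_DD (K := K)).2.1 y).unique (y₁ := ⟨u, hu⟩) (y₂ := 1) h
    (by simpa [Lg_one] using hy))

theorem brep_Lg (u v : Kˣ) : Lg ((u * v : Kˣ) : K) = Lg (u : K) + Lg (v : K) := by
  rw [Units.val_mul, bl_Lg_mul u.ne_zero v.ne_zero]

theorem rep_change {X E : Type} [AddCommMonoid E] [TopologicalSpace E] (m : Kˣ → X → X)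
    (h1 : ∀ x, m 1 x = x) (hm : ∀ u v x, m (u * v) x = m u (m v x)) (F : X → E)
    (l1 l2 : X → Emb K → ℝ) (hF : ∀ u ∈ U1 K, ∀ x, F (m u x) = F x)
    (k1 : ∀ u ∈ U1 K, ∀ x, F x ≠ 0 → l1 (m u x) = l1 x + Lg (u : K))
    (k2 : ∀ u ∈ U1 K, ∀ x, F x ≠ 0 → l2 (m u x) = l2 x + Lg (u : K)) (a : E) :
    HasSum (fun x => if l1 x ∈ DD K then F x else 0) a ↔
      HasSum (fun x => if l2 x ∈ DD K then F x else 0) a := by
  choose c hc using fun y => ((isFD_DD (K := K)).2.1 y).exists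
  have s : ∀ {l : X → Emb K → ℝ} {x}, (if l x ∈ DD K then F x else 0) ≠ 0 →
      l x ∈ DD K ∧ F x ≠ 0 := fun {l x} h => by
    by_cases hx : l x ∈ DD K
    · exact ⟨hx, by rwa [if_pos hx] at h⟩
    · exact absurd (if_neg hx) h
  refine hasSum_iff_hasSum_of_ne_zero_bij (fun x => m (c (l1 x)) x) ?_ ?_ ?_
  · rintro ⟨x, hx⟩ ⟨y, hy⟩ h
    obtain ⟨hx1, hx2⟩ := s hx
    obtain ⟨hy1, hy2⟩ := s hy
    have hu := mul_mem (inv_mem (c (l1 y)).2) (c (l1 x)).2
    have e : y = m ((c (l1 y) : Kˣ)⁻¹ * c (l1 x)) x := by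
      rw [hm, show m (c (l1 x)) x = m (c (l1 y)) y from h, ← hm, inv_mul_cancel, h1]
    have e2 := brep_one hx1 hu (by rw [← k2 _ hu x hx2, ← e]; exact hy1)
    rw [e2, h1] at e
    exact Subtype.ext e.symm
  · intro z hz
    obtain ⟨hz1, hz2⟩ := s hz
    have hv := (c (l2 z)).2
    have e1 : l2 (m (c (l2 z)) z) ∈ DD K := by rw [k2 _ hv z hz2]; exact hc _
    refine ⟨⟨m (c (l2 z)) z, by
      rw [Function.mem_support, if_pos e1, hF _ hv]; exact hz2⟩, ?_⟩
    have hu := mul_mem (c (l1 (m (c (l2 z)) z))).2 hv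
    have e2 := brep_one hz1 hu (by
      rw [brep_Lg, add_comm (Lg _), ← add_assoc, ← k1 _ hv z hz2]; exact hc _)
    show m _ (m _ z) = z
    rw [← hm, e2, h1]
  · rintro ⟨x, hx⟩
    obtain ⟨hx1, hx2⟩ := s hx
    have hu := (c (l1 x)).2
    show (if l1 (m (c (l1 x)) x) ∈ DD K then F (m (c (l1 x)) x) else 0) =
      if l2 x ∈ DD K then F x else 0
    rw [if_pos hx1, k1 _ hu x hx2, if_pos (hc _), hF _ hu]

theorem brep_exists {n : K} (hn : n ≠ 0) : ∃! u : U1 K, Rep (((u : Kˣ) : K) * n) := by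
  simpa only [Rep, ne_eq, mul_ne_zero (Units.ne_zero _) hn, not_false_eq_true, true_and] using
    (isFD_DD (K := K)).exists_rep hn

theorem rep_equiv : ∃ e : {n : K // Rep n} × U1 K ≃ {n : K // n ≠ 0},
    ∀ p, (e p : K) = ((p.2 : Kˣ) : K) * p.1 := by
  refine ⟨Equiv.ofBijective (fun p => ⟨((p.2 : Kˣ) : K) * p.1,
    mul_ne_zero (Units.ne_zero _) p.1.2.1⟩) ⟨?_, ?_⟩, fun _ => rfl⟩
  · rintro ⟨⟨x, hx⟩, u⟩ ⟨⟨y, hy⟩, v⟩ h
    have h' : ((u : Kˣ) : K) * x = ((v : Kˣ) : K) * y := congrArg Subtype.val h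
    have e : u⁻¹ = v⁻¹ := (brep_exists (mul_ne_zero (Units.ne_zero (u : Kˣ)) hx.1)).unique
      (by simpa using hx) (by rw [h']; simpa using hy)
    obtain rfl := inv_injective e
    obtain rfl := mul_left_cancel₀ (Units.ne_zero _) h'
    rfl
  · rintro ⟨n, hn⟩
    obtain ⟨u, hu, -⟩ := brep_exists hn
    exact ⟨(⟨_, hu⟩, u⁻¹), Subtype.ext (by simp)⟩

theorem exists_rep {n : K} (hn : n ≠ 0) : ∃! u : U1 K, Rep (((u : Kˣ) : K) * n) := brep_exists hn

theorem brep_countable : Countable (U1 K) :=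
  have : Countable K := (Module.finBasis ℚ K).equivFun.injective.countable
  have : Countable Kˣ := Units.val_injective.countable
  inferInstance

theorem brep_shift (u : U1 K) : (fun y => y + Lg ((u : Kˣ) : K)) ⁻¹'
    {y | y + Lg (((u⁻¹ : U1 K) : Kˣ) : K) ∈ DD K} = DD K := by
  ext y
  simp [Lg_inv]

theorem brep_meas (u : U1 K) :
    MeasurableSet {y : Emb K → ℝ | y + Lg (((u⁻¹ : U1 K) : Kˣ) : K) ∈ DD K} :=
  measurable_add_const _ (isFD_DD (K := K)).1

theorem brep_part : Pairwise (Function.onFun Disjoint fun u : U1 K =>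
      {y : Emb K → ℝ | y + Lg (((u⁻¹ : U1 K) : Kˣ) : K) ∈ DD K}) ∧
    ⋃ u : U1 K, {y : Emb K → ℝ | y + Lg (((u⁻¹ : U1 K) : Kˣ) : K) ∈ DD K} = Set.univ := by
  refine ⟨fun k l hkl => Set.disjoint_left.2 fun y h1 h2 => hkl (inv_injective
    (((isFD_DD (K := K)).2.1 y).unique h1 h2)), Set.eq_univ_of_forall fun y => ?_⟩
  obtain ⟨u, hu, -⟩ := (isFD_DD (K := K)).2.1 y
  exact Set.mem_iUnion.2 ⟨u⁻¹, by rwa [inv_inv]⟩

theorem lintegral_DD {F : (Emb K → ℝ) → ENNReal} (hF : Measurable F) :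
    ∫⁻ y in DD K, ∑' u : U1 K, F (y + Lg ((u : Kˣ) : K)) = ∫⁻ y, F y := by
  have := brep_countable (K := K)
  rw [lintegral_tsum fun u => Measurable.aemeasurable (by fun_prop),
    ← setLIntegral_univ F, ← brep_part.2, lintegral_iUnion brep_meas brep_part.1]
  refine tsum_congr fun u => ?_
  rw [← (measurePreserving_add_right volume (Lg ((u : Kˣ) : K))).setLIntegral_comp_preimage
    (brep_meas u) hF, brep_shift]

theorem hasSum_integral_DD {F : (Emb K → ℝ) → ℂ} (hF : Integrable F) :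
    HasSum (fun u : U1 K => ∫ y in DD K, F (y + Lg ((u : Kˣ) : K))) (∫ y, F y) := by
  have := brep_countable (K := K)
  have h := hasSum_integral_iUnion brep_meas brep_part.1 hF.integrableOn
  rw [brep_part.2, setIntegral_univ] at h
  refine h.congr_fun fun u => Eq.symm ?_
  rw [← (measurePreserving_add_right volume (Lg ((u : Kˣ) : K))).setIntegral_preimage_emb
    (measurableEmbedding_addRight _), brep_shift]

end

end Vale.Agent.P319N
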