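import Vale.Agent.P319N.BGeo
import Vale.Agent.P319N.BRep

namespace Vale.Agent.P319N

open NumberField Complex MeasureTheory Filter Topology
open scoped Classical ComplexConjugate Real MatrixGroups
open Vale.Agent.P026 (omC kap psi W Hs ht QQ act uu muH hh LL Gs bb kk UU DualW)

noncomputable section

variable {K : Type} [Field K] [NumberField K] [Level K]

theorem bc_bal {ι : Type} [Fintype ι] {D : ℝ} {y : ι → ℝ} (h : Bal D y) (σ : ι) :
    Fintype.card ι * y σ ≤ ∑ τ, y τ + Fintype.card ι * D ∧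
      ∑ τ, y τ ≤ Fintype.card ι * y σ + Fintype.card ι * D := by
  have e : ∀ c : ℝ, Fintype.card ι * c = ∑ _τ : ι, c := fun c => by simp
  rw [e, e, ← Finset.sum_add_distrib, ← Finset.sum_add_distrib]
  exact ⟨Finset.sum_le_sum fun τ _ => by linarith [(abs_le.1 (h σ τ)).2],
    Finset.sum_le_sum fun τ _ => by linarith [(abs_le.1 (h σ τ)).1]⟩

theorem bc_card (j : ℕ) (D : ℝ) : ∃ C : ℝ, 0 < C ∧ ∀ (w : HH K) (R : ℝ) (s : Finset (K × K)),
    (∀ x ∈ s, Supp j x ∧ Bal D (lq w x) ∧ QK w x ≤ R) → (s.card : ℝ) ≤ C * (1 + R ^ 2) := by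
  have hμ : MK K ^ j ≠ 0 := pow_ne_zero j MK_ne
  obtain ⟨C, hC, H⟩ := box_card (mul_ne_zero hμ hμ)
  refine ⟨(⌈C * (1 + 2 * Real.exp D) ^ (2 * rk K)⌉₊ + 1) *
    (C * (2 ^ (2 * rk K - 1) * (1 + Real.exp (2 * D) ^ (2 * rk K)))), by positivity,
    fun w R s hs => ?_⟩
  rcases s.eq_empty_or_nonempty with rfl | hne
  · rw [Finset.card_empty, Nat.cast_zero]
    positivity
  obtain ⟨y, hy, hmax⟩ := s.exists_max_image (QK w) hne
  have hr : (0 : ℝ) < Fintype.card (Emb K) := Nat.cast_pos.2 (rk_pos (K := K))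
  have hQ : ∀ x ∈ s, ∀ σ : Emb K, QQ (w σ) (σ.1 x.1) (σ.1 x.2) = Real.exp (lq w x σ) :=
    fun x hx σ => (Real.exp_log (bg_pos w (hs x hx).1.ne σ)).symm
  have h1 : ∀ x ∈ s, ∀ σ : Emb K, QQ (w σ) (σ.1 x.1) (σ.1 x.2) ≤
      Real.exp D ^ 2 * QQ (w σ) (σ.1 y.1) (σ.1 y.2) := by
    intro x hx σ
    have e := hmax x hx
    rw [QK_eq_exp w (hs x hx).1.ne, QK_eq_exp w (hs y hy).1.ne, Real.exp_le_exp] at e
    rw [hQ x hx, hQ y hy, sq, ← Real.exp_add, ← Real.exp_add, Real.exp_le_exp]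
    exact le_of_mul_le_mul_left (by
      linarith [(bc_bal (hs x hx).2.1 σ).1, (bc_bal (hs y hy).2.1 σ).2]) hr
  obtain ⟨σ₀, -, hσ₀⟩ := Finset.univ.exists_max_image (lq w y) Finset.univ_nonempty
  have h2 : (Real.exp D * Real.exp (lq w y σ₀)) ^ rk K ≤ Real.exp (2 * D) ^ rk K * R := by
    refine le_trans ?_ (mul_le_mul_of_nonneg_left (hs y hy).2.2 (by positivity))
    rw [QK_eq_exp w (hs y hy).1.ne, ← Real.exp_add, ← Real.exp_nat_mul, ← Real.exp_nat_mul,
      ← Real.exp_add, Real.exp_le_exp, rk]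
    linarith [(bc_bal (hs y hy).2.1 σ₀).1]
  obtain ⟨y1, y2, a, b, ha, hb, hab⟩ := (hs y hy).1
  have h3 := Finset.card_le_mul_card_image (f := fun x : K × K => x.1 * y.2 - y.1 * x.2) s
    ⌈C * (1 + 2 * Real.exp D) ^ (2 * rk K)⌉₊ fun d hd => by
      obtain ⟨x', hx', rfl⟩ := Finset.mem_image.1 hd
      have key : ∀ x ∈ s.filter fun x : K × K => x.1 * y.2 - y.1 * x.2 = x'.1 * y.2 - y.1 * x'.2,
          x.1 - x'.1 = (a * (x.1 - x'.1) + b * (x.2 - x'.2)) / MK K ^ j * y.1 ∧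
          x.2 - x'.2 = (a * (x.1 - x'.1) + b * (x.2 - x'.2)) / MK K ^ j * y.2 := by
        intro x hx
        have e := (Finset.mem_filter.1 hx).2
        rw [div_mul_eq_mul_div, div_mul_eq_mul_div, eq_div_iff hμ, eq_div_iff hμ]
        exact ⟨by linear_combination b * e - (x.1 - x'.1) * hab,
          by linear_combination -a * e - (x.2 - x'.2) * hab⟩
      obtain ⟨f1, f2⟩ := H 0 (2 * Real.exp D) (by positivity)
      refine Nat.cast_le (α := ℝ).1 (le_trans ?_ (f2.trans (Nat.le_ceil _)))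
      rw [Nat.cast_le, ← Set.ncard_coe_finset]
      refine Set.ncard_le_ncard_of_injOn
        (fun x => (a * (x.1 - x'.1) + b * (x.2 - x'.2)) / MK K ^ j) (fun x hx => ⟨?_, ?_⟩)
        (fun x hx z hz e => ?_) f1
      · have hx1 := (hs x (Finset.mem_filter.1 hx).1).1
        convert (ha.mul (hx1.1.sub (hs x' hx').1.1)).add (hb.mul (hx1.2.1.sub (hs x' hx').1.2.1))
          using 1
        field_simp
      · rw [sub_zero, pi_norm_le_iff_of_nonneg (by positivity)]
        intro σ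
        have e1 := QQ_sub (w σ) (σ.1 x.1) (σ.1 x.2) (σ.1 x'.1) (σ.1 x'.2)
        obtain ⟨k1, k2⟩ := key x hx
        beta_reduce
        generalize (a * (x.1 - x'.1) + b * (x.2 - x'.2)) / MK K ^ j = l at k1 k2 ⊢
        rw [← map_sub, ← map_sub, k1, k2, map_mul, map_mul, QQ_smul] at e1
        have e2 := h1 x (Finset.mem_filter.1 hx).1 σ
        have e3 := h1 x' hx' σ
        have e4 := bg_pos w (hs y hy).1.ne σ
        refine abs_le_of_sq_le_sq' ?_ (by positivity) |>.2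
        rw [← Complex.normSq_eq_norm_sq]
        exact le_of_mul_le_mul_right (by change normSq (σ.1 _) * _ ≤ _; linarith) e4
      · have e1 := key x hx
        have e2 := key z hz
        beta_reduce at e
        rw [e] at e1
        exact Prod.ext (by linear_combination e1.1 - e2.1) (by linear_combination e1.2 - e2.2)
  obtain ⟨f1, f2⟩ := H 0 (Real.exp D * Real.exp (lq w y σ₀)) (by positivity)
  have h4 : ((s.image fun x : K × K => x.1 * y.2 - y.1 * x.2).card : ℝ) ≤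
      C * (1 + Real.exp D * Real.exp (lq w y σ₀)) ^ (2 * rk K) := by
    refine le_trans ?_ f2
    rw [Nat.cast_le, ← Set.ncard_coe_finset]
    refine Set.ncard_le_ncard (fun d hd => ?_) f1
    obtain ⟨x, hx, rfl⟩ := Finset.mem_image.1 hd
    refine ⟨?_, ?_⟩
    · convert ((hs x hx).1.1.mul y2).sub (y1.mul (hs x hx).1.2.1) using 1
      ring
    · rw [sub_zero, pi_norm_le_iff_of_nonneg (by positivity)]
      intro σ
      have e1 := QQ_det (w σ) (σ.1 x.1) (σ.1 x.2) (σ.1 y.1) (σ.1 y.2)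
      have e2 := h1 x hx σ
      have e3 := Real.exp_le_exp.2 (hσ₀ σ (Finset.mem_univ _))
      rw [hQ y hy] at e1 e2
      refine abs_le_of_sq_le_sq' ?_ (by positivity) |>.2
      rw [← Complex.normSq_eq_norm_sq]
      simp only [jj, map_sub, map_mul]
      calc _ ≤ _ := e1
        _ ≤ Real.exp D ^ 2 * Real.exp (lq w y σ) * Real.exp (lq w y σ) := by gcongr
        _ ≤ Real.exp D ^ 2 * Real.exp (lq w y σ₀) * Real.exp (lq w y σ₀) := by gcongr
        _ = _ := by ring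
  have h5 : (1 + Real.exp D * Real.exp (lq w y σ₀)) ^ (2 * rk K) ≤
      2 ^ (2 * rk K - 1) * ((1 + Real.exp (2 * D) ^ (2 * rk K)) * (1 + R ^ 2)) := by
    refine (add_pow_le zero_le_one (by positivity) _).trans ?_
    gcongr
    have e := pow_le_pow_left₀ (by positivity) h2 2
    rw [← pow_mul, mul_pow (Real.exp (2 * D) ^ rk K), ← pow_mul, mul_comm (rk K)] at e
    have : 0 ≤ Real.exp (2 * D) ^ (2 * rk K) := by positivity
    rw [one_pow]
    nlinarith [sq_nonneg R]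
  calc (s.card : ℝ) ≤ ⌈C * (1 + 2 * Real.exp D) ^ (2 * rk K)⌉₊ *
        ((s.image fun x : K × K => x.1 * y.2 - y.1 * x.2).card : ℝ) := by exact_mod_cast h3
    _ ≤ (⌈C * (1 + 2 * Real.exp D) ^ (2 * rk K)⌉₊ + 1) * (C * (2 ^ (2 * rk K - 1) *
        ((1 + Real.exp (2 * D) ^ (2 * rk K)) * (1 + R ^ 2)))) := by
      gcongr
      · linarith
      · exact h4.trans (by gcongr)
    _ = _ := by ring
theorem count_supp (j : ℕ) (D : ℝ) : ∃ C : ℝ, 0 < C ∧ ∀ (w : HH K) (R : ℝ), 0 ≤ R →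
    {x : K × K | Supp j x ∧ Bal D (lq w x) ∧ QK w x ≤ R}.Finite ∧
      ({x : K × K | Supp j x ∧ Bal D (lq w x) ∧ QK w x ≤ R}.ncard : ℝ) ≤ C * (1 + R ^ 2) := by
  obtain ⟨C, hC, H⟩ := bc_card (K := K) j D
  refine ⟨C, hC, fun w R _ => ?_⟩
  have hf : {x : K × K | Supp j x ∧ Bal D (lq w x) ∧ QK w x ≤ R}.Finite := by
    by_contra hf
    obtain ⟨s, h1, h2⟩ := Set.Infinite.exists_subset_card_eq hf (⌈C * (1 + R ^ 2)⌉₊ + 1)
    have := H w R s h1
    rw [h2, Nat.cast_add, Nat.cast_one] at this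
    linarith [Nat.le_ceil (C * (1 + R ^ 2))]
  refine ⟨hf, ?_⟩
  rw [Set.ncard_eq_toFinset_card _ hf]
  exact H w R _ fun x hx => hf.mem_toFinset.1 hx
theorem mt_nonneg (j : ℕ) (q0 : ℝ) (w : HH K) (x : K × K) : 0 ≤ mt j q0 w x := ite_nonneg (Real.rpow_nonneg (Finset.prod_nonneg fun _ _ => P026.QQ_nonneg _ _ _) _) le_rfl
theorem measurable_mt (j : ℕ) (q0 : ℝ) (x : K × K) : Measurable fun w => mt j q0 w x := by
  refine Measurable.ite ?_ ((continuous_QK x).measurable.pow_const _) measurable_const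
  exact (MeasurableSet.const _).inter (((measurable_lq x) isFD_DD.1).inter
    (measurableSet_le measurable_const (continuous_QK x).measurable))
theorem maj_bound (j : ℕ) {q0 : ℝ} (hq : 0 < q0) : ∃ C : ℝ, 0 < C ∧ ∀ w : HH K,
    Summable (mt j q0 w) ∧ Maj j q0 w ≤ C := by
  obtain ⟨D, -, hD⟩ := DD_bal (K := K)
  obtain ⟨C, hC, H⟩ := bc_card (K := K) j D
  have key : ∀ (w : HH K) (s : Finset (K × K)),
      ∑ x ∈ s, mt j q0 w x ≤ C * (1 + 4 * q0 ^ 2) / q0 ^ 3 * 2 := by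
    intro w s
    choose! i hi using fun q : ℝ => fun h : 1 ≤ q => exists_nat_pow_near h one_lt_two
    simp only [mt]
    rw [← Finset.sum_filter, ← Finset.sum_fiberwise_of_maps_to
      (fun x hx => Finset.mem_image_of_mem (fun x => i (QK w x / q0)) hx), ← tsum_geometric_two,
      ← tsum_mul_left]
    refine le_trans (Finset.sum_le_sum fun n _ => ?_)
      ((summable_geometric_two.mul_left _).sum_le_tsum _ fun n _ => by positivity)
    have h1 : (1 : ℝ) ≤ 2 ^ n := one_le_pow₀ one_le_two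
    refine (Finset.sum_le_card_nsmul _ _ (((2 : ℝ) ^ n * q0) ^ (-3 : ℝ)) fun x hx => ?_).trans ?_
    · simp only [Finset.mem_filter] at hx
      exact Real.rpow_le_rpow_of_nonpos (by positivity) ((le_div_iff₀ hq).1
        (hx.2 ▸ (hi _ ((one_le_div hq).2 hx.1.2.2.2)).1)) (by norm_num)
    · rw [nsmul_eq_mul]
      refine (mul_le_mul_of_nonneg_right (H w (2 ^ (n + 1) * q0) _ fun x hx => ?_)
        (by positivity)).trans ?_
      · simp only [Finset.mem_filter] at hx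
        exact ⟨hx.1.2.1, hD _ hx.1.2.2.1, (div_le_iff₀ hq).1
          (hx.2 ▸ (hi _ ((one_le_div hq).2 hx.1.2.2.2)).2.le)⟩
      · rw [Real.rpow_neg (by positivity), Real.rpow_ofNat, one_div, inv_pow, pow_succ (2 : ℝ) n]
        generalize (2 : ℝ) ^ n = a at h1
        field_simp
        nlinarith
  exact ⟨_, by positivity, fun w => ⟨summable_of_sum_le (mt_nonneg j q0 w) (key w),
    Real.tsum_le_of_sum_le (mt_nonneg j q0 w) (key w)⟩⟩
theorem maj_nonneg (j : ℕ) (q0 : ℝ) (w : HH K) : 0 ≤ Maj j q0 w := tsum_nonneg (mt_nonneg j q0 w)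
theorem measurable_Maj (j : ℕ) (q0 : ℝ) : Measurable (Maj (K := K) j q0) := Measurable.tsum (measurable_mt j q0)

end

end Vale.Agent.P319N
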