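import Vale.Agent.P319N.BBox

namespace Vale.Agent.P319N

open NumberField Complex MeasureTheory Filter Topology
open scoped Classical ComplexConjugate Real MatrixGroups
open Vale.Agent.P026 (omC kap psi W Hs ht QQ act uu muH hh LL Gs bb kk UU DualW)

noncomputable section

variable {K : Type} [Field K] [NumberField K] [Setup K]

theorem bfd_image (m : K) (z0 : Emb K → ℂ) : Fd m z0 =
    (fun x : BI K → ℝ => z0 + jj m * Lm K x) '' (Set.univ.pi fun _ => Set.Ico 0 1) :=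
  Set.ext fun _ => ⟨fun ⟨x, h1, h⟩ => ⟨x, fun i _ => h1 i, h.symm⟩,
    fun ⟨x, h1, h⟩ => ⟨x, fun i => h1 i trivial, h.symm⟩⟩

theorem bfd_cont (m : K) (z0 : Emb K → ℂ) :
    Continuous (fun x : BI K → ℝ => z0 + jj m * Lm K x) := by
  obtain ⟨L, hL⟩ := bl_exists_L (K := K)
  simp only [← hL]
  fun_prop

theorem bfd_jj_ne {m : K} (hm : m ≠ 0) (σ : Emb K) : jj m σ ≠ 0 := (map_ne_zero σ.1).2 hm

theorem bfd_inj {m : K} (hm : m ≠ 0) (z0 : Emb K → ℂ) :
    Function.Injective (fun x : BI K → ℝ => z0 + jj m * Lm K x) := by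
  obtain ⟨L, hL⟩ := bl_exists_L (K := K)
  intro x y h
  apply L.injective
  rw [hL, hL]
  funext σ
  exact mul_left_cancel₀ (bfd_jj_ne hm σ) (congrFun (add_left_cancel h) σ)

theorem bfd_surj {m : K} (hm : m ≠ 0) (z0 : Emb K → ℂ) :
    Function.Surjective (fun x : BI K → ℝ => z0 + jj m * Lm K x) := by
  obtain ⟨L, hL⟩ := bl_exists_L (K := K)
  intro z
  refine ⟨L.symm (fun σ => (z σ - z0 σ) / jj m σ), ?_⟩
  simp only [← hL, L.apply_symm_apply]
  funext σ
  have := bfd_jj_ne hm σ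
  simp only [Pi.add_apply, Pi.mul_apply]
  field_simp
  ring

theorem bfd_emb {m : K} (hm : m ≠ 0) (z0 : Emb K → ℂ) :
    MeasurableEmbedding (fun x : BI K → ℝ => z0 + jj m * Lm K x) :=
  (bfd_cont m z0).measurableEmbedding (bfd_inj hm z0)

theorem measurableSet_Fd {m : K} (hm : m ≠ 0) (z0 : Emb K → ℂ) : MeasurableSet (Fd m z0) := by
  rw [bfd_image]
  exact (bfd_emb hm z0).measurableSet_image.2 (MeasurableSet.univ_pi fun _ => measurableSet_Ico)
theorem isBounded_Fd (m : K) (z0 : Emb K → ℂ) : Bornology.IsBounded (Fd m z0) := by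
  rw [bfd_image]
  exact ((isCompact_univ_pi fun _ => isCompact_Icc).image (bfd_cont m z0)).isBounded.subset
    (Set.image_mono (Set.pi_mono fun _ _ => Set.Ico_subset_Icc_self))

theorem bfd_jj_one : jj (1 : K) = 1 := by funext σ; simp [jj]

theorem bfd_vol_box : volume (Set.univ.pi fun _ : BI K => Set.Ico (0 : ℝ) 1) = 1 := by
  rw [volume_pi_pi]
  simp

theorem bfd_lin : 0 < V0 K ∧
    MeasurePreserving (Lm K) volume (ENNReal.ofReal (V0 K)⁻¹ • volume) := by
  obtain ⟨L, hL⟩ := bl_exists_L (K := K)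
  have e : Lm K = L := (funext hL).symm
  have h1 := Measure.isAddLeftInvariant_eq_smul (Measure.map L (volume : Measure (BI K → ℝ)))
    (volume : Measure (Emb K → ℂ))
  set c := Measure.addHaarScalarFactor (Measure.map L (volume : Measure (BI K → ℝ)))
    (volume : Measure (Emb K → ℂ))
  have h2 : Measure.map L (volume : Measure (BI K → ℝ)) (Fd (1 : K) 0) = 1 := by
    rw [Measure.map_apply L.continuous.measurable (measurableSet_Fd one_ne_zero 0), bfd_image]
    simp only [bfd_jj_one, one_mul, zero_add, e]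
    rw [Set.preimage_image_eq _ L.injective, bfd_vol_box]
  rw [h1, Measure.smul_apply, ENNReal.smul_def, smul_eq_mul] at h2
  have h3 : (c : ℝ) * V0 K = 1 := by
    have := congrArg ENNReal.toReal h2
    simpa [V0] using this
  have h4 : 0 < V0 K := lt_of_le_of_ne ENNReal.toReal_nonneg (fun h => by simp [← h] at h3)
  refine ⟨h4, e ▸ L.continuous.measurable, ?_⟩
  rw [e, h1, ← eq_inv_of_mul_eq_one_left h3, ENNReal.ofReal_coe_nnreal]
  rfl

theorem V0_pos : 0 < V0 K := bfd_lin.1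

/-- multiplication as a real linear map -/
def bfdM (m : K) : (Emb K → ℂ) →ₗ[ℝ] (Emb K → ℂ) :=
  LinearMap.pi fun σ => (Algebra.lmul ℝ ℂ (jj m σ)).comp (LinearMap.proj σ)

theorem bfd_det (m : K) : LinearMap.det (bfdM m) = absN m := by
  rw [bfdM, LinearMap.det_pi, bl_absN]
  exact Finset.prod_congr rfl fun σ _ => Algebra.norm_complex_apply _

theorem bfd_mp {m : K} (hm : m ≠ 0) (z0 : Emb K → ℂ) :
    MeasurePreserving (fun x : BI K → ℝ => z0 + jj m * Lm K x) volume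
      (ENNReal.ofReal (V0 K * absN m)⁻¹ • volume) := by
  have h0 := bl_absN_pos hm
  have h1 : MeasurePreserving (bfdM m) volume (ENNReal.ofReal (absN m)⁻¹ • volume) :=
    ⟨(bfdM m).continuous_of_finiteDimensional.measurable, by
      rw [Measure.map_linearMap_addHaar_eq_smul_addHaar _ (bfd_det m ▸ h0.ne'), bfd_det,
        abs_of_pos (inv_pos.2 h0)]⟩
  have h2 := (((((measurePreserving_add_left volume z0).smul_measure _).comp h1).smul_measure
    _).comp (bfd_lin (K := K)).2)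
  rw [smul_smul, ← ENNReal.ofReal_mul (inv_pos.2 V0_pos).le, ← mul_inv] at h2
  exact h2

theorem volume_Fd {m : K} (hm : m ≠ 0) (z0 : Emb K → ℂ) :
    volume (Fd m z0) = ENNReal.ofReal (V0 K * absN m) := by
  have h0 : 0 < V0 K * absN m := mul_pos V0_pos (bl_absN_pos hm)
  have h := (bfd_mp hm z0).measure_preimage (measurableSet_Fd hm z0).nullMeasurableSet
  rw [Measure.smul_apply, smul_eq_mul, ENNReal.ofReal_inv_of_pos h0] at h
  conv_lhs at h => rw [bfd_image, Set.preimage_image_eq _ (bfd_inj hm z0), bfd_vol_box]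
  have h1 : ENNReal.ofReal (V0 K * absN m) ≠ 0 := (ENNReal.ofReal_pos.2 h0).ne'
  rw [← one_mul (volume (Fd m z0)), ← ENNReal.mul_inv_cancel h1 ENNReal.ofReal_ne_top, mul_assoc,
    ← h, mul_one]

theorem bfd_shift (m : K) (z0 a : Emb K → ℂ) : (fun z => z + a) ⁻¹' Fd m (z0 + a) = Fd m z0 := by
  ext z
  simp only [Fd, Set.mem_preimage, Set.mem_ofPred_eq, add_right_comm z0 a, add_left_inj]

theorem Fd_diam (m : K) : ∃ T : ℝ, 0 ≤ T ∧ ∀ z0, ∀ z ∈ Fd m z0, ∀ z' ∈ Fd m z0, ‖z - z'‖ ≤ T := by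
  obtain ⟨T, hT⟩ := Metric.isBounded_iff.1 (isBounded_Fd m 0)
  refine ⟨max T 0, le_max_right _ _, ?_⟩
  rintro z0 _ ⟨x, hx, rfl⟩ _ ⟨y, hy, rfl⟩
  have := hT (x := 0 + jj m * Lm K x) ⟨x, hx, rfl⟩ (y := 0 + jj m * Lm K y) ⟨y, hy, rfl⟩
  rw [dist_eq_norm, add_sub_add_left_eq_sub] at this
  rw [add_sub_add_left_eq_sub]
  exact this.trans (le_max_left _ _)

theorem bfd_Lm_add (x y : BI K → ℝ) : Lm K (x + y) = Lm K x + Lm K y := (blatL K).map_add x y

theorem Fd_unique {m : K} (hm : m ≠ 0) (z0 z : Emb K → ℂ) :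
    ∃! k : latt m, z + jj (k : K) ∈ Fd m z0 := by
  obtain ⟨x, rfl⟩ := bfd_surj hm z0 z
  have e : ∀ c : BI K → ℤ, z0 + jj m * Lm K x + jj (m * ∑ i, (c i : K) * integralBasis K i) =
      z0 + jj m * Lm K (x + fun i => (c i : ℝ)) := fun c => by
    rw [bl_jj_mul, ← bl_Lm_int, bfd_Lm_add]
    ring
  refine ⟨⟨m * ∑ i, ((-⌊x i⌋ : ℤ) : K) * integralBasis K i, ?_⟩, ⟨_, fun i => ?_, e _⟩, ?_⟩
  · show IsI (_ / m)
    rw [mul_div_cancel_left₀ _ hm]
    exact (bl_isI_iff _).2 ⟨_, rfl⟩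
  · rw [← Int.floor_eq_zero_iff, Pi.add_apply, Int.floor_add_intCast, add_neg_cancel]
  · rintro ⟨k, hk⟩ ⟨y, hy, h⟩
    obtain ⟨c, hc⟩ := (bl_isI_iff _).1 (show IsI (k / m) from hk)
    have hk' : k = m * ∑ i, (c i : K) * integralBasis K i := by
      rw [← hc]; field_simp
    refine Subtype.ext ?_
    simp only at h ⊢
    rw [hk', e] at h
    have h2 := bfd_inj hm z0 h
    have h3 : c = fun i => -⌊x i⌋ := by
      funext i
      have := hy i
      rw [← h2, ← Int.floor_eq_zero_iff, Pi.add_apply, Int.floor_add_intCast] at this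
      exact eq_neg_of_add_eq_zero_right this
    rw [hk', h3]
theorem Fd_card {m m' : K} (hm : m ≠ 0) (hm' : m' ≠ 0) {Λ : AddSubgroup K} (h : latt m ≤ Λ)
    (h' : ∀ k ∈ Λ, IsI (m' * k)) : ∃ n0 : ℕ, 0 < n0 ∧ ∀ z0 z : Emb K → ℂ,
      {k : K | k ∈ Λ ∧ z + jj k ∈ Fd m z0}.Finite ∧
        {k : K | k ∈ Λ ∧ z + jj k ∈ Fd m z0}.ncard = n0 := by
  obtain ⟨T, hT0, hT⟩ := Fd_diam m
  obtain ⟨C, -, hC⟩ := box_card hm'
  have key : ∀ z0 z : Emb K → ℂ, {k : K | k ∈ Λ ∧ z + jj k ∈ Fd m z0}.Finite ∧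
      {k : K | k ∈ Λ ∧ z + jj k ∈ Fd m z0}.ncard = (latt m).relIndex Λ := by
    intro z0 z
    constructor
    · obtain ⟨k0, hk0, -⟩ := Fd_unique hm z0 z
      refine (hC (jj (k0 : K)) T hT0).1.subset fun k hk => ⟨h' k hk.1, ?_⟩
      have := hT z0 _ hk.2 _ hk0
      rwa [add_sub_add_left_eq_sub] at this
    · rw [← Nat.card_coe_set_eq, AddSubgroup.relIndex, AddSubgroup.index]
      refine Nat.card_eq_of_bijective (fun k => QuotientAddGroup.mk ⟨k.1, k.2.1⟩) ⟨?_, ?_⟩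
      · rintro ⟨a, ha, ha'⟩ ⟨b, hb, hb'⟩ hab
        have h0 := QuotientAddGroup.eq.1 hab
        have h1 : -a + b ∈ latt m := h0
        have h2 := (Fd_unique hm z0 (z + jj a)).unique (y₁ := ⟨0, (latt m).zero_mem⟩)
          (y₂ := ⟨-a + b, h1⟩) (by rwa [add_assoc, ← bl_jj_add, add_zero])
          (by rwa [add_assoc, ← bl_jj_add, add_neg_cancel_left])
        have h3 : (0 : K) = -a + b := congrArg Subtype.val h2
        exact Subtype.ext (by linear_combination h3)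
      · intro q
        obtain ⟨⟨a, ha⟩, rfl⟩ := QuotientAddGroup.mk_surjective q
        obtain ⟨k, hk, -⟩ := Fd_unique hm z0 (z + jj a)
        refine ⟨⟨a + k, Λ.add_mem ha (h k.2), by rwa [bl_jj_add, ← add_assoc]⟩, ?_⟩
        refine QuotientAddGroup.eq.2 ?_
        show -(a + k) + a ∈ latt m
        rw [show -(a + (k : K)) + a = -k by ring]
        exact (latt m).neg_mem k.2
  refine ⟨_, ?_, key⟩
  obtain ⟨k0, hk0, -⟩ := Fd_unique hm 0 0
  rw [← (key 0 0).2]
  exact (Set.ncard_pos (key 0 0).1).2 ⟨k0, h k0.2, hk0⟩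

theorem bfd_jj_neg (x : K) : jj (-x) = -jj x := by funext σ; simp [jj]

theorem bfd_part {m : K} (hm : m ≠ 0) (z0 : Emb K → ℂ) :
    Pairwise (Function.onFun Disjoint fun k : latt m => Fd m (z0 + jj (k : K))) ∧
      ⋃ k : latt m, Fd m (z0 + jj (k : K)) = Set.univ := by
  have e : ∀ z (k : latt m), z ∈ Fd m (z0 + jj (k : K)) ↔ z + jj ((-k : latt m) : K) ∈ Fd m z0 :=
    fun z k => by
      rw [← bfd_shift m z0 (jj (k : K))]
      simp [bfd_jj_neg]
  refine ⟨fun k l hkl => Set.disjoint_left.2 fun z h1 h2 => hkl (neg_injective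
    ((Fd_unique hm z0 z).unique ((e _ _).1 h1) ((e _ _).1 h2))), Set.eq_univ_of_forall fun z => ?_⟩
  obtain ⟨k, hk, -⟩ := Fd_unique hm z0 z
  exact Set.mem_iUnion.2 ⟨-k, (e _ _).2 (by rwa [neg_neg])⟩

theorem iUnion_Fd {m : K} (hm : m ≠ 0) : ⋃ k : K, Fd m (jj k) = Set.univ := by
  refine Set.eq_univ_of_forall fun z => ?_
  have h := (bfd_part hm 0).2
  obtain ⟨k, hk⟩ := Set.mem_iUnion.1 (h ▸ Set.mem_univ z : z ∈ ⋃ k : latt m, Fd m (0 + jj (k : K)))
  rw [zero_add] at hk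
  exact Set.mem_iUnion.2 ⟨k, hk⟩
theorem lintegral_Fd {m : K} (hm : m ≠ 0) (z0 : Emb K → ℂ) {F : (Emb K → ℂ) → ENNReal}
    (hF : Measurable F) :
    ∫⁻ z in Fd m z0, ∑' k : latt m, F (z + jj (k : K)) = ∫⁻ z, F z := by
  rw [lintegral_tsum fun k => Measurable.aemeasurable (by fun_prop),
    ← setLIntegral_univ F, ← (bfd_part hm z0).2,
    lintegral_iUnion (fun _ => measurableSet_Fd hm _) (bfd_part hm z0).1]
  refine tsum_congr fun k => ?_
  rw [← (measurePreserving_add_right volume (jj (k : K))).setLIntegral_comp_preimage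
    (measurableSet_Fd hm _) hF, bfd_shift]
theorem hasSum_integral_Fd {m : K} (hm : m ≠ 0) (z0 : Emb K → ℂ) {F : (Emb K → ℂ) → ℂ}
    (hF : Integrable F) :
    HasSum (fun k : latt m => ∫ z in Fd m z0, F (z + jj (k : K))) (∫ z, F z) := by
  have h := hasSum_integral_iUnion (fun _ => measurableSet_Fd hm _) (bfd_part hm z0).1
    hF.integrableOn
  rw [(bfd_part hm z0).2, setIntegral_univ] at h
  refine h.congr_fun fun k => Eq.symm ?_
  rw [← (measurePreserving_add_right volume (jj (k : K))).setIntegral_preimage_emb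
    (measurableEmbedding_addRight _), bfd_shift]

end

end Vale.Agent.P319N
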