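import Vale.Agent.P319N.BWgt
import Vale.Agent.P319N.BFd
import Vale.Agent.P319N.BCnt

namespace Vale.Agent.P319N

open NumberField Complex MeasureTheory Filter Topology
open scoped Classical ComplexConjugate Real MatrixGroups
open Vale.Agent.P026 (omC kap psi W Hs ht QQ act uu muH hh LL Gs bb kk UU DualW)

noncomputable section

theorem bunf_tsum {α : Type} (P : α → Prop) [DecidablePred P] (h : {k | P k}.Finite)
    (a : ENNReal) : ∑' k, (if P k then a else 0) = {k | P k}.ncard * a := by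
  rw [tsum_eq_sum (s := h.toFinset) fun k hk => if_neg (by simpa using hk),
    Finset.sum_congr rfl fun k hk => if_pos (by simpa using hk), Finset.sum_const,
    Set.ncard_eq_toFinset_card _ h, nsmul_eq_mul]

theorem bunf_le {α β : Type} (r : α → β) {f : β → ENNReal} {g : α → ENNReal}
    (h : ∀ x, f x ≠ 0 → ∃ p, r p = x ∧ f x ≤ g p) : ∑' x, f x ≤ ∑' p, g p := by
  rw [← ENNReal.tsum_fiberwise g r]
  refine ENNReal.tsum_le_tsum fun x => ?_
  by_cases hx : f x = 0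
  · simp [hx]
  · obtain ⟨p, hp, h1⟩ := h x hx
    exact h1.trans (ENNReal.le_tsum (f := fun b : r ⁻¹' {x} => g b) ⟨p, hp⟩)

theorem bunf_fib {α β : Type} (r : α → β) {G : Set α} {A : Set β} (hA : A.Finite)
    (h : Set.MapsTo r G A) {N : ℕ}
    (hN : ∀ a ∈ G, {b ∈ G | r b = r a}.Finite ∧ {b ∈ G | r b = r a}.ncard ≤ N) :
    G.Finite ∧ G.ncard ≤ N * A.ncard := by
  have h1 : ∀ x, {b ∈ G | r b = x}.Finite ∧ {b ∈ G | r b = x}.ncard ≤ N := fun x => by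
    rcases Set.eq_empty_or_nonempty {b ∈ G | r b = x} with e | ⟨a, ha, rfl⟩
    · simp [e]
    · exact hN a ha
  have h2 : G.Finite := (hA.biUnion fun x _ => (h1 x).1).subset fun a ha =>
    Set.mem_biUnion (h ha) ⟨ha, rfl⟩
  refine ⟨h2, ?_⟩
  rw [Set.ncard_eq_toFinset_card _ h2, Set.ncard_eq_toFinset_card _ hA]
  refine Finset.card_le_mul_card_image_of_maps_to (f := r) (fun a ha => by simpa using h (by simpa using ha))
    N fun x _ => le_trans (le_of_eq ?_) (h1 x).2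
  rw [← Set.ncard_coe_finset]
  congr 1
  ext a
  simp

variable {K : Type} [Field K] [NumberField K] [Level K]

theorem bunf_k {g g' : SLK K} {k : K} (h : g' = Tm k * g) : (g' * g⁻¹) 0 1 = k := by
  rw [h, mul_inv_cancel_right, (bg_Tm k).2.1]

theorem row_count {q : K} (hq : IsI q) (h0 : q ≠ 0) {j : ℕ} {σ : SLK K} (hσ : Ent j σ) :
    ∃ n0 : ℕ, 0 < n0 ∧ ∀ (w : HH K) (γ0 : Gam q),
      {γ : Gam q | row (σ * γ.1) = row (σ * γ0.1) ∧
        zc (actK (σ * γ.1) w) ∈ Fd (pd q j) 0}.Finite ∧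
      {γ : Gam q | row (σ * γ.1) = row (σ * γ0.1) ∧
        zc (actK (σ * γ.1) w) ∈ Fd (pd q j) 0}.ncard = n0 := by
  let Λ : AddSubgroup K :=
    { carrier := {k | σ⁻¹ * Tm k * σ⁻¹⁻¹ ∈ Gam q}
      zero_mem' := by simp [Tm_zero]
      add_mem' := fun {a b} ha hb => by
        have := (Gam q).mul_mem ha hb
        simpa [Tm_add, mul_assoc] using this
      neg_mem' := fun {a} ha => by
        have := (Gam q).inv_mem ha
        have e : Tm (-a) = (Tm a)⁻¹ :=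
          eq_inv_of_mul_eq_one_left (by rw [← Tm_add, neg_add_cancel, Tm_zero])
        simpa [e, mul_assoc] using this }
  obtain ⟨n0, hn, H⟩ := Fd_card (pd_ne h0 j) (pow_ne_zero (2 * j) MK_ne) (Λ := Λ)
    (fun k hk => by
      have := conj_Tm_mem hq h0 hσ.inv hk
      rwa [mul_div_cancel₀ _ (pd_ne h0 j)] at this)
    (fun k hk => isI_of_conj_Tm hσ.inv hk)
  refine ⟨n0, hn, fun w γ0 => ?_⟩
  obtain ⟨h1, h2⟩ := H 0 (zc (actK (σ * γ0.1) w))
  have hb : Set.BijOn (fun γ : Gam q => (σ * γ.1 * (σ * γ0.1)⁻¹) 0 1)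
      {γ : Gam q | row (σ * γ.1) = row (σ * γ0.1) ∧ zc (actK (σ * γ.1) w) ∈ Fd (pd q j) 0}
      {k : K | k ∈ Λ ∧ zc (actK (σ * γ0.1) w) + jj k ∈ Fd (pd q j) 0} := by
    refine ⟨fun γ ⟨h3, h4⟩ => ?_, fun γ h3 γ' h4 e => ?_, fun k ⟨h3, h4⟩ => ?_⟩
    · obtain ⟨k, hk⟩ := row_eq_iff.1 h3.symm
      rw [hk, actK_mul, zc_Tm] at h4
      simp only [bunf_k hk]
      refine ⟨?_, h4⟩
      have e : σ⁻¹ * Tm k * σ⁻¹⁻¹ = γ.1 * γ0.1⁻¹ := by
        rw [← mul_inv_eq_iff_eq_mul] at hk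
        rw [← hk]
        group
      change σ⁻¹ * Tm k * σ⁻¹⁻¹ ∈ Gam q
      rw [e]
      exact mul_mem γ.2 (inv_mem γ0.2)
    · obtain ⟨k, hk⟩ := row_eq_iff.1 h3.1.symm
      obtain ⟨k', hk'⟩ := row_eq_iff.1 h4.1.symm
      simp only [bunf_k hk, bunf_k hk'] at e
      exact Subtype.ext (mul_left_cancel (a := σ) (by rw [hk, hk', e]))
    · have e : σ * (σ⁻¹ * Tm k * σ⁻¹⁻¹ * γ0.1) = Tm k * (σ * γ0.1) := by group
      refine ⟨⟨σ⁻¹ * Tm k * σ⁻¹⁻¹ * γ0.1, mul_mem h3 γ0.2⟩,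
        ⟨(row_eq_iff.2 ⟨k, e⟩).symm, ?_⟩, bunf_k e⟩
      simp only [e]
      rwa [actK_mul, zc_Tm]
  exact ⟨hb.finite_iff_finite.2 h1, hb.ncard_eq.trans h2⟩

/-- the height part of the dominating function -/
def bunfH (q0 : ℝ) (t : Emb K → ℝ) : ENNReal :=
  if -t ∈ DD K ∧ q0 ≤ Real.exp (∑ σ, (-t) σ) then
    ENNReal.ofReal (Real.exp (∑ σ, (-t) σ) ^ (-3 : ℝ)) else 0

theorem bunf_meas (q0 : ℝ) : Measurable (bunfH (K := K) q0) :=
  Measurable.ite ((measurable_neg isFD_DD.1).inter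
    (measurableSet_le (f := fun _ => q0) (g := fun t : Emb K → ℝ => Real.exp (∑ σ, (-t) σ))
      measurable_const (by fun_prop))) (by fun_prop) measurable_const

theorem bunf_int {q0 : ℝ} (hq0 : 0 < q0) :
    ∫⁻ t : Emb K → ℝ, ENNReal.ofReal (Real.exp (-2 * ∑ σ, t σ)) * bunfH q0 t < ⊤ := by
  obtain ⟨D, -, hD⟩ := DD_bal (K := K)
  have h1 := ((integrableOn_bal (ι := Emb K) D one_pos).const_mul
    (Real.exp (2 * |Real.log q0|))).lintegral_lt_top
  refine lt_of_le_of_lt (le_trans (lintegral_mono fun t => ?_) (lintegral_indicator_le _ _)) h1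
  unfold bunfH
  split_ifs with h
  swap
  · simp
  have h2 : t ∈ {y : Emb K → ℝ | Bal D y} := fun σ τ => by
    have := hD _ h.1 τ σ
    rwa [Pi.neg_apply, Pi.neg_apply, neg_sub_neg] at this
  have h3 : ∑ σ, (-t) σ = -∑ σ, t σ := by simp
  have h4 := (Real.log_le_iff_le_exp hq0).2 h.2
  rw [Set.indicator_of_mem h2, ← ENNReal.ofReal_mul (Real.exp_pos _).le, ← Real.exp_mul,
    ← Real.exp_add, ← Real.exp_add]
  refine ENNReal.ofReal_le_ofReal (Real.exp_le_exp.2 ?_)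
  rw [h3] at h4 ⊢
  have h5 := neg_abs_le (Real.log q0)
  have h6 := abs_nonneg (Real.log q0)
  rcases abs_cases (∑ σ, t σ) with h7 | h7 <;> linarith [h7.1, h7.2]

theorem memLp_Maj {q : K} (hq : IsI q) (h0 : q ≠ 0) (j : ℕ) {q0 : ℝ} (hq0 : 0 < q0) :
    MemLp (Maj (K := K) j q0) 2 (nu q) := by
  obtain ⟨C, hC, h1⟩ := maj_bound (K := K) j hq0
  obtain ⟨T, hT, h2⟩ := orbit_reps hq h0 j
  set H : HH K → ENNReal := fun w => (Fd (pd q j) 0).indicator 1 (zc w) * bunfH q0 (tc w) with hH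
  have hF := measurableSet_Fd (pd_ne h0 j) (0 : Emb K → ℂ)
  have mH : Measurable H :=
    ((measurable_one.indicator hF).comp continuous_zc.measurable).mul
      ((bunf_meas q0).comp continuous_tc.measurable)
  have h3 : ∫⁻ w, H w ∂(muP (Emb K)) < ⊤ := by
    rw [lintegral_muP mH]
    simp only [hH, zc_mkP, tc_mkP]
    simp only [lintegral_mul_const _ (measurable_one.indicator hF), lintegral_indicator_one hF,
      mul_left_comm _ (volume (Fd (pd q j) 0))]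
    rw [volume_Fd (pd_ne h0 j), lintegral_const_mul' _ _ ENNReal.ofReal_ne_top]
    exact ENNReal.mul_lt_top ENNReal.ofReal_lt_top (bunf_int hq0)
  have h4 : ∀ w, ENNReal.ofReal (Maj j q0 w) ≤
      ∑' σ : T, ∑' γ : Gam q, H (actK σ (actK γ w)) := fun w => by
    rw [Maj, ENNReal.ofReal_tsum_of_nonneg (mt_nonneg j q0 w) (h1 w).1,
      ← ENNReal.tsum_prod' (f := fun p : T × Gam q => H (actK p.1 (actK p.2 w)))]
    refine bunf_le (fun p => row (p.1.1 * p.2.1)) fun x hx => ?_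
    have h5 : Supp j x ∧ lq w x ∈ DD K ∧ q0 ≤ QK w x := by
      by_contra hc
      exact hx (by rw [mt, if_neg hc, ENNReal.ofReal_zero])
    obtain ⟨σ, ⟨hσ, γ0, hγ0, e⟩, -⟩ := h2 x h5.1
    obtain ⟨n0, hn, h6⟩ := row_count hq h0 (hT σ hσ)
    obtain ⟨γ, h7, h8⟩ := Set.nonempty_of_ncard_ne_zero ((h6 w ⟨γ0, hγ0⟩).2.trans_ne hn.ne')
    have h9 : row (σ * γ.1) = x := by rw [h7, row_mul, e]
    refine ⟨(⟨σ, hσ⟩, γ), h9, ?_⟩
    simp only [hH, ← actK_mul]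
    rw [Set.indicator_of_mem h8, tc_actK, h9, bunfH, neg_neg, ← QK_eq_exp w h5.1.ne, if_pos h5.2,
      mt, if_pos h5, Pi.one_apply, one_mul]
  have h5 : Integrable (Maj (K := K) j q0) (nu q) := by
    refine ⟨(measurable_Maj j q0).aestronglyMeasurable,
      (hasFiniteIntegral_iff_ofReal (Eventually.of_forall (maj_nonneg j q0))).2
        (lt_of_le_of_lt (lintegral_mono h4) ?_)⟩
    have m1 : ∀ (σ : T) (γ : Gam q), Measurable fun w => H (actK σ (actK γ w)) := fun σ γ =>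
      mH.comp ((continuous_actK _).comp (continuous_actK _)).measurable
    rw [lintegral_tsum fun σ => (Measurable.tsum (m1 σ)).aemeasurable, tsum_fintype]
    refine ENNReal.sum_lt_top.2 fun σ _ => ?_
    rwa [lintegral_unfold q (F := fun w => H (actK σ w)) (mH.comp (continuous_actK _).measurable),
      (measurePreserving_actK _).lintegral_comp mH]
  refine (memLp_two_iff_integrable_sq h5.1).2 ((h5.const_mul C).mono'
    ((measurable_Maj j q0).pow_const 2).aestronglyMeasurable (Eventually.of_forall fun w => ?_))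
  rw [Real.norm_of_nonneg (sq_nonneg _), sq]
  exact mul_le_mul_of_nonneg_right (h1 w).2 (maj_nonneg j q0 w)

theorem mult_bound {q : K} {κ : SLK K → ℂ} (h1 : ∀ γ ∈ Gam q, ‖κ γ‖ = 1) (j : ℕ) (m : K)
    (hm : m ≠ 0) : ∃ C : ℝ, 0 < C ∧ ∀ (u : HH K → ℂ) (σ : SLK K) (z0 : Emb K → ℂ) (t0 : ℝ),
      Measurable u → Aut q κ u → Ent j σ → t0 ≤ 0 →
      ∫⁻ w in {w : HH K | zc w ∈ Fd m z0 ∧ ∀ τ, tc w τ ∈ Set.Icc t0 (t0 + 1)},
          ‖u (actK σ w)‖ₑ ^ 2 ∂(muP (Emb K)) ≤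
        ENNReal.ofReal (C * Real.exp (-(2 * rk K * t0))) * ∫⁻ w, ‖u w‖ₑ ^ 2 ∂(nu q) := by
  obtain ⟨C, hC, H⟩ := count_supp (K := K) j 1
  obtain ⟨T, hT, hd⟩ := Fd_diam m
  obtain ⟨C', -, H'⟩ := box_card (pow_ne_zero (2 * j) (MK_ne (K := K)))
  obtain ⟨hB, -⟩ := H' 0 T hT
  set N := {a : K | IsI (MK K ^ (2 * j) * a) ∧ ‖jj a - 0‖ ≤ T}.ncard with hN
  refine ⟨(N + 1) * (2 * C), by positivity, fun u σ z0 t0 hu ha hσ ht => ?_⟩
  set S := {w : HH K | zc w ∈ Fd m z0 ∧ ∀ τ, tc w τ ∈ Set.Icc t0 (t0 + 1)} with hS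
  have h0 : MeasurableSet S := by
    refine (continuous_zc.measurable (measurableSet_Fd hm z0)).inter ?_
    rw [show (fun w : HH K => ∀ τ, tc w τ ∈ Set.Icc t0 (t0 + 1)) =
      tc ⁻¹' Set.pi Set.univ fun _ => Set.Icc t0 (t0 + 1) by
        funext w; exact propext ⟨fun h τ _ => h τ, fun h τ => h τ trivial⟩]
    exact continuous_tc.measurable (MeasurableSet.univ_pi fun _ => measurableSet_Icc)
  have h2 : Measurable fun w => if actK σ⁻¹ w ∈ S then ‖u w‖ₑ ^ 2 else 0 :=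
    Measurable.ite ((continuous_actK _).measurable h0) (hu.enorm.pow_const 2) measurable_const
  have h3 : ∫⁻ w in S, ‖u (actK σ w)‖ₑ ^ 2 ∂(muP (Emb K)) =
      ∫⁻ w, (if actK σ⁻¹ w ∈ S then ‖u w‖ₑ ^ 2 else 0) ∂(muP (Emb K)) := by
    rw [← (measurePreserving_actK σ).lintegral_comp h2, ← lintegral_indicator h0]
    simp only [← actK_mul, inv_mul_cancel, actK_one, Set.indicator_apply]
  rw [h3, ← lintegral_unfold q h2, ← lintegral_const_mul _ (hu.enorm.pow_const 2)]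
  refine lintegral_mono fun w => ?_
  have h4 : ∀ γ : Gam q, ‖u (actK γ w)‖ₑ = ‖u w‖ₑ := fun γ => by
    rw [← ofReal_norm, ← ofReal_norm, ha _ γ.2, norm_mul, norm_conj, h1 _ γ.2, one_mul]
  set R := Real.exp (-(rk K * t0)) with hR
  have hR1 : 1 ≤ R := Real.one_le_exp (by nlinarith [Nat.cast_nonneg (α := ℝ) (rk K)])
  obtain ⟨h7, h8⟩ := H w R (by positivity)
  obtain ⟨h9, h10⟩ := bunf_fib (fun γ : Gam q => row (σ⁻¹ * γ.1))
    (G := {γ | actK (σ⁻¹ * γ.1) w ∈ S}) h7 (fun γ h => by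
      have e := (hσ.inv.mul (ent_of_Gam γ.2)).supp_row
      have e2 : ∀ τ, t0 ≤ -lq w (row (σ⁻¹ * γ.1)) τ ∧ -lq w (row (σ⁻¹ * γ.1)) τ ≤ t0 + 1 :=
        fun τ => by
          have := h.2 τ
          rwa [tc_actK] at this
      refine ⟨e, fun τ τ' => abs_le.2 ⟨by linarith [(e2 τ).2, (e2 τ').1],
        by linarith [(e2 τ).1, (e2 τ').2]⟩, ?_⟩
      rw [QK_eq_exp w e.ne]
      refine Real.exp_le_exp.2 ((Finset.sum_le_sum (g := fun _ => -t0) fun τ _ => by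
        linarith [(e2 τ).1]).trans (le_of_eq ?_))
      simp [rk]) (N := N) (fun γ0 hγ0 => by
      have m1 : Set.MapsTo (fun γ : Gam q => (σ⁻¹ * γ.1 * (σ⁻¹ * γ0.1)⁻¹) 0 1)
          {γ ∈ {γ : Gam q | actK (σ⁻¹ * γ.1) w ∈ S} | row (σ⁻¹ * γ.1) = row (σ⁻¹ * γ0.1)}
          {a : K | IsI (MK K ^ (2 * j) * a) ∧ ‖jj a - 0‖ ≤ T} := fun γ ⟨h5, h6⟩ => by
        obtain ⟨k, hk⟩ := row_eq_iff.1 h6.symm
        have e : σ * Tm k * σ⁻¹ = γ.1 * γ0.1⁻¹ := by
          rw [← mul_inv_eq_iff_eq_mul] at hk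
          rw [← hk]
          group
        have e2 := hd z0 _ h5.1 _ hγ0.1
        rw [hk, actK_mul, zc_Tm, add_sub_cancel_left] at e2
        simp only [bunf_k hk]
        exact ⟨isI_of_conj_Tm hσ (e ▸ mul_mem γ.2 (inv_mem γ0.2)), by rwa [sub_zero]⟩
      have m2 : Set.InjOn (fun γ : Gam q => (σ⁻¹ * γ.1 * (σ⁻¹ * γ0.1)⁻¹) 0 1)
          {γ ∈ {γ : Gam q | actK (σ⁻¹ * γ.1) w ∈ S} | row (σ⁻¹ * γ.1) = row (σ⁻¹ * γ0.1)} :=
        fun γ h5 γ' h6 e => by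
          obtain ⟨k, hk⟩ := row_eq_iff.1 h5.2.symm
          obtain ⟨k', hk'⟩ := row_eq_iff.1 h6.2.symm
          simp only [bunf_k hk, bunf_k hk'] at e
          exact Subtype.ext (mul_left_cancel (a := σ⁻¹) (by rw [hk, hk', e]))
      exact ⟨hB.of_injOn m1 m2, Set.ncard_le_ncard_of_injOn _ m1 m2 hB⟩)
  simp only [h4, ← actK_mul]
  rw [bunf_tsum _ h9, ← ENNReal.ofReal_natCast]
  gcongr
  have e : Real.exp (-(2 * rk K * t0)) = R ^ 2 := by
    rw [hR, ← Real.exp_nat_mul]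
    congr 1
    push_cast
    ring
  have h11 : (1 : ℝ) ≤ R ^ 2 := one_le_pow₀ hR1
  rw [e, mul_assoc]
  refine (Nat.cast_le.2 h10).trans ?_
  rw [Nat.cast_mul]
  exact mul_le_mul (by linarith) (h8.trans (by nlinarith)) (Nat.cast_nonneg _) (by positivity)

end

end Vale.Agent.P319N
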