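import Vale.Agent.P319N.BKer
import Vale.Agent.P319N.BInc
import Vale.Agent.P319N.BUnf
import Vale.Agent.P319N.BHil
import Vale.Agent.P319N.BDL

namespace Vale.Agent.P319N

open NumberField Complex MeasureTheory Filter Topology
open scoped Classical ComplexConjugate Real MatrixGroups
open Vale.Agent.P026 (omC kap psi W Hs ht QQ act uu muH hh LL Gs bb kk UU DualW)

noncomputable section

variable {K : Type} [Field K] [NumberField K] [Level K]

theorem ba1_band {g : ℂ} {B a b x : ℝ} (hx : 0 < x) (hb : 0 < b) (h1 : ‖g‖ ≤ B)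
    (h2 : x < a ∨ b < x → g = 0) : ‖g‖ ≤ B * b ^ 3 * if a ≤ x then x ^ (-3 : ℝ) else 0 := by
  have B0 : 0 ≤ B := (norm_nonneg _).trans h1
  split_ifs with h
  · by_cases h' : b < x
    · rw [h2 (Or.inr h'), norm_zero]
      positivity
    · rw [Real.rpow_neg hx.le, Real.rpow_ofNat, mul_assoc]
      refine h1.trans (le_mul_of_one_le_right B0 ?_)
      rw [← div_eq_mul_inv, one_le_div (by positivity)]
      exact pow_le_pow_left₀ hx.le (not_lt.1 h') 3
  · rw [h2 (Or.inl (not_le.1 h))]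
    simp

theorem ba1_Gs {s : ℂ} (hs : 3 < s.re) (x : ℝ) :
    ‖Gs s x‖ ≤ 1 * if 1 ≤ x then x ^ (-3 : ℝ) else 0 := by
  rw [P026.norm_Gs, one_mul]
  split_ifs with h
  · exact Real.rpow_le_rpow_of_exponent_le h (by linarith)
  · exact le_rfl

theorem thA1 {q : K} {κ : SLK K → ℂ} {Φ : K × K → ℂ} (hΦ : Adm q κ Φ) :
    ∃ (g : ℂ → Lp ℂ 2 (nu q)) (u0 : Lp ℂ 2 (nu q)) (u : HH K → ℂ), Measurable u ∧ Aut q κ u ∧
      (u0 : HH K → ℂ) =ᵐ[nu q] u ∧ DifferentiableOn ℂ g (Om (eta K)) ∧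
      (∀ s ∈ Om (eta K), 3 < s.re → (g s : HH K → ℂ) =ᵐ[nu q] Inc Φ (Gs s)) ∧
      (∀ y, Tendsto (fun ε : ℝ => (ε : ℂ) * inner ℂ y (g (4 / 3 + ε * Complex.I)))
        (UU : Filter ℝ) (𝓝 (inner ℂ y u0))) ∧
      ((∀ s, ∫ w, conj (u w) * Inc Φ (pisP (Emb K) s) w ∂(nu q) = 0) → u =ᵐ[nu q] 0) := by
  obtain ⟨j, B, hA⟩ := hΦ.ad1 1 ent_one
  rw [tw_one] at hA
  have q0 : (0 : ℝ) < (4 ^ Fintype.card (Emb K))⁻¹ := by positivity
  obtain ⟨p, hp, hpe⟩ := dl2_maj (nu q) _ (memLp_Maj hΦ.qint hΦ.qne j q0) (maj_nonneg _ _)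
    (fun s => Inc Φ (pisP (Emb K) s)) (fun s => measurable_Inc Φ (measurable_pisP s))
    (fun w => differentiable_Inc_band hA (fun x hx => differentiable_pisP hx)
      (q1 := 4 ^ Fintype.card (Emb K))
      (fun s x hx => pisP_support s (lt_trans (by positivity) hx) (Or.inr hx)) w)
    (fun R => by
      obtain ⟨C, hC⟩ := pisP_bound (ι := Emb K) R
      refine ⟨_, fun s hs w => (Inc_maj hA (C := C * (4 ^ Fintype.card (Emb K)) ^ 3) q0 w
        fun x hx => ?_).2.2⟩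
      have := QK_pos w (hA.supp x hx).ne
      exact ba1_band this (by positivity) (hC s hs _ this) (pisP_support s this))
  obtain ⟨T, hT, hF, hL⟩ := exists_T q hΦ.norm hΦ.mul
  obtain ⟨c, hc, hge⟩ := im_hh_pow_ge (rk_pos (K := K))
  have e43 : hh (4 / 3) = ((hh (4 / 3)).re : ℂ) := Complex.ext rfl P026.hh_real.1
  obtain ⟨g, u0, g1, g2, g3, g4, g5⟩ :=
    hil (η := eta K) (inv_pos.2 (Nat.cast_pos.2 rk_pos)) T hT (fun s => hh s ^ rk K)
      (P026.differentiable_hh.pow _) p hp (fun s hs => im_hh_pow_pos rk_pos hs) c hc hge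
      (by rw [e43, ← Complex.ofReal_pow, Complex.ofReal_im])
  obtain ⟨F, F1, F2, F3⟩ := hF u0
  have h0 : hh (4 / 3) ^ rk K ≠ 0 := pow_ne_zero _ fun h => by
    have := P026.hh_real.2
    rw [h] at this
    simp at this
  have e0 : (u0 : HH K → ℂ) =ᵐ[nu q] fun w => (hh (4 / 3) ^ rk K)⁻¹ * F w := by
    rw [g4] at F3
    filter_upwards [F3, Lp.coeFn_smul (hh (4 / 3) ^ rk K) u0] with w a b
    rw [← a, b, Pi.smul_apply, smul_eq_mul, inv_mul_cancel_left₀ h0]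
  refine ⟨g, u0, fun w => (hh (4 / 3) ^ rk K)⁻¹ * F w, F1.const_mul _, fun γ hγ w => ?_, e0, g1,
    fun s hs h3 => ?_, g3, fun h => ?_⟩
  · beta_reduce
    rw [F2 γ hγ w]
    ring
  · obtain ⟨C, -, hC⟩ := maj_bound (K := K) j one_pos
    have hB : ∀ w, ‖Inc Φ (Gs s) w‖ ≤ |B| * |1| * Maj j 1 w := fun w =>
      (Inc_maj hA one_pos w fun x _ => ba1_Gs h3 _).2.2
    have m1 : Measurable (Inc Φ (Gs s)) := measurable_Inc Φ (P026.measurable_Gs s)
    have m2 : MemLp (Inc Φ (Gs s)) 2 (nu q) :=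
      ((memLp_Maj hΦ.qint hΦ.qne j one_pos).const_mul (|B| * |1|)).of_le m1.aestronglyMeasurable
        (ae_of_all _ fun w => (hB w).trans (le_abs_self _))
    have e1 := hL (m2.toLp _) _ (|B| * |1| * C) m1 (aut_Inc hΦ _)
      (fun w => (hB w).trans (mul_le_mul_of_nonneg_left (hC w).2 (by positivity))) m2.coeFn_toLp
    rw [← g2 s hs (m2.toLp _) ?_]
    · exact m2.coeFn_toLp
    · refine Lp.ext ?_
      filter_upwards [e1, m2.coeFn_toLp, hpe s, Lp.coeFn_smul (hh s ^ rk K) (m2.toLp _),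
        Lp.coeFn_sub (T (m2.toLp _)) (hh s ^ rk K • m2.toLp _)] with w a b c d e
      rw [e, Pi.sub_apply, a, d, Pi.smul_apply, b, c, smul_eq_mul]
      exact LopP_Inc hA h3 w
  · have : u0 = 0 := g5 fun s => by
      rw [L2.inner_def, ← h s]
      refine integral_congr_ae ?_
      filter_upwards [e0, hpe s] with w a b
      rw [a, b, RCLike.inner_apply, mul_comm]
    rw [this] at e0
    exact e0.symm.trans (Lp.coeFn_zero _ _ _)

end

end Vale.Agent.P319N
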