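import Vale.Agent.P319N.BEfc
import Vale.Agent.P319N.BInc
import Vale.Agent.P026.ThA2

namespace Vale.Agent.P319N

open NumberField Complex MeasureTheory Filter Topology
open scoped Classical ComplexConjugate Real MatrixGroups
open Vale.Agent.P026 (omC kap psi W Hs ht QQ act uu muH hh LL Gs bb kk UU DualW)
open Vale.Agent.P026 (tha2G tha2_meas tha2_bd dl_integral)

noncomputable section

variable {K : Type} [Field K] [NumberField K] [Level K]

theorem ba2_fin (m : K) (z0 : Emb K → ℂ) (T : ℝ) :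
    IsFiniteMeasure ((muP (Emb K)).restrict {w : HH K | zc w ∈ Fd m z0 ∧ ‖tc w‖ ≤ T}) :=
  isFiniteMeasure_restrict.2
    ((measure_mono subset_closure).trans_lt (isCompact_box (isBounded_Fd m z0) T).measure_lt_top).ne

theorem ba2_tst (n : K) {φ : (Emb K → ℝ) → ℂ} (hφ : Measurable φ) {f : HH K → ℂ}
    (hf : Measurable f) : Measurable fun w : HH K => f w * psiV (-(jj n * zc w)) * φ (tc w) :=
  (hf.mul (bl_continuous_psiV.comp (continuous_const.mul continuous_zc).neg).measurable).mul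
    (hφ.comp continuous_tc.measurable)

theorem ba2_norm (n : K) {φ : (Emb K → ℝ) → ℂ} {Bd C : ℝ} (hb : ∀ t, ‖φ t‖ ≤ Bd) {f : HH K → ℂ}
    (w : HH K) (hC : ‖f w‖ ≤ C) : ‖f w * psiV (-(jj n * zc w)) * φ (tc w)‖ ≤ C * Bd := by
  rw [norm_mul, norm_mul, bl_norm_psiV, mul_one]
  exact mul_le_mul hC (hb _) (norm_nonneg _) ((norm_nonneg _).trans hC)

theorem ba2_diff {m : K} {z0 : Emb K → ℂ} {T : ℝ} {φ : (Emb K → ℝ) → ℂ}
    (h0 : ∀ t, T < ‖t‖ → φ t = 0) (f : HH K → ℂ) :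
    ∀ w ∈ {w : HH K | zc w ∈ Fd m z0} \ {w : HH K | zc w ∈ Fd m z0 ∧ ‖tc w‖ ≤ T},
      f w * φ (tc w) = 0 :=
  fun w hw => by rw [h0 _ (not_le.1 fun h => hw.2 ⟨hw.1, h⟩), mul_zero]

theorem ba2_set {m : K} (hm : m ≠ 0) (z0 : Emb K → ℂ) :
    MeasurableSet {w : HH K | zc w ∈ Fd m z0} :=
  continuous_zc.measurable (measurableSet_Fd hm z0)

theorem ba2_int {m : K} (hm : m ≠ 0) (n : K) (z0 : Emb K → ℂ) {φ : (Emb K → ℝ) → ℂ} (hφ : Tst φ)
    {f : HH K → ℂ} (hf : Measurable f) {C : ℝ} (hC : ∀ w, ‖f w‖ ≤ C) :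
    IntegrableOn (fun w : HH K => f w * psiV (-(jj n * zc w)) * φ (tc w))
      {w : HH K | zc w ∈ Fd m z0} (muP (Emb K)) := by
  obtain ⟨h1, Bd, T, hb, h0⟩ := hφ
  have := ba2_fin m z0 T
  exact IntegrableOn.of_forall_sdiff_eq_zero (Integrable.of_bound
    (ba2_tst n h1 hf).aestronglyMeasurable _ (.of_forall fun w => ba2_norm n hb w (hC w)))
    (ba2_set hm z0) (ba2_diff h0 _)

theorem ba2_cut {g : ℂ} {B a b x : ℝ} (hx : 0 < x) (hb : 0 < b) (h1 : ‖g‖ ≤ B)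
    (h2 : ¬(a ≤ x ∧ x < b) → g = 0) : ‖g‖ ≤ B * b ^ 3 * if a ≤ x then x ^ (-3 : ℝ) else 0 := by
  have B0 : 0 ≤ B := (norm_nonneg _).trans h1
  split_ifs with h
  · by_cases h' : x < b
    · rw [Real.rpow_neg hx.le, Real.rpow_ofNat, mul_assoc]
      refine h1.trans (le_mul_of_one_le_right B0 ?_)
      rw [← div_eq_mul_inv, one_le_div (by positivity)]
      exact pow_le_pow_left₀ hx.le h'.le 3
    · rw [h2 fun e => h' e.2, norm_zero]
      positivity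
  · rw [h2 fun e => h e.1]
    simp

theorem ba2_band {m : K} (hm : m ≠ 0) (n : K) (z0 : Emb K → ℂ) {φ : (Emb K → ℝ) → ℂ} (hφ : Tst φ)
    {j : ℕ} {B : ℝ} {Ψ : K × K → ℂ} (hΨ : Ad1 j B Ψ) {a b : ℝ} (ha : 0 < a) (hb : 0 < b) :
    (Differentiable ℂ fun s => ∫ w in {w : HH K | zc w ∈ Fd m z0},
      Inc Ψ (tha2G a b s) w * psiV (-(jj n * zc w)) * φ (tc w) ∂(muP (Emb K))) ∧
    ∀ s, (∀ w, Summable fun x : K × K =>
        if lq w x ∈ DD K then Ψ x * tha2G a b s (QK w x) else 0) ∧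
      IntegrableOn (fun w : HH K => Inc Ψ (tha2G a b s) w * psiV (-(jj n * zc w)) * φ (tc w))
        {w : HH K | zc w ∈ Fd m z0} (muP (Emb K)) := by
  obtain ⟨C, -, hC⟩ := maj_bound (K := K) j ha
  have hz : ∀ s q, b < q → tha2G a b s q = 0 := fun s q hq => if_neg fun h => lt_asymm hq h.2
  have H0 := fun s R (hs : ‖s‖ ≤ R) w => Inc_maj hΨ (G := tha2G a b s) ha w fun x hx =>
    ba2_cut (QK_pos w (hΨ.supp x hx).ne) hb
      (tha2_bd ha b hs _ (QK_pos w (hΨ.supp x hx).ne)) fun h => if_neg h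
  have H := fun s R (hs : ‖s‖ ≤ R) w =>
    (H0 s R hs w).2.2.trans (mul_le_mul_of_nonneg_left (hC w).2 (by positivity))
  have hM := fun s => measurable_Inc Ψ (tha2_meas a b s)
  refine ⟨?_, fun s => ⟨fun w => (H0 s _ le_rfl w).2.1,
    ba2_int hm n z0 hφ (hM s) fun w => H s _ le_rfl w⟩⟩
  obtain ⟨h3, Bd, T, hb, h0⟩ := hφ
  have := ba2_fin m z0 T
  simp only [fun f => setIntegral_eq_of_subset_of_forall_sdiff_eq_zero (μ := muP (Emb K))
    (ba2_set hm z0) (fun w hw => hw.1) (ba2_diff h0 f)]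
  refine dl_integral _ _ (fun s => ba2_tst n h3 (hM s)) (fun w =>
    ((differentiable_Inc_band hΨ (fun q hq => ?_) hz w).mul_const _).mul_const _)
    fun R => ⟨_, fun s hs w => ba2_norm n hb w (H s R hs w)⟩
  unfold tha2G
  split_ifs
  · exact differentiable_neg.const_cpow (Or.inl (ofReal_ne_zero.2 hq.ne'))
  · exact differentiable_const _

theorem ba2_res {j : ℕ} {B : ℝ} {Ψ : K × K → ℂ} (hΨ : Ad1 j B Ψ) (P : K → Prop) [DecidablePred P]
    (hP : ∀ (u : Kˣ) x, P (u * x) ↔ P x) : Ad1 j B fun x => if P x.1 then Ψ x else 0 where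
  bd x := by
    split_ifs
    · exact hΨ.bd x
    · exact norm_zero.trans_le ((norm_nonneg _).trans (hΨ.bd x))
  supp x hx := hΨ.supp x fun h => hx (by simp [h])
  unit u hu x := by simp only [hP, hΨ.unit u hu]

theorem thA2 {q : K} {κ : SLK K → ℂ} {Φ : K × K → ℂ} (hΦ : Adm q κ Φ) {j : ℕ} {σ : SLK K}
    (hσ : Ent j σ) {n : K} (hn : n ∈ dualL (latt (pd q j))) (z0 : Emb K → ℂ)
    {φ : (Emb K → ℝ) → ℂ} (hφ : Tst φ) :
    ∃ J : ℂ → ℂ, Differentiable ℂ J ∧ ∀ s : ℂ, 3 < s.re →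
      strip (pd q j) n z0 σ φ (Inc Φ (Gs s)) + J s =
        Dser (pd q j) (tw Φ σ) n s * (((absN (pd q j) : ℝ) : ℂ) * betaP (jj n) φ s) := by
  obtain ⟨i, B, hA⟩ := hΦ.ad1 σ hσ
  have hv := hΦ.val σ hσ
  have hm := hv.1
  have hφ' := hφ
  obtain ⟨-, -, T, -, h0⟩ := hφ'
  obtain ⟨c, c0, hc⟩ := QK_ge (K := K) i T
  obtain ⟨D, hD⟩ := QK_le_zero (K := K) i T
  obtain ⟨d1, i1⟩ := ba2_band hm n z0 hφ (ba2_res hA (· ≠ 0) fun u x => by simp) c0 one_pos
  obtain ⟨d2, i2⟩ := ba2_band hm n z0 hφ (ba2_res hA (· = 0) fun u x => by simp) one_pos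
    (by positivity : 0 < |D| + 1)
  refine ⟨_, d1.sub d2, fun s hs => ?_⟩
  obtain ⟨C, -, hC⟩ := maj_bound (K := K) i one_pos
  have H := fun w => Inc_maj hA (G := Gs s) (C := 1) one_pos w fun x _ => by
    rw [P026.norm_Gs, one_mul]
    split_ifs with h
    · exact Real.rpow_le_rpow_of_exponent_le h (by linarith)
    · exact le_rfl
  have i0 := ba2_int hm n z0 hφ (measurable_Inc _ (P026.measurable_Gs s)) fun w =>
    (H w).2.2.trans (mul_le_mul_of_nonneg_left (hC w).2 (by positivity))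
  have i3 := i0.add ((i1 s).2.sub (i2 s).2)
  simp only [strip, Inc_actK, Pi.sub_apply]
  rw [← integral_sub (i1 s).2 (i2 s).2]
  refine (integral_add i0 ((i1 s).2.sub (i2 s).2)).symm.trans
    ((setIntegral_muP (measurableSet_Fd hm z0) i3).trans ?_)
  rw [betaP, ← integral_const_mul, ← integral_const_mul]
  congr 1
  funext t
  by_cases ht : T < ‖t‖
  · simp [h0 t ht, tc_mkP]
  have h1 := efc hA hv hn hs z0 t
  have h2 : ∀ z, Inc (tw Φ σ) (Gs s) (mkP z t) +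
      (Inc (fun x => if x.1 ≠ 0 then tw Φ σ x else 0) (tha2G c 1 s) (mkP z t) -
      Inc (fun x => if x.1 = 0 then tw Φ σ x else 0) (tha2G 1 (|D| + 1) s) (mkP z t)) =
      ∑' x : K × K, if x.1 ≠ 0 ∧ lq (mkP z t) x ∈ DD K then
        tw Φ σ x * ((QK (mkP z t) x : ℝ) : ℂ) ^ (-s) else 0 := by
    intro z
    simp only [Inc]
    rw [← ((i1 s).1 _).tsum_sub ((i2 s).1 _),
      ← (H _).2.1.tsum_add (((i1 s).1 _).sub ((i2 s).1 _))]
    refine tsum_congr fun x => ?_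
    by_cases hx : tw Φ σ x = 0
    · simp [hx]
    by_cases hd : lq (mkP z t) x ∈ DD K
    swap
    · simp [hd]
    have ht' : ‖tc (mkP z t)‖ ≤ T := by rw [tc_mkP]; exact not_lt.1 ht
    have h3 := hc _ x ht' (hA.supp x hx)
    by_cases h4 : x.1 = 0
    · have h5 : QK (mkP z t) x < |D| + 1 :=
        ((hD _ x ht' (hA.supp x hx) h4).trans (le_abs_self D)).trans_lt (lt_add_one _)
      simp [h4, hd, Gs, tha2G, h5]
    · rcases le_or_gt 1 (QK (mkP z t) x) with h5 | h5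
      · simp [h4, hd, Gs, tha2G, h5, h5.not_gt]
      · simp [h4, hd, Gs, tha2G, h5, h5.not_ge, h3]
  simp only [Pi.add_apply, Pi.sub_apply, ← sub_mul, ← add_mul, h2, zc_mkP, tc_mkP]
  rw [integral_mul_const, h1]
  ring

end

end Vale.Agent.P319N
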