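import Vale.Agent.P319N.BLat

namespace Vale.Agent.P319N

open NumberField Complex MeasureTheory Filter Topology
open scoped Classical ComplexConjugate Real MatrixGroups
open Vale.Agent.P026 (omC kap psi W Hs ht QQ act uu muH hh LL Gs bb kk UU DualW)

noncomputable section

variable {K : Type} [Field K] [NumberField K] [Level K]

theorem bp_add (x y : K) : psiK (x + y) = psiK x * psiK y := by
  rw [bl_psiK, bl_psiK, bl_psiK, bl_jj_add, bl_psiV_add]

theorem bp_le {x m : K} (hm : IsI m) (h0 : m ≠ 0) : latt (x * m) ≤ latt x := fun y hy => by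
  have : y / x = m * (y / (x * m)) := by
    rw [mul_comm x, ← div_div, mul_div_assoc', mul_div_cancel₀ _ h0]
  change IsI (y / x)
  rw [this]
  exact hm.mul hy

theorem bp_fin {x m : K} (hx : x ≠ 0) (hm : IsI m) (h0 : m ≠ 0) :
    Finite (latt x ⧸ (latt (x * m)).addSubgroupOf (latt x)) := by
  refine Nat.finite_of_card_ne_zero fun e => (bl_absN_pos h0).ne ?_
  rw [← bl_relIndex hx hm h0, show (latt (x * m)).relIndex (latt x) = 0 from e, Nat.cast_zero]

theorem bp_shift {Φ : K × K → ℂ} {m : K} (hv : Val m Φ) (n : K) {c : K} (hc : c ≠ 0) {d d' : K}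
    (h : -d + d' ∈ latt (c * m)) :
    Φ (c, d') * psiK (n * d' / c) = psiK (n * ((-d + d') / c)) * (Φ (c, d) * psiK (n * d / c)) := by
  have h0 := hv.1
  rw [show d' = d + c * m * ((-d + d') / (c * m)) by field_simp; ring, hv.2.2 c d _ h,
    mul_left_comm, ← bp_add]
  congr 2
  field_simp
  ring

theorem bp_inv {Φ : K × K → ℂ} {m n : K} (hv : Val m Φ) (hn : n ∈ dualL (latt m)) {c : K}
    (hc : c ≠ 0) {d d' : K} (h : (d : K ⧸ latt (c * m)) = d') :
    Φ (c, d') * psiK (n * d' / c) = Φ (c, d) * psiK (n * d / c) := by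
  have h' := QuotientAddGroup.eq.1 h
  rw [bp_shift hv n hc h', hn _ (by change IsI _; rw [div_div]; exact h'), one_mul]
theorem Val.mul {m m' : K} {Φ : K × K → ℂ} (h : Val m Φ) (h1 : IsI m') (h0 : m' ≠ 0) :
    Val (m * m') Φ := ⟨mul_ne_zero h.1 h0, h.2.1.mul h1, fun c d k hk => by
    rw [← h.2.2 c d _ (h1.mul hk), mul_assoc c m, mul_assoc c, mul_assoc]⟩
theorem dualL_mul {m m' n : K} (hn : n ∈ dualL (latt m)) (h1 : IsI m') (h0 : m' ≠ 0) :
    n ∈ dualL (latt (m * m')) := fun x hx => hn x (bp_le h1 h0 hx)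
theorem finite_classes {c m l : K} (hc : c ≠ 0) (hm : m ≠ 0) (hl : l ≠ 0) :
    {d : K ⧸ latt (c * m) | IsI (l * d.out)}.Finite := by
  obtain ⟨n, h0, hn⟩ := rng_den (l * (c * m))⁻¹
  have h1 : (n : K) ≠ 0 := Nat.cast_ne_zero.2 h0
  have := bp_fin (div_ne_zero (mul_ne_zero hc hm) h1) (isI_nat n) h1
  rw [div_mul_cancel₀ _ h1] at this
  refine (Set.finite_range fun e : latt (c * m / n) ⧸ (latt (c * m)).addSubgroupOf
    (latt (c * m / n)) => ((e.out : K) : K ⧸ latt (c * m))).subset fun d hd => ?_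
  have h2 : d.out ∈ latt (c * m / n) := by
    change IsI _
    convert hn.mul hd using 1
    field_simp
  refine ⟨QuotientAddGroup.mk ⟨_, h2⟩, Eq.trans ?_ d.out_eq⟩
  exact QuotientAddGroup.eq.2 (AddSubgroup.mem_addSubgroupOf.1 (QuotientAddGroup.eq.1
    (QuotientAddGroup.out_eq' (QuotientAddGroup.mk (⟨_, h2⟩ : latt (c * m / n))))))
theorem bp_tsum {G : Type} [AddCommGroup G] {H H' : AddSubgroup G} (h : H' ≤ H) (f : G → ℂ)
    [Finite (H ⧸ H'.addSubgroupOf H)] (hf : ∀ x y : G, (x : G ⧸ H) = y → f y = f x)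
    (hS : Summable fun d : G ⧸ H' => f d.out) :
    ∑' d : G ⧸ H', f d.out = (H'.relIndex H : ℕ) * ∑' d : G ⧸ H, f d.out := by
  have := Fintype.ofFinite (H ⧸ H'.addSubgroupOf H)
  let e := AddSubgroup.quotientEquivProdOfLE h
  have key : (fun d : G ⧸ H' => f d.out) = fun d => f (e d).1.out := funext fun d =>
    hf _ _ (by
      rw [QuotientAddGroup.out_eq']
      conv_lhs => rw [← d.out_eq']
      rfl)
  rw [key] at hS ⊢
  rw [e.tsum_eq fun p => f p.1.out, ((e.summable_iff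
    (f := fun p : (G ⧸ H) × (H ⧸ H'.addSubgroupOf H) => f p.1.out)).1 hS).tsum_prod]
  simp only [tsum_fintype, Finset.sum_const, Finset.card_univ, nsmul_eq_mul]
  rw [tsum_mul_left, ← Nat.card_eq_fintype_card]
  rfl
theorem Ssum_mul {Φ : K × K → ℂ} {l : K} (hl : l ≠ 0) (hs : ∀ x, Φ x ≠ 0 → IsI (l * x.2))
    {m m' n : K} (hv : Val m Φ) (h1 : IsI m') (h0 : m' ≠ 0) (hn : n ∈ dualL (latt m)) {c : K}
    (hc : c ≠ 0) : Ssum (m * m') Φ n c = Ssum m Φ n c := by
  have hx := mul_ne_zero hc hv.1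
  have := bp_fin hx h1 h0
  have h2 : ((absN m' : ℝ) : ℂ) ≠ 0 := ofReal_ne_zero.2 (bl_absN_pos h0).ne'
  have hS : Summable fun d : K ⧸ latt (c * (m * m')) => Φ (c, d.out) * psiK (n * d.out / c) :=
    summable_of_hasFiniteSupport ((finite_classes hc (mul_ne_zero hv.1 h0) hl).subset
      fun d hd => hs _ (left_ne_zero_of_mul hd))
  rw [Ssum, Ssum]
  rw [← mul_assoc c] at hS ⊢
  rw [bp_tsum (bp_le h1 h0) (fun d => Φ (c, d) * psiK (n * d / c))
    (fun _ _ h => bp_inv hv hn hc h) hS, ← ofReal_natCast, bl_relIndex hx h1 h0, bl_absN_mul,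
    ofReal_mul, mul_inv, mul_assoc, inv_mul_cancel_left₀ h2]
theorem Ssum_zero {Φ : K × K → ℂ} {m m' n : K} (hv : Val m Φ) (hv' : Val m' Φ)
    (hn : n ∉ dualL (latt m)) (hn' : n ∈ dualL (latt m')) {c : K} (hc : c ≠ 0) :
    Ssum m' Φ n c = 0 := by
  simp only [dualL, Set.mem_ofPred_eq, not_forall] at hn
  obtain ⟨x, hx, hne⟩ := hn
  have key := (Equiv.addRight ((c * x : K) : K ⧸ latt (c * m'))).tsum_eq
    fun d => Φ (c, d.out) * psiK (n * d.out / c)
  have e : ∀ d : K ⧸ latt (c * m'), Φ (c, (d + (c * x : K)).out) *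
      psiK (n * (d + (c * x : K)).out / c) = psiK (n * x) * (Φ (c, d.out) * psiK (n * d.out / c)) :=
    fun d => by
      rw [bp_inv hv' hn' hc (d := d.out + c * x) (by simp), bp_shift hv n hc (d := d.out) (by
        change IsI _
        rw [neg_add_cancel_left, mul_div_mul_left _ _ hc]
        exact hx), neg_add_cancel_left, mul_div_cancel_left₀ _ hc]
  simp only [Equiv.coe_addRight, e, tsum_mul_left] at key
  rw [Ssum, (mul_left_eq_self₀.1 key).resolve_left hne, mul_zero]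
theorem Dser_mul {j : ℕ} {B : ℝ} {Φ : K × K → ℂ} (hΦ : Ad1 j B Φ) {m m' n : K} (hv : Val m Φ)
    (h1 : IsI m') (h0 : m' ≠ 0) (hn : n ∈ dualL (latt m)) :
    Dser (m * m') Φ n = Dser m Φ n := by
  funext s
  refine tsum_congr fun c => ?_
  split_ifs with h
  · rw [Ssum_mul (pow_ne_zero j MK_ne) (fun x hx => (hΦ.supp x hx).2.1) hv h1 h0 hn h.1]
  · rfl
theorem Dser_zero {Φ : K × K → ℂ} {m m' n : K} (hv : Val m Φ) (hv' : Val m' Φ)
    (hn : n ∉ dualL (latt m)) (hn' : n ∈ dualL (latt m')) : Dser m' Φ n = fun _ => 0 := by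
  funext s
  refine (tsum_congr fun c => ?_).trans tsum_zero
  split_ifs with h
  · rw [Ssum_zero hv hv' hn hn' h.1, mul_zero]
  · rfl

end

end Vale.Agent.P319N
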