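import Vale.Agent.P319N.BWgt
import Vale.Agent.P319N.BFd

namespace Vale.Agent.P319N

open NumberField Complex MeasureTheory Filter Topology
open scoped Classical ComplexConjugate Real MatrixGroups
open Vale.Agent.P026 (omC kap psi W Hs ht QQ act uu muH hh LL Gs bb kk UU DualW)

noncomputable section

variable {K : Type} [Field K] [NumberField K] [Setup K]

theorem strip_congr (q m n : K) (z0 : Emb K → ℂ) (σ : SLK K) (φ : (Emb K → ℝ) → ℂ)
    {f f' : HH K → ℂ} (h : f =ᵐ[nu q] f') : strip m n z0 σ φ f = strip m n z0 σ φ f' := by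
  have h1 := (measurePreserving_actK σ).quasiMeasurePreserving.ae_eq_comp ((ac_nu q).ae_eq h)
  refine integral_congr_ae (ae_restrict_of_ae ?_)
  filter_upwards [h1] with w hw
  rw [show f (actK σ w) = f' (actK σ w) from hw]

theorem bstrip_finite (m : K) (z0 : Emb K → ℂ) (T : ℝ) :
    IsFiniteMeasure ((muP (Emb K)).restrict {w : HH K | zc w ∈ Fd m z0 ∧ ‖tc w‖ ≤ T}) :=
  isFiniteMeasure_restrict.2 ((measure_mono subset_closure).trans_lt
    (isCompact_box (isBounded_Fd m z0) T).measure_lt_top).ne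

theorem bstrip_le (q m : K) (z0 : Emb K → ℂ) (σ : SLK K) (T : ℝ) : ∃ C : NNReal,
    (muP (Emb K)).restrict (actK σ '' {w : HH K | zc w ∈ Fd m z0 ∧ ‖tc w‖ ≤ T}) ≤
      (C : ENNReal) • nu q := by
  obtain ⟨C, hC⟩ := muP_le_nu q ((isCompact_box (isBounded_Fd m z0) T).image (continuous_actK σ))
  exact ⟨C, (Measure.restrict_mono (Set.image_mono subset_closure) le_rfl).trans hC⟩

theorem bstrip_memLp (q m : K) (z0 : Emb K → ℂ) (σ : SLK K) (T : ℝ) {f : HH K → ℂ}
    (hf : MemLp f 2 (nu q)) : MemLp (fun w : HH K => f (actK σ w)) 2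
      ((muP (Emb K)).restrict {w : HH K | zc w ∈ Fd m z0 ∧ ‖tc w‖ ≤ T}) := by
  obtain ⟨C, hC⟩ := bstrip_le q m z0 σ T
  exact (hf.of_measure_le_smul ENNReal.coe_ne_top hC).comp_measurePreserving
    ((measurePreserving_actK σ).restrict_image_emb (measurableEmbedding_actK σ) _)

theorem bstrip_meas (n : K) {φ : (Emb K → ℝ) → ℂ} (hφ : Measurable φ) :
    Measurable fun w : HH K => psiV (-(jj n * zc w)) * φ (tc w) :=
  (bl_continuous_psiV.comp (continuous_const.mul continuous_zc).neg).measurable.mul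
    (hφ.comp continuous_tc.measurable)

theorem bstrip_zero {φ : (Emb K → ℝ) → ℂ} {T : ℝ} (h : ∀ t, T < ‖t‖ → φ t = 0)
    {S : Set (Emb K → ℂ)} {w : HH K}
    (hw : w ∈ {w : HH K | zc w ∈ S} \ {w : HH K | zc w ∈ S ∧ ‖tc w‖ ≤ T}) : φ (tc w) = 0 :=
  h _ (lt_of_not_ge fun c => hw.2 ⟨hw.1, c⟩)

theorem strip_integrable (q : K) {m : K} (hm : m ≠ 0) (n : K) (z0 : Emb K → ℂ) (σ : SLK K)
    {φ : (Emb K → ℝ) → ℂ} (hφ : Tst φ) {f : HH K → ℂ} (hf : MemLp f 2 (nu q)) :
    IntegrableOn (fun w : HH K => f (actK σ w) * psiV (-(jj n * zc w)) * φ (tc w))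
      {w : HH K | zc w ∈ Fd m z0} (muP (Emb K)) := by
  obtain ⟨hφ, Bd, T, hb, hT⟩ := hφ
  have := bstrip_finite m z0 T
  refine IntegrableOn.of_forall_sdiff_eq_zero (s := {w : HH K | zc w ∈ Fd m z0 ∧ ‖tc w‖ ≤ T}) ?_
    (continuous_zc.measurable (measurableSet_Fd hm z0)) fun w hw => by
      rw [bstrip_zero hT hw, mul_zero]
  simp only [mul_assoc]
  exact ((bstrip_memLp q m z0 σ T hf).integrable one_le_two).mul_bdd (c := Bd)
    (bstrip_meas n hφ).aestronglyMeasurable
    (.of_forall fun w => by rw [norm_mul, bl_norm_psiV, one_mul]; exact hb _)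

theorem strip_memLp (q m : K) (z0 : Emb K → ℂ) (σ : SLK K) (T : ℝ) {f : HH K → ℂ}
    (hf : MemLp f 2 (nu q)) : MemLp (fun w : HH K => f (actK σ w)) 2
      ((muP (Emb K)).restrict {w : HH K | zc w ∈ Fd m z0 ∧ ‖tc w‖ ≤ T}) :=
  bstrip_memLp q m z0 σ T hf

theorem strip_inner (q : K) {m : K} (hm : m ≠ 0) (n : K) (z0 : Emb K → ℂ) (σ : SLK K)
    {φ : (Emb K → ℝ) → ℂ} (hφ : Tst φ) :
    ∃ y : Lp ℂ 2 (nu q), ∀ f : Lp ℂ 2 (nu q), strip m n z0 σ φ f = inner ℂ y f := by
  obtain ⟨hφ, Bd, T, hb, hT⟩ := hφ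
  have := bstrip_finite m z0 T
  obtain ⟨C, hC⟩ := bstrip_le q m z0 σ T
  have mp := (measurePreserving_actK σ).restrict_image_emb (measurableEmbedding_actK σ)
    {w : HH K | zc w ∈ Fd m z0 ∧ ‖tc w‖ ≤ T}
  have hy : MemLp (fun w : HH K => conj (psiV (-(jj n * zc w)) * φ (tc w))) 2
      ((muP (Emb K)).restrict {w : HH K | zc w ∈ Fd m z0 ∧ ‖tc w‖ ≤ T}) :=
    .of_bound (continuous_conj.measurable.comp (bstrip_meas n hφ)).aestronglyMeasurable Bd
      (.of_forall fun w => by rw [RCLike.norm_conj, norm_mul, bl_norm_psiV, one_mul]; exact hb _)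
  have e : ∀ f : Lp ℂ 2 (nu q), strip m n z0 σ φ f = inner ℂ (hy.toLp _)
      (Lp.compMeasurePreservingₗᵢ ℂ _ mp (Lp.LpToLpOfMeasureLeSMul ENNReal.coe_ne_top hC f)) := by
    intro f
    rw [strip, setIntegral_eq_of_subset_of_forall_sdiff_eq_zero
      (s := {w : HH K | zc w ∈ Fd m z0 ∧ ‖tc w‖ ≤ T}) (t := {w : HH K | zc w ∈ Fd m z0})
      (continuous_zc.measurable (measurableSet_Fd hm z0))
      (fun w hw => hw.1) fun w hw => by
        rw [bstrip_zero hT hw, mul_zero], L2.inner_def]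
    refine integral_congr_ae ?_
    filter_upwards [hy.coeFn_toLp, Lp.coeFn_compMeasurePreserving
      (Lp.LpToLpOfMeasureLeSMul ENNReal.coe_ne_top hC f) mp, mp.quasiMeasurePreserving.ae_eq_comp
      (Lp.coeFn_LpToLpOfMeasureLeSMul ENNReal.coe_ne_top hC f)] with w h1 h2 h3
    rw [h1, RCLike.inner_apply, conj_conj, mul_assoc]
    exact congrArg (· * _) (h2.trans h3).symm
  let L : Lp ℂ 2 (nu q) →L[ℂ] ℂ :=
    { toFun := fun f => strip m n z0 σ φ f
      map_add' := fun f g => by simp only [e, map_add, inner_add_right]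
      map_smul' := fun c f => by
        rw [strip_congr q m n z0 σ φ (Lp.coeFn_smul c f), strip, strip, RingHom.id_apply,
          smul_eq_mul, ← integral_const_mul]
        simp only [Pi.smul_apply, smul_eq_mul, mul_assoc]
      cont := by
        simp only [e]
        exact continuous_const.inner ((LinearIsometry.continuous _).comp
          (ContinuousLinearMap.continuous _)) }
  exact ⟨(InnerProductSpace.toDual ℂ _).symm L, fun f =>
    (InnerProductSpace.toDual_symm_apply (y := L) (x := f)).symm⟩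

end

end Vale.Agent.P319N
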