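import Vale.Agent.P319N.BA1
import Vale.Agent.P319N.BA2
import Vale.Agent.P319N.BStrip
import Vale.Agent.P319N.BPer

namespace Vale.Agent.P319N

open NumberField Complex MeasureTheory Filter Topology
open scoped Classical ComplexConjugate Real MatrixGroups
open Vale.Agent.P026 (omC kap psi W Hs ht QQ act uu muH hh LL Gs bb kk UU DualW)
open Vale.Agent.P026 (UU_le res_lim)

noncomputable section

variable {K : Type} [Field K] [NumberField K] [Level K]

theorem ba3_pd (q : K) {i j : ℕ} (h : i ≤ j) : pd q j = pd q i * MK K ^ (2 * (j - i)) := by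
  rw [pd, pd, mul_assoc, ← pow_add, ← mul_add, Nat.add_sub_cancel' h]

theorem exists_UOut {q : K} {κ : SLK K → ℂ} {Φ : K × K → ℂ} (hΦ : Adm q κ Φ) :
    ∃ u ρ, UOut q κ Φ u ρ := by
  obtain ⟨g, u0, u, u1, u2, u3, g1, g2, g3, g4⟩ := thA1 hΦ
  have hη : 0 < eta K := inv_pos.2 (Nat.cast_pos.2 rk_pos)
  have an : ∀ j, ((absN (pd q j) : ℝ) : ℂ) ≠ 0 := fun j =>
    ofReal_ne_zero.2 (bl_absN_pos (pd_ne hΦ.qne j)).ne'
  have key : ∀ j (σ : SLK K), Ent j σ → ∀ n ∈ dualL (latt (pd q j)), ∀ z0 φ, Tst φ →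
      ∃ I : ℂ → ℂ, DifferentiableOn ℂ I (Om (eta K)) ∧
      (∀ s ∈ Om (eta K), 3 < s.re → I s = Dser (pd q j) (tw Φ σ) n s * betaP (jj n) φ s) ∧
      Tendsto (fun ε : ℝ => (ε : ℂ) * I (4 / 3 + ε * Complex.I)) (UU : Filter ℝ)
        (𝓝 (strip (pd q j) n z0 σ φ u / ((absN (pd q j) : ℝ) : ℂ))) :=
    fun j σ hσ n hn z0 φ hφ => by
    obtain ⟨y, hy⟩ := strip_inner q (pd_ne hΦ.qne j) n z0 σ hφ
    obtain ⟨J, J1, J2⟩ := thA2 hΦ hσ hn z0 hφ
    refine ⟨fun s => (inner ℂ y (g s) + J s) / ((absN (pd q j) : ℝ) : ℂ),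
      (((innerSL ℂ y).differentiable.comp_differentiableOn g1).add
        J1.differentiableOn).div_const _, fun s hs h3 => ?_, ?_⟩
    · beta_reduce
      rw [← hy, strip_congr q _ n z0 σ φ (g2 s hs h3), J2 s h3, mul_left_comm,
        mul_div_cancel_left₀ _ (an j)]
    · have t0 : Tendsto (fun ε : ℝ => (ε : ℂ)) (UU : Filter ℝ) (𝓝 0) :=
        ((continuous_ofReal.tendsto' 0 0 rfl).mono_left nhdsWithin_le_nhds).mono_left UU_le
      have t := ((g3 y).add (t0.mul (res_lim J1.differentiableOn))).div_const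
        ((absN (pd q j) : ℝ) : ℂ)
      rw [zero_mul, add_zero, ← hy, strip_congr q _ n z0 σ φ u3] at t
      exact t.congr fun ε => by ring
  obtain ⟨r, hr⟩ : ∃ r : ℕ → SLK K → K → ℂ, ∀ j σ n, r j σ n =
      strip (pd q j) n 0 σ (phi0 _) u / ((absN (pd q j) : ℝ) : ℂ) /
        betaP (jj n) (phi0 _) (4 / 3) := ⟨_, fun _ _ _ => rfl⟩
  have r1 : ∀ j σ, Ent j σ → ∀ n ∈ dualL (latt (pd q j)),
      IsRes (eta K) (Dser (pd q j) (tw Φ σ) n) (r j σ n) := fun j σ hσ n hn => by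
    obtain ⟨I, I1, I2, I3⟩ := key j σ hσ n hn 0 _ tst_phi0
    refine ⟨I, betaP (jj n) (phi0 _), I1, differentiableOn_betaP _ tst_phi0, betaP_ne _, I2, ?_⟩
    rwa [hr, div_mul_cancel₀ _ (betaP_ne _)]
  have r2 : ∀ j σ, Ent j σ → ∀ n ∈ dualL (latt (pd q j)), ∀ z0 φ, Tst φ →
      strip (pd q j) n z0 σ φ u =
        ((absN (pd q j) : ℝ) : ℂ) * r j σ n * betaP (jj n) φ (4 / 3) :=
    fun j σ hσ n hn z0 φ hφ => by
    obtain ⟨I, I1, I2, I3⟩ := key j σ hσ n hn 0 _ tst_phi0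
    obtain ⟨I', I1', I2', I3'⟩ := key j σ hσ n hn z0 φ hφ
    have b1 := differentiableOn_betaP (jj n) (tst_phi0 (ι := Emb K))
    have b2 := differentiableOn_betaP (jj n) hφ
    have e := eqOn_Om hη (I1'.mul (res_Om b1)) (I1.mul (res_Om b2)) fun s hs h3 => by
      simp only [Pi.mul_apply]
      rw [I2 s hs h3, I2' s hs h3]
      ring
    have := tendsto_nhds_unique_of_eventuallyEq (I3'.mul (res_lim b1)) (I3.mul (res_lim b2)) (by
      filter_upwards [eventually_mem_Om hη] with ε hε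
      have := e _ hε.1
      simp only [Pi.mul_apply] at this
      rw [mul_assoc, mul_assoc, this])
    rw [hr, mul_assoc, div_mul_eq_mul_div, ← this, mul_div_cancel_right₀ _ (betaP_ne _),
      mul_div_cancel₀ _ (an j)]
  have mk : ∀ k, IsI (MK K ^ k) := fun k => (isI_nat _).pow k
  have mk0 : ∀ k, MK K ^ k ≠ 0 := fun k => pow_ne_zero k MK_ne
  have up : ∀ {i j n}, i ≤ j → n ∈ dualL (latt (pd q i)) → n ∈ dualL (latt (pd q j)) :=
    fun h hn => by
      rw [ba3_pd q h]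
      exact dualL_mul hn (mk _) (mk0 _)
  have r3 : ∀ {i j σ n}, Ent i σ → i ≤ j → n ∈ dualL (latt (pd q i)) → r j σ n = r i σ n :=
    fun {i j σ n} hσ h hn => by
      obtain ⟨k, B, hA⟩ := hΦ.ad1 σ hσ
      have := r1 j σ (hσ.mono h) n (up h hn)
      rw [ba3_pd q h, Dser_mul hA (hΦ.val σ hσ) (mk _) (mk0 _) hn] at this
      exact this.unique hη (r1 i σ hσ n hn)
  have r4 : ∀ {i j σ n}, Ent i σ → i ≤ j → n ∉ dualL (latt (pd q i)) →
      n ∈ dualL (latt (pd q j)) → r j σ n = 0 :=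
    fun {i j σ n} hσ h hn hn' => by
      have := r1 j σ (hσ.mono h) n hn'
      rw [Dser_zero (hΦ.val σ hσ) (hΦ.val σ (hσ.mono h)) hn hn'] at this
      refine this.unique hη ⟨fun _ => 0, fun _ => 1, differentiableOn_const _,
        differentiableOn_const _, one_ne_zero, fun _ _ _ => by simp, by simp⟩
  obtain ⟨ρ, hρ⟩ : ∃ ρ : SLK K → K → ℂ, ∀ σ n, ρ σ n =
      if h : ∃ j, Ent j σ ∧ n ∈ dualL (latt (pd q j)) then r h.choose σ n else 0 :=
    ⟨_, fun _ _ => rfl⟩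
  have e1 : ∀ j σ, Ent j σ → ∀ n ∈ dualL (latt (pd q j)), ρ σ n = r j σ n := fun j σ hσ n hn => by
    have h : ∃ j, Ent j σ ∧ n ∈ dualL (latt (pd q j)) := ⟨j, hσ, hn⟩
    rw [hρ, dif_pos h, ← r3 hσ (le_max_left j h.choose) hn,
      ← r3 h.choose_spec.1 (le_max_right j h.choose) h.choose_spec.2]
  refine ⟨u, ρ, u1, u2, (Lp.memLp u0).ae_eq u3, fun j σ hσ n hn => e1 j σ hσ n hn ▸ r1 j σ hσ n hn,
    fun j σ hσ n hn => ?_, fun j σ hσ n hn => e1 j σ hσ n hn ▸ r2 j σ hσ n hn, g4⟩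
  rw [hρ]
  split_ifs with h
  · rw [← r3 h.choose_spec.1 (le_max_right j h.choose) h.choose_spec.2]
    exact r4 hσ (le_max_left _ _) hn (up (le_max_right _ _) h.choose_spec.2)
  · rfl

end

end Vale.Agent.P319N
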