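import Vale.Agent.P319N.BQ
import Vale.Agent.P026.Efc

namespace Vale.Agent.P319N

open NumberField Complex MeasureTheory Filter Topology
open scoped Classical ComplexConjugate Real MatrixGroups
open Vale.Agent.P026 (omC kap psi W Hs ht QQ act uu muH hh LL Gs bb kk UU DualW)

noncomputable section

variable {ι : Type} [Fintype ι]

theorem bbes_arg (ν : ℂ) (t : ℝ) : 0 ≤ normSq ν * Real.exp t ^ 2 / 3 := by
  have := normSq_nonneg ν
  positivity

theorem bbes_cont (ν : ℂ) {s : ℂ} (hs : 1 < s.re) :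
    Continuous fun t : ℝ => bb (normSq ν * Real.exp t ^ 2 / 3) s :=
  (P026.continuousOn_bb hs).comp_continuous (by fun_prop) (bbes_arg ν)

theorem continuous_hf (ν : ι → ℂ) {s : ℂ} (hs : 1 < s.re) : Continuous fun t => hf ν t s := by
  simp only [hf, P026.bes_cpow]
  exact continuous_finsetProd _ fun σ _ =>
    Continuous.mul (by fun_prop) ((bbes_cont (ν σ) hs).comp (continuous_apply σ))

theorem bbes_e (ν : ι → ℂ) (t : ι → ℝ) (s : ℂ) :
    ((Real.exp (-2 * ∑ σ, t σ) : ℝ) : ℂ) * hf ν t s =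
      ∏ σ, Complex.exp (-(t σ * s)) * bb (normSq (ν σ) * Real.exp (t σ) ^ 2 / 3) s := by
  rw [hf, Finset.mul_sum, Real.exp_sum, ofReal_prod, ← Finset.prod_mul_distrib]
  refine Finset.prod_congr rfl fun σ _ => ?_
  rw [P026.bes_cpow, ← mul_assoc, ofReal_exp, ← Complex.exp_add]
  congr 2
  push_cast
  ring

theorem differentiableOn_betaP (ν : ι → ℂ) {φ : (ι → ℝ) → ℂ} (hφ : Tst φ) :
    DifferentiableOn ℂ (betaP ν φ) {s | 1 < s.re} := by
  intro s0 hs0
  obtain ⟨hm, Bd, T, hB, hT⟩ := hφ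
  have hs0' : 1 < s0.re := hs0
  have hr : 0 < (s0.re - 1) / 2 := by linarith
  have hre : ∀ s ∈ Metric.closedBall s0 ((s0.re - 1) / 2), 1 < s.re ∧ s.re ≤ 2 * s0.re :=
    fun s hs => by
      have := abs_le.1 ((abs_re_le_norm (s - s0)).trans (mem_closedBall_iff_norm.1 hs))
      rw [sub_re] at this
      constructor <;> linarith [this.1, this.2]
  have hc : ContinuousOn (fun s : ℂ => ‖π / Complex.Gamma s‖ * Real.Gamma (s.re - 1))
      (Metric.closedBall s0 ((s0.re - 1) / 2)) := fun s hs => by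
    refine ContinuousAt.continuousWithinAt (ContinuousAt.mul ?_ ?_)
    · simp only [div_eq_mul_inv]
      exact ((Complex.differentiable_one_div_Gamma s).const_mul _).continuousAt.norm
    · refine ContinuousAt.comp (f := fun s : ℂ => s.re - 1)
        (Real.differentiableAt_Gamma fun k h => ?_).continuousAt (by fun_prop)
      linarith [Nat.cast_nonneg (α := ℝ) k, (hre s hs).1]
  obtain ⟨K, hK⟩ := (isCompact_closedBall _ _).exists_bound_of_continuousOn hc
  refine (P026.bes_diff_int hr (g := (Metric.closedBall (0 : ι → ℝ) T).indicator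
    fun _ => Bd * ∏ _σ : ι, Real.exp (T * (2 * s0.re)) * K) ?_ (fun s hs => ?_) (fun t => ?_)
    fun s hs t => ?_).differentiableWithinAt
  · exact (integrable_indicator_iff measurableSet_closedBall).2
      (integrableOn_const measure_closedBall_lt_top.ne)
  · exact (hm.mul (by fun_prop)).aestronglyMeasurable.mul
      (continuous_hf ν (hre s (Metric.ball_subset_closedBall hs)).1).aestronglyMeasurable
  · simp only [mul_assoc (φ t), bbes_e]
    refine DifferentiableOn.const_mul (DifferentiableOn.fun_finsetProd fun σ _ => ?_) _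
    exact DifferentiableOn.mul (by fun_prop) ((P026.differentiableOn_bb (bbes_arg _ _)).mono
      fun s hs => (hre s (Metric.ball_subset_closedBall hs)).1)
  · have hs' := Metric.ball_subset_closedBall hs
    rcases lt_or_ge T ‖t‖ with h | h
    · rw [hT t h, Set.indicator_of_notMem fun k => absurd (mem_closedBall_zero_iff.1 k) h.not_ge]
      simp
    rw [Set.indicator_of_mem (mem_closedBall_zero_iff.2 h), mul_assoc (φ t), bbes_e, norm_mul,
      norm_prod]
    refine mul_le_mul (hB t) (Finset.prod_le_prod (fun _ _ => norm_nonneg _) fun σ _ => ?_)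
      (Finset.prod_nonneg fun _ _ => norm_nonneg _) ((norm_nonneg _).trans (hB t))
    rw [norm_mul]
    refine mul_le_mul ?_ ((P026.norm_bb_le (bbes_arg _ _) (hre s hs').1).trans
      ((le_abs_self _).trans (hK s hs'))) (norm_nonneg _) (by positivity)
    rw [norm_exp, Real.exp_le_exp, neg_re, re_ofReal_mul]
    have h2 : |t σ| ≤ T := (norm_le_pi_norm t σ).trans h
    nlinarith [abs_le.1 h2, hre s hs', abs_nonneg (t σ)]

theorem tst_phi0 : Tst (phi0 ι) :=
  ⟨measurable_const.indicator measurableSet_Icc, 1, 1,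
    fun t => by simpa [phi0] using norm_indicator_le_norm_self (fun _ => (1 : ℂ)) t,
    fun t ht => Set.indicator_of_notMem (fun k => ht.not_ge ((pi_norm_le_iff_of_nonneg zero_le_one).2
      fun σ => (abs_of_nonneg (k.1 σ)).trans_le (k.2 σ))) _⟩

theorem betaP_ne (ν : ι → ℂ) : betaP ν (phi0 ι) (4 / 3) ≠ 0 := by
  obtain ⟨b, hb, -⟩ := P026.bb_real
  have hc : ∀ x : ℂ, Continuous fun t : ℝ => b (normSq x * Real.exp t ^ 2 / 3) := fun x => by
    refine (continuous_re.comp (bbes_cont x (s := 4 / 3) (by norm_num))).congr fun t => ?_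
    rw [Function.comp, (hb _ (bbes_arg _ _)).1, ofReal_re]
  have e : betaP ν (phi0 ι) (4 / 3) = ((∫ t in Set.Icc (0 : ι → ℝ) 1, ∏ σ,
      Real.exp (-(t σ * (4 / 3))) * b (normSq (ν σ) * Real.exp (t σ) ^ 2 / 3) : ℝ) : ℂ) := by
    rw [← integral_complex_ofReal, ← integral_indicator measurableSet_Icc, betaP]
    congr 1
    ext t
    by_cases h : t ∈ Set.Icc (0 : ι → ℝ) 1
    · rw [phi0, Set.indicator_of_mem h, Set.indicator_of_mem h, one_mul, bbes_e, ofReal_prod]
      refine Finset.prod_congr rfl fun σ _ => ?_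
      rw [(hb _ (bbes_arg _ _)).1]
      push_cast
      rfl
    · simp [phi0, h]
  have p : ∀ t : ι → ℝ, 0 < ∏ σ,
      Real.exp (-(t σ * (4 / 3))) * b (normSq (ν σ) * Real.exp (t σ) ^ 2 / 3) := fun t =>
    Finset.prod_pos fun σ _ => mul_pos (Real.exp_pos _) (hb _ (bbes_arg _ _)).2
  rw [e, ofReal_ne_zero]
  refine ((setIntegral_pos_iff_support_of_nonneg_ae (.of_forall fun t => (p t).le)
    (Continuous.integrableOn_Icc (continuous_finsetProd _ fun σ _ => Continuous.mul (by fun_prop)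
      ((hc _).comp (continuous_apply σ))))).2 ?_).ne'
  rw [Function.support_eq_univ fun t => (p t).ne', Set.univ_inter, Real.volume_Icc_pi]
  simp

theorem prod_ph (ν z : ι → ℂ) (t : ι → ℝ) :
    ∏ σ, ph (ν σ) (mkP z t σ) = hf ν t (4 / 3) * ∏ σ, psi (ν σ * z σ) := by
  rw [hf, ← Finset.prod_mul_distrib]
  refine Finset.prod_congr rfl fun σ _ => ?_
  simp only [ph, mkP, ht]
  rw [ofReal_cpow (Real.exp_pos _).le]
  norm_num

theorem bbes_cpow (S : Finset ι) {a : ι → ℝ} (ha : ∀ σ, 0 ≤ a σ) (s : ℂ) :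
    ((∏ σ ∈ S, a σ : ℝ) : ℂ) ^ s = ∏ σ ∈ S, ((a σ : ℝ) : ℂ) ^ s := by
  induction S using Finset.induction_on with
  | empty => simp
  | insert σ S h ih =>
    rw [Finset.prod_insert h, Finset.prod_insert h, ofReal_mul,
      mul_cpow_ofReal_nonneg (ha σ) (Finset.prod_nonneg fun _ _ => ha _), ih]

theorem fourier_prod {s : ℂ} (hs : 1 < s.re) (ν a : ι → ℂ) (t : ι → ℝ) :
    Integrable (fun z : ι → ℂ =>
      ((∏ σ, (normSq (z σ + a σ) + Real.exp (t σ) ^ 2) / Real.exp (t σ) : ℝ) : ℂ) ^ (-s)) ∧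
    ∫ z : ι → ℂ,
      ((∏ σ, (normSq (z σ + a σ) + Real.exp (t σ) ^ 2) / Real.exp (t σ) : ℝ) : ℂ) ^ (-s) *
        ∏ σ, psi (-(ν σ * z σ)) = (∏ σ, psi (ν σ * a σ)) * hf ν t s := by
  have e : ∀ z : ι → ℂ,
      ((∏ σ, (normSq (z σ + a σ) + Real.exp (t σ) ^ 2) / Real.exp (t σ) : ℝ) : ℂ) ^ (-s) =
        ∏ σ, P026.efcG s (Real.exp (t σ)) (z σ + a σ) := fun z =>
    bbes_cpow _ (fun σ => by have := normSq_nonneg (z σ + a σ); positivity) _
  simp only [e]
  refine ⟨Integrable.fintype_prod (f := fun σ z => P026.efcG s (Real.exp (t σ)) (z + a σ))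
    fun σ => (P026.efc_G_int hs (Real.exp_pos _)).comp_add_right _, ?_⟩
  simp only [← Finset.prod_mul_distrib]
  rw [integral_fintype_prod_volume_eq_prod
    fun σ z => P026.efcG s (Real.exp (t σ)) (z + a σ) * psi (-(ν σ * z)), hf,
    ← Finset.prod_mul_distrib]
  refine Finset.prod_congr rfl fun σ _ => ?_
  have h := P026.efc_G_four hs (Real.exp_pos (t σ)) (-ν σ)
  rw [normSq_neg, ← integral_add_right_eq_self _ (a σ)] at h
  rw [← h, ← integral_const_mul]
  refine integral_congr_ae (.of_forall fun z => ?_)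
  simp only
  rw [mul_left_comm, ← P026.psi_add]
  congr 2
  ring

end

end Vale.Agent.P319N
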