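import Vale.Agent.P319N.BLat

namespace Vale.Agent.P319N

open NumberField Complex MeasureTheory Filter Topology
open scoped Classical ComplexConjugate Real MatrixGroups
open Vale.Agent.P026 (omC kap psi W Hs ht QQ act uu muH hh LL Gs bb kk UU DualW)

noncomputable section

variable {K : Type} [Field K] [NumberField K] [Setup K]

theorem bbox_Icc (y c : ℝ) (hc : 0 ≤ c) :
    ((Finset.Icc ⌈y - c⌉ ⌊y + c⌋).card : ℝ) ≤ 2 * c + 1 := by
  rw [Int.card_Icc]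
  have h1 := Int.floor_le (y + c)
  have h2 := Int.le_ceil (y - c)
  rcases le_total (⌊y + c⌋ + 1 - ⌈y - c⌉) 0 with h | h
  · rw [Int.toNat_of_nonpos h]
    simp only [Nat.cast_zero]
    linarith
  · have : ((⌊y + c⌋ + 1 - ⌈y - c⌉).toNat : ℝ) = ((⌊y + c⌋ + 1 - ⌈y - c⌉ : ℤ) : ℝ) := by
      rw [← Int.cast_natCast, Int.toNat_of_nonneg h]
    rw [this]
    push_cast
    linarith

theorem box_card {m : K} (hm : m ≠ 0) : ∃ C : ℝ, 0 < C ∧ ∀ (z : Emb K → ℂ) (T : ℝ), 0 ≤ T →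
    {a : K | IsI (m * a) ∧ ‖jj a - z‖ ≤ T}.Finite ∧
      ({a : K | IsI (m * a) ∧ ‖jj a - z‖ ≤ T}.ncard : ℝ) ≤ C * (1 + T) ^ (2 * rk K) := by
  obtain ⟨L, hL⟩ := bl_exists_L (K := K)
  set c : ℝ := ‖(L.symm : (Emb K → ℂ) →L[ℝ] (BI K → ℝ))‖ * ‖jj m‖ with hc
  have hc0 : 0 ≤ c := by positivity
  refine ⟨(2 * c + 1) ^ (2 * rk K), by positivity, fun z T hT => ?_⟩
  set y := L.symm (jj m * z) with hy
  let S : Finset (BI K → ℤ) := Fintype.piFinset fun i => Finset.Icc ⌈y i - c * T⌉ ⌊y i + c * T⌋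
  have hsub : {a : K | IsI (m * a) ∧ ‖jj a - z‖ ≤ T} ⊆
      (fun k : BI K → ℤ => (∑ i, (k i : K) * integralBasis K i) / m) '' (S : Set (BI K → ℤ)) := by
    rintro a ⟨ha, hz⟩
    obtain ⟨k, hk⟩ := (bl_isI_iff _).1 ha
    refine ⟨k, ?_, by simp only; rw [← hk]; field_simp⟩
    have h1 : (fun i => (k i : ℝ)) - y = L.symm (jj m * (jj a - z)) := by
      rw [mul_sub, map_sub, ← bl_jj_mul, hk, ← bl_Lm_int, ← hL, L.symm_apply_apply]
    have h2 : ‖(fun i => (k i : ℝ)) - y‖ ≤ c * T := by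
      rw [h1]
      refine ((L.symm : (Emb K → ℂ) →L[ℝ] (BI K → ℝ)).le_opNorm _).trans ?_
      rw [hc, mul_assoc]
      exact mul_le_mul_of_nonneg_left ((norm_mul_le _ _).trans
        (mul_le_mul_of_nonneg_left hz (norm_nonneg _))) (norm_nonneg _)
    simp only [S, Finset.mem_coe, Fintype.mem_piFinset, Finset.mem_Icc]
    intro i
    have h3 := (norm_le_pi_norm _ i).trans h2
    rw [Pi.sub_apply, Real.norm_eq_abs, abs_le] at h3
    exact ⟨Int.ceil_le.2 (by linarith), Int.le_floor.2 (by linarith)⟩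
  have hfin := (S.finite_toSet.image
    (fun k : BI K → ℤ => (∑ i, (k i : K) * integralBasis K i) / m))
  refine ⟨hfin.subset hsub, ?_⟩
  have h1 := (Set.ncard_le_ncard hsub hfin).trans (Set.ncard_image_le S.finite_toSet)
  rw [Set.ncard_coe_finset] at h1
  refine (Nat.cast_le.2 h1).trans ?_
  rw [Fintype.card_piFinset, Nat.cast_prod, ← mul_pow, ← bl_card, ← Finset.card_univ,
    ← Finset.prod_const]
  refine Finset.prod_le_prod (fun _ _ => Nat.cast_nonneg _) fun i _ =>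
    (bbox_Icc _ _ (by positivity)).trans ?_
  nlinarith [mul_nonneg hc0 hT]

theorem summable_box {m : K} (hm : m ≠ 0) :
    Summable fun a : K => if IsI (m * a) then ((1 + ‖jj a‖) ^ (2 * rk K + 2))⁻¹ else 0 := by
  obtain ⟨C, hC, h⟩ := box_card hm
  have hs : Summable fun l : ℕ => C * 2 ^ (2 * rk K) * (1 / ((l + 1 : ℕ) : ℝ) ^ 2) :=
    ((summable_nat_add_iff 1).2 (Real.summable_one_div_nat_pow.2 one_lt_two)).mul_left _
  refine summable_of_sum_le (c := ∑' l : ℕ, C * 2 ^ (2 * rk K) * (1 / ((l + 1 : ℕ) : ℝ) ^ 2))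
    (fun a => by dsimp only; split_ifs <;> positivity) fun s => ?_
  rw [← Finset.sum_filter, ← Finset.sum_fiberwise_of_maps_to
    (t := (s.filter fun a => IsI (m * a)).image fun a => ⌊‖jj a‖⌋₊) (g := fun a => ⌊‖jj a‖⌋₊)
    (fun a ha => Finset.mem_image_of_mem _ ha)]
  refine le_trans (Finset.sum_le_sum fun l _ => ?_)
    (hs.sum_le_tsum _ (fun _ _ => by positivity))
  set t := (s.filter fun a => IsI (m * a)).filter fun a => ⌊‖jj a‖⌋₊ = l with ht
  have h1 : (t.card : ℝ) ≤ C * (1 + (l + 1)) ^ (2 * rk K) := by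
    obtain ⟨h2, h3⟩ := h 0 (l + 1) (by positivity)
    refine le_trans ?_ h3
    rw [← Set.ncard_coe_finset]
    refine Nat.cast_le.2 (Set.ncard_le_ncard (fun a ha => ?_) h2)
    simp only [ht, Finset.coe_filter, Finset.mem_filter, Set.mem_ofPred_eq] at ha
    refine ⟨ha.1.2, ?_⟩
    rw [sub_zero, ← ha.2]
    exact (Nat.lt_floor_add_one _).le
  have h2 : ∑ a ∈ t, ((1 + ‖jj a‖) ^ (2 * rk K + 2))⁻¹ ≤
      t.card • (((l : ℝ) + 1) ^ (2 * rk K + 2))⁻¹ := by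
    refine Finset.sum_le_card_nsmul _ _ _ fun a ha => ?_
    simp only [ht, Finset.mem_filter] at ha
    have := Nat.floor_le (norm_nonneg (jj a))
    rw [ha.2] at this
    exact inv_anti₀ (by positivity) (pow_le_pow_left₀ (by positivity) (by linarith) _)
  refine h2.trans ?_
  rw [nsmul_eq_mul]
  refine (mul_le_mul_of_nonneg_right h1 (by positivity)).trans ?_
  have h3 : (1 + ((l : ℝ) + 1)) ^ (2 * rk K) ≤ 2 ^ (2 * rk K) * ((l : ℝ) + 1) ^ (2 * rk K) := by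
    rw [← mul_pow]
    exact pow_le_pow_left₀ (by positivity) (by have := Nat.cast_nonneg (α := ℝ) l; linarith) _
  calc C * (1 + ((l : ℝ) + 1)) ^ (2 * rk K) * (((l : ℝ) + 1) ^ (2 * rk K + 2))⁻¹
      ≤ C * (2 ^ (2 * rk K) * ((l : ℝ) + 1) ^ (2 * rk K)) * (((l : ℝ) + 1) ^ (2 * rk K + 2))⁻¹ := by
        gcongr
    _ = _ := by
        push_cast
        field_simp
        ring

theorem bbox_normSq_le (a : K) (σ : Emb K) : normSq (σ.1 a) ≤ ‖jj a‖ ^ 2 := by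
  rw [Complex.normSq_eq_norm_sq]
  exact pow_le_pow_left₀ (norm_nonneg _) (norm_le_pi_norm (jj a) σ) 2

theorem bbox_sq_le (a : K) : ‖jj a‖ ^ 2 ≤ ∑ σ : Emb K, normSq (σ.1 a) := by
  have h0 : 0 ≤ ∑ σ : Emb K, normSq (σ.1 a) := Finset.sum_nonneg fun _ _ => normSq_nonneg _
  rw [← Real.le_sqrt (norm_nonneg _) h0, pi_norm_le_iff_of_nonneg (Real.sqrt_nonneg _)]
  intro σ
  rw [Real.le_sqrt (norm_nonneg _) h0, ← Complex.normSq_eq_norm_sq]
  exact Finset.single_le_sum (f := fun σ : Emb K => normSq (σ.1 a))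
    (fun _ _ => normSq_nonneg _) (Finset.mem_univ σ)

theorem bbox_exp {c x : ℝ} (hc : 0 < c) (hx : 0 ≤ x) (n : ℕ) :
    Real.exp (-(c * x ^ 2)) ≤ Real.exp (n ^ 2 / (4 * c)) * ((1 + x) ^ n)⁻¹ := by
  rw [← div_eq_mul_inv, le_div_iff₀ (by positivity)]
  have h1 : (1 + x) ^ n ≤ Real.exp (n * x) := by
    rw [Real.exp_nat_mul]
    exact pow_le_pow_left₀ (by positivity) (by linarith [Real.add_one_le_exp x]) _
  refine (mul_le_mul_of_nonneg_left h1 (Real.exp_pos _).le).trans ?_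
  rw [← Real.exp_add, Real.exp_le_exp, le_div_iff₀ (by positivity)]
  nlinarith [sq_nonneg (n - 2 * c * x)]

theorem summable_gauss {c : ℝ} (hc : 0 < c) :
    Summable fun a : K =>
      if IsI a then Real.exp (-(c * ∑ σ : Emb K, normSq (σ.1 a))) else 0 := by
  refine Summable.of_nonneg_of_le (fun a => by split_ifs <;> positivity) (fun a => ?_)
    ((summable_box (K := K) one_ne_zero).mul_left
      (Real.exp (((2 * rk K + 2 : ℕ) : ℝ) ^ 2 / (4 * c))))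
  rw [one_mul]
  split_ifs
  · refine le_trans ?_ (bbox_exp hc (norm_nonneg (jj a)) _)
    exact Real.exp_le_exp.2 (neg_le_neg (mul_le_mul_of_nonneg_left (bbox_sq_le a) hc.le))
  · simp
theorem polyS_of_le {m : K} (hm : m ≠ 0) {a : K → ℂ} (hs : ∀ n, a n ≠ 0 → IsI (m * n)) {C : ℝ}
    {k : ℕ} (hb : ∀ n, ‖a n‖ ≤ C * (1 + ‖jj n‖) ^ k) : PolyS a jj := by
  refine ⟨k + (2 * rk K + 2), Summable.of_nonneg_of_le (fun n => by positivity) (fun n => ?_)
    ((summable_box hm).mul_left C)⟩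
  split_ifs with h
  · rw [div_le_iff₀ (by positivity)]
    refine (hb n).trans (le_of_eq ?_)
    have : (0 : ℝ) < 1 + ‖jj n‖ := by positivity
    rw [pow_add _ k]
    field_simp
  · have : a n = 0 := by_contra fun h' => h (hs n h')
    simp [this]
theorem polyS_of_box {m : K} (hm : m ≠ 0) {a : K → ℂ} (hs : ∀ n, a n ≠ 0 → IsI (m * n))
    {C e : ℝ} (hb : ∀ Y : ℝ, 1 ≤ Y → ∀ s : Finset K,
      (∀ n ∈ s, ∀ τ : Emb K, normSq (τ.1 n) ≤ Y) → ∑ n ∈ s, ‖a n‖ ^ 2 ≤ C * Y ^ e) :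
    PolyS a jj := by
  refine polyS_of_le hm hs (C := 1 + |C|) (k := 2 * ⌈e⌉₊) fun n => ?_
  have h0 : 1 ≤ 1 + ‖jj n‖ := le_add_of_nonneg_right (norm_nonneg _)
  have h1 : 1 ≤ (1 + ‖jj n‖) ^ 2 := one_le_pow₀ h0
  have h2 := hb _ h1 {n} (fun n' hn' τ => by
    rw [Finset.mem_singleton.1 hn']
    exact (bbox_normSq_le n τ).trans (pow_le_pow_left₀ (norm_nonneg _) (by linarith) 2))
  rw [Finset.sum_singleton] at h2
  have h3 : ((1 + ‖jj n‖) ^ 2) ^ e ≤ (1 + ‖jj n‖) ^ (2 * ⌈e⌉₊) := by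
    rw [pow_mul, ← Real.rpow_natCast _ ⌈e⌉₊]
    exact Real.rpow_le_rpow_of_exponent_le h1 (Nat.le_ceil e)
  have h4 : C * ((1 + ‖jj n‖) ^ 2) ^ e ≤ |C| * (1 + ‖jj n‖) ^ (2 * ⌈e⌉₊) :=
    mul_le_mul (le_abs_self C) h3 (by positivity) (abs_nonneg C)
  have h5 : 1 ≤ (1 + ‖jj n‖) ^ (2 * ⌈e⌉₊) := one_le_pow₀ h0
  nlinarith [sq_nonneg (‖a n‖ - 1), norm_nonneg (a n)]
theorem PolyS.mul_le {a f : K → ℂ} (ha : PolyS a jj) {C : ℝ} {k : ℕ}
    (hf : ∀ n, ‖f n‖ ≤ C * (1 + ‖jj n‖) ^ k) : PolyS (fun n => a n * f n) jj := by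
  obtain ⟨k0, h⟩ := ha
  refine ⟨k0 + k, Summable.of_nonneg_of_le (fun n => by positivity) (fun n => ?_) (h.mul_left C)⟩
  rw [div_le_iff₀ (by positivity), norm_mul]
  refine (mul_le_mul_of_nonneg_left (hf n) (norm_nonneg _)).trans (le_of_eq ?_)
  have : (0 : ℝ) < 1 + ‖jj n‖ := by positivity
  rw [pow_add]
  field_simp
theorem PolyS.add {a b : K → ℂ} (ha : PolyS a jj) (hb : PolyS b jj) :
    PolyS (fun n => a n + b n) jj := by
  obtain ⟨k, h⟩ := ha
  obtain ⟨l, h'⟩ := hb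
  refine ⟨k + l, Summable.of_nonneg_of_le (fun n => by positivity) (fun n => ?_) (h.add h')⟩
  have h0 : 1 ≤ 1 + ‖jj n‖ := le_add_of_nonneg_right (norm_nonneg _)
  refine (div_le_div_of_nonneg_right (norm_add_le _ _) (by positivity)).trans ?_
  rw [add_div]
  exact add_le_add
    (div_le_div_of_nonneg_left (norm_nonneg _) (by positivity) (pow_le_pow_right₀ h0 (by omega)))
    (div_le_div_of_nonneg_left (norm_nonneg _) (by positivity) (pow_le_pow_right₀ h0 (by omega)))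
theorem PolyS.comp_mul {a : K → ℂ} (ha : PolyS a jj) {u : K} (hu : u ≠ 0) :
    PolyS (fun n => a (u * n)) jj := by
  obtain ⟨k, h⟩ := ha
  refine ⟨k, Summable.of_nonneg_of_le (fun n => by positivity) (fun n => ?_)
    ((h.comp_injective (mul_right_injective₀ hu)).mul_left ((1 + ‖jj u‖) ^ k))⟩
  have h1 : 1 + ‖jj (u * n)‖ ≤ (1 + ‖jj u‖) * (1 + ‖jj n‖) := by
    rw [bl_jj_mul]
    nlinarith [norm_mul_le (jj u) (jj n), norm_nonneg (jj u), norm_nonneg (jj n)]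
  have h2 : (1 + ‖jj (u * n)‖) ^ k ≤ (1 + ‖jj u‖) ^ k * (1 + ‖jj n‖) ^ k := by
    rw [← mul_pow]
    exact pow_le_pow_left₀ (by positivity) h1 k
  simp only [Function.comp]
  rw [← mul_div_assoc, div_le_div_iff₀ (by positivity) (by positivity)]
  nlinarith [mul_le_mul_of_nonneg_left h2 (norm_nonneg (a (u * n)))]
theorem absN_le_poly (n : K) : absN n ≤ (1 + ‖jj n‖) ^ (2 * rk K) := by
  rw [bl_absN, pow_mul, rk, ← Finset.card_univ, ← Finset.prod_const]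
  exact Finset.prod_le_prod (fun _ _ => normSq_nonneg _) fun σ _ =>
    (bbox_normSq_le n σ).trans (pow_le_pow_left₀ (norm_nonneg _) (by linarith) 2)

end

end Vale.Agent.P319N
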