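import Vale.Agent.P319N.Defs

/-! Internal definitions of the theta machine on a product of hyperbolic spaces. -/

namespace Vale.Agent.P319N

open NumberField Complex MeasureTheory Filter Topology
open scoped Classical ComplexConjugate Real MatrixGroups
open Vale.Agent.P026 (omC kap psi W Hs ht QQ act uu muH hh LL Gs bb kk UU DualW)

noncomputable section

section generic
variable {ι : Type} [Fintype ι]

/-- invariant measure on the product -/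
abbrev muP (ι : Type) [Fintype ι] : Measure (ι → Hs) := Measure.pi fun _ : ι => muH
def mkP (z : ι → ℂ) (t : ι → ℝ) : ι → Hs := fun σ => (z σ, t σ)
def zc (w : ι → Hs) : ι → ℂ := fun σ => (w σ).1
def tc (w : ι → Hs) : ι → ℝ := fun σ => (w σ).2
def ballP (w : ι → Hs) : Set (ι → Hs) := {w' | ∀ σ, uu (w σ) (w' σ) ≤ 2}
def LopP (f : (ι → Hs) → ℂ) (w : ι → Hs) : ℂ := ∫ w' in ballP w, f w' ∂(muP ι)
def LLP (ι : Type) [Fintype ι] (G : ℝ → ℂ) (q : ℝ) : ℂ :=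
  ∫ τ : ι → ℝ, G (q * Real.exp (-∑ σ, τ σ)) *
    ((∏ σ, 2 * π * (Real.exp (-τ σ) * max (2 - Real.cosh (τ σ)) 0) : ℝ) : ℂ)
def pisP (ι : Type) [Fintype ι] (s : ℂ) (q : ℝ) : ℂ :=
  LLP ι (Gs s) q - hh s ^ Fintype.card ι * Gs s q
/-- the Gaussian-type weight centred at the base point -/
def gw (w : ι → Hs) : ℝ := Real.exp (-∑ σ, uu (w σ) (0, 0))
/-- bounded differences -/
def Bal (D : ℝ) (y : ι → ℝ) : Prop := ∀ σ τ, |y σ - y τ| ≤ D

/-- one-place Bessel term -/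
def ph (ν : ℂ) (w : Hs) : ℂ :=
  ((ht w ^ (2 / 3 : ℝ) : ℝ) : ℂ) * bb (normSq ν * ht w ^ 2 / 3) (4 / 3) * psi (ν * w.1)
/-- one-place Voronoi kernel -/
def vk (ν : ℂ) (y : ℝ) : ℂ := ν * ((y ^ (1 / 3 : ℝ) : ℝ) : ℂ) * bb (normSq ν * y) (4 / 3)
/-- coefficients of polynomial growth -/
def PolyS {I : Type} (a : I → ℂ) (ν : I → ι → ℂ) : Prop :=
  ∃ k : ℕ, Summable fun i => ‖a i‖ / (1 + ‖ν i‖) ^ k
/-- the height factor of the Fourier coefficients -/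
def hf (ν : ι → ℂ) (t : ι → ℝ) (s : ℂ) : ℂ :=
  ∏ σ, ((Real.exp (t σ) : ℝ) : ℂ) ^ (2 - s) * bb (normSq (ν σ) * Real.exp (t σ) ^ 2 / 3) s
def betaP (ν : ι → ℂ) (φ : (ι → ℝ) → ℂ) (s : ℂ) : ℂ :=
  ∫ t : ι → ℝ, φ t * ((Real.exp (-2 * ∑ σ, t σ) : ℝ) : ℂ) * hf ν t s
/-- bounded measurable test functions with bounded support -/
def Tst (φ : (ι → ℝ) → ℂ) : Prop :=
  Measurable φ ∧ ∃ Bd T : ℝ, (∀ t, ‖φ t‖ ≤ Bd) ∧ ∀ t, T < ‖t‖ → φ t = 0
/-- the standard test function -/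
def phi0 (ι : Type) [Fintype ι] : (ι → ℝ) → ℂ :=
  (Set.Icc (0 : ι → ℝ) 1).indicator (fun _ => (1 : ℂ))

end generic

section setup
variable {K : Type} [Field K] [NumberField K] [Setup K]

abbrev BI (K : Type) [Field K] [NumberField K] : Type := Module.Free.ChooseBasisIndex ℤ (𝓞 K)
/-- real coordinates with respect to the integral basis -/
def Lm (K : Type) [Field K] [NumberField K] [Setup K] (x : BI K → ℝ) : Emb K → ℂ :=
  fun σ => ∑ i, (x i : ℂ) * σ.1 (integralBasis K i)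
/-- fundamental parallelotope of `m O_K`, translated by `z0` -/
def Fd (m : K) (z0 : Emb K → ℂ) : Set (Emb K → ℂ) :=
  {z | ∃ x : BI K → ℝ, (∀ i, x i ∈ Set.Ico (0 : ℝ) 1) ∧ z = z0 + jj m * Lm K x}
def V0 (K : Type) [Field K] [NumberField K] [Setup K] : ℝ :=
  (volume (Fd (1 : K) 0)).toReal
/-- the period at the cusps with denominators dividing `M^j` -/
abbrev pd (q : K) (j : ℕ) : K := q * MK K ^ (2 * j)
/-- `m` is a period -/
def Val (m : K) (Φ : K × K → ℂ) : Prop :=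
  m ≠ 0 ∧ IsI m ∧ ∀ c d k : K, IsI k → Φ (c, d + c * m * k) = Φ (c, d)
def Aut (q : K) (κ : SLK K → ℂ) (f : HH K → ℂ) : Prop :=
  ∀ γ ∈ Gam q, ∀ w, f (actK γ w) = conj (κ γ) * f w
def beta (q : K) (w : HH K) : ℝ := gw w / ∑' γ : Gam q, gw (actK (γ : SLK K) w)
def nu (q : K) : Measure (HH K) := (muP (Emb K)).withDensity (fun w => ENNReal.ofReal (beta q w))
def strip (m n : K) (z0 : Emb K → ℂ) (σ : SLK K) (φ : (Emb K → ℝ) → ℂ) (f : HH K → ℂ) : ℂ :=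
  ∫ w in {w : HH K | zc w ∈ Fd m z0},
    f (actK σ w) * psiV (-(jj n * zc w)) * φ (tc w) ∂(muP (Emb K))

end setup

section level
variable {K : Type} [Field K] [NumberField K] [Level K]

/-- bounded unit invariant functions supported on `Supp j` -/
structure Ad1 (j : ℕ) (B : ℝ) (Φ : K × K → ℂ) : Prop where
  bd : ∀ x, ‖Φ x‖ ≤ B
  supp : ∀ x, Φ x ≠ 0 → Supp j x
  unit : ∀ u ∈ U1 K, ∀ x : K × K, Φ ((u : K) * x.1, (u : K) * x.2) = Φ x

/-- terms of the majorant -/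
def mt (j : ℕ) (q0 : ℝ) (w : HH K) (x : K × K) : ℝ :=
  if Supp j x ∧ lq w x ∈ DD K ∧ q0 ≤ QK w x then QK w x ^ (-3 : ℝ) else 0
def Maj (j : ℕ) (q0 : ℝ) (w : HH K) : ℝ := ∑' x : K × K, mt j q0 w x

/-- the residual function and its Fourier coefficients -/
structure UOut (q : K) (κ : SLK K → ℂ) (Φ : K × K → ℂ) (u : HH K → ℂ) (ρ : SLK K → K → ℂ) :
    Prop where
  meas : Measurable u
  aut : Aut q κ u
  mem : MemLp u 2 (nu q)
  res : ∀ j σ, Ent j σ → ∀ n ∈ dualL (latt (pd q j)),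
    IsRes (eta K) (Dser (pd q j) (tw Φ σ) n) (ρ σ n)
  supp : ∀ j σ, Ent j σ → ∀ n, n ∉ dualL (latt (pd q j)) → ρ σ n = 0
  coef : ∀ j σ, Ent j σ → ∀ n ∈ dualL (latt (pd q j)), ∀ z0 φ, Tst φ →
    strip (pd q j) n z0 σ φ u = ((absN (pd q j) : ℝ) : ℂ) * ρ σ n * betaP (jj n) φ (4 / 3)
  van : (∀ s, ∫ w, conj (u w) * Inc Φ (pisP (Emb K) s) w ∂(nu q) = 0) → u =ᵐ[nu q] 0

/-- passage to norm weights for unit invariant sequences -/
def VorU (K : Type) [Field K] [NumberField K] [Level K] (w : ℂ) (Wst : ℝ → ℂ) : Prop :=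
  ∀ (a a' : K → ℂ) (η : ℂ) (Cc : Emb K → ℝ), (∀ σ, 0 < Cc σ) → a 0 = 0 → a' 0 = 0 →
    (∀ u ∈ U1 K, ∀ n, a ((u : K) * n) = a n) → (∀ u ∈ U1 K, ∀ n, a' ((u : K) * n) = a' n) →
    PolyS a jj → PolyS a' jj → VorId a a' η Cc →
    ∀ X : ℝ, 0 < X →
      ∑' n : K, (if Rep n then a n * W w (absN n / X) else 0) =
        η * ((X / ∏ σ, Cc σ : ℝ) : ℂ) * ∑' n : K,
          (if Rep n then a' n * Wst (absN n * X / (∏ σ, Cc σ) ^ 2) else 0)

end level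

end

end Vale.Agent.P319N
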