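import Vale.Agent.P319N.BBes
import Vale.Agent.P319N.BFd
import Vale.Agent.P319N.BCnt

namespace Vale.Agent.P319N

open NumberField Complex MeasureTheory Filter Topology
open scoped Classical ComplexConjugate Real MatrixGroups
open Vale.Agent.P026 (omC kap psi W Hs ht QQ act uu muH hh LL Gs bb kk UU DualW)

noncomputable section

variable {K : Type} [Field K] [NumberField K] [Level K]

omit [NumberField K] [Level K] in
theorem befc_bij {c m : K} (hc : c ≠ 0) :
    Function.Bijective (fun p : (K ⧸ latt (c * m)) × latt m => p.1.out + c * (p.2 : K)) := by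
  have key : ∀ k : K, c * k ∈ latt (c * m) ↔ k ∈ latt m := fun k => by
    change IsI (c * k / (c * m)) ↔ IsI (k / m)
    rw [mul_div_mul_left _ _ hc]
  refine ⟨fun ⟨i, k⟩ ⟨j, l⟩ h => ?_, fun d => ?_⟩
  · have h1 := congrArg (QuotientAddGroup.mk (s := latt (c * m))) h
    simp only [QuotientAddGroup.mk_add_of_mem _ ((key _).2 (Subtype.prop _)),
      QuotientAddGroup.out_eq'] at h1
    subst h1
    exact Prod.ext rfl (Subtype.ext (mul_left_cancel₀ hc (add_left_cancel h)))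
  · obtain ⟨h, e⟩ := QuotientAddGroup.mk_out_eq_add (latt (c * m)) d
    refine ⟨(d, ⟨-(h : K) / c, (key _).1 ?_⟩), ?_⟩
    · rw [mul_div_cancel₀ _ hc]
      exact neg_mem h.2
    · simp only [e]
      rw [mul_div_cancel₀ _ hc, add_neg_cancel_right]

/-- the radial profile -/
def befcG (s : ℂ) (t : Emb K → ℝ) (z : Emb K → ℂ) : ℂ :=
  ((∏ σ, (normSq (z σ) + Real.exp (t σ) ^ 2) / Real.exp (t σ) : ℝ) : ℂ) ^ (-s)

theorem befc_QK (s : ℂ) (z : Emb K → ℂ) (t : Emb K → ℝ) {c : K} (hc : c ≠ 0) (d : K) :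
    ((QK (mkP z t) (c, d) : ℝ) : ℂ) ^ (-s) =
      ((absN c : ℝ) : ℂ) ^ (-s) * befcG s t (z + jj (d / c)) := by
  have h1 : QK (mkP z t) (c, d) = absN c *
      ∏ σ, (normSq ((z + jj (d / c)) σ) + Real.exp (t σ) ^ 2) / Real.exp (t σ) := by
    rw [QK, bl_absN, ← Finset.prod_mul_distrib]
    refine Finset.prod_congr rfl fun σ _ => ?_
    rw [QQ_div _ ((map_ne_zero σ.1).2 hc), ← map_div₀]
    rfl
  rw [h1, Complex.ofReal_mul, Complex.mul_cpow_ofReal_nonneg (bl_absN_nonneg c)]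
  · rfl
  · exact Finset.prod_nonneg fun σ _ =>
      div_nonneg (add_nonneg (normSq_nonneg _) (sq_nonneg _)) (Real.exp_pos _).le

theorem befc_change {E : Type} [AddCommMonoid E] [TopologicalSpace E] (w : HH K)
    (F : K × K → E) (h0 : ∀ x, F x ≠ 0 → x.1 ≠ 0)
    (hF : ∀ u ∈ U1 K, ∀ x : K × K, F ((u : K) * x.1, (u : K) * x.2) = F x) (a : E) :
    HasSum (fun x => if lq w x ∈ DD K then F x else 0) a ↔
      HasSum (fun x => if Lg x.1 ∈ DD K then F x else 0) a :=
  rep_change (fun u x => ((u : K) * x.1, (u : K) * x.2)) (fun x => by simp)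
    (fun u v x => by simp [mul_assoc]) F _ (fun x => Lg x.1) hF
    (fun u _ x hx => lq_smul w u.ne_zero (Or.inl (h0 x hx)))
    (fun u _ x hx => by rw [bl_Lg_mul u.ne_zero (h0 x hx), add_comm]) a

theorem befc_unit {j : ℕ} {B : ℝ} {Φ : K × K → ℂ} (hΦ : Ad1 j B Φ) (s : ℂ) (w : HH K) :
    ∀ u ∈ U1 K, ∀ x : K × K, (if (u : K) * x.1 ≠ 0 then Φ ((u : K) * x.1, (u : K) * x.2) *
      ((QK w ((u : K) * x.1, (u : K) * x.2) : ℝ) : ℂ) ^ (-s) else 0) =
      if x.1 ≠ 0 then Φ x * ((QK w x : ℝ) : ℂ) ^ (-s) else 0 := fun u hu x => by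
  rw [hΦ.unit u hu, QK_smul, U1_absN hu, one_mul]
  simp [u.ne_zero]

theorem befc_bound {j : ℕ} {B : ℝ} {Φ : K × K → ℂ} (hΦ : Ad1 j B Φ) {s : ℂ} (hs : 3 < s.re)
    (t : Emb K → ℝ) : ∃ C : ℝ, ∀ (z : Emb K → ℂ) (S : Finset (K × K)),
      ∑ x ∈ S, ‖if Rep x.1 then Φ x * ((QK (mkP z t) x : ℝ) : ℂ) ^ (-s) else 0‖ ≤ C := by
  obtain ⟨c, hc, h1⟩ := QK_ge (K := K) j ‖t‖
  obtain ⟨C, -, h2⟩ := maj_bound (K := K) j hc
  have hB : 0 ≤ B := (norm_nonneg _).trans (hΦ.bd 0)
  refine ⟨B * c ^ (3 - s.re) * C, fun z S => ?_⟩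
  set w := mkP z t with hw
  set F : K × K → ℝ := fun x => ‖if x.1 ≠ 0 then Φ x * ((QK w x : ℝ) : ℂ) ^ (-s) else 0‖ with hF
  have h3 : ∀ x, (if lq w x ∈ DD K then F x else 0) ≤ B * c ^ (3 - s.re) * mt j c w x := by
    intro x
    have h0 : 0 ≤ B * c ^ (3 - s.re) * mt j c w x :=
      mul_nonneg (mul_nonneg hB (Real.rpow_nonneg hc.le _)) (mt_nonneg _ _ _ _)
    by_cases hΦx : Φ x = 0
    · simpa [hF, hΦx] using h0
    split_ifs with hD
    swap
    · exact h0
    by_cases hx : x.1 = 0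
    · simpa [hF, hx] using h0
    have h4 := h1 w x (by rw [hw, tc_mkP]) (hΦ.supp x hΦx)
    have h5 := hc.trans_le h4
    rw [mt, if_pos ⟨hΦ.supp x hΦx, hD, h4⟩]
    simp only [hF, if_pos (show x.1 ≠ 0 from hx), norm_mul]
    rw [Complex.norm_cpow_eq_rpow_re_of_pos h5, neg_re, mul_assoc,
      show -s.re = (3 - s.re) + (-3) by ring, Real.rpow_add h5]
    refine mul_le_mul (hΦ.bd x) (mul_le_mul_of_nonneg_right
      (Real.rpow_le_rpow_of_nonpos hc h4 (by linarith)) (Real.rpow_nonneg h5.le _))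
      (by positivity) hB
  have h0 : ∀ x, 0 ≤ if lq w x ∈ DD K then F x else 0 := fun x => by
    split_ifs
    · exact norm_nonneg _
    · exact le_rfl
  have h4 := ((h2 w).1.mul_left (B * c ^ (3 - s.re))).of_nonneg_of_le h0 h3
  have h5 := (befc_change w F (fun x hx h => hx (by simp [hF, h]))
    (fun u hu x => congrArg norm (befc_unit hΦ s w u hu x)) _).1 h4.hasSum
  have h6 : ∀ x : K × K, ‖if Rep x.1 then Φ x * ((QK w x : ℝ) : ℂ) ^ (-s) else 0‖ =
      if Lg x.1 ∈ DD K then F x else 0 := fun x => by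
    by_cases h : Lg x.1 ∈ DD K <;> by_cases h' : x.1 = 0 <;> simp [Rep, hF, h, h']
  simp only [h6]
  refine (sum_le_hasSum S (fun x _ => by rw [← h6]; exact norm_nonneg _) h5).trans
    ((h4.tsum_le_tsum h3 ((h2 w).1.mul_left _)).trans ?_)
  rw [tsum_mul_left]
  exact mul_le_mul_of_nonneg_left (h2 w).2 (mul_nonneg hB (Real.rpow_nonneg hc.le _))

theorem efc {j : ℕ} {B : ℝ} {Φ : K × K → ℂ} (hΦ : Ad1 j B Φ) {m : K} (hv : Val m Φ) {n : K}
    (hn : n ∈ dualL (latt m)) {s : ℂ} (hs : 3 < s.re) (z0 : Emb K → ℂ) (t : Emb K → ℝ) :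
    ∫ z in Fd m z0, (∑' x : K × K, if x.1 ≠ 0 ∧ lq (mkP z t) x ∈ DD K then
        Φ x * ((QK (mkP z t) x : ℝ) : ℂ) ^ (-s) else 0) * psiV (-(jj n * z)) =
      ((absN m : ℝ) : ℂ) * Dser m Φ n s * hf (jj n) t s := by
  have hs1 : 1 < s.re := by linarith
  have hm := hv.1
  set F : K × K → (Emb K → ℂ) → ℂ := fun x z => (if Rep x.1 then
    Φ x * ((QK (mkP z t) x : ℝ) : ℂ) ^ (-s) else 0) * psiV (-(jj n * z)) with hF
  have hL : ∀ z, (∑' x : K × K, if x.1 ≠ 0 ∧ lq (mkP z t) x ∈ DD K then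
      Φ x * ((QK (mkP z t) x : ℝ) : ℂ) ^ (-s) else 0) * psiV (-(jj n * z)) = ∑' x, F x z := by
    intro z
    rw [tsum_mul_right]
    congr 1
    refine tsum_eq_tsum_of_hasSum_iff_hasSum fun {a} => ?_
    have := befc_change (mkP z t)
      (fun x => if x.1 ≠ 0 then Φ x * ((QK (mkP z t) x : ℝ) : ℂ) ^ (-s) else 0)
      (fun x hx h => hx (by simp [h])) (befc_unit hΦ s _) a
    simp only [← ite_and] at this
    simp only [Rep, and_comm] at this ⊢
    convert this
    congr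
  simp only [hL]
  have hpc : Continuous fun z : Emb K → ℂ => psiV (-(jj n * z)) :=
    bl_continuous_psiV.comp (by fun_prop)
  have hGi : ∀ a, Integrable fun z => befcG s t (z + a) * psiV (-(jj n * z)) := fun a =>
    (fourier_prod hs1 (jj n) a t).1.mul_bdd (c := 1) hpc.aestronglyMeasurable
      (Eventually.of_forall fun z => (bl_norm_psiV _).le)
  have hFe : ∀ c d, Rep c → F (c, d) = fun z => Φ (c, d) * ((absN c : ℝ) : ℂ) ^ (-s) *
      (befcG s t (z + jj (d / c)) * psiV (-(jj n * z))) := fun c d hc => by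
    funext z
    simp only [hF, if_pos hc]
    rw [befc_QK s z t hc.1]
    ring
  have hF0 : ∀ c d, ¬Rep c → F (c, d) = fun _ => 0 := fun c d hc => by
    funext z
    simp only [hF, if_neg hc, zero_mul]
  have hFi : ∀ x, Integrable (F x) (volume.restrict (Fd m z0)) := fun ⟨c, d⟩ => by
    by_cases hc : Rep c
    · rw [hFe c d hc]
      exact ((hGi _).const_mul _).restrict
    · rw [hF0 c d hc]
      exact integrable_zero _ _ _
  obtain ⟨C, hC⟩ := befc_bound hΦ hs t
  have : IsFiniteMeasure (volume.restrict (Fd m z0)) :=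
    isFiniteMeasure_restrict.2 (by rw [volume_Fd hm]; exact ENNReal.ofReal_ne_top)
  have hsum : Summable fun x => ∫ z in Fd m z0, ‖F x z‖ := by
    refine summable_of_sum_le (fun x => integral_nonneg fun z => norm_nonneg _)
      (c := ∫ _ in Fd m z0, C) fun S => ?_
    rw [← integral_finsetSum S fun x _ => (hFi x).norm]
    refine integral_mono (integrable_finsetSum S fun x _ => (hFi x).norm) (integrable_const C)
      fun z => ?_
    simp only [hF, norm_mul, bl_norm_psiV, mul_one]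
    exact hC z S
  have hH := hasSum_integral_of_summable_integral_norm hFi hsum
  rw [← hH.tsum_eq, hH.summable.tsum_prod, Dser, ← tsum_mul_left, ← tsum_mul_right]
  refine tsum_congr fun c => ?_
  by_cases hc : Rep c
  swap
  · simp only [hF0 c _ hc, if_neg hc, integral_zero, tsum_zero, mul_zero, zero_mul]
  have h1 := (Equiv.ofBijective _ (befc_bij (m := m) hc.1)).summable_iff.2
    (hH.summable.prod_factor c)
  have hN : ((absN m : ℝ) : ℂ) ≠ 0 := ofReal_ne_zero.2 (bl_absN_pos hm).ne'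
  rw [if_pos hc, ← (Equiv.ofBijective _ (befc_bij (m := m) hc.1)).tsum_eq]
  refine h1.tsum_prod.trans ?_
  rw [Ssum, mul_left_comm, mul_inv_cancel_left₀ hN, ← tsum_mul_left, ← tsum_mul_right]
  refine tsum_congr fun d => ?_
  have h2 := hasSum_integral_Fd hm z0 (hGi (jj (d.out / c)))
  have h3 : ∀ k : latt m, ∫ z in Fd m z0, F (c, d.out + c * (k : K)) z =
      Φ (c, d.out) * ((absN c : ℝ) : ℂ) ^ (-s) * ∫ z in Fd m z0,
        befcG s t (z + jj (k : K) + jj (d.out / c)) * psiV (-(jj n * (z + jj (k : K)))) := by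
    intro k
    have h4 : Φ (c, d.out + c * (k : K)) = Φ (c, d.out) := by
      rw [← hv.2.2 c d.out _ k.2, mul_assoc, mul_div_cancel₀ _ hm]
    have h5 : ∀ z, psiV (-(jj n * (z + jj (k : K)))) = psiV (-(jj n * z)) := fun z => by
      have h6 := hn _ (neg_mem k.2)
      rw [bl_psiK] at h6
      rw [← mul_one (psiV (-(jj n * z))), ← h6, ← bl_psiV_add]
      congr 1
      funext σ
      simp [jj, mul_add, add_comm]
    rw [hFe _ _ hc, integral_const_mul, h4, add_div, mul_div_cancel_left₀ _ hc.1, bl_jj_add]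
    simp only [h5, add_comm (jj (d.out / c)), add_assoc]
  simp only [Function.comp_apply, Equiv.ofBijective_apply, h3]
  rw [tsum_mul_left, h2.tsum_eq]
  have h7 : ∫ z, befcG s t (z + jj (d.out / c)) * psiV (-(jj n * z)) =
      psiV (jj n * jj (d.out / c)) * hf (jj n) t s := (fourier_prod hs1 (jj n) _ t).2
  rw [h7, ← bl_jj_mul, ← bl_psiK, mul_div_assoc]
  ring

end

end Vale.Agent.P319N
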