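import Vale.Agent.P319N.BQ
import Vale.Agent.P319N.BMu
import Vale.Agent.P319N.BBox

namespace Vale.Agent.P319N

open NumberField Complex MeasureTheory Filter Topology
open scoped Classical ComplexConjugate Real MatrixGroups
open Vale.Agent.P026 (omC kap psi W Hs ht QQ act uu muH hh LL Gs bb kk UU DualW)

noncomputable section

variable {K : Type} [Field K] [NumberField K] [Setup K]

theorem bg_ext {γ σ : SLK K} (h00 : γ 0 0 = σ 0 0) (h01 : γ 0 1 = σ 0 1) (h10 : γ 1 0 = σ 1 0)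
    (h11 : γ 1 1 = σ 1 1) : γ = σ := by
  ext i j
  fin_cases i <;> fin_cases j <;> assumption
theorem bg_det (γ : SLK K) : γ 0 0 * γ 1 1 - γ 0 1 * γ 1 0 = 1 := by
  have := γ.det_coe
  rwa [Matrix.det_fin_two] at this
theorem bg_mul (γ σ : SLK K) (i j : Fin 2) : (γ * σ) i j = γ i 0 * σ 0 j + γ i 1 * σ 1 j := by
  simp [Matrix.mul_apply, Fin.sum_univ_two]
theorem bg_inv (γ : SLK K) :
    γ⁻¹ 0 0 = γ 1 1 ∧ γ⁻¹ 0 1 = -γ 0 1 ∧ γ⁻¹ 1 0 = -γ 1 0 ∧ γ⁻¹ 1 1 = γ 0 0 := by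
  rw [Matrix.SpecialLinearGroup.SL2_inv_expl γ]
  exact ⟨rfl, rfl, rfl, rfl⟩
theorem bg_Tm (x : K) : Tm x 0 0 = 1 ∧ Tm x 0 1 = x ∧ Tm x 1 0 = 0 ∧ Tm x 1 1 = 1 := ⟨rfl, rfl, rfl, rfl⟩
theorem rmul_one (x : K × K) : rmul x 1 = x := by simp [rmul]
theorem rmul_mul (x : K × K) (γ σ : SLK K) : rmul x (γ * σ) = rmul (rmul x γ) σ := by
  simp only [rmul, bg_mul]
  ext <;> ring
theorem rmul_bijective (γ : SLK K) : Function.Bijective (fun x => rmul x γ) := Function.bijective_iff_has_inverse.2 ⟨fun x => rmul x γ⁻¹,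
    fun x => by simp only [← rmul_mul, mul_inv_cancel, rmul_one],
    fun x => by simp only [← rmul_mul, inv_mul_cancel, rmul_one]⟩
theorem rmul_smul (l : K) (x : K × K) (γ : SLK K) :
    rmul (l * x.1, l * x.2) γ = (l * (rmul x γ).1, l * (rmul x γ).2) := by
  simp only [rmul]
  ext <;> ring
theorem rmul_Tm (c d k : K) : rmul (c, d) (Tm k) = (c, d + c * k) := by
  obtain ⟨h1, h2, h3, h4⟩ := bg_Tm k
  simp only [rmul, h1, h2, h3, h4]
  ext <;> ring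
theorem row_mul (γ σ : SLK K) : row (γ * σ) = rmul (row γ) σ := by simp only [row, rmul, bg_mul]
theorem row_eq_iff {γ σ : SLK K} : row γ = row σ ↔ ∃ k : K, σ = Tm k * γ := by
  constructor
  · intro h
    have h1 : γ 1 0 = σ 1 0 := congrArg Prod.fst h
    have h2 : γ 1 1 = σ 1 1 := congrArg Prod.snd h
    have d1 := bg_det γ
    have d2 := bg_det σ
    obtain ⟨t1, t2, t3, t4⟩ := bg_Tm (σ 0 1 * γ 0 0 - σ 0 0 * γ 0 1)
    refine ⟨σ 0 1 * γ 0 0 - σ 0 0 * γ 0 1, bg_ext ?_ ?_ ?_ ?_⟩ <;>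
      simp only [bg_mul, t1, t2, t3, t4]
    · rw [← h1, ← h2] at d2
      linear_combination γ 0 0 * d2 - σ 0 0 * d1
    · rw [← h1, ← h2] at d2
      linear_combination γ 0 1 * d2 - σ 0 1 * d1
    · rw [h1]; ring
    · rw [h2]; ring
  · rintro ⟨k, rfl⟩
    obtain ⟨t1, t2, t3, t4⟩ := bg_Tm k
    simp only [row, bg_mul, t3, t4]
    ext <;> ring
theorem Tm_add (x y : K) : Tm (x + y) = Tm x * Tm y := by
  refine bg_ext ?_ ?_ ?_ ?_ <;> simp only [bg_mul, (bg_Tm _).1, (bg_Tm _).2.1, (bg_Tm _).2.2.1,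
    (bg_Tm _).2.2.2] <;> ring
theorem Tm_zero : Tm (0 : K) = 1 := bg_ext rfl rfl rfl rfl
theorem tw_one (Φ : K × K → ℂ) : tw Φ 1 = Φ := funext fun x => by rw [tw, inv_one, rmul_one]
theorem tw_mul (Φ : K × K → ℂ) (γ σ : SLK K) : tw Φ (γ * σ) = tw (tw Φ γ) σ := funext fun x => by rw [tw, tw, tw, mul_inv_rev, rmul_mul]
theorem bg_MK (j : ℕ) : IsI (MK K ^ j) := (isI_nat _).pow j
theorem bg_mono {i j : ℕ} {a : K} (h : IsI (MK K ^ i * a)) (hij : i ≤ j) : IsI (MK K ^ j * a) := by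
  obtain ⟨k, rfl⟩ := Nat.exists_eq_add_of_le hij
  rw [pow_add, mul_right_comm]
  exact h.mul (bg_MK k)
theorem bg_two {i j : ℕ} {a b c d : K} (ha : IsI (MK K ^ i * a)) (hb : IsI (MK K ^ j * b))
    (hc : IsI (MK K ^ i * c)) (hd : IsI (MK K ^ j * d)) :
    IsI (MK K ^ (i + j) * (a * b + c * d)) := by
  have := (ha.mul hb).add (hc.mul hd)
  convert this using 1
  ring
theorem Ent.mono {i j : ℕ} {σ : SLK K} (h : Ent i σ) (hij : i ≤ j) : Ent j σ := fun a b => bg_mono (h a b) hij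
theorem Ent.inv {j : ℕ} {σ : SLK K} (h : Ent j σ) : Ent j σ⁻¹ := by
  obtain ⟨h1, h2, h3, h4⟩ := bg_inv σ
  intro a b
  fin_cases a <;> fin_cases b
  · exact h1 ▸ h 1 1
  · simpa [h2] using (h 0 1).neg
  · simpa [h3] using (h 1 0).neg
  · exact h4 ▸ h 0 0
theorem Ent.mul {i j : ℕ} {γ σ : SLK K} (h : Ent i γ) (h' : Ent j σ) : Ent (i + j) (γ * σ) := fun a b => by
  rw [bg_mul]
  exact bg_two (h _ _) (h' _ _) (h _ _) (h' _ _)
theorem bg_ent_of_Gam {q : K} {γ : SLK K} (h : γ ∈ Gam q) : Ent 0 γ := fun a b => by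
  simpa using h.1 a b
theorem ent_one : Ent 0 (1 : SLK K) := bg_ent_of_Gam (Gam (1 : K)).one_mem
theorem ent_of_Gam {q : K} {γ : SLK K} (h : γ ∈ Gam q) : Ent 0 γ := bg_ent_of_Gam h
theorem Ent.supp_row {j : ℕ} {σ : SLK K} (h : Ent j σ) : Supp j (row σ) := ⟨h 1 0, h 1 1, -(MK K ^ j * σ 0 1), MK K ^ j * σ 0 0, (h 0 1).neg, h 0 0, by
    simp only [row]
    linear_combination MK K ^ j * bg_det σ⟩
theorem Supp.mono {i j : ℕ} {x : K × K} (h : Supp i x) (hij : i ≤ j) : Supp j x := by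
  obtain ⟨h1, h2, a, b, ha, hb, h3⟩ := h
  refine ⟨bg_mono h1 hij, bg_mono h2 hij, ?_⟩
  obtain ⟨k, rfl⟩ := Nat.exists_eq_add_of_le hij
  exact ⟨MK K ^ k * a, MK K ^ k * b, (bg_MK k).mul ha, (bg_MK k).mul hb, by
    linear_combination MK K ^ k * h3⟩
theorem Supp.ne {j : ℕ} {x : K × K} (h : Supp j x) : x.1 ≠ 0 ∨ x.2 ≠ 0 := by
  obtain ⟨-, -, a, b, -, -, h3⟩ := h
  by_contra! h0
  rw [h0.1, h0.2, mul_zero, mul_zero, add_zero] at h3
  exact pow_ne_zero j MK_ne h3.symm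
theorem Supp.rmul {i j : ℕ} {x : K × K} (h : Supp i x) {σ : SLK K} (hσ : Ent j σ) :
    Supp (i + j) (rmul x σ) := by
  obtain ⟨h1, h2, a, b, ha, hb, h3⟩ := h
  refine ⟨bg_two h1 (hσ _ _) h2 (hσ _ _), bg_two h1 (hσ _ _) h2 (hσ _ _),
    a * (MK K ^ j * σ 1 1) - b * (MK K ^ j * σ 0 1), b * (MK K ^ j * σ 0 0) - a * (MK K ^ j * σ 1 0),
    (ha.mul (hσ _ _)).sub (hb.mul (hσ _ _)), (hb.mul (hσ _ _)).sub (ha.mul (hσ _ _)), ?_⟩
  simp only [Vale.Agent.P319N.rmul]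
  linear_combination MK K ^ j * h3 + MK K ^ j * (a * x.1 + b * x.2) * bg_det σ
theorem Supp.exists_row {j : ℕ} {x : K × K} (h : Supp j x) : ∃ σ, Ent j σ ∧ row σ = x := by
  obtain ⟨h1, h2, a, b, ha, hb, h3⟩ := h
  have h0 : MK K ^ j ≠ 0 := pow_ne_zero j MK_ne
  refine ⟨⟨!![b / MK K ^ j, -a / MK K ^ j; x.1, x.2], by
    rw [Matrix.det_fin_two_of]
    field_simp
    linear_combination h3⟩, fun u v => ?_, rfl⟩
  fin_cases u <;> fin_cases v
  · simpa [mul_div_cancel₀ _ h0] using hb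
  · simpa [mul_div_cancel₀ _ h0] using ha.neg
  · exact h1
  · exact h2
theorem Supp.scal {j : ℕ} {x : K × K} (h : Supp j x) {l : K} (h1 : IsI (MK K ^ j * (l * x.1)))
    (h2 : IsI (MK K ^ j * (l * x.2))) : IsI (MK K ^ (2 * j) * l) := by
  obtain ⟨-, -, a, b, ha, hb, h3⟩ := h
  convert (ha.mul h1).add (hb.mul h2) using 1
  linear_combination -MK K ^ j * l * h3
theorem bg_conj (σ : SLK K) (t : K) : (σ * Tm t * σ⁻¹) 0 0 = 1 - t * (σ 0 0 * σ 1 0) ∧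
    (σ * Tm t * σ⁻¹) 0 1 = t * (σ 0 0 * σ 0 0) ∧ (σ * Tm t * σ⁻¹) 1 0 = -(t * (σ 1 0 * σ 1 0)) ∧
    (σ * Tm t * σ⁻¹) 1 1 = 1 + t * (σ 0 0 * σ 1 0) := by
  obtain ⟨h1, h2, h3, h4⟩ := bg_inv σ
  obtain ⟨t1, t2, t3, t4⟩ := bg_Tm t
  have := bg_det σ
  simp only [bg_mul, h1, h2, h3, h4, t1, t2, t3, t4]
  exact ⟨by linear_combination this, by ring, by ring, by linear_combination this⟩
theorem bg_mem_Gam {q : K} (hq : IsI q) (h0 : q ≠ 0) {γ : SLK K} {a b c d : K} (ha : IsI a)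
    (hb : IsI b) (hc : IsI c) (hd : IsI d) (h1 : γ 0 0 = 1 + q * a) (h2 : γ 0 1 = q * b)
    (h3 : γ 1 0 = q * c) (h4 : γ 1 1 = 1 + q * d) : γ ∈ Gam q := by
  refine ⟨fun i j => ?_, ?_, ?_, ?_, ?_⟩
  · fin_cases i <;> fin_cases j
    · exact h1 ▸ isIntegral_one.add (hq.mul ha)
    · exact h2 ▸ hq.mul hb
    · exact h3 ▸ hq.mul hc
    · exact h4 ▸ isIntegral_one.add (hq.mul hd)
  · rwa [h1, add_sub_cancel_left, mul_div_cancel_left₀ _ h0]
  · rwa [h2, mul_div_cancel_left₀ _ h0]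
  · rwa [h3, mul_div_cancel_left₀ _ h0]
  · rwa [h4, add_sub_cancel_left, mul_div_cancel_left₀ _ h0]
theorem conj_Tm_mem {q : K} (hq : IsI q) (h0 : q ≠ 0) {j : ℕ} {σ : SLK K} (h : Ent j σ) {k : K}
    (hk : IsI k) : σ * Tm (pd q j * k) * σ⁻¹ ∈ Gam q := by
  obtain ⟨h1, h2, h3, h4⟩ := bg_conj σ (pd q j * k)
  refine bg_mem_Gam hq h0 (hk.mul ((h 0 0).mul (h 1 0))).neg (hk.mul ((h 0 0).mul (h 0 0)))
    (hk.mul ((h 1 0).mul (h 1 0))).neg (hk.mul ((h 0 0).mul (h 1 0))) (h1.trans ?_) (h2.trans ?_)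
    (h3.trans ?_) (h4.trans ?_) <;> ring
theorem isI_of_conj_Tm {q : K} {j : ℕ} {σ : SLK K} (h : Ent j σ) {k : K}
    (hk : σ * Tm k * σ⁻¹ ∈ Gam q) : IsI (MK K ^ (2 * j) * k) := by
  have h1 := (h.inv.mul (ent_of_Gam hk)).mul h 0 1
  rw [show σ⁻¹ * (σ * Tm k * σ⁻¹) * σ = Tm k by group, (bg_Tm k).2.1] at h1
  rwa [two_mul]
theorem pd_ne {q : K} (h0 : q ≠ 0) (j : ℕ) : pd q j ≠ 0 := mul_ne_zero h0 (pow_ne_zero _ MK_ne)
theorem pd_isI {q : K} (hq : IsI q) (j : ℕ) : IsI (pd q j) := hq.mul (bg_MK _)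
theorem same_orbit {q : K} (hq : IsI q) (h0 : q ≠ 0) {j : ℕ} {x y : K × K} (hx : Supp j x)
    (hy : Supp j y) (h1 : IsI ((y.1 - x.1) / (q * MK K ^ (3 * j))))
    (h2 : IsI ((y.2 - x.2) / (q * MK K ^ (3 * j)))) : ∃ γ ∈ Gam q, y = rmul x γ := by
  obtain ⟨x1, x2, a, b, ha, hb, h3⟩ := hx
  obtain ⟨-, -, a', b', ha', hb', h4⟩ := hy
  have hμ : MK K ^ j ≠ 0 := pow_ne_zero j MK_ne
  have hm := bg_MK (K := K) j
  have e3 : MK K ^ (3 * j) = (MK K ^ j) ^ 3 := by ring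
  rw [e3] at h1 h2
  generalize MK K ^ j = μ at *
  obtain ⟨u, hu⟩ : ∃ u, u = (y.1 - x.1) / (q * μ ^ 3) := ⟨_, rfl⟩
  obtain ⟨v, hv⟩ : ∃ v, v = (y.2 - x.2) / (q * μ ^ 3) := ⟨_, rfl⟩
  rw [← hu] at h1
  rw [← hv] at h2
  have e1 : y.1 = x.1 + q * μ ^ 3 * u := by rw [hu]; field_simp; ring
  have e2 : y.2 = x.2 + q * μ ^ 3 * v := by rw [hv]; field_simp; ring
  have hs := (ha.mul h1).add (hb.mul h2)
  refine ⟨⟨!![1 + q * (a * μ ^ 2 * u - μ * x.2 * (a * u + b * v) * b'),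
    q * (μ * x.2 * (a * u + b * v) * a' + a * μ ^ 2 * v);
    q * (μ * x.1 * (a * u + b * v) * b' + b * μ ^ 2 * u),
    1 + q * (b * μ ^ 2 * v - μ * x.1 * (a * u + b * v) * a')], ?_⟩,
    bg_mem_Gam hq h0 (((ha.mul (hm.pow 2)).mul h1).sub ((x2.mul hs).mul hb'))
      (((x2.mul hs).mul ha').add ((ha.mul (hm.pow 2)).mul h2))
      (((x1.mul hs).mul hb').add ((hb.mul (hm.pow 2)).mul h1))
      (((hb.mul (hm.pow 2)).mul h2).sub ((x1.mul hs).mul ha')) rfl rfl rfl rfl, ?_⟩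
  · rw [Matrix.det_fin_two_of]
    rw [e1, e2] at h4
    linear_combination (-(q * μ * (a * u + b * v))) * h4 -
      q ^ 2 * μ ^ 3 * (a * u + b * v) * (a' * u + b' * v) * h3
  · ext
    · change y.1 = x.1 * (1 + q * (a * μ ^ 2 * u - μ * x.2 * (a * u + b * v) * b')) +
        x.2 * (q * (μ * x.1 * (a * u + b * v) * b' + b * μ ^ 2 * u))
      linear_combination e1 - q * μ ^ 2 * u * h3
    · change y.2 = x.1 * (q * (μ * x.2 * (a * u + b * v) * a' + a * μ ^ 2 * v)) +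
        x.2 * (1 + q * (b * μ ^ 2 * v - μ * x.1 * (a * u + b * v) * a'))
      linear_combination e2 - q * μ ^ 2 * v * h3
theorem orbit_reps {q : K} (hq : IsI q) (h0 : q ≠ 0) (j : ℕ) : ∃ T : Finset (SLK K),
    (∀ σ ∈ T, Ent j σ) ∧
      ∀ x, Supp j x → ∃! σ, σ ∈ T ∧ ∃ γ ∈ Gam q, x = rmul (row σ) γ := by
  have hμ : MK K ^ j ≠ 0 := pow_ne_zero j MK_ne
  let S : Setoid {x : K × K // Supp j x} :=
    ⟨fun x y => ∃ γ ∈ Gam q, y.1 = rmul x.1 γ, fun x => ⟨1, one_mem _, (rmul_one _).symm⟩,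
      fun ⟨γ, h1, h2⟩ => ⟨γ⁻¹, inv_mem h1, by rw [h2, ← rmul_mul, mul_inv_cancel, rmul_one]⟩,
      fun ⟨γ, h1, h2⟩ ⟨γ', h3, h4⟩ => ⟨γ * γ', mul_mem h1 h3, by rw [h4, h2, rmul_mul]⟩⟩
  have hi := bl_relIndex (inv_ne_zero hμ) (hq.mul (bg_MK (4 * j)))
    (mul_ne_zero h0 (pow_ne_zero _ MK_ne))
  have hi0 : (latt ((MK K ^ j)⁻¹ * (q * MK K ^ (4 * j)))).relIndex (latt (MK K ^ j)⁻¹) ≠ 0 := by
    intro e
    rw [e, Nat.cast_zero] at hi
    exact (bl_absN_pos (mul_ne_zero h0 (pow_ne_zero _ MK_ne))).ne hi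
  have hfin : Finite (latt (MK K ^ j)⁻¹ ⧸ (latt ((MK K ^ j)⁻¹ * (q * MK K ^ (4 * j)))).addSubgroupOf
      (latt (MK K ^ j)⁻¹)) := Nat.finite_of_card_ne_zero hi0
  have hm : ∀ a : K, IsI (MK K ^ j * a) → a ∈ latt (MK K ^ j)⁻¹ := fun a ha => by
    change IsI (a / _)
    rwa [div_inv_eq_mul, mul_comm]
  have e : (MK K ^ j)⁻¹ * (q * MK K ^ (4 * j)) = q * MK K ^ (3 * j) := by
    field_simp
    ring
  have : Finite (Quotient S) := by
    refine Finite.of_injective (fun c : Quotient S =>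
      ((QuotientAddGroup.mk ⟨_, hm _ c.out.2.1⟩, QuotientAddGroup.mk ⟨_, hm _ c.out.2.2.1⟩) :
        (latt (MK K ^ j)⁻¹ ⧸ (latt ((MK K ^ j)⁻¹ * (q * MK K ^ (4 * j)))).addSubgroupOf
          (latt (MK K ^ j)⁻¹)) × (latt (MK K ^ j)⁻¹ ⧸
          (latt ((MK K ^ j)⁻¹ * (q * MK K ^ (4 * j)))).addSubgroupOf (latt (MK K ^ j)⁻¹))))
      fun c c' h => ?_
    have h1 := QuotientAddGroup.eq.1 (congrArg Prod.fst h)
    have h2 := QuotientAddGroup.eq.1 (congrArg Prod.snd h)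
    rw [AddSubgroup.mem_addSubgroupOf, e] at h1 h2
    rw [← c.out_eq, ← c'.out_eq]
    refine Quotient.sound (same_orbit hq h0 c.out.2 c'.out.2 ?_ ?_)
    · rw [← neg_add_eq_sub]; exact h1
    · rw [← neg_add_eq_sub]; exact h2
  have := Fintype.ofFinite (Quotient S)
  choose σ hσ hσ' using fun c : Quotient S => c.out.2.exists_row
  refine ⟨Finset.univ.image σ, fun τ hτ => ?_, fun x hx => ⟨σ ⟦⟨x, hx⟩⟧,
    ⟨Finset.mem_image_of_mem _ (Finset.mem_univ _), ?_⟩, ?_⟩⟩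
  · obtain ⟨c, -, rfl⟩ := Finset.mem_image.1 hτ
    exact hσ c
  · rw [hσ']
    exact Quotient.exact (Quotient.out_eq (s := S) ⟦⟨x, hx⟩⟧)
  · rintro τ ⟨hτ, h1⟩
    obtain ⟨c, -, rfl⟩ := Finset.mem_image.1 hτ
    rw [hσ'] at h1
    rw [← c.out_eq]
    exact congrArg σ (Quotient.sound h1)
theorem actK_one (w : HH K) : actK 1 w = w := funext fun σ => by rw [actK, map_one, P026.act_one]
theorem actK_mul (γ σ : SLK K) (w : HH K) : actK (γ * σ) w = actK γ (actK σ w) := funext fun τ => by rw [actK, map_mul, P026.act_mul]; rfl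
theorem continuous_actK (γ : SLK K) : Continuous (actK γ) := continuous_pi fun σ => (P026.continuous_act _).comp (continuous_apply σ)
theorem measurePreserving_actK (γ : SLK K) :
    MeasurePreserving (actK γ) (muP (Emb K)) (muP (Emb K)) := measurePreserving_actP fun σ : Emb K => Matrix.SpecialLinearGroup.map σ.1 γ
theorem measurableEmbedding_actK (γ : SLK K) : MeasurableEmbedding (actK γ) := by
  exact ({
     toFun := actK γ
     invFun := actK γ⁻¹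
     left_inv := fun w => by rw [← actK_mul, inv_mul_cancel, actK_one]
     right_inv := fun w => by rw [← actK_mul, mul_inv_cancel, actK_one]
     continuous_toFun := continuous_actK _
     continuous_invFun := continuous_actK _ } : HH K ≃ₜ HH K).measurableEmbedding
theorem bg_map (σ : Emb K) (γ : SLK K) (i j : Fin 2) :
    Matrix.SpecialLinearGroup.map σ.1 γ i j = σ.1 (γ i j) := rfl
theorem bg_QQ (γ : SLK K) (w : HH K) (x : K × K) (σ : Emb K) :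
    QQ (actK γ w σ) (σ.1 x.1) (σ.1 x.2) = QQ (w σ) (σ.1 (rmul x γ).1) (σ.1 (rmul x γ).2) := by
  simp only [actK, P026.QQ_act, rmul, bg_map, map_add, map_mul]
theorem QK_actK (γ : SLK K) (w : HH K) (x : K × K) : QK (actK γ w) x = QK w (rmul x γ) := Finset.prod_congr rfl fun σ _ => bg_QQ γ w x σ
theorem lq_actK (γ : SLK K) (w : HH K) (x : K × K) : lq (actK γ w) x = lq w (rmul x γ) := funext fun σ => congrArg Real.log (bg_QQ γ w x σ)
theorem tc_actK (γ : SLK K) (w : HH K) : tc (actK γ w) = -lq w (row γ) := rfl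
theorem bg_act_Tm (k : K) (w : HH K) (σ : Emb K) :
    actK (Tm k) w σ = ((w σ).1 + σ.1 k, (w σ).2) := by
  obtain ⟨h1, h2, h3, h4⟩ := bg_Tm k
  simp [actK, act, bg_map, h1, h2, h3, h4, QQ, ht]
theorem zc_Tm (k : K) (w : HH K) : zc (actK (Tm k) w) = zc w + jj k := funext fun σ => congrArg Prod.fst (bg_act_Tm k w σ)
theorem tc_Tm (k : K) (w : HH K) : tc (actK (Tm k) w) = tc w := funext fun σ => by rw [tc, bg_act_Tm]; rfl
theorem mem_ballP_actK (γ : SLK K) (w w' : HH K) :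
    actK γ w' ∈ ballP (actK γ w) ↔ w' ∈ ballP w := forall_congr' fun σ => by rw [actK, actK, P026.uu_act]
theorem mem_ballP_comm (w w' : HH K) : w' ∈ ballP w ↔ w ∈ ballP w' := forall_congr' fun σ => by rw [P026.uu_symm]
theorem bg_pos (w : HH K) {x : K × K} (h : x.1 ≠ 0 ∨ x.2 ≠ 0) (σ : Emb K) :
    0 < QQ (w σ) (σ.1 x.1) (σ.1 x.2) :=
  P026.QQ_pos _ (h.imp (map_ne_zero _).2 (map_ne_zero _).2)
theorem QK_pos (w : HH K) {x : K × K} (h : x.1 ≠ 0 ∨ x.2 ≠ 0) : 0 < QK w x := Finset.prod_pos fun σ _ => bg_pos w h σ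
theorem QK_eq_exp (w : HH K) {x : K × K} (h : x.1 ≠ 0 ∨ x.2 ≠ 0) :
    QK w x = Real.exp (∑ σ, lq w x σ) := by
  rw [Real.exp_sum]
  exact Finset.prod_congr rfl fun σ _ => (Real.exp_log (bg_pos w h σ)).symm
theorem QK_smul (w : HH K) (l : K) (x : K × K) :
    QK w (l * x.1, l * x.2) = absN l * QK w x := by
  simp only [QK, map_mul, QQ_smul, Finset.prod_mul_distrib, bl_absN]
theorem lq_smul (w : HH K) {l : K} (hl : l ≠ 0) {x : K × K} (h : x.1 ≠ 0 ∨ x.2 ≠ 0) :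
    lq w (l * x.1, l * x.2) = lq w x + Lg l := by
  funext σ
  simp only [lq, Lg, map_mul, QQ_smul, Pi.add_apply]
  rw [Real.log_mul (normSq_pos.2 ((map_ne_zero _).2 hl)).ne' (bg_pos w h σ).ne', add_comm]
theorem continuous_QK (x : K × K) : Continuous fun w : HH K => QK w x := continuous_finsetProd _ fun σ _ => (continuous_QQ _ _).comp (continuous_apply σ)
theorem measurable_lq (x : K × K) : Measurable fun w : HH K => lq w x := measurable_pi_lambda _ fun σ =>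
    Real.measurable_log.comp ((continuous_QQ _ _).comp (continuous_apply σ)).measurable
theorem bg_ht {w : HH K} {T : ℝ} (h : ‖tc w‖ ≤ T) (σ : Emb K) :
    Real.exp (-T) ≤ ht (w σ) ∧ ht (w σ) ≤ Real.exp T := by
  have := abs_le.1 ((norm_le_pi_norm (tc w) σ).trans h)
  exact ⟨Real.exp_le_exp.2 this.1, Real.exp_le_exp.2 this.2⟩
theorem QK_ge (j : ℕ) (T : ℝ) : ∃ c : ℝ, 0 < c ∧ ∀ (w : HH K) (x : K × K), ‖tc w‖ ≤ T →
    Supp j x → c ≤ QK w x := by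
  have hμ := bl_absN_pos (pow_ne_zero j (MK_ne (K := K)))
  refine ⟨(absN (MK K ^ j))⁻¹ * ∏ _σ : Emb K, Real.exp (-T), by positivity, fun w x hw hx => ?_⟩
  have key : ∀ a : K, a ≠ 0 → IsI (MK K ^ j * a) →
      (∀ σ : Emb K, normSq (σ.1 a) * Real.exp (-T) ≤ QQ (w σ) (σ.1 x.1) (σ.1 x.2)) →
      (absN (MK K ^ j))⁻¹ * ∏ _σ : Emb K, Real.exp (-T) ≤ QK w x := by
    intro a h0 ha h1
    have h2 := bl_one_le ha (mul_ne_zero (pow_ne_zero j MK_ne) h0)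
    rw [bl_absN_mul, ← inv_mul_le_iff₀ hμ, mul_one] at h2
    refine le_trans (mul_le_mul_of_nonneg_right h2 (by positivity)) ?_
    rw [bl_absN, ← Finset.prod_mul_distrib]
    exact Finset.prod_le_prod (fun σ _ => mul_nonneg (normSq_nonneg _) (Real.exp_pos _).le)
      fun σ _ => h1 σ
  by_cases h0 : x.1 = 0
  · refine key x.2 (hx.ne.resolve_left (not_not.2 h0)) hx.2.1 fun σ => ?_
    rw [h0, map_zero, QQ_zero, Real.exp_neg, ← div_eq_mul_inv]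
    exact div_le_div_of_nonneg_left (normSq_nonneg _) (P026.ht_pos _) (bg_ht hw σ).2
  · exact key x.1 h0 hx.1 fun σ => le_trans
      (mul_le_mul_of_nonneg_left (bg_ht hw σ).1 (normSq_nonneg _)) (QQ_ge_c _ _ _)
theorem QK_le_zero (j : ℕ) (T : ℝ) : ∃ C : ℝ, ∀ (w : HH K) (x : K × K), ‖tc w‖ ≤ T →
    Supp j x → x.1 = 0 → QK w x ≤ C := by
  refine ⟨absN (MK K ^ j) * ∏ _σ : Emb K, Real.exp T, fun w x hw hx h0 => ?_⟩
  obtain ⟨-, -, a, b, -, hb, h3⟩ := hx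
  rw [h0, mul_zero, zero_add] at h3
  have hb0 : b ≠ 0 := fun e => pow_ne_zero j (MK_ne (K := K)) (by rw [← h3, e, zero_mul])
  have h1 : absN x.2 ≤ absN (MK K ^ j) := by
    rw [← h3, bl_absN_mul]
    exact le_mul_of_one_le_left (bl_absN_nonneg _) (bl_one_le hb hb0)
  refine le_trans ?_ (mul_le_mul_of_nonneg_right h1 (by positivity))
  rw [bl_absN, ← Finset.prod_mul_distrib]
  refine Finset.prod_le_prod (fun σ _ => P026.QQ_nonneg _ _ _) fun σ _ => ?_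
  rw [h0, map_zero, QQ_zero, ← neg_neg T, Real.exp_neg, ← div_eq_mul_inv]
  exact div_le_div_of_nonneg_left (normSq_nonneg _) (Real.exp_pos _) (bg_ht hw σ).1

end

end Vale.Agent.P319N
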