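import Vale.Agent.P319N.BWgt
import Vale.Agent.P026.Schur

namespace Vale.Agent.P319N

open NumberField Complex MeasureTheory Filter Topology
open scoped Classical ComplexConjugate Real MatrixGroups
open Vale.Agent.P026 (omC kap psi W Hs ht QQ act uu muH hh LL Gs bb kk UU DualW)

noncomputable section

variable {K : Type} [Field K] [NumberField K] [Setup K]

def ker_K (q : K) (κ : SLK K → ℂ) (w w' : HH K) : ℂ :=
  ∑' γ : Gam q, if actK (γ : SLK K) w' ∈ ballP w then conj (κ γ) else 0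

theorem ker_meas (q : K) (κ : SLK K → ℂ) : Measurable (Function.uncurry (ker_K q κ)) := by
  refine Measurable.tsum fun γ => Measurable.ite ?_ measurable_const measurable_const
  have e : {p : HH K × HH K | actK (γ : SLK K) p.2 ∈ ballP p.1} =
      ⋂ σ : Emb K, {p : HH K × HH K | uu (p.1 σ) (actK (γ : SLK K) p.2 σ) ≤ 2} := by
    ext p; simp [ballP]
  rw [e]
  refine MeasurableSet.iInter fun σ => ?_
  have h1 : Continuous fun p : HH K × HH K => p.1 σ := (continuous_apply σ).comp continuous_fst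
  have h2 : Continuous fun p : HH K × HH K => actK (γ : SLK K) p.2 σ :=
    (continuous_apply σ).comp ((continuous_actK (γ : SLK K)).comp continuous_snd)
  have h3 : Continuous fun p : HH K × HH K => uu (p.1 σ) (actK (γ : SLK K) p.2 σ) :=
    Vale.Agent.P026.continuous_uu.comp (h1.prodMk h2)
  exact measurableSet_le h3.measurable measurable_const

theorem ker_inv {q : K} {κ : SLK K → ℂ} (h1 : ∀ γ ∈ Gam q, ‖κ γ‖ = 1)
    (h2 : ∀ γ ∈ Gam q, ∀ γ' ∈ Gam q, κ (γ * γ') = κ γ * κ γ') {γ : SLK K} (hγ : γ ∈ Gam q) :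
    κ γ⁻¹ = conj (κ γ) := by
  have ne : ∀ γ ∈ Gam q, κ γ ≠ 0 := fun γ h h0 => by simpa [h0] using h1 γ h
  have a1 : κ 1 = 1 := by
    have := h2 1 (one_mem _) 1 (one_mem _)
    rw [mul_one] at this
    exact (mul_left_cancel₀ (ne 1 (one_mem _)) (this.symm.trans (mul_one _).symm))
  have a2 := h2 γ hγ γ⁻¹ (inv_mem hγ)
  rw [mul_inv_cancel, a1] at a2
  refine mul_left_cancel₀ (ne γ hγ) ?_
  rw [← a2, Complex.mul_conj', h1 γ hγ]
  simp

theorem ker_herm (q : K) {κ : SLK K → ℂ} (h1 : ∀ γ ∈ Gam q, ‖κ γ‖ = 1)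
    (h2 : ∀ γ ∈ Gam q, ∀ γ' ∈ Gam q, κ (γ * γ') = κ γ * κ γ') (x y : HH K) :
    ker_K q κ y x = conj (ker_K q κ x y) := by
  rw [ker_K, ker_K, conj_tsum, ← (Equiv.inv (Gam q)).tsum_eq]
  refine tsum_congr fun γ => ?_
  have e : actK ((γ : SLK K)⁻¹) x ∈ ballP y ↔ actK (γ : SLK K) y ∈ ballP x := by
    rw [← mem_ballP_actK (γ : SLK K), ← actK_mul, mul_inv_cancel, actK_one, mem_ballP_comm]
  rw [Equiv.inv_apply, Subgroup.coe_inv, ker_inv h1 h2 γ.2]
  simp only [e]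
  split_ifs <;> simp

theorem ker_aut (q : K) {κ : SLK K → ℂ}
    (h2 : ∀ γ ∈ Gam q, ∀ γ' ∈ Gam q, κ (γ * γ') = κ γ * κ γ') {γ : SLK K} (hγ : γ ∈ Gam q)
    (x y : HH K) : ker_K q κ (actK γ x) y = conj (κ γ) * ker_K q κ x y := by
  rw [ker_K, ker_K, ← tsum_mul_left, ← (Equiv.mulLeft (⟨γ, hγ⟩ : Gam q)).tsum_eq]
  refine tsum_congr fun σ => ?_
  simp only [Equiv.coe_mulLeft, Subgroup.coe_mul, actK_mul, mem_ballP_actK, h2 γ hγ σ σ.2, map_mul,
    mul_ite, mul_zero]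

theorem exists_T (q : K) {κ : SLK K → ℂ} (h1 : ∀ γ ∈ Gam q, ‖κ γ‖ = 1)
    (h2 : ∀ γ ∈ Gam q, ∀ γ' ∈ Gam q, κ (γ * γ') = κ γ * κ γ') :
    ∃ T : Lp ℂ 2 (nu q) →L[ℂ] Lp ℂ 2 (nu q), IsSelfAdjoint T ∧
      (∀ f, ∃ F : HH K → ℂ, Measurable F ∧ Aut q κ F ∧ (T f : HH K → ℂ) =ᵐ[nu q] F) ∧
      ∀ (f : Lp ℂ 2 (nu q)) (F : HH K → ℂ) (Bd : ℝ), Measurable F → Aut q κ F →
        (∀ w, ‖F w‖ ≤ Bd) → (f : HH K → ℂ) =ᵐ[nu q] F →
        (T f : HH K → ℂ) =ᵐ[nu q] LopP F := by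
  obtain ⟨V, hV⟩ := ballP_vol (ι := Emb K)
  obtain ⟨T, k1, k2⟩ := Vale.Agent.P026.schur (nu q) (ker_K q κ) (ker_meas q κ)
    (ker_herm q h1 h2) V fun x => by
    rw [← hV x, ← lintegral_indicator_one (measurableSet_ballP x),
      ← lintegral_unfold q (measurable_one.indicator (measurableSet_ballP x))]
    refine lintegral_mono fun y => enorm_tsum_le_tsum_enorm.trans (ENNReal.tsum_le_tsum fun γ => ?_)
    simp only [Set.indicator]
    split_ifs
    · rw [← ofReal_norm, RCLike.norm_conj, h1 γ γ.2]; simp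
    · simp
  refine ⟨T, k1, fun f => ⟨_, (StronglyMeasurable.integral_prod_right
    ((ker_meas q κ).stronglyMeasurable.mul
      ((Lp.stronglyMeasurable f).comp_measurable measurable_snd))).measurable,
    fun γ hγ w => ?_, k2 f⟩, fun f F Bd hF ha hb hf => (k2 f).trans (.of_forall fun w => ?_)⟩
  · simp only [ker_aut q h2 hγ, mul_assoc, integral_const_mul]
  · have hi : IntegrableOn F (ballP w) (muP (Emb K)) :=
      Measure.integrableOn_of_bounded (isCompact_ballP _).measure_lt_top.ne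
        hF.aestronglyMeasurable (Eventually.of_forall hb)
    rw [LopP, ← integral_indicator (measurableSet_ballP _),
      ← (integral_unfold q ((integrable_indicator_iff (measurableSet_ballP _)).2 hi)).2]
    refine integral_congr_ae (hf.mono fun y hy => ?_)
    simp only [hy, ker_K, ← tsum_mul_right]
    refine tsum_congr fun γ => ?_
    simp only [Set.indicator, ha γ γ.2, ite_mul, zero_mul]

end

end Vale.Agent.P319N
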