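import Vale.Agent.P319N.BFd

namespace Vale.Agent.P319N

open NumberField Complex MeasureTheory Filter Topology
open scoped Classical ComplexConjugate Real MatrixGroups
open Vale.Agent.P026 (omC kap psi W Hs ht QQ act uu muH hh LL Gs bb kk UU DualW)

noncomputable section

variable {K : Type} [Field K] [NumberField K] [Setup K]

theorem bpars_neg (z : Emb K → ℂ) : psiV (-z) = conj (psiV z) := by
  simp only [psiV, Pi.neg_apply, Vale.Agent.P026.psi_neg, map_prod]

theorem bpars_key {m : K} (hm : m ≠ 0) (z0 : Emb K → ℂ) :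
    ∃ T : UnitAddTorus (BI K) → (Emb K → ℂ),
    MeasurableEmbedding T ∧ MeasurePreserving T (Measure.pi fun _ => AddCircle.haarAddCircle)
      (ENNReal.ofReal (V0 K * absN m)⁻¹ • volume.restrict (Fd m z0)) ∧
    ∀ (n : K) (k : BI K → ℤ), (∀ i, trK (n * m * integralBasis K i) = k i) → ∀ t,
      psiV (jj n * T t) = psiV (jj n * z0) * UnitAddTorus.mFourier k t := by
  have he := bfd_emb hm z0
  have hs : MeasurableSet {x : BI K → ℝ | ∀ i, x i ∈ Set.Ioc (0 : ℝ) (0 + 1)} :=
    MeasurableSet.univ_pi' fun _ => measurableSet_Ioc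
  have h1 := (bfd_mp hm z0).restrict_image_emb he (Set.univ.pi fun _ => Set.Ico 0 1)
  have e2 : (Set.univ.pi fun _ : BI K => Set.Ico (0 : ℝ) 1) =ᵐ[volume]
      {x : BI K → ℝ | ∀ i, x i ∈ Set.Ioc (0 : ℝ) (0 + 1)} := by
    refine Measure.univ_pi_Ico_ae_eq_Icc.trans (Measure.univ_pi_Ioc_ae_eq_Icc.symm.trans
      (Eq.eventuallyEq (Set.ext fun x => ?_)))
    simp
  rw [← bfd_image, Measure.restrict_smul, Measure.restrict_congr_set e2] at h1
  refine ⟨_, (he.comp (MeasurableEmbedding.subtype_coe hs)).comp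
    (UnitAddTorus.measurableEquivPiIoc _).measurableEmbedding,
    (h1.comp (measurePreserving_subtype_coe hs)).comp
      (UnitAddTorus.measurePreserving_equivPiIoc fun _ => 0), fun n k hk t => ?_⟩
  obtain ⟨⟨x, hx⟩, rfl⟩ :=
    (UnitAddTorus.measurableEquivPiIoc fun _ : BI K => (0 : ℝ)).symm.surjective t
  simp only [Function.comp, MeasurableEquiv.apply_symm_apply]
  rw [mul_add, bl_psiV_add, ← mul_assoc, ← bl_jj_mul, bl_psiV_Lm]
  simp only [UnitAddTorus.mFourier, UnitAddTorus.coe_symm_measurableEquivPiIoc_apply,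
    ContinuousMap.coe_mk, fourier_coe_apply, ← Complex.exp_sum, hk, Finset.mul_sum]
  congr 2
  refine Finset.sum_congr rfl fun i _ => ?_
  simp
  ring

theorem bpars_int {m : K} (hm : m ≠ 0) (z0 : Emb K → ℂ) {T : UnitAddTorus (BI K) → (Emb K → ℂ)}
    (he : MeasurableEmbedding T) {μ : Measure (UnitAddTorus (BI K))} (hT : MeasurePreserving T μ
      (ENNReal.ofReal (V0 K * absN m)⁻¹ • volume.restrict (Fd m z0))) {E : Type}
    [NormedAddCommGroup E] [NormedSpace ℝ E] (F : (Emb K → ℂ) → E) :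
    ∫ z in Fd m z0, F z = (V0 K * absN m) • ∫ t, F (T t) ∂μ := by
  have h0 : 0 < V0 K * absN m := mul_pos V0_pos (bl_absN_pos hm)
  rw [hT.integral_comp he, integral_smul_measure, ENNReal.toReal_ofReal (inv_pos.2 h0).le,
    smul_inv_smul₀ h0.ne']

theorem zero_mem_dualL (L : AddSubgroup K) : (0 : K) ∈ dualL L := fun x _ => by
  simp [psiK, trK]

theorem integral_psiV_Fd {m : K} (hm : m ≠ 0) (z0 : Emb K → ℂ) {n : K} (hn : n ∈ dualL (latt m)) :
    ∫ z in Fd m z0, psiV (jj n * z) = if n = 0 then ((V0 K * absN m : ℝ) : ℂ) else 0 := by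
  obtain ⟨T, he, hT, h⟩ := bpars_key hm z0
  obtain ⟨e, he'⟩ := bl_dual_equiv hm
  have hk : ∀ i, trK (n * m * integralBasis K i) = e.symm ⟨n, hn⟩ i := fun i => by
    have := he' (e.symm ⟨n, hn⟩) i
    rwa [e.apply_symm_apply] at this
  have h1 := orthonormal_iff_ite.1 UnitAddTorus.orthonormal_mFourier 0 (e.symm ⟨n, hn⟩)
  simp only [ContinuousMap.inner_toLp, UnitAddTorus.mFourier_zero, ContinuousMap.one_apply, map_one,
    mul_one] at h1
  rw [bpars_int hm z0 he hT]
  simp only [h n _ hk]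
  rw [integral_const_mul]
  refine (congrArg (fun x => (V0 K * absN m) • (psiV (jj n * z0) * x)) h1).trans ?_
  have hz : e.symm ⟨0, zero_mem_dualL _⟩ = 0 := by
    funext i
    have := he' (e.symm ⟨0, zero_mem_dualL _⟩) i
    rw [e.apply_symm_apply] at this
    simp only [zero_mul, trK, zero_div, map_zero] at this
    exact_mod_cast this.symm
  by_cases hn0 : n = 0
  · subst hn0
    rw [if_pos rfl, if_pos hz.symm]
    have : jj (0 : K) * z0 = 0 := by funext σ; simp [jj]
    rw [this]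
    simp [psiV, Vale.Agent.P026.psi_zero]
  · rw [if_neg hn0, if_neg fun h => hn0 ?_, mul_zero, smul_zero]
    rw [← hz] at h
    exact (congrArg Subtype.val (e.symm.injective h)).symm
theorem parseval_Fd {m : K} (hm : m ≠ 0) (z0 : Emb K → ℂ) {f : (Emb K → ℂ) → ℂ}
    (hf : MemLp f 2 (volume.restrict (Fd m z0))) :
    HasSum (fun n : dualL (latt m) => ‖∫ z in Fd m z0, f z * psiV (-(jj (n : K) * z))‖ ^ 2)
      (V0 K * absN m * ∫ z in Fd m z0, ‖f z‖ ^ 2) := by
  obtain ⟨T, he, hT, h⟩ := bpars_key hm z0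
  obtain ⟨e, he'⟩ := bl_dual_equiv hm
  have h0 : 0 < V0 K * absN m := mul_pos V0_pos (bl_absN_pos hm)
  have hg := (hf.smul_measure ENNReal.ofReal_ne_top).comp_measurePreserving hT
  have h1 := (UnitAddTorus.hasSum_sq_mFourierCoeff hg.toLp).mul_left ((V0 K * absN m) ^ 2)
  have h2 : ∫ t, ‖hg.toLp _ t‖ ^ 2 ∂(Measure.pi fun _ => AddCircle.haarAddCircle) =
      ∫ t, ‖f (T t)‖ ^ 2 ∂(Measure.pi fun _ => AddCircle.haarAddCircle) :=
    integral_congr_ae (hg.coeFn_toLp.mono fun t ht => by simp [ht])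
  rw [bpars_int hm z0 he hT, smul_eq_mul, ← mul_assoc, ← sq, ← h2]
  refine e.hasSum_iff.1 (h1.congr_fun fun k => ?_)
  have h3 : UnitAddTorus.mFourierCoeff (hg.toLp _) k = psiV (jj (e k : K) * z0) *
      ∫ t, f (T t) * psiV (-(jj (e k : K) * T t))
        ∂(Measure.pi fun _ => AddCircle.haarAddCircle) := by
    rw [← integral_const_mul]
    refine integral_congr_ae (hg.coeFn_toLp.mono fun t ht => ?_)
    have h4 := mul_conj' (psiV (jj (e k : K) * z0))
    rw [bl_norm_psiV, ofReal_one] at h4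
    simp only [ht, bpars_neg, h _ k (he' k), map_mul, UnitAddTorus.mFourier_neg, smul_eq_mul,
      Function.comp]
    linear_combination -(f (T t) * conj (UnitAddTorus.mFourier k t)) * h4
  rw [Function.comp, bpars_int hm z0 he hT, h3, norm_mul, bl_norm_psiV, one_mul, norm_smul, mul_pow,
    Real.norm_eq_abs, sq_abs]
theorem dualL_sub {L : AddSubgroup K} {n n' : K} (h : n ∈ dualL L) (h' : n' ∈ dualL L) :
    n - n' ∈ dualL L := by
  intro x hx
  have h1 := h x hx
  have h2 := h' _ (L.neg_mem hx)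
  rw [show (n - n') * x = n * x + n' * -x by ring, bl_psiK, bl_jj_add, bl_psiV_add, ← bl_psiK,
    ← bl_psiK, h1, h2, one_mul]

end

end Vale.Agent.P319N
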