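import Vale.Agent.P319N.BD
import Vale.Agent.P026.Rad
import Vale.Agent.P026.Bes2

namespace Vale.Agent.P319N

open NumberField Complex MeasureTheory Filter Topology
open scoped Classical ComplexConjugate Real MatrixGroups
open Vale.Agent.P026 (omC kap psi W Hs ht QQ act uu muH hh LL Gs bb kk UU DualW)

noncomputable section

theorem QQ_smul (w : Hs) (l c d : ℂ) : QQ w (l * c) (l * d) = normSq l * QQ w c d := by
  rw [QQ, QQ, mul_assoc l, ← mul_add, map_mul, map_mul]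
  ring

theorem QQ_det (w : Hs) (c d c' d' : ℂ) : normSq (c * d' - c' * d) ≤ QQ w c d * QQ w c' d' := by
  have hv := P026.ht_pos w
  rw [QQ, QQ, div_mul_div_comm, le_div_iff₀ (by positivity),
    show c * d' - c' * d = c * (c' * w.1 + d') - c' * (c * w.1 + d) by ring]
  generalize c * w.1 + d = a, c' * w.1 + d' = a'
  simp only [normSq_eq_norm_sq]
  have h := norm_sub_le (c * a') (c' * a)
  rw [norm_mul, norm_mul] at h
  have h2 := mul_le_mul_of_nonneg_right (pow_le_pow_left₀ (norm_nonneg _) h 2)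
    (show 0 ≤ ht w * ht w by positivity)
  nlinarith [sq_nonneg (‖a‖ * ‖a'‖ - ‖c‖ * ‖c'‖ * ht w ^ 2)]

theorem bq_sub (x y : ℂ) : normSq (x - y) ≤ 2 * (normSq x + normSq y) := by
  simp only [normSq_apply, sub_re, sub_im]
  nlinarith [sq_nonneg (x.re + y.re), sq_nonneg (x.im + y.im)]

theorem QQ_sub (w : Hs) (c d c' d' : ℂ) :
    QQ w (c - c') (d - d') ≤ 2 * (QQ w c d + QQ w c' d') := by
  have hv := P026.ht_pos w
  rw [QQ, QQ, QQ, ← add_div, ← mul_div_assoc,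
    show (c - c') * w.1 + (d - d') = (c * w.1 + d) - (c' * w.1 + d') by ring]
  refine div_le_div_of_nonneg_right ?_ hv.le
  have h1 := bq_sub (c * w.1 + d) (c' * w.1 + d')
  have h2 := mul_le_mul_of_nonneg_right (bq_sub c c') (sq_nonneg (ht w))
  linarith

theorem QQ_lower (w : Hs) (c d : ℂ) :
    normSq c + normSq d ≤ (1 + 2 * normSq w.1 + 2 * ht w ^ 2) / ht w * QQ w c d := by
  have hv := P026.ht_pos w
  have h := bq_sub (c * w.1 + d) (c * w.1)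
  rw [add_sub_cancel_left, map_mul] at h
  rw [QQ, div_mul_div_comm, le_div_iff₀ (by positivity)]
  have h1 := normSq_nonneg (c * w.1 + d)
  have h2 := normSq_nonneg c
  have h3 := normSq_nonneg w.1
  have h4 := mul_le_mul_of_nonneg_right h (show 0 ≤ ht w * ht w by positivity)
  have h5 : 0 ≤ normSq w.1 * normSq (c * w.1 + d) := by positivity
  have h6 : 0 ≤ ht w ^ 4 * normSq c := by positivity
  nlinarith

theorem QQ_ge_c (w : Hs) (c d : ℂ) : normSq c * ht w ≤ QQ w c d := by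
  rw [QQ, le_div_iff₀ (P026.ht_pos w)]
  nlinarith [normSq_nonneg (c * w.1 + d)]

theorem QQ_zero (w : Hs) (d : ℂ) : QQ w 0 d = normSq d / ht w := by simp [QQ]

theorem QQ_div (w : Hs) {c : ℂ} (hc : c ≠ 0) (d : ℂ) :
    QQ w c d = normSq c * ((normSq (w.1 + d / c) + ht w ^ 2) / ht w) := by
  rw [QQ, show c * w.1 + d = c * (w.1 + d / c) by field_simp, map_mul]
  ring

theorem continuous_QQ (c d : ℂ) : Continuous fun w : Hs => QQ w c d := P026.geo_cont_QQ c d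

theorem uu_act_j (g : SL(2, ℂ)) (w : Hs) :
    uu (act g w) (0, 0) = (QQ w (g 0 0) (g 0 1) + QQ w (g 1 0) (g 1 1)) / 2 := by
  have h : ∀ w : Hs, uu w (0, 0) = (QQ w 1 0 + QQ w 0 1) / 2 := fun w => by
    have := P026.ht_pos w
    have h0 : ht (0, 0) = 1 := Real.exp_zero
    simp only [uu, QQ, h0]
    simp
    field_simp
  rw [h, P026.QQ_act, P026.QQ_act]
  simp

theorem act_cusp (g : SL(2, ℂ)) (hc : g 1 0 ≠ 0) (ζ : ℂ) (t : ℝ) :
    act g (-(g 1 1 / g 1 0) + ζ, t) =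
      (g 0 0 / g 1 0 - conj (g 1 0) / g 1 0 * conj ζ /
          ((normSq (g 1 0) * (normSq ζ + Real.exp t ^ 2) : ℝ) : ℂ),
        -Real.log (normSq (g 1 0) * (normSq ζ + Real.exp t ^ 2) / Real.exp t)) := by
  have hdet := P026.geo_det g
  have e : g 1 0 * (-(g 1 1 / g 1 0) + ζ) + g 1 1 = g 1 0 * ζ := by
    field_simp; ring
  have h0 : ((normSq ζ + Real.exp t ^ 2 : ℝ) : ℂ) ≠ 0 := ofReal_ne_zero.2
    (add_pos_of_nonneg_of_pos (normSq_nonneg _) (by positivity)).ne'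
  simp only [act, QQ, ht, e, map_mul, ← mul_add]
  congr 1
  rw [ofReal_mul, normSq_eq_conj_mul_self]
  have h1 : conj (g 1 0) ≠ 0 := (map_ne_zero _).2 hc
  generalize hD : ((normSq ζ + Real.exp t ^ 2 : ℝ) : ℂ) = D at h0
  rw [ofReal_add, normSq_eq_conj_mul_self] at hD
  field_simp
  linear_combination g 0 0 * g 1 0 * hD - conj ζ * hdet

theorem bq_exists {c d : ℂ} (h : c ≠ 0 ∨ d ≠ 0) (w : Hs) : ∃ g : SL(2, ℂ), act g (0, 0) = w ∧
    ∀ w', QQ (act g w') c d = QQ w c d * Real.exp (-w'.2) := by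
  obtain ⟨γ, e0, e1⟩ : ∃ γ : SL(2, ℂ), γ 1 0 = c ∧ γ 1 1 = d := by
    rcases h with h | h
    · exact ⟨⟨!![0, -c⁻¹; c, d], by simp [Matrix.det_fin_two, h]⟩, rfl, rfl⟩
    · exact ⟨⟨!![d⁻¹, 0; c, d], by simp [Matrix.det_fin_two, h]⟩, rfl, rfl⟩
  subst e0 e1
  obtain ⟨g, h1, h2⟩ := P026.exists_upper (act γ w)
  refine ⟨γ⁻¹ * g, by rw [P026.act_mul, h1, ← P026.act_mul, inv_mul_cancel, P026.act_one],
    fun w' => ?_⟩
  rw [← inv_inv (QQ (act _ w') _ _), ← P026.ht_act, ← P026.act_mul, mul_inv_cancel_left, h2,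
    P026.ht_act, mul_inv, inv_inv, Real.exp_neg, ht]

theorem radial_QQ {G : ℝ → ℂ} (hG : Measurable G) {Bd : ℝ} (hb : ∀ q, ‖G q‖ ≤ Bd) {c d : ℂ}
    (h : c ≠ 0 ∨ d ≠ 0) (w : Hs) :
    ∫ w' in {w' | uu w w' ≤ 2}, G (QQ w' c d) ∂muH = LL G (QQ w c d) := by
  obtain ⟨g, e2, e3⟩ := bq_exists h w
  rw [← (P026.measurePreserving_act g).setIntegral_preimage_emb (P026.rad_emb g)]
  simp only [e3]
  rw [← e2, P026.rad_pre, e2]
  exact P026.rad_origin (H := fun t => G (QQ w c d * Real.exp (-t))) (hG.comp (by fun_prop))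
    fun _ => hb _

theorem bq_poly (k : ℕ) {f : ℝ → ℂ} {C0 C1 : ℝ} (h1 : 0 < C1) (a0 : ∀ x, 0 ≤ x → ‖f x‖ ≤ C0)
    (a1 : ∀ x, 0 < x → ‖f x‖ ≤ C1 * x ^ (-(k / 2 : ℝ))) (ν : ℂ) {y : ℝ} (hy : 0 < y) :
    ‖f (normSq ν * y)‖ ≤ 4 ^ k * (C0 + C1) * (1 + y⁻¹) ^ k / (1 + ‖ν‖) ^ k := by
  obtain ⟨v, v0, rfl⟩ : ∃ v : ℝ, 0 < v ∧ y = v ^ 2 := ⟨√y, Real.sqrt_pos.2 hy, (Real.sq_sqrt hy.le).symm⟩
  have h0 := (norm_nonneg _).trans (a0 0 le_rfl)
  rw [normSq_eq_norm_sq, ← mul_pow, le_div_iff₀ (by positivity)]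
  have n0 := norm_nonneg ν
  have b1 : ‖f ((‖ν‖ * v) ^ 2)‖ * (1 + ‖ν‖ * v) ^ k ≤ 2 ^ k * (C0 + C1) := by
    rcases le_total (‖ν‖ * v) 1 with h | h
    · rw [mul_comm]
      gcongr
      · linarith
      · linarith [a0 _ (sq_nonneg (‖ν‖ * v))]
    · have := a1 ((‖ν‖ * v) ^ 2) (by positivity)
      rw [← Real.rpow_natCast, ← Real.rpow_mul (by positivity),
        show ((2 : ℕ) : ℝ) * -(k / 2 : ℝ) = -(k : ℝ) by push_cast; ring,
        Real.rpow_neg (by positivity), Real.rpow_natCast, Real.rpow_natCast] at this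
      calc _ ≤ C1 * ((‖ν‖ * v) ^ k)⁻¹ * (2 * (‖ν‖ * v)) ^ k := by gcongr; linarith
        _ = 2 ^ k * C1 := by rw [mul_pow 2]; field_simp
        _ ≤ _ := by gcongr; linarith
  have b2 : 1 + ‖ν‖ ≤ (1 + ‖ν‖ * v) * (2 * (1 + (v ^ 2)⁻¹)) := by
    have : v⁻¹ ≤ 1 + (v ^ 2)⁻¹ := by rw [← inv_pow]; nlinarith [sq_nonneg (v⁻¹ - 1)]
    have e : ‖ν‖ = ‖ν‖ * v * v⁻¹ := by field_simp
    have : 0 ≤ (v ^ 2)⁻¹ := by positivity
    have : 0 ≤ ‖ν‖ * v := by positivity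
    nlinarith
  calc _ ≤ ‖f ((‖ν‖ * v) ^ 2)‖ * ((1 + ‖ν‖ * v) * (2 * (1 + (v ^ 2)⁻¹))) ^ k := by gcongr
    _ = ‖f ((‖ν‖ * v) ^ 2)‖ * (1 + ‖ν‖ * v) ^ k * (2 ^ k * (1 + (v ^ 2)⁻¹) ^ k) := by
        rw [mul_pow (1 + _), mul_pow 2]; ring
    _ ≤ 2 ^ k * (C0 + C1) * (2 ^ k * (1 + (v ^ 2)⁻¹) ^ k) := by gcongr
    _ = _ := by rw [show (4 : ℝ) = 2 * 2 by norm_num, mul_pow]; ring

theorem bb_poly (k : ℕ) {y0 : ℝ} (hy : 0 < y0) : ∃ C : ℝ, 0 < C ∧ ∀ (ν : ℂ) (y : ℝ), y0 ≤ y →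
    ‖bb (normSq ν * y) (4 / 3)‖ ≤ C / (1 + ‖ν‖) ^ k := by
  obtain ⟨C1, h1, a1⟩ := P026.bb_decay (a := k / 2) (by positivity)
  have a0 := fun x (hx : 0 ≤ x) => P026.norm_bb_le hx (s := 4 / 3) (by norm_num)
  have h0 := (norm_nonneg _).trans (a0 0 le_rfl)
  generalize ‖(π : ℂ) / Gamma (4 / 3)‖ * Real.Gamma ((4 / 3 : ℂ).re - 1) = C0 at a0 h0
  exact ⟨4 ^ k * (C0 + C1) * (1 + y0⁻¹) ^ k, by positivity, fun ν y h =>
    (bq_poly k (f := fun x => bb x (4 / 3)) h1 a0 a1 ν (hy.trans_le h)).trans (by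
      have := hy.trans_le h
      gcongr)⟩

theorem kk_poly (k : ℕ) : ∃ C : ℝ, 0 < C ∧ ∀ (ν : ℂ) (y : ℝ), 0 < y →
    ‖kk (normSq ν * y)‖ ≤ C * (1 + y⁻¹) ^ k / (1 + ‖ν‖) ^ k := by
  obtain ⟨C1, h1, a1⟩ := P026.kk_decay (a := k / 2) (le_trans (b := 0) (by norm_num) (by positivity))
  obtain ⟨C0, h0, a0⟩ := P026.kk_decay (a := 0) (by norm_num)
  refine ⟨_, ?_, fun ν y h => bq_poly k (C0 := C0) h1 (fun x hx => ?_) a1 ν h⟩
  · positivity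
  · rcases hx.eq_or_lt with rfl | hx
    · simp [kk, h0.le]
    · simpa using a0 x hx

theorem one_add_norm_le_prod {ι : Type} [Fintype ι] (ν : ι → ℂ) :
    1 + ‖ν‖ ≤ ∏ σ, (1 + ‖ν σ‖) := by
  have h : ∀ s : Finset ι, 1 ≤ ∏ σ ∈ s, (1 + ‖ν σ‖) := fun s =>
    Finset.prod_induction _ (1 ≤ ·) (fun _ _ => one_le_mul_of_one_le_of_one_le) le_rfl
      fun _ _ => le_add_of_nonneg_right (norm_nonneg _)
  rw [← le_sub_iff_add_le']
  refine (pi_norm_le_iff_of_nonneg (sub_nonneg.2 (h _))).2 fun σ => ?_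
  rw [le_sub_iff_add_le', ← Finset.mul_prod_erase _ _ (Finset.mem_univ σ)]
  exact le_mul_of_one_le_right (by positivity) (h _)

end

end Vale.Agent.P319N
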