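import Vale.Agent.P319N.BStrip
import Vale.Agent.P319N.BBes
import Vale.Agent.P026.Slice

namespace Vale.Agent.P319N

open NumberField Complex MeasureTheory Filter Topology
open scoped Classical ComplexConjugate Real MatrixGroups
open Vale.Agent.P026 (omC kap psi W Hs ht QQ act uu muH hh LL Gs bb kk UU DualW)

noncomputable section

theorem bsl_int {ι : Type} [Fintype ι] {S : Set (ι → ℂ)} (hS : MeasurableSet S)
    {G : (ι → Hs) → ℂ} (hG : IntegrableOn G {w | zc w ∈ S} (muP ι)) :
    (∀ᵐ t : ι → ℝ, IntegrableOn (fun z => G (mkP z t)) S) ∧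
      Integrable fun t : ι → ℝ =>
        ((Real.exp (-2 * ∑ σ, t σ) : ℝ) : ℂ) * ∫ z in S, G (mkP z t) := by
  have hM : MeasurableSet {w : ι → Hs | zc w ∈ S} := continuous_zc.measurable hS
  have h := integrable_muP_iff.1 ((integrable_indicator_iff hM).2 hG)
  have e : ∀ (z : ι → ℂ) (t : ι → ℝ), {w : ι → Hs | zc w ∈ S}.indicator G (mkP z t) =
      S.indicator (fun z => G (mkP z t)) z := fun z t => by
    by_cases c : z ∈ S <;> simp [c, zc_mkP]
  rw [Measure.volume_eq_prod] at h
  constructor
  · filter_upwards [h.prod_left_ae] with t ht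
    simp only [e] at ht
    rw [← integrable_indicator_iff hS]
    exact (integrable_const_mul_iff (isUnit_iff_ne_zero.2
      (ofReal_ne_zero.2 (Real.exp_pos _).ne')) _).1 ht
  · simpa only [e, integral_const_mul, integral_indicator hS] using h.integral_prod_right

theorem bsl_tst {ι : Type} [Fintype ι] {E : Set (ι → ℝ)} (hE : MeasurableSet E) (T : ℝ) :
    Tst ((E ∩ Metric.closedBall 0 T).indicator fun _ => (1 : ℂ)) :=
  ⟨measurable_const.indicator (hE.inter measurableSet_closedBall), 1, T,
    fun t => by by_cases c : t ∈ E ∩ Metric.closedBall 0 T <;> simp [c],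
    fun t ht => Set.indicator_of_notMem
      (fun c => not_le.2 ht (mem_closedBall_zero_iff.1 c.2)) _⟩

variable {K : Type} [Field K] [NumberField K] [Level K]

theorem uout_slice {q : K} (h0 : q ≠ 0) {κ : SLK K → ℂ} {Φ : K × K → ℂ} {u : HH K → ℂ}
    {ρ : SLK K → K → ℂ} (h : UOut q κ Φ u ρ) {j : ℕ} {σ : SLK K} (hσ : Ent j σ)
    (z0 : Emb K → ℂ) :
    ∀ᵐ t : Emb K → ℝ,
      MemLp (fun z => u (actK σ (mkP z t))) 2 (volume.restrict (Fd (pd q j) z0)) ∧
      ∀ n ∈ dualL (latt (pd q j)),
        ∫ z in Fd (pd q j) z0, u (actK σ (mkP z t)) * psiV (-(jj n * z)) =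
          ((absN (pd q j) : ℝ) : ℂ) * ρ σ n * hf (jj n) t (4 / 3) := by
  have hm := pd_ne h0 j
  set m := pd q j with hmd
  have hF := measurableSet_Fd hm z0
  have hM : MeasurableSet {w : HH K | zc w ∈ Fd m z0} := continuous_zc.measurable hF
  have mu : Measurable fun w => u (actK σ w) := h.meas.comp (continuous_actK σ).measurable
  have h1 : ∀ T : ℕ, ∀ᵐ t : Emb K → ℝ, t ∈ Metric.closedBall (0 : Emb K → ℝ) T →
      MemLp (fun z => u (actK σ (mkP z t))) 2 (volume.restrict (Fd m z0)) := by
    intro T
    have a := (memLp_two_iff_integrable_sq_norm mu.aestronglyMeasurable).1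
      (strip_memLp q m z0 σ T h.mem)
    have b : IntegrableOn (fun w : HH K => (Metric.closedBall (0 : Emb K → ℝ) T).indicator
        (fun _ => ((‖u (actK σ w)‖ ^ 2 : ℝ) : ℂ)) (tc w)) {w : HH K | zc w ∈ Fd m z0}
        (muP (Emb K)) := by
      refine IntegrableOn.of_forall_sdiff_eq_zero
        (s := {w : HH K | zc w ∈ Fd m z0 ∧ ‖tc w‖ ≤ T}) ?_ hM fun w hw =>
          Set.indicator_of_notMem (fun c => hw.2 ⟨hw.1, mem_closedBall_zero_iff.1 c⟩) _
      exact IntegrableOn.congr_fun a.ofReal (fun w hw => by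
        simp only [Set.indicator_of_mem (mem_closedBall_zero_iff.2 hw.2)]; rfl)
        (hM.inter (measurableSet_le continuous_tc.norm.measurable measurable_const))
    filter_upwards [(bsl_int hF b).1] with t ht hT
    simp only [tc_mkP, Set.indicator_of_mem hT] at ht
    exact (memLp_two_iff_integrable_sq_norm
      (mu.comp (continuous_mkP.measurable.comp measurable_prodMk_right)).aestronglyMeasurable).2
      (by simpa only [RCLike.re_to_complex, ofReal_re, Function.comp_def] using ht.re)
  have h2 : ∀ (T : ℕ) (n : K), ∀ᵐ t : Emb K → ℝ, n ∈ dualL (latt m) →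
      t ∈ Metric.closedBall (0 : Emb K → ℝ) T →
      ∫ z in Fd m z0, u (actK σ (mkP z t)) * psiV (-(jj n * z)) =
        ((absN m : ℝ) : ℂ) * ρ σ n * hf (jj n) t (4 / 3) := by
    intro T n
    by_cases hn : n ∈ dualL (latt m)
    swap
    · exact .of_forall fun t c => absurd c hn
    set a : (Emb K → ℝ) → ℂ := fun t => ((Real.exp (-2 * ∑ σ, t σ) : ℝ) : ℂ) *
      ∫ z in Fd m z0, u (actK σ (mkP z t)) * psiV (-(jj n * z)) with ha
    set b : (Emb K → ℝ) → ℂ := fun t => ((Real.exp (-2 * ∑ σ, t σ) : ℝ) : ℂ) *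
      (((absN m : ℝ) : ℂ) * ρ σ n * hf (jj n) t (4 / 3)) with hb
    have ea : ∀ (A : Set (Emb K → ℝ)) (t : Emb K → ℝ), ((Real.exp (-2 * ∑ σ, t σ) : ℝ) : ℂ) *
        ∫ z in Fd m z0, u (actK σ (mkP z t)) * psiV (-(jj n * z)) *
          A.indicator (fun _ => (1 : ℂ)) t = A.indicator a t := fun A t => by
      by_cases c : t ∈ A <;> simp [c, ha]
    have ia : IntegrableOn a (Metric.closedBall 0 T) := by
      have := (bsl_int hF (strip_integrable q hm n z0 σ (bsl_tst .univ T) h.mem)).2
      simp only [zc_mkP, tc_mkP, ea, Set.univ_inter] at this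
      exact (integrable_indicator_iff measurableSet_closedBall).1 this
    have cb : Continuous b := by
      have c1 := continuous_hf (jj n) (s := 4 / 3) (by norm_num)
      simp only [hb]
      fun_prop
    have key := Integrable.ae_eq_of_forall_setIntegral_eq a b ia
      (cb.continuousOn.integrableOn_compact (isCompact_closedBall _ _)) fun E hE _ => by
        have c := h.coef j σ hσ n hn z0 _ (bsl_tst hE T)
        rw [strip, setIntegral_muP hF
          (strip_integrable q hm n z0 σ (bsl_tst hE T) h.mem)] at c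
        simp only [zc_mkP, tc_mkP, ea] at c
        rw [Measure.restrict_restrict hE,
          ← integral_indicator (hE.inter measurableSet_closedBall), c,
          ← integral_indicator (hE.inter measurableSet_closedBall), betaP, ← integral_const_mul]
        refine integral_congr_ae (.of_forall fun t => ?_)
        by_cases d : t ∈ E ∩ Metric.closedBall (0 : Emb K → ℝ) T
        · simp only [Set.indicator_of_mem d, hb]
          ring
        · simp only [Set.indicator_of_notMem d, zero_mul, mul_zero]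
    filter_upwards [(ae_restrict_iff' measurableSet_closedBall).1 key] with t ht _ hT
    exact mul_left_cancel₀ (ofReal_ne_zero.2 (Real.exp_pos _).ne') (ht hT)
  filter_upwards [ae_all_iff.2 h1, ae_all_iff.2 fun T => ae_all_iff.2 (h2 T)] with t a b
  obtain ⟨T, hT⟩ := exists_nat_ge ‖t‖
  exact ⟨a T (mem_closedBall_zero_iff.2 hT), fun n hn => b T n hn (mem_closedBall_zero_iff.2 hT)⟩

end

end Vale.Agent.P319N
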