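import Vale.Agent.P319N.BUnf
import Vale.Agent.P319N.BStrip

namespace Vale.Agent.P319N

open NumberField Complex MeasureTheory Filter Topology
open scoped Classical ComplexConjugate Real MatrixGroups
open Vale.Agent.P026 (omC kap psi W Hs ht QQ act uu muH hh LL Gs bb kk UU DualW)

noncomputable section

theorem bu2_one {α : Type} {A : Set α} (hA : A.Finite) :
    HasSum (fun γ => if γ ∈ A then (1 : ℂ) else 0) (A.ncard : ℂ) := by
  have := hasSum_sum_of_ne_finset_zero (f := fun γ => if γ ∈ A then (1 : ℂ) else 0)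
    (s := hA.toFinset) (L := SummationFilter.unconditional α)
    fun b hb => if_neg fun c => hb (hA.mem_toFinset.2 c)
  rwa [Finset.sum_congr rfl fun b hb => if_pos (hA.mem_toFinset.1 hb), Finset.sum_const,
    nsmul_eq_mul, mul_one, ← Set.ncard_eq_toFinset_card A hA] at this

variable {K : Type} [Field K] [NumberField K] [Level K]

theorem bu2_count {q : K} {j : ℕ} (T : Finset (SLK K)) (n0 : SLK K → ℕ)
    (hT : ∀ x, Supp j x → ∃! σ, σ ∈ T ∧ ∃ γ ∈ Gam q, x = rmul (row σ) γ)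
    (P : SLK K → Prop) (hn : ∀ σ ∈ T, 0 < n0 σ ∧ ∀ γ0 : Gam q,
      {γ : Gam q | row (σ * γ.1) = row (σ * γ0.1) ∧ P (σ * γ.1)}.Finite ∧
      {γ : Gam q | row (σ * γ.1) = row (σ * γ0.1) ∧ P (σ * γ.1)}.ncard = n0 σ)
    {f : K × K → ℂ} (S : Finset (K × K)) (hS : ∀ x ∉ S, f x = 0) (hc : ∀ x ∈ S, Supp j x) :
    ∑' γ : Gam q, ∑ σ ∈ T, ((n0 σ : ℂ)⁻¹ * if P (σ * γ.1) then f (row (σ * γ.1)) else 0) =
      ∑' x, f x := by
  have h0 : ∀ σ ∈ T, ∀ x : K × K, HasSum (fun γ : Gam q => (n0 σ : ℂ)⁻¹ *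
      (if row (σ * γ.1) = x ∧ P (σ * γ.1) then (1 : ℂ) else 0) * f x)
      (if ∃ γ ∈ Gam q, x = rmul (row σ) γ then f x else 0) := by
    intro σ hσ x
    split_ifs with c
    · obtain ⟨γ0, g0, rfl⟩ := c
      obtain ⟨a1, a2⟩ := (hn σ hσ).2 ⟨γ0, g0⟩
      have := ((bu2_one a1).mul_left (n0 σ : ℂ)⁻¹).mul_right (f (rmul (row σ) γ0))
      rw [a2, inv_mul_cancel₀ (Nat.cast_ne_zero.2 (hn σ hσ).1.ne'), one_mul] at this
      simpa only [Set.mem_ofPred_eq, row_mul] using this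
    · convert hasSum_zero using 2 with γ
      rw [if_neg fun d => c ⟨γ.1, γ.2, by rw [← d.1, row_mul]⟩, mul_zero, zero_mul]
  have h1 := hasSum_sum fun σ (hσ : σ ∈ T) => hasSum_sum fun x (_ : x ∈ S) => h0 σ hσ x
  rw [tsum_eq_sum hS]
  refine HasSum.tsum_eq ?_
  convert h1 using 1
  · funext γ
    refine Finset.sum_congr rfl fun σ _ => ?_
    simp only [mul_assoc, ← Finset.mul_sum]
    congr 1
    by_cases h3 : P (σ * γ.1)
    · by_cases h4 : row (σ * γ.1) ∈ S <;> simp [h3, h4, hS]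
    · simp [h3]
  · rw [Finset.sum_comm]
    refine Finset.sum_congr rfl fun x hx => ?_
    obtain ⟨σ, ⟨s1, s2⟩, s3⟩ := hT x (hc x hx)
    rw [Finset.sum_eq_single_of_mem σ s1 fun τ t1 t2 => if_neg fun c => t2 (s3 τ ⟨t1, c⟩),
      if_pos s2]

theorem tst_band {G : ℝ → ℂ} (hG : Measurable G) {Bd q0 q1 : ℝ} (hq : 0 < q0)
    (hb : ∀ x, 0 < x → ‖G x‖ ≤ Bd) (hs : ∀ x, 0 < x → x < q0 ∨ q1 < x → G x = 0) :
    Tst fun t : Emb K → ℝ => if -t ∈ DD K then conj (G (Real.exp (-∑ τ, t τ))) else 0 := by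
  obtain ⟨D, -, hD⟩ := DD_bal (K := K)
  refine ⟨Measurable.ite (measurable_neg isFD_DD.1)
    (continuous_conj.measurable.comp (hG.comp (by fun_prop))) measurable_const, Bd,
    |Real.log q0| + |q1| + D, fun t => ?_, fun t ht => ?_⟩
  · beta_reduce
    split_ifs
    · simpa using hb _ (Real.exp_pos _)
    · rw [norm_zero]
      exact (norm_nonneg _).trans (hb 1 one_pos)
  · beta_reduce
    split_ifs with c
    swap
    · rfl
    have h0 := bal_norm_le (hD _ c)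
    simp only [norm_neg, Pi.neg_apply, Finset.sum_neg_distrib, abs_neg] at h0
    rw [hs _ (Real.exp_pos _), map_zero]
    have h1 := abs_nonneg (Real.log q0)
    have h2 := abs_nonneg q1
    rcases lt_abs.1 (show |Real.log q0| + |q1| < |∑ τ, t τ| by linarith) with h3 | h3
    · left
      rw [← Real.lt_log_iff_exp_lt hq]
      linarith [neg_abs_le (Real.log q0)]
    · right
      linarith [Real.add_one_le_exp (-∑ τ, t τ), le_abs_self q1]
theorem inc_orth {q : K} {κ : SLK K → ℂ} {Φ : K × K → ℂ} (hΦ : Adm q κ Φ) {u : HH K → ℂ}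
    (hu : Measurable u) (ha : Aut q κ u) (h2 : MemLp u 2 (nu q)) {G : ℝ → ℂ} (hG : Measurable G)
    {Bd q0 q1 : ℝ} (hq : 0 < q0) (hb : ∀ x, 0 < x → ‖G x‖ ≤ Bd)
    (hs : ∀ x, 0 < x → x < q0 ∨ q1 < x → G x = 0)
    (h : ∀ j σ, Ent j σ → strip (pd q j) 0 0 σ
      (fun t => if -t ∈ DD K then conj (G (Real.exp (-∑ τ, t τ))) else 0) u = 0) :
    ∫ w, conj (u w) * Inc Φ G w ∂(nu q) = 0 := by
  obtain ⟨j, hj⟩ := hΦ.supp
  obtain ⟨T, hT1, hT2⟩ := orbit_reps hΦ.qint hΦ.qne j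
  choose! n0 hn using fun σ (hσ : σ ∈ T) => row_count hΦ.qint hΦ.qne (hT1 σ hσ)
  have hm := pd_ne hΦ.qne j
  have hφ := tst_band (K := K) hG hq hb hs
  set φ : (Emb K → ℝ) → ℂ :=
    fun t => if -t ∈ DD K then conj (G (Real.exp (-∑ τ, t τ))) else 0 with hφd
  have hM : MeasurableSet {w : HH K | zc w ∈ Fd (pd q j) 0} :=
    continuous_zc.measurable (measurableSet_Fd hm 0)
  let H : SLK K → HH K → ℂ := fun σ => {w : HH K | zc w ∈ Fd (pd q j) 0}.indicator fun w =>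
    Φ (row σ) * conj (u (actK σ⁻¹ w) * psiV (-(jj 0 * zc w)) * φ (tc w))
  have hH : ∀ σ, Integrable (H σ) (muP (Emb K)) := fun σ => (integrable_indicator_iff hM).2
    (Integrable.const_mul ((LinearIsometryEquiv.integrable_comp_iff conjLIE).2
      (strip_integrable q hm 0 0 σ⁻¹ hφ h2)) _)
  have hH0 : ∀ σ ∈ T, ∫ w, (n0 σ : ℂ)⁻¹ * H σ (actK σ w) ∂(muP (Emb K)) = 0 := fun σ hσ => by
    rw [integral_const_mul,
      (measurePreserving_actK σ).integral_comp (measurableEmbedding_actK σ),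
      integral_indicator hM, integral_const_mul, integral_conj]
    exact mul_eq_zero_of_right _ (mul_eq_zero_of_right _
      ((congrArg conj (h j σ⁻¹ (hT1 σ hσ).inv)).trans (map_zero _)))
  have hI : ∀ σ, Integrable (fun w => (n0 σ : ℂ)⁻¹ * H σ (actK σ w)) (muP (Emb K)) := fun σ =>
    ((measurePreserving_actK σ).integrable_comp_of_integrable (hH σ)).const_mul _
  have h3 := (integral_unfold q (integrable_finsetSum T fun σ _ => hI σ)).2
  rw [integral_finsetSum _ fun i _ => hI _, Finset.sum_eq_zero hH0] at h3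
  rw [← h3]
  congr 1
  funext w
  obtain ⟨D, -, hD⟩ := DD_bal (K := K)
  obtain ⟨C, -, hC⟩ := count_supp (K := K) j D
  rw [Inc, ← tsum_mul_left, ← bu2_count T n0 hT2 (fun g => zc (actK g w) ∈ Fd (pd q j) 0)
    (fun σ hσ => ⟨(hn σ hσ).1, (hn σ hσ).2 w⟩) (hC w |q1| (abs_nonneg _)).1.toFinset
    (fun x hx => ?_) fun x hx => ((Set.Finite.mem_toFinset _).1 hx).1]
  · refine tsum_congr fun γ => Finset.sum_congr rfl fun σ hσ => ?_
    have e0 := ((hT1 σ hσ).mul (ent_of_Gam γ.2)).supp_row.ne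
    have e2 : actK σ⁻¹ (actK (σ * γ.1) w) = actK γ.1 w := by
      rw [← actK_mul, inv_mul_cancel_left]
    have e3 : ∀ z : Emb K → ℂ, psiV (-(jj (0 : K) * z)) = 1 := fun z => by
      simp [psiV, jj, P026.psi_zero]
    simp only [H, ← actK_mul, Set.indicator_apply, Set.mem_ofPred_eq]
    congr 1
    by_cases c : zc (actK (σ * γ.1) w) ∈ Fd (pd q j) 0
    · rw [if_pos c, if_pos c, actK_mul σ⁻¹, e2, ha γ γ.2, e3, tc_actK]
      simp only [hφd, neg_neg, Pi.neg_apply, Finset.sum_neg_distrib, ← QK_eq_exp w e0]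
      split_ifs
      · rw [row_mul, hΦ.eqv γ γ.2]
        simp only [map_mul, Complex.conj_conj, mul_one]
        ring
      · simp
    · rw [if_neg c, if_neg c]
  · split_ifs with c
    · by_cases hc : Φ x = 0
      · rw [hc, zero_mul, mul_zero]
      · rw [hs _ (QK_pos w (hj x hc).ne) (Or.inr ?_), mul_zero, mul_zero]
        exact (le_abs_self q1).trans_lt (not_le.1 fun h4 =>
          hx ((Set.Finite.mem_toFinset _).2 ⟨hj x hc, hD _ c, h4⟩))
    · rw [mul_zero]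

end

end Vale.Agent.P319N
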