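import Vale.Agent.P319N.BSlice
import Vale.Agent.P319N.BPars
import Vale.Agent.P319N.BUnf2
import Vale.Agent.P319N.BHf
import Vale.Agent.P026.ThB

namespace Vale.Agent.P319N

open NumberField Complex MeasureTheory Filter Topology
open scoped Classical ComplexConjugate Real MatrixGroups
open Vale.Agent.P026 (omC kap psi W Hs ht QQ act uu muH hh LL Gs bb kk UU DualW)

noncomputable section

theorem btb_hf {ι : Type} [Fintype ι] : ∃ b0 : ℝ, 0 < b0 ∧ ∀ (ν : ι → ℂ) (t : ι → ℝ) (Y : ℝ),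
    0 < Y → (∀ τ, normSq (ν τ) ≤ Y) →
    (∀ τ, -(Real.log Y / 2) ≤ t τ ∧ t τ ≤ -(Real.log Y / 2) + 1) →
    (b0 * Y ^ (-(1 / 3) : ℝ)) ^ Fintype.card ι ≤ ‖hf ν t (4 / 3)‖ := by
  obtain ⟨b, hb1, hb2⟩ := P026.bb_real
  have b00 : 0 < b (Real.exp 2) := (hb1 _ (Real.exp_pos 2).le).2
  refine ⟨b (Real.exp 2), b00, fun ν t Y hY hν ht => ?_⟩
  rw [hf, norm_prod, ← Finset.card_univ, ← Finset.prod_const]
  refine Finset.prod_le_prod (fun _ _ => by positivity) fun τ _ => ?_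
  have n0 := normSq_nonneg (ν τ)
  have p1 : 0 ≤ normSq (ν τ) * Real.exp (t τ) ^ 2 / 3 := by positivity
  have a2 : Y * Real.exp (t τ) ^ 2 ≤ Real.exp 2 := by
    rw [← Real.exp_log hY, ← Real.exp_nat_mul, ← Real.exp_add, Real.exp_le_exp]
    push_cast
    linarith [(ht τ).2]
  have p2 : b (Real.exp 2) ≤ b (normSq (ν τ) * Real.exp (t τ) ^ 2 / 3) := by
    refine hb2 p1 (Real.exp_pos 2).le ((div_le_self (by positivity) (by norm_num)).trans ?_)
    exact le_trans (mul_le_mul_of_nonneg_right (hν τ) (by positivity)) a2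
  have a3 : Y ^ (-(1 / 3) : ℝ) ≤ Real.exp (t τ) ^ (2 / 3 : ℝ) := by
    rw [Real.rpow_def_of_pos hY, ← Real.exp_mul, Real.exp_le_exp]
    linarith [(ht τ).1]
  rw [(hb1 _ p1).1, norm_mul, Complex.norm_cpow_eq_rpow_re_of_pos (Real.exp_pos _),
    Complex.norm_real, Real.norm_of_nonneg (hb1 _ p1).2.le, mul_comm,
    show ((2 : ℂ) - 4 / 3).re = 2 / 3 by norm_num]
  exact mul_le_mul a3 p2 b00.le (by positivity)

variable {K : Type} [Field K] [NumberField K] [Level K]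

theorem uout_bound {q : K} {κ : SLK K → ℂ} {Φ : K × K → ℂ} (hΦ : Adm q κ Φ)
    {u : HH K → ℂ} {ρ : SLK K → K → ℂ} (h : UOut q κ Φ u ρ) (j : ℕ) :
    ∃ C : ℝ, ∀ σ, Ent j σ → ∀ Y : ℝ, 1 ≤ Y → ∀ s : Finset K,
      (∀ n ∈ s, ∀ τ : Emb K, normSq (τ.1 n) ≤ Y) →
      ∑ n ∈ s, ‖ρ σ n‖ ^ 2 ≤ C * Y ^ ((2 / 3 : ℝ) * rk K) := by
  have hm := pd_ne hΦ.qne j
  obtain ⟨C, hC, hmb⟩ := mult_bound hΦ.norm j (pd q j) hm
  obtain ⟨b0, b00, hb0⟩ := btb_hf (ι := Emb K)
  have hA := bl_absN_pos hm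
  have hV0 := V0_pos (K := K)
  set M := ∫ w, ‖u w‖ ^ 2 ∂(nu q) with hM
  have M0 : 0 ≤ M := integral_nonneg fun _ => by positivity
  refine ⟨C * M * V0 K * Real.exp (2 * rk K) / (absN (pd q j) * (b0 ^ rk K) ^ 2),
    fun σ hσ Y hY s hs => ?_⟩
  have hsl := uout_slice hΦ.qne h hσ 0
  have hsup := h.supp j σ hσ
  set m := pd q j with hmd
  have Y0 : 0 < Y := by linarith
  set S := ∑ n ∈ s, ‖ρ σ n‖ ^ 2 with hS
  have S0 : 0 ≤ S := Finset.sum_nonneg fun _ _ => by positivity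
  set t0 := -(Real.log Y / 2) with ht0
  have hb := hmb u σ 0 t0 h.meas h.aut hσ (by have := Real.log_nonneg hY; linarith)
  have hF := measurableSet_Fd hm (0 : Emb K → ℂ)
  have ms : MeasurableSet {w : HH K | zc w ∈ Fd m 0 ∧ ∀ τ, tc w τ ∈ Set.Icc t0 (t0 + 1)} := by
    refine (continuous_zc.measurable hF).inter (IsClosed.measurableSet ?_)
    show IsClosed {w : HH K | ∀ τ, tc w τ ∈ Set.Icc t0 (t0 + 1)}
    rw [Set.ofPred_forall]
    exact isClosed_iInter fun τ => isClosed_Icc.preimage ((continuous_apply τ).comp continuous_tc)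
  have mf : Measurable fun w : HH K => ‖u (actK σ w)‖ₑ ^ 2 :=
    ((h.meas.comp (continuous_actK σ).measurable).enorm).pow_const 2
  rw [← lintegral_indicator ms, lintegral_muP (mf.indicator ms), P026.thb_l2 h.mem, ← hM,
    ← ENNReal.ofReal_mul (by positivity)] at hb
  set L := (b0 * Y ^ (-(1 / 3) : ℝ)) ^ rk K with hL
  have L0 : 0 < L := by positivity
  set K0 := Real.exp (-2 * (rk K * (t0 + 1))) * (S * (absN m * L) ^ 2 / (V0 K * absN m)) with hK
  have low : ∫⁻ t : Emb K → ℝ, (Set.Icc (fun _ => t0) (fun _ => t0 + 1)).indicator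
      (fun _ => ENNReal.ofReal K0) t ≤ ENNReal.ofReal (C * Real.exp (-(2 * rk K * t0)) * M) := by
    refine le_trans (lintegral_mono_ae ?_) hb
    filter_upwards [hsl] with t ht
    by_cases hI : t ∈ Set.Icc (fun _ => t0) (fun _ => t0 + 1)
    swap
    · rw [Set.indicator_of_notMem hI]
      exact zero_le
    rw [Set.indicator_of_mem hI]
    have e1 : ∫⁻ z : Emb K → ℂ,
        {w : HH K | zc w ∈ Fd m 0 ∧ ∀ τ, tc w τ ∈ Set.Icc t0 (t0 + 1)}.indicator
        (fun w : HH K => ‖u (actK σ w)‖ₑ ^ 2) (mkP z t) =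
        ∫⁻ z in Fd m 0, ‖u (actK σ (mkP z t))‖ₑ ^ 2 := by
      rw [← lintegral_indicator hF]
      refine lintegral_congr fun z => ?_
      by_cases hz : z ∈ Fd m 0
      · rw [Set.indicator_of_mem hz]
        exact Set.indicator_of_mem
          (s := {w : HH K | zc w ∈ Fd m 0 ∧ ∀ τ, tc w τ ∈ Set.Icc t0 (t0 + 1)}) (a := mkP z t)
          ⟨hz, fun τ => ⟨hI.1 τ, hI.2 τ⟩⟩ _
      · rw [Set.indicator_of_notMem hz, Set.indicator_of_notMem fun hc => hz hc.1]
    rw [e1, P026.thb_l2 ht.1, ← ENNReal.ofReal_mul (Real.exp_pos _).le]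
    refine ENNReal.ofReal_le_ofReal ?_
    have par := hasSum_subtype_iff_indicator (f := fun n : K =>
      ‖∫ z in Fd m 0, u (actK σ (mkP z t)) * psiV (-(jj n * z))‖ ^ 2).1 (parseval_Fd hm 0 ht.1)
    have s1 := sum_le_hasSum s (fun n _ => Set.indicator_nonneg (fun _ _ => by positivity) n) par
    have s2 : S * (absN m * L) ^ 2 ≤
        V0 K * absN m * ∫ z in Fd m 0, ‖u (actK σ (mkP z t))‖ ^ 2 := by
      refine le_trans ?_ s1
      rw [hS, Finset.sum_mul]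
      refine Finset.sum_le_sum fun n hn => ?_
      by_cases c : n ∈ dualL (latt m)
      · have p := hb0 (jj n) t Y Y0 (hs n hn) fun τ => ⟨hI.1 τ, hI.2 τ⟩
        rw [Set.indicator_of_mem c, ht.2 n c, norm_mul, norm_mul, Complex.norm_real,
          Real.norm_of_nonneg hA.le, ← mul_pow]
        refine pow_le_pow_left₀ (by positivity) ?_ 2
        rw [mul_left_comm, mul_assoc]
        exact mul_le_mul_of_nonneg_left (mul_le_mul_of_nonneg_left p (norm_nonneg _)) hA.le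
      · rw [Set.indicator_of_notMem c, hsup n c]
        simp
    have a4 : Real.exp (-2 * (rk K * (t0 + 1))) ≤ Real.exp (-2 * ∑ τ, t τ) := by
      have : ∑ τ, t τ ≤ ∑ _τ : Emb K, (t0 + 1) := Finset.sum_le_sum fun τ _ => hI.2 τ
      rw [Finset.sum_const, Finset.card_univ, nsmul_eq_mul] at this
      exact Real.exp_le_exp.2 (by unfold rk; linarith)
    refine mul_le_mul a4 ?_ (by positivity) (Real.exp_pos _).le
    rwa [div_le_iff₀' (by positivity)]
  rw [lintegral_indicator measurableSet_Icc, setLIntegral_const, Real.volume_Icc_pi] at low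
  simp only [add_sub_cancel_left, ENNReal.ofReal_one, Finset.prod_const_one, mul_one] at low
  rw [ENNReal.ofReal_le_ofReal_iff (by positivity), hK] at low
  have e1 : Real.exp (-(2 * rk K * t0)) =
      Real.exp (-2 * (rk K * (t0 + 1))) * Real.exp (2 * rk K) := by
    rw [← Real.exp_add]; congr 1; ring
  have e2 : L ^ 2 * Y ^ ((2 / 3 : ℝ) * rk K) = (b0 ^ rk K) ^ 2 := by
    rw [hL, mul_pow, mul_pow, mul_assoc, ← pow_mul (Y ^ (-(1 / 3) : ℝ)),
      ← Real.rpow_natCast (Y ^ (-(1 / 3) : ℝ)),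
      ← Real.rpow_mul Y0.le, ← Real.rpow_add Y0]
    push_cast
    rw [show -(1 / 3 : ℝ) * (rk K * 2) + 2 / 3 * rk K = 0 by ring, Real.rpow_zero, mul_one]
  rw [e1, mul_comm C, mul_assoc, mul_assoc] at low
  have low2 := le_of_mul_le_mul_left low (Real.exp_pos _)
  rw [div_le_iff₀ (by positivity)] at low2
  have y0 : 0 < Y ^ ((2 / 3 : ℝ) * rk K) := by positivity
  rw [← e2, div_mul_eq_mul_div, le_div_iff₀ (by positivity)]
  refine le_of_mul_le_mul_left ?_ hA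
  calc _ = S * (absN m * L) ^ 2 * Y ^ ((2 / 3 : ℝ) * rk K) := by ring
    _ ≤ _ := mul_le_mul_of_nonneg_right low2 y0.le
    _ = _ := by ring
theorem uout_van {q : K} {κ : SLK K → ℂ} {Φ : K × K → ℂ} (hΦ : Adm q κ Φ)
    {u : HH K → ℂ} {ρ : SLK K → K → ℂ} (h : UOut q κ Φ u ρ)
    (h0 : ∀ j σ, Ent j σ → ρ σ 0 = 0) : ∀ j σ, Ent j σ → ∀ n, ρ σ n = 0 := by
  have hu : u =ᵐ[nu q] 0 := h.van fun s => by
    obtain ⟨B, hB⟩ := pisP_bound (ι := Emb K) ‖s‖
    have hq : (0 : ℝ) < (4 ^ Fintype.card (Emb K))⁻¹ := by positivity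
    have hs := fun x hx hh => pisP_support (ι := Emb K) s (q := x) hx hh
    refine inc_orth hΦ h.meas h.aut h.mem (measurable_pisP s) hq (hB s le_rfl) hs
      fun j σ hσ => ?_
    rw [h.coef j σ hσ 0 (zero_mem_dualL _) 0 _ (tst_band (measurable_pisP s) hq (hB s le_rfl) hs),
      h0 j σ hσ, mul_zero, zero_mul]
  intro j σ hσ n
  by_cases c : n ∈ dualL (latt (pd q j))
  · have e := h.coef j σ hσ n c 0 _ tst_phi0
    rw [strip_congr q _ n 0 σ _ hu] at e
    refine (mul_eq_zero.1 ((mul_eq_zero.1 (e.symm.trans ?_)).resolve_right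
      (betaP_ne _))).resolve_left (ofReal_ne_zero.2 (bl_absN_pos (pd_ne hΦ.qne j)).ne')
    simp [strip]
  · exact h.supp j σ hσ n c

end

end Vale.Agent.P319N
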