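import Vale.Agent.P319N.BPars
import Vale.Agent.P319N.BBes
import Vale.Agent.P319N.BMu
import Vale.Agent.P319N.BQ

namespace Vale.Agent.P319N

open NumberField Complex MeasureTheory Filter Topology
open scoped Classical ComplexConjugate Real MatrixGroups
open Vale.Agent.P026 (omC kap psi W Hs ht QQ act uu muH hh LL Gs bb kk UU DualW)

noncomputable section

theorem btf_bd {ι : Type} [Fintype ι] (k : ℕ) (T : ℝ) : ∃ C : ℝ, 0 < C ∧
    ∀ (ν : ι → ℂ) (w : ι → Hs), ‖tc w‖ ≤ T →
      ‖∏ σ, ph (ν σ) (w σ)‖ ≤ C / (1 + ‖ν‖) ^ k := by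
  obtain ⟨C, hC, h⟩ := bb_poly k (y0 := Real.exp (-T) ^ 2 / 3) (by positivity)
  refine ⟨(Real.exp T ^ (2 / 3 : ℝ) * C) ^ Fintype.card ι, by positivity, fun ν w hw => ?_⟩
  rw [norm_prod]
  calc _ ≤ ∏ σ, Real.exp T ^ (2 / 3 : ℝ) * C / (1 + ‖ν σ‖) ^ k := by
        refine Finset.prod_le_prod (fun _ _ => norm_nonneg _) fun σ _ => ?_
        have a0 := abs_le.1 ((norm_le_pi_norm (tc w) σ).trans hw)
        have w1 := P026.ht_pos (w σ)
        have a1 : Real.exp (-T) ≤ ht (w σ) := Real.exp_le_exp.2 a0.1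
        have a2 : ht (w σ) ≤ Real.exp T := Real.exp_le_exp.2 a0.2
        have a3 := h (ν σ) (ht (w σ) ^ 2 / 3) (by gcongr)
        rw [← mul_div_assoc] at a3
        rw [ph, norm_mul, norm_mul, P026.norm_psi, mul_one, Complex.norm_real,
          Real.norm_of_nonneg (by positivity), mul_div_assoc (Real.exp T ^ (2 / 3 : ℝ))]
        exact mul_le_mul (Real.rpow_le_rpow w1.le a2 (by norm_num)) a3 (norm_nonneg _)
          (by positivity)
    _ ≤ _ := by
        rw [Finset.prod_div_distrib, Finset.prod_const, Finset.card_univ, Finset.prod_pow]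
        gcongr
        exact one_add_norm_le_prod ν

theorem btf_cont (ν : ℂ) : Continuous (ph ν) := by
  have cht : Continuous ht := Real.continuous_exp.comp continuous_snd
  refine ((continuous_ofReal.comp
    (cht.rpow_const fun w => Or.inl (P026.ht_pos w).ne')).mul ?_).mul
    (P026.continuous_psi.comp (continuous_const.mul continuous_fst))
  refine (P026.continuousOn_bb (s := 4 / 3) (by norm_num)).comp_continuous
    ((continuous_const.mul (cht.pow 2)).div_const _) fun w => ?_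
  have := normSq_nonneg ν
  show 0 ≤ normSq ν * ht w ^ 2 / 3
  positivity

theorem btf_hf_ne {ι : Type} [Fintype ι] (ν : ι → ℂ) (t : ι → ℝ) : hf ν t (4 / 3) ≠ 0 := by
  obtain ⟨b, hb1, -⟩ := P026.bb_real
  refine Finset.prod_ne_zero_iff.2 fun σ _ => mul_ne_zero ?_ ?_
  · exact fun h => ofReal_ne_zero.2 (Real.exp_pos _).ne' ((cpow_eq_zero_iff _ _).1 h).1
  · have := normSq_nonneg (ν σ)
    have p := hb1 (normSq (ν σ) * Real.exp (t σ) ^ 2 / 3) (by positivity)
    rw [p.1]
    exact ofReal_ne_zero.2 p.2.ne'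

variable {K : Type} [Field K] [NumberField K] [Setup K]

theorem thetaF_eq (ρ : K → ℂ) (w : HH K) :
    thetaF ρ w = ∑' n : K, ρ n * ∏ σ, ph (jj n σ) (w σ) := rfl
theorem summable_thetaF {ρ : K → ℂ} (h : PolyS ρ jj) (w : HH K) :
    Summable fun n : K => ‖ρ n * ∏ σ, ph (jj n σ) (w σ)‖ := by
  obtain ⟨k, hk⟩ := h
  obtain ⟨C, hC, hb⟩ := btf_bd (ι := Emb K) k ‖tc w‖
  refine Summable.of_nonneg_of_le (fun _ => norm_nonneg _) (fun n => ?_) (hk.mul_left C)
  rw [norm_mul]
  exact (mul_le_mul_of_nonneg_left (hb (jj n) w le_rfl) (norm_nonneg _)).trans_eq (by ring)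
theorem continuous_thetaF {ρ : K → ℂ} (h : PolyS ρ jj) : Continuous (thetaF ρ) := by
  obtain ⟨k, hk⟩ := h
  refine continuous_iff_continuousAt.2 fun w0 => ?_
  obtain ⟨C, hC, hb⟩ := btf_bd (ι := Emb K) k (‖tc w0‖ + 1)
  have ho : IsOpen {w : HH K | ‖tc w‖ < ‖tc w0‖ + 1} :=
    isOpen_lt continuous_tc.norm continuous_const
  refine (continuousOn_tsum (f := fun (n : K) (w : HH K) => ρ n * ∏ σ, ph (jj n σ) (w σ))
    (fun n => Continuous.continuousOn ?_) (hk.mul_left C) fun n w hw => ?_).continuousAt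
    (ho.mem_nhds (lt_add_one ‖tc w0‖))
  · exact continuous_const.mul (continuous_finsetProd _ fun σ _ =>
      (btf_cont _).comp (continuous_apply σ))
  · rw [norm_mul]
    exact (mul_le_mul_of_nonneg_left (hb (jj n) w (le_of_lt hw)) (norm_nonneg _)).trans_eq
      (by ring)
theorem thetaF_coef {ρ : K → ℂ} (h : PolyS ρ jj) {m : K} (hm : m ≠ 0)
    (hs : ∀ n, n ∉ dualL (latt m) → ρ n = 0) (z0 : Emb K → ℂ) (t : Emb K → ℝ) {n : K}
    (hn : n ∈ dualL (latt m)) :
    ∫ z in Fd m z0, thetaF ρ (mkP z t) * psiV (-(jj n * z)) =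
      ((V0 K * absN m : ℝ) : ℂ) * (ρ n * hf (jj n) t (4 / 3)) := by
  have : IsFiniteMeasure (volume.restrict (Fd m z0)) :=
    isFiniteMeasure_restrict.2 (by rw [volume_Fd hm]; exact ENNReal.ofReal_ne_top)
  set a : K → ℂ := fun k => ρ k * hf (jj k) t (4 / 3) with ha
  have e0 : ∀ (k : K) (z : Emb K → ℂ), ρ k * ∏ σ, ph (jj k σ) (mkP z t σ) =
      a k * psiV (jj k * z) := fun k z => by
    rw [prod_ph, ← mul_assoc]; rfl
  have sa : Summable fun k => ‖a k‖ := (summable_thetaF h (mkP 0 t)).congr fun k => by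
    rw [e0, norm_mul, bl_norm_psiV, mul_one]
  have e : ∀ z : Emb K → ℂ, thetaF ρ (mkP z t) * psiV (-(jj n * z)) =
      ∑' k : K, a k * psiV (jj (k - n) * z) := fun z => by
    rw [thetaF_eq, ← tsum_mul_right]
    refine tsum_congr fun k => ?_
    rw [e0, mul_assoc, ← bl_psiV_add]
    congr 2
    funext σ
    simp only [jj, Pi.add_apply, Pi.mul_apply, Pi.neg_apply, map_sub]
    ring
  simp_rw [e]
  rw [← integral_tsum_of_summable_integral_norm]
  · simp_rw [integral_const_mul]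
    rw [tsum_eq_single n fun k hk => ?_, sub_self, integral_psiV_Fd hm z0 (zero_mem_dualL _),
      if_pos rfl, mul_comm]
    by_cases c : k ∈ dualL (latt m)
    · rw [integral_psiV_Fd hm z0 (dualL_sub c hn), if_neg (sub_ne_zero.2 hk), mul_zero]
    · simp only [ha, hs k c, zero_mul]
  · intro k
    refine Integrable.of_bound (Continuous.aestronglyMeasurable ?_) ‖a k‖
      (Eventually.of_forall fun z => by rw [norm_mul, bl_norm_psiV, mul_one])
    exact continuous_const.mul (bl_continuous_psiV.comp (continuous_const.mul continuous_id))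
  · simp_rw [norm_mul (a _), bl_norm_psiV, mul_one, integral_const, smul_eq_mul]
    exact sa.mul_left _
theorem thetaF_inj {ρ ρ' : K → ℂ} (h : PolyS ρ jj) (h' : PolyS ρ' jj) {m : K} (hm : m ≠ 0)
    (hs : ∀ n, n ∉ dualL (latt m) → ρ n = 0 ∧ ρ' n = 0) (he : ∀ w, thetaF ρ w = thetaF ρ' w) :
    ρ = ρ' := by
  funext n
  by_cases c : n ∈ dualL (latt m)
  · have e := thetaF_coef h hm (fun n hn => (hs n hn).1) 0 0 c
    simp_rw [he] at e
    rw [thetaF_coef h' hm (fun n hn => (hs n hn).2) 0 0 c] at e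
    have := V0_pos (K := K)
    have := bl_absN_pos hm
    exact (mul_right_cancel₀ (btf_hf_ne _ _)
      (mul_left_cancel₀ (ofReal_ne_zero.2 (by positivity)) e)).symm
  · rw [(hs n c).1, (hs n c).2]

end

end Vale.Agent.P319N
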