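import Vale.Agent.P319N.BA3
import Vale.Agent.P319N.BTB
import Vale.Agent.P319N.BTF

namespace Vale.Agent.P319N

open NumberField Complex MeasureTheory Filter Topology
open scoped Classical ComplexConjugate Real MatrixGroups
open Vale.Agent.P026 (omC kap psi W Hs ht QQ act uu muH hh LL Gs bb kk UU DualW)

noncomputable section

variable {K : Type} [Field K] [NumberField K] [Level K]

theorem btc_poly {m : K} (hm : m ≠ 0) {a : K → ℂ} (hs : ∀ n, n ∉ dualL (latt m) → a n = 0)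
    {C e : ℝ} (hb : ∀ Y : ℝ, 1 ≤ Y → ∀ s : Finset K,
      (∀ n ∈ s, ∀ τ : Emb K, normSq (τ.1 n) ≤ Y) → ∑ n ∈ s, ‖a n‖ ^ 2 ≤ C * Y ^ e) :
    PolyS a jj := by
  obtain ⟨m', h1, h2⟩ := bl_dual_int hm
  exact polyS_of_box h1 (fun n hn => h2 n (by by_contra c; exact hn (hs n c))) hb

theorem ThetaOut.polyS {q : K} (h0 : q ≠ 0) {Φ : K × K → ℂ} {ρ : SLK K → K → ℂ}
    (h : ThetaOut q Φ ρ) {j : ℕ} {σ : SLK K} (hσ : Ent j σ) : PolyS (ρ σ) jj := by
  obtain ⟨C, hC⟩ := h.bound j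
  exact btc_poly (pd_ne h0 j) (h.supp j σ hσ) (hC σ hσ)

theorem btc_polyU {q : K} {κ : SLK K → ℂ} {Φ : K × K → ℂ} (hΦ : Adm q κ Φ)
    {u : HH K → ℂ} {ρ : SLK K → K → ℂ} (h : UOut q κ Φ u ρ) {j : ℕ} {σ : SLK K} (hσ : Ent j σ) :
    PolyS (ρ σ) jj := by
  obtain ⟨C, hC⟩ := uout_bound hΦ h j
  exact btc_poly (pd_ne hΦ.qne j) (h.supp j σ hσ) (hC σ hσ)

theorem btc_ae {q : K} {κ : SLK K → ℂ} {Φ : K × K → ℂ} (hΦ : Adm q κ Φ)
    {u : HH K → ℂ} {ρ : SLK K → K → ℂ} (h : UOut q κ Φ u ρ) {j : ℕ} {σ : SLK K} (hσ : Ent j σ) :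
    (fun w => ((V0 K : ℝ) : ℂ) * u (actK σ w)) =ᵐ[muP (Emb K)] thetaF (ρ σ) := by
  have hp := btc_polyU hΦ h hσ
  have ct := continuous_thetaF hp
  have hm := pd_ne hΦ.qne j
  have hsl := fun k : K => uout_slice hΦ.qne h hσ (jj k)
  have hsup := h.supp j σ hσ
  set m := pd q j with hmd
  have hV : 0 < V0 K * absN m := mul_pos V0_pos (bl_absN_pos hm)
  have ms : MeasurableSet {w : HH K | ((V0 K : ℝ) : ℂ) * u (actK σ w) = thetaF (ρ σ) w} :=
    measurableSet_eq_fun ((h.meas.comp (continuous_actK σ).measurable).const_mul _) ct.measurable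
  refine ae_muP ms ?_
  filter_upwards [ae_all_iff.2 hsl] with t ht
  rw [← Measure.restrict_univ (μ := (volume : Measure (Emb K → ℂ))), ← iUnion_Fd hm,
    ae_restrict_iUnion_iff]
  intro k
  obtain ⟨h1, h2⟩ := ht k
  set z0 := jj k
  have : IsFiniteMeasure (volume.restrict (Fd m z0)) :=
    isFiniteMeasure_restrict.2 (by rw [volume_Fd hm]; exact ENNReal.ofReal_ne_top)
  have c1 : Continuous fun z : Emb K → ℂ => thetaF (ρ σ) (mkP z t) :=
    ct.comp (continuous_mkP.comp (continuous_id.prodMk continuous_const))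
  obtain ⟨B, hB⟩ := (isBounded_Fd m z0).isCompact_closure.exists_bound_of_continuousOn
    c1.continuousOn
  have h3 : MemLp (fun z : Emb K → ℂ => thetaF (ρ σ) (mkP z t)) 2 (volume.restrict (Fd m z0)) :=
    .of_bound c1.aestronglyMeasurable B ((ae_restrict_iff' (measurableSet_Fd hm z0)).2
      (.of_forall fun z hz => hB z (subset_closure hz)))
  have h4 := (h1.const_mul ((V0 K : ℝ) : ℂ)).sub h3
  have ps : ∀ {f : (Emb K → ℂ) → ℂ}, MemLp f 2 (volume.restrict (Fd m z0)) → ∀ n : K,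
      Integrable (fun z => f z * psiV (-(jj n * z))) (volume.restrict (Fd m z0)) :=
    fun hf n => (hf.integrable one_le_two).mul_bdd (c := 1)
      (bl_continuous_psiV.comp (continuous_const.mul continuous_id).neg).aestronglyMeasurable
      (.of_forall fun z => (bl_norm_psiV _).le)
  have h5 := parseval_Fd hm z0 h4
  have e : ∀ n : dualL (latt m), ∫ z in Fd m z0,
      ((fun z => ((V0 K : ℝ) : ℂ) * u (actK σ (mkP z t))) -
      fun z => thetaF (ρ σ) (mkP z t)) z * psiV (-(jj (n : K) * z)) = 0 := fun n => by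
    simp only [Pi.sub_apply, sub_mul, mul_assoc]
    rw [integral_sub ((ps h1 n).const_mul _) (ps h3 n), integral_const_mul, h2 n n.2,
      thetaF_coef hp hm hsup z0 t n.2]
    push_cast
    ring
  simp only [e, norm_zero, ne_eq, OfNat.ofNat_ne_zero, not_false_eq_true, zero_pow] at h5
  have h6 := (mul_eq_zero.1 (h5.unique hasSum_zero)).resolve_left hV.ne'
  rw [integral_eq_zero_iff_of_nonneg (fun _ => by positivity)
    ((memLp_two_iff_integrable_sq_norm h4.1).1 h4)] at h6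
  filter_upwards [h6] with z hz
  simpa [sub_eq_zero] using hz

theorem uout_aut {q : K} {κ : SLK K → ℂ} {Φ : K × K → ℂ} (hΦ : Adm q κ Φ)
    {u : HH K → ℂ} {ρ : SLK K → K → ℂ} (h : UOut q κ Φ u ρ) {j : ℕ} {σ : SLK K} (hσ : Ent j σ)
    (w : HH K) : thetaF (ρ 1) (actK σ w) = thetaF (ρ σ) w := by
  have a := (measurePreserving_actK σ).quasiMeasurePreserving.ae_eq_comp (btc_ae hΦ h ent_one)
  simp only [actK_one] at a
  exact congrFun ((Continuous.ae_eq_iff_eq (muP (Emb K))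
    ((continuous_thetaF (btc_polyU hΦ h ent_one)).comp (continuous_actK σ))
    (continuous_thetaF (btc_polyU hΦ h hσ))).1 (a.symm.trans (btc_ae hΦ h hσ))) w
theorem theta_machine {q : K} {κ : SLK K → ℂ} {Φ : K × K → ℂ} (hΦ : Adm q κ Φ) :
    ∃ ρ, ThetaOut q Φ ρ := by
  obtain ⟨u, ρ, h⟩ := exists_UOut hΦ
  exact ⟨ρ, h.res, h.supp, uout_bound hΦ h, fun _ _ hσ => uout_aut hΦ h hσ, uout_van hΦ h⟩

end

end Vale.Agent.P319N
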