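import Vale.Agent.P319N.BVorM
import Vale.Agent.P319N.BTC
import Vale.Agent.P319N.BRep

namespace Vale.Agent.P319N

open NumberField Complex MeasureTheory Filter Topology
open scoped Classical ComplexConjugate Real MatrixGroups
open Vale.Agent.P026 (omC kap psi W Hs ht QQ act uu muH hh LL Gs bb kk UU DualW)

noncomputable section

variable {K : Type} [Field K] [NumberField K] [Level K]

theorem bvor_vk (ν : ℂ) {y : ℝ} (hy : 0 ≤ y) :
    vk ν y = ((normSq ν ^ (1 / 6 : ℝ) : ℝ) : ℂ) * (ν / (‖ν‖ : ℂ)) * kk (normSq ν * y) := by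
  by_cases h : ν = 0
  · simp [vk, h]
  have h1 : 0 < normSq ν := normSq_pos.2 h
  have h2 : (‖ν‖ : ℂ) ≠ 0 := by exact_mod_cast norm_ne_zero_iff.2 h
  have h3 : normSq ν ^ (1 / 6 : ℝ) * normSq ν ^ (1 / 3 : ℝ) = ‖ν‖ := by
    rw [← Real.rpow_add h1, show (1 / 6 + 1 / 3 : ℝ) = 1 / 2 by norm_num, ← Real.sqrt_eq_rpow]
    rfl
  have h4 : ((normSq ν ^ (1 / 6 : ℝ) : ℝ) : ℂ) * ((normSq ν ^ (1 / 3 : ℝ) : ℝ) : ℂ) = (‖ν‖ : ℂ) := by
    rw [← ofReal_mul, h3]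
  rw [vk, kk, Real.mul_rpow h1.le hy, ofReal_mul]
  linear_combination (exp := 1) (-(ν / (‖ν‖ : ℂ) * ((y ^ (1 / 3 : ℝ) : ℝ) : ℂ) *
    bb (normSq ν * y) (4 / 3))) * h4 - ((y ^ (1 / 3 : ℝ) : ℝ) : ℂ) * bb (normSq ν * y) (4 / 3) *
      div_mul_cancel₀ ν h2

theorem bvor_tau (ρ : K → ℂ) (n : K) :
    tauOf ρ n = ρ n * ∏ σ : Emb K, ((normSq (σ.1 n) ^ (1 / 6 : ℝ) : ℝ) : ℂ) := by
  rw [tauOf, bl_absN, ← Real.finsetProd_rpow _ _ (fun σ _ => normSq_nonneg _), ofReal_prod, mul_comm]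

theorem vor_theta {q : K} (h0 : q ≠ 0) {Φ : K × K → ℂ} {ρ : SLK K → K → ℂ} (h : ThetaOut q Φ ρ)
    {j : ℕ} {γ : SLK K} (hγ : Ent j γ) (hc : γ 1 0 ≠ 0) :
    VorId (fun n => tauOf (ρ 1) n * angK n * psiK (n * γ 0 0 / γ 1 0))
      (fun n => tauOf (ρ γ) n * conj (angK n) * psiK (-(n * γ 1 1 / γ 1 0)))
      (angK (γ 1 0) ^ 2) (fun σ => 3 * normSq (σ.1 (γ 1 0))) := by
  intro X hX
  have hc' : ∀ σ : Emb K, σ.1 (γ 1 0) ≠ 0 := fun σ => (map_ne_zero σ.1).2 hc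
  have key := vorM (h.polyS h0 ent_one) (h.polyS h0 hγ)
    (fun σ : Emb K => Matrix.SpecialLinearGroup.map σ.1 γ) hc' (h.aut j γ hγ) X hX
  simp only [bg_map, jj] at key
  beta_reduce
  convert key using 2
  · funext n
    rw [bvor_tau, angK, bl_psiK, psiV, mul_assoc, mul_assoc, mul_assoc, ← Finset.prod_mul_distrib,
      ← Finset.prod_mul_distrib, ← Finset.prod_mul_distrib]
    congr 1
    refine Finset.prod_congr rfl fun σ _ => ?_
    rw [bvor_vk _ (inv_pos.2 (hX σ)).le, jj, map_div₀, map_mul, div_eq_mul_inv (normSq _)]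
    ring
  · rw [angK, ← Finset.prod_pow, ofReal_prod, ← Finset.prod_mul_distrib]
    refine Finset.prod_congr rfl fun σ _ => ?_
    congr 1
    have h1 := hc' σ
    have h2 : conj (σ.1 (γ 1 0)) ≠ 0 := (map_ne_zero _).2 h1
    rw [div_pow, ← Complex.mul_conj', div_eq_div_iff (mul_ne_zero h1 h2) h2]
    ring
  · congr 1
    funext n
    rw [bvor_tau, angK, bl_psiK, psiV, map_prod, mul_assoc, mul_assoc, mul_assoc,
      ← Finset.prod_mul_distrib, ← Finset.prod_mul_distrib, ← Finset.prod_mul_distrib]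
    congr 1
    refine Finset.prod_congr rfl fun σ _ => ?_
    rw [bvor_vk _ (div_nonneg (hX σ).le (sq_nonneg _)), jj, map_neg, map_div₀, map_div₀, map_mul,
      normSq_conj, conj_ofReal, Complex.norm_conj, mul_div_assoc (normSq _)]
    ring

theorem VorId.summable {a : K → ℂ} (ha : PolyS a jj) {y : Emb K → ℝ} (hy : ∀ σ, 0 < y σ) :
    Summable fun n : K => a n * ∏ σ : Emb K, kk (normSq (σ.1 n) * y σ) := by
  obtain ⟨k, hk⟩ := ha
  obtain ⟨C, hC, h⟩ := kk_poly k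
  have hp : 0 ≤ ∏ σ, C * (1 + (y σ)⁻¹) ^ k :=
    Finset.prod_nonneg fun σ _ => by have := hy σ; positivity
  refine Summable.of_norm_bounded (hk.mul_left (∏ σ, C * (1 + (y σ)⁻¹) ^ k)) fun n => ?_
  rw [norm_mul, norm_prod, mul_div_left_comm]
  refine mul_le_mul_of_nonneg_left ((Finset.prod_le_prod (fun _ _ => norm_nonneg _)
    fun σ _ => h _ _ (hy σ)).trans ?_) (norm_nonneg _)
  rw [Finset.prod_div_distrib, Finset.prod_pow]
  exact div_le_div_of_nonneg_left hp (by positivity)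
    (pow_le_pow_left₀ (by positivity) (one_add_norm_le_prod (jj n)) k)

theorem VorId.unit {a a' : K → ℂ} {η : ℂ} {Cc : Emb K → ℝ} (h : VorId a a' η Cc) {u : Kˣ}
    (hu : u ∈ U1 K) :
    VorId (fun n => a ((u : K) * n)) (fun n => a' (((u⁻¹ : Kˣ) : K) * n)) η Cc := by
  intro X hX
  have h1 : ∀ σ : Emb K, 0 < normSq (σ.1 (u : K)) := blat_normSq_pos u.ne_zero
  have key := h (fun σ => normSq (σ.1 (u : K)) * X σ) fun σ => mul_pos (h1 σ) (hX σ)
  rw [← (Equiv.mulLeft₀ (u : K) u.ne_zero).tsum_eq,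
    ← (Equiv.mulLeft₀ ((u⁻¹ : Kˣ) : K) (u⁻¹).ne_zero).tsum_eq (fun n => a' n * _)] at key
  simp only [Equiv.mulLeft₀_apply, map_mul] at key
  have e1 : ∀ (σ : Emb K) (x : ℝ), normSq (σ.1 (u : K)) * x / (normSq (σ.1 (u : K)) * X σ) =
      x / X σ := fun σ x => mul_div_mul_left _ _ (h1 σ).ne'
  have e2 : ∀ (σ : Emb K) (x : ℝ), normSq (σ.1 ((u⁻¹ : Kˣ) : K)) * x *
      (normSq (σ.1 (u : K)) * X σ) = x * X σ := fun σ x => by
    have := (h1 σ).ne'
    rw [Units.val_inv_eq_inv_val, map_inv₀, map_inv₀]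
    field_simp
  have e3 : ∏ σ : Emb K, normSq (σ.1 (u : K)) * X σ / Cc σ = ∏ σ, X σ / Cc σ := by
    simp only [mul_div_assoc]
    rw [Finset.prod_mul_distrib, ← bl_absN, U1_absN hu, one_mul]
  simpa only [e1, e2, e3] using key

theorem VorId.sum {I : Type} (s : Finset I) {a a' : I → K → ℂ} (c : I → ℂ) {η : ℂ}
    {Cc : Emb K → ℝ} (hC : ∀ σ, 0 < Cc σ) (ha : ∀ i ∈ s, PolyS (a i) jj)
    (ha' : ∀ i ∈ s, PolyS (a' i) jj) (h : ∀ i ∈ s, VorId (a i) (a' i) η Cc) :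
    VorId (fun n => ∑ i ∈ s, c i * a i n) (fun n => ∑ i ∈ s, c i * a' i n) η Cc := by
  intro X hX
  have s1 := fun i hi => (VorId.summable (ha i hi) fun σ => inv_pos.2 (hX σ)).mul_left (c i)
  have s2 := fun i hi => (VorId.summable (ha' i hi)
    fun σ => div_pos (hX σ) (pow_pos (hC σ) 2)).mul_left (c i)
  simp only [← div_eq_mul_inv, ← mul_div_assoc] at s1 s2
  simp only [Finset.sum_mul, mul_assoc]
  rw [Summable.tsum_finsetSum s1, Summable.tsum_finsetSum s2, Finset.mul_sum, Finset.mul_sum]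
  refine Finset.sum_congr rfl fun i hi => ?_
  rw [tsum_mul_left, tsum_mul_left, h i hi X hX]
  ring

end

end Vale.Agent.P319N
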