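import Vale.Agent.P319N.BQ
import Vale.Agent.P026.Vor

namespace Vale.Agent.P319N

open NumberField Complex MeasureTheory Filter Topology
open scoped Classical ComplexConjugate Real MatrixGroups
open Vale.Agent.P026 (omC kap psi W Hs ht QQ act uu muH hh LL Gs bb kk UU DualW)

noncomputable section


open Vale.Agent.P026 (vor_kap_pos vor_psi_lim norm_psi norm_psi_sub_le ht_pos bb_real
  continuousOn_bb)

theorem bv1_summ {I : Type} {a ν : I → ℂ} (ha : ∀ y : ℝ, 0 < y →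
      Summable fun i => ‖a i‖ * (1 + ‖ν i‖) * ‖bb (normSq (ν i) * y) (4 / 3)‖) (w : Hs)
    {f : I → ℂ} (hf : ∀ i, ‖f i‖ ≤ 1 + ‖ν i‖) : Summable fun i => a i * ph (ν i) w * f i := by
  have h0 := ht_pos w
  have h1 := ha (ht w ^ 2 / 3) (by positivity)
  refine Summable.of_norm_bounded (h1.mul_left (ht w ^ (2 / 3 : ℝ))) fun n => ?_
  have hv : 0 ≤ ht w ^ (2 / 3 : ℝ) := by positivity
  unfold ph
  simp only [norm_mul, norm_psi, Complex.norm_real, Real.norm_of_nonneg hv, mul_one, mul_div_assoc]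
  calc _ ≤ ‖a n‖ * (ht w ^ (2 / 3 : ℝ) * ‖bb (normSq (ν n) * (ht w ^ 2 / 3)) (4 / 3)‖) *
        (1 + ‖ν n‖) := by gcongr; exact hf n
    _ = _ := by ring

theorem bv1_lim {I : Type} {a ν : I → ℂ} (ha : ∀ y : ℝ, 0 < y →
      Summable fun i => ‖a i‖ * (1 + ‖ν i‖) * ‖bb (normSq (ν i) * y) (4 / 3)‖)
    (a0 : ℂ) {tt : ℝ → ℝ} {t0 : ℝ}
    (htt : Tendsto tt (𝓝[>] 0) (𝓝 t0)) {β : ℝ → ℂ} {β0 : ℂ} (hβ : Tendsto β (𝓝[>] 0) (𝓝 β0)) :
    Tendsto (fun r : ℝ => (∑' i, a i * ph (ν i) (a0 + r * β r, tt r) -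
      ∑' i, a i * ph (ν i) (a0 - r * β r, tt r)) / r)
      (𝓝[>] 0) (𝓝 (2 * kap * (β0 * ∑' i, a i * ph (ν i) (a0, t0) * ν i -
        conj β0 * ∑' i, a i * ph (ν i) (a0, t0) * conj (ν i)))) := by
  have hk := vor_kap_pos
  have s0 : ∀ w, Summable fun i => a i * ph (ν i) w := fun w => by
    simpa using bv1_summ ha w (f := fun _ => 1) fun i => by simp
  have s1 := bv1_summ ha (a0, t0) (f := ν) fun i => by linarith
  have s2 := bv1_summ ha (a0, t0) (f := fun i => conj (ν i))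
    (fun i => by rw [Complex.norm_conj]; linarith)
  rw [← tsum_mul_left, ← tsum_mul_left, ← (s1.mul_left _).tsum_sub (s2.mul_left _),
    ← tsum_mul_left]
  set F : ℝ → I → ℂ := fun r n => a n * ((Real.exp (tt r) ^ (2 / 3 : ℝ) : ℝ) : ℂ) *
    bb (normSq (ν n) * (Real.exp (tt r) ^ 2 / 3)) (4 / 3) *
      ((psi (ν n * a0 + r * (ν n * β r)) - psi (ν n * a0 - r * (ν n * β r))) / r) with hF
  have hEq : ∀ r : ℝ, (∑' i, a i * ph (ν i) (a0 + r * β r, tt r) -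
      ∑' i, a i * ph (ν i) (a0 - r * β r, tt r)) / r = ∑' n, F r n := by
    intro r
    rw [← (s0 _).tsum_sub (s0 _), ← tsum_div_const]
    refine tsum_congr fun n => ?_
    simp only [hF, ph, ht, mul_div_assoc (normSq (ν n))]
    rw [show ν n * (a0 + r * β r) = ν n * a0 + r * (ν n * β r) by ring,
      show ν n * (a0 - r * β r) = ν n * a0 - r * (ν n * β r) by ring]
    ring
  simp only [hEq]
  obtain ⟨b, hb1, hb2⟩ := bb_real
  have s3 := ha (Real.exp (t0 - 1) ^ 2 / 3) (by positivity)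
  refine tendsto_tsum_of_dominated_convergence
    (s3.mul_left (Real.exp (t0 + 1) ^ (2 / 3 : ℝ) * (4 * kap * (‖β0‖ + 1)))) ?_ ?_
  · intro n
    have h1 : Tendsto (fun r => ν n * β r) (𝓝[>] 0) (𝓝 (ν n * β0)) := hβ.const_mul _
    have h2 := vor_psi_lim (ν n * a0) h1
    have h3 : Tendsto (fun r => Real.exp (tt r)) (𝓝[>] 0) (𝓝 (Real.exp t0)) :=
      (Real.continuous_exp.tendsto t0).comp htt
    have h4 : Tendsto (fun r => ((Real.exp (tt r) ^ (2 / 3 : ℝ) : ℝ) : ℂ)) (𝓝[>] 0)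
        (𝓝 ((Real.exp t0 ^ (2 / 3 : ℝ) : ℝ) : ℂ)) :=
      (Complex.continuous_ofReal.tendsto _).comp (h3.rpow_const (Or.inr (by norm_num)))
    have hx : ∀ t : ℝ, normSq (ν n) * (Real.exp t ^ 2 / 3) ∈ Set.Ici (0 : ℝ) := fun t => by
      have := normSq_nonneg (ν n)
      exact Set.mem_Ici.2 (by positivity)
    have h5 : Tendsto (fun r => normSq (ν n) * (Real.exp (tt r) ^ 2 / 3)) (𝓝[>] 0)
        (𝓝[Set.Ici 0] (normSq (ν n) * (Real.exp t0 ^ 2 / 3))) :=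
      tendsto_nhdsWithin_iff.2 ⟨((h3.pow 2).div_const _).const_mul _,
        Eventually.of_forall fun r => hx _⟩
    have h6 := ((continuousOn_bb (s := 4 / 3) (by norm_num)) _ (hx t0)).tendsto.comp h5
    have h7 := ((h4.const_mul (a n)).mul h6).mul h2
    have h8 : 2 * kap * (β0 * (a n * ph (ν n) (a0, t0) * ν n) -
        conj β0 * (a n * ph (ν n) (a0, t0) * conj (ν n))) =
        a n * ((Real.exp t0 ^ (2 / 3 : ℝ) : ℝ) : ℂ) *
          bb (normSq (ν n) * (Real.exp t0 ^ 2 / 3)) (4 / 3) *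
          (psi (ν n * a0) * (2 * (kap * (ν n * β0 - conj (ν n * β0))))) := by
      simp only [ph, ht, map_mul, mul_div_assoc (normSq (ν n))]
      ring
    rw [h8]
    exact h7
  · have e1 : ∀ᶠ r in 𝓝[>] (0 : ℝ), t0 - 1 ≤ tt r := htt.eventually_const_le (by linarith)
    have e2 : ∀ᶠ r in 𝓝[>] (0 : ℝ), tt r ≤ t0 + 1 := htt.eventually_le_const (by linarith)
    have e3 : ∀ᶠ r in 𝓝[>] (0 : ℝ), ‖β r‖ ≤ ‖β0‖ + 1 :=
      hβ.norm.eventually_le_const (by linarith)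
    filter_upwards [e1, e2, e3, self_mem_nhdsWithin] with r h1 h2 h3 hr n
    have hr0 : 0 < r := hr
    have hn0 := normSq_nonneg (ν n)
    have hx : ∀ t : ℝ, 0 ≤ normSq (ν n) * (Real.exp t ^ 2 / 3) := fun t => by positivity
    have hbb : ‖bb (normSq (ν n) * (Real.exp (tt r) ^ 2 / 3)) (4 / 3)‖ ≤
        ‖bb (normSq (ν n) * (Real.exp (t0 - 1) ^ 2 / 3)) (4 / 3)‖ := by
      rw [(hb1 _ (hx _)).1, (hb1 _ (hx _)).1, Complex.norm_real, Complex.norm_real,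
        Real.norm_of_nonneg (hb1 _ (hx _)).2.le, Real.norm_of_nonneg (hb1 _ (hx _)).2.le]
      refine hb2 (hx _) (hx _) ?_
      gcongr
    have hps : ‖(psi (ν n * a0 + r * (ν n * β r)) - psi (ν n * a0 - r * (ν n * β r))) / r‖ ≤
        4 * kap * (‖β0‖ + 1) * (1 + ‖ν n‖) := by
      rw [norm_div, Complex.norm_real, Real.norm_of_nonneg hr0.le, div_le_iff₀ hr0]
      refine (norm_psi_sub_le _ _).trans ?_
      rw [show ν n * a0 + r * (ν n * β r) - (ν n * a0 - r * (ν n * β r)) =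
        ((2 * r : ℝ) : ℂ) * (ν n * β r) by push_cast; ring, norm_mul, norm_mul,
        Complex.norm_real, Real.norm_of_nonneg (by positivity)]
      calc 2 * kap * (2 * r * (‖ν n‖ * ‖β r‖))
          ≤ 2 * kap * (2 * r * ((1 + ‖ν n‖) * (‖β0‖ + 1))) := by gcongr; linarith
        _ = _ := by ring
    have hv : Real.exp (tt r) ^ (2 / 3 : ℝ) ≤ Real.exp (t0 + 1) ^ (2 / 3 : ℝ) := by gcongr
    have hv0 : 0 ≤ Real.exp (tt r) ^ (2 / 3 : ℝ) := by positivity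
    simp only [hF]
    rw [norm_mul, norm_mul, norm_mul, Complex.norm_real, Real.norm_of_nonneg hv0]
    calc _ ≤ ‖a n‖ * Real.exp (t0 + 1) ^ (2 / 3 : ℝ) *
          ‖bb (normSq (ν n) * (Real.exp (t0 - 1) ^ 2 / 3)) (4 / 3)‖ *
            (4 * kap * (‖β0‖ + 1) * (1 + ‖ν n‖)) := by gcongr
      _ = _ := by ring

theorem bv1_key {I I' : Type} {a ν : I → ℂ} {b ν' : I' → ℂ}
    (ha : ∀ y : ℝ, 0 < y →
      Summable fun i => ‖a i‖ * (1 + ‖ν i‖) * ‖bb (normSq (ν i) * y) (4 / 3)‖)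
    (hb : ∀ y : ℝ, 0 < y →
      Summable fun i => ‖b i‖ * (1 + ‖ν' i‖) * ‖bb (normSq (ν' i) * y) (4 / 3)‖)
    (g : SL(2, ℂ)) (hc : g 1 0 ≠ 0)
    (h : ∀ w : Hs, ∑' i, a i * ph (ν i) (act g w) = ∑' i, b i * ph (ν' i) w) (t : ℝ) :
    conj (g 1 0) / g 1 0 / ((normSq (g 1 0) * Real.exp t ^ 2 : ℝ) : ℂ) *
      ∑' i, a i * ph (ν i) (g 0 0 / g 1 0, -Real.log (normSq (g 1 0) * Real.exp t)) * ν i =
      ∑' i, b i * ph (ν' i) (-(g 1 1 / g 1 0), t) * conj (ν' i) := by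
  have hNc := normSq_pos.2 hc
  have hv := Real.exp_pos t
  set κ : ℂ := conj (g 1 0) / g 1 0 / ((normSq (g 1 0) * Real.exp t ^ 2 : ℝ) : ℂ) with hκ
  set w1 : Hs := (g 0 0 / g 1 0, -Real.log (normSq (g 1 0) * Real.exp t)) with hw1
  set w2 : Hs := (-(g 1 1 / g 1 0), t) with hw2
  have key : ∀ η : ℂ, (-(κ * conj η) * ∑' i, a i * ph (ν i) w1 * ν i -
      conj (-(κ * conj η)) * ∑' i, a i * ph (ν i) w1 * conj (ν i)) =
      (η * ∑' i, b i * ph (ν' i) w2 * ν' i -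
        conj η * ∑' i, b i * ph (ν' i) w2 * conj (ν' i)) := by
    intro η
    have hq : Tendsto (fun r : ℝ => normSq (g 1 0) * (normSq ((r : ℂ) * η) + Real.exp t ^ 2))
        (𝓝[>] 0) (𝓝 (normSq (g 1 0) * Real.exp t ^ 2)) := by
      have h1 : Continuous (fun r : ℝ =>
          normSq (g 1 0) * (normSq ((r : ℂ) * η) + Real.exp t ^ 2)) := by
        fun_prop
      have h2 := (h1.tendsto 0).mono_left (nhdsWithin_le_nhds (s := Set.Ioi 0))
      simpa using h2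
    have htt : Tendsto (fun r : ℝ => -Real.log (normSq (g 1 0) *
        (normSq ((r : ℂ) * η) + Real.exp t ^ 2) / Real.exp t)) (𝓝[>] 0)
        (𝓝 (-Real.log (normSq (g 1 0) * Real.exp t))) := by
      have h1 := hq.div_const (Real.exp t)
      rw [show normSq (g 1 0) * Real.exp t ^ 2 / Real.exp t = normSq (g 1 0) * Real.exp t by
        field_simp] at h1
      exact (h1.log (by positivity)).neg
    have hβ : Tendsto (fun r : ℝ => -(conj (g 1 0) / g 1 0 * conj η /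
        ((normSq (g 1 0) * (normSq ((r : ℂ) * η) + Real.exp t ^ 2) : ℝ) : ℂ))) (𝓝[>] 0)
        (𝓝 (-(κ * conj η))) := by
      have h1 := (Complex.continuous_ofReal.tendsto _).comp hq
      have h2 := (tendsto_const_nhds (x := conj (g 1 0) / g 1 0 * conj η)).div h1
        (by exact_mod_cast (by positivity : normSq (g 1 0) * Real.exp t ^ 2 ≠ 0))
      rw [show κ * conj η = conj (g 1 0) / g 1 0 * conj η /
        ((normSq (g 1 0) * Real.exp t ^ 2 : ℝ) : ℂ) by rw [hκ]; ring]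
      exact h2.neg
    have L1 := bv1_lim ha (g 0 0 / g 1 0) htt hβ
    have L2 := bv1_lim hb (-(g 1 1 / g 1 0)) (tt := fun _ => t)
      tendsto_const_nhds (β := fun _ => η) tendsto_const_nhds
    have hE : ∀ r : ℝ, (∑' i, b i * ph (ν' i) (-(g 1 1 / g 1 0) + r * η, t) -
        ∑' i, b i * ph (ν' i) (-(g 1 1 / g 1 0) - r * η, t)) / r =
        (∑' i, a i * ph (ν i) (g 0 0 / g 1 0 + r * -(conj (g 1 0) / g 1 0 *
          conj η / ((normSq (g 1 0) * (normSq ((r : ℂ) * η) + Real.exp t ^ 2) : ℝ) : ℂ)),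
          -Real.log (normSq (g 1 0) * (normSq ((r : ℂ) * η) + Real.exp t ^ 2) / Real.exp t)) -
        ∑' i, a i * ph (ν i) (g 0 0 / g 1 0 - r * -(conj (g 1 0) / g 1 0 *
          conj η / ((normSq (g 1 0) * (normSq ((r : ℂ) * η) + Real.exp t ^ 2) : ℝ) : ℂ)),
          -Real.log (normSq (g 1 0) * (normSq ((r : ℂ) * η) + Real.exp t ^ 2) / Real.exp t))) /
          r := by
      intro r
      rw [← h, ← h, sub_eq_add_neg (-(g 1 1 / g 1 0)), act_cusp g hc, act_cusp g hc, normSq_neg]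
      simp only [map_neg, map_mul, conj_ofReal]
      congr 2 <;> refine tsum_congr fun i => ?_ <;> congr 3 <;> ring
    simp only [hE] at L2
    have h3 := tendsto_nhds_unique L1 L2
    have hk : (2 * kap : ℂ) ≠ 0 := by
      have := vor_kap_pos.ne'
      exact_mod_cast (by positivity : (2 * kap : ℝ) ≠ 0)
    exact mul_left_cancel₀ hk h3
  have k1 := key 1
  have k2 := key Complex.I
  simp only [map_neg, map_mul, conj_I, map_one, mul_one, one_mul] at k1 k2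
  have hI := Complex.I_mul_I
  linear_combination (-1 / 2) * k1 - Complex.I / 2 * k2 +
    (1 / 2) * (κ * ∑' i, a i * ph (ν i) w1 * ν i +
      conj κ * ∑' i, a i * ph (ν i) w1 * conj (ν i) - ∑' i, b i * ph (ν' i) w2 * ν' i -
      ∑' i, b i * ph (ν' i) w2 * conj (ν' i)) * hI

theorem vor1 {I I' : Type} {a ν : I → ℂ} {b ν' : I' → ℂ}
    (ha : ∀ y : ℝ, 0 < y →
      Summable fun i => ‖a i‖ * (1 + ‖ν i‖) * ‖bb (normSq (ν i) * y) (4 / 3)‖)
    (hb : ∀ y : ℝ, 0 < y →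
      Summable fun i => ‖b i‖ * (1 + ‖ν' i‖) * ‖bb (normSq (ν' i) * y) (4 / 3)‖)
    (g : SL(2, ℂ)) (hc : g 1 0 ≠ 0)
    (h : ∀ w : Hs, ∑' i, a i * ph (ν i) (act g w) = ∑' i, b i * ph (ν' i) w) {X : ℝ} (hX : 0 < X) :
    ∑' i, a i * (vk (ν i) X⁻¹ * psi (ν i * g 0 0 / g 1 0)) =
      g 1 0 / conj (g 1 0) * ((X / (3 * normSq (g 1 0)) : ℝ) : ℂ) *
        ∑' i, b i * (vk (conj (ν' i)) (X / (3 * normSq (g 1 0)) ^ 2) *
          psi (-(ν' i * g 1 1 / g 1 0))) := by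

  have hNc := normSq_pos.2 hc
  have hc'' : conj (g 1 0) ≠ 0 := by simpa using hc
  set v : ℝ := √(X / (3 * normSq (g 1 0) ^ 2)) with hvdef
  have hv : 0 < v := Real.sqrt_pos.2 (by positivity)
  have hv2 : v ^ 2 = X / (3 * normSq (g 1 0) ^ 2) := Real.sq_sqrt (by positivity)
  have key := bv1_key ha hb g hc h (Real.log v)
  rw [Real.exp_log hv] at key
  have h23 : ∀ u : ℝ, 0 < u → u ^ (2 / 3 : ℝ) = (u ^ 2) ^ (1 / 3 : ℝ) := by
    intro u hu
    rw [← Real.rpow_natCast, ← Real.rpow_mul hu.le]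
    norm_num
  have hA : ∀ i, a i * (vk (ν i) X⁻¹ * psi (ν i * g 0 0 / g 1 0)) =
      ((((3 : ℝ)⁻¹) ^ (1 / 3 : ℝ) : ℝ) : ℂ) *
        (a i * ph (ν i) (g 0 0 / g 1 0, -Real.log (normSq (g 1 0) * v)) * ν i) := by
    intro n
    have e1 : ht (g 0 0 / g 1 0, -Real.log (normSq (g 1 0) * v)) ^ 2 = 3 / X := by
      unfold ht
      simp only
      rw [Real.exp_neg, Real.exp_log (by positivity), inv_pow, mul_pow, hv2]
      field_simp
    have e3 : (X⁻¹) ^ (1 / 3 : ℝ) = ((3 : ℝ)⁻¹) ^ (1 / 3 : ℝ) * (3 / X) ^ (1 / 3 : ℝ) := by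
      rw [← Real.mul_rpow (by positivity) (by positivity)]
      congr 1
      field_simp
    unfold ph vk
    rw [h23 _ (ht_pos _), e1, show normSq (ν n) * (3 / X) / 3 = normSq (ν n) * X⁻¹ by field_simp,
      e3, Complex.ofReal_mul, mul_div_assoc (ν n)]
    ring
  have hB : ∀ i, b i * (vk (conj (ν' i)) (X / (3 * normSq (g 1 0)) ^ 2) *
      psi (-(ν' i * g 1 1 / g 1 0))) = ((((3 : ℝ)⁻¹) ^ (1 / 3 : ℝ) : ℝ) : ℂ) *
        (b i * ph (ν' i) (-(g 1 1 / g 1 0), Real.log v) * conj (ν' i)) := by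
    intro n
    have e1 : ht (-(g 1 1 / g 1 0), Real.log v) ^ 2 = X / (3 * normSq (g 1 0) ^ 2) := by
      unfold ht
      simp only
      rw [Real.exp_log hv, hv2]
    have e3 : (X / (3 * normSq (g 1 0)) ^ 2) ^ (1 / 3 : ℝ) =
        ((3 : ℝ)⁻¹) ^ (1 / 3 : ℝ) * (X / (3 * normSq (g 1 0) ^ 2)) ^ (1 / 3 : ℝ) := by
      rw [← Real.mul_rpow (by positivity) (by positivity)]
      congr 1
      field_simp
    unfold ph vk
    rw [h23 _ (ht_pos _), e1, normSq_conj, show normSq (ν' n) * (X / (3 * normSq (g 1 0) ^ 2)) / 3 =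
      normSq (ν' n) * (X / (3 * normSq (g 1 0)) ^ 2) by field_simp, e3, Complex.ofReal_mul,
      mul_div_assoc (ν' n), ← mul_neg]
    ring
  simp only [hA, hB]
  rw [tsum_mul_left, tsum_mul_left, ← key, hv2]
  have hX' : (X : ℂ) ≠ 0 := by exact_mod_cast hX.ne'
  have hN' : ((normSq (g 1 0) : ℝ) : ℂ) ≠ 0 := by exact_mod_cast hNc.ne'
  push_cast
  field_simp

end

end Vale.Agent.P319N
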