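import Vale.Agent.P319N.BD
import Vale.Agent.P026.VorW

namespace Vale.Agent.P319N

open NumberField Complex MeasureTheory Filter Topology
open scoped Classical ComplexConjugate Real MatrixGroups
open Vale.Agent.P026 (omC kap psi W Hs ht QQ act uu muH hh LL Gs bb kk UU DualW)

noncomputable section

variable {ι : Type} [Fintype ι]


open Vale.Agent.P026 (vw_k vw_R vw_g vw_pi vw_pi1 vw_pi0 vw_R_mul vw_k_diff vw_k_le vw_g_int
  vw_g_integral vw_g_lim vw_cpow_le vw_cpow_diff kk_mellin wb_cpow shift_strip gamB_line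
  inv_Gamma_le W_inv_mellin)

theorem bvh_int {s : ℂ} (hs : -(1 / 3) < s.re) :
    Integrable (fun y : ℝ => Complex.exp (s * y) * kk (Real.exp y)) ∧
      ∫ y : ℝ, Complex.exp (s * y) * kk (Real.exp y) = vw_k s := by
  obtain ⟨h1, h2⟩ := kk_mellin hs
  have e : ∀ u : ℝ, |Real.exp u| • ((Real.exp u : ℂ) ^ (s - 1) • kk (Real.exp u)) =
      Complex.exp (s * u) * kk (Real.exp u) := fun u => by
    rw [abs_of_pos (Real.exp_pos u), wb_cpow (Real.exp_pos u), Real.log_exp, real_smul,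
      smul_eq_mul, ofReal_exp, ← mul_assoc, ← Complex.exp_add]
    congr 2; ring
  constructor
  · rw [MellinConvergent, ← Real.range_exp, ← Set.image_univ,
      integrableOn_image_iff_integrableOn_abs_deriv_smul MeasurableSet.univ
      (fun x _ => (Real.hasDerivAt_exp x).hasDerivWithinAt) Real.exp_injective.injOn,
      integrableOn_univ] at h1
    simpa only [e] using h1
  · rw [mellin, ← Real.range_exp, ← Set.image_univ, integral_image_eq_integral_abs_deriv_smul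
      MeasurableSet.univ (fun x _ => (Real.hasDerivAt_exp x).hasDerivWithinAt)
      Real.exp_injective.injOn, Measure.restrict_univ] at h2
    simpa only [e, vw_k] using h2

theorem integrable_kk_exp {a : ℝ} (ha : -(1 / 3) < a) :
    Integrable fun y : ℝ => Real.exp (a * y) * ‖kk (Real.exp y)‖ := by

  refine (bvh_int (s := a) (by simpa using ha)).1.norm.congr (ae_of_all _ fun y => ?_)
  simp [Complex.norm_exp]

def bvhG (r : ℕ) (w s : ℂ) : ℂ :=
  1 / (2 * π) * ((√π : ℝ) * Complex.exp ((s + w) ^ 2 / 4)) * vw_R s ^ r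
def bvhM (r : ℕ) (w s : ℂ) : ℂ := bvhG r w (1 - s) * vw_k s ^ r

theorem bvh_G_diff (r : ℕ) (w : ℂ) : Differentiable ℂ (bvhG r w) := by
  have h := Complex.differentiable_one_div_Gamma
  refine Differentiable.mul (by fun_prop) (((Differentiable.mul (Differentiable.const_mul
    (Differentiable.const_cpow (by fun_prop) (Or.inl vw_pi0)) _)
    (h.comp (f := fun s => s + 1 / 3) (by fun_prop))).mul
    (h.comp (f := fun s => s + 2 / 3) (by fun_prop))).pow r)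

theorem bvh_R_le (σ0 : ℝ) : ∃ A : ℝ, 0 < A ∧ ∀ s : ℂ, |s.re| ≤ σ0 →
    ‖vw_R s‖ ≤ A * Real.exp (2 * π * |s.im|) := by
  obtain ⟨C, hC, h⟩ := inv_Gamma_le (-σ0) (σ0 + 1)
  refine ⟨(‖(π / Complex.Gamma (4 / 3))⁻¹‖ + 1) * (4 * π ^ 2) ^ (σ0 + 1) * C * C, by positivity,
    fun s hs => ?_⟩
  obtain ⟨h1, h2⟩ := abs_le.1 hs
  have hR : ‖vw_R s‖ ≤ (‖(π / Complex.Gamma (4 / 3))⁻¹‖ + 1) * (4 * π ^ 2) ^ (σ0 + 1) *
      (C * Real.exp (π * |s.im|)) * (C * Real.exp (π * |s.im|)) := by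
    rw [vw_R, norm_mul, norm_mul, norm_mul, vw_pi, norm_cpow_eq_rpow_re_of_pos (by positivity)]
    gcongr
    · linarith
    · exact vw_pi1
    · simp; linarith
    · simpa using h (s + 1 / 3) (by simp; linarith) (by simp; linarith)
    · simpa using h (s + 2 / 3) (by simp; linarith) (by simp; linarith)
  refine hR.trans_eq ?_
  rw [show 2 * π * |s.im| = π * |s.im| + π * |s.im| by ring, Real.exp_add]; ring

theorem bvh_G_le (r : ℕ) (R0 σ0 : ℝ) : ∃ K : ℝ, 0 < K ∧ ∀ w : ℂ, |w.re| ≤ R0 → ∀ s : ℂ,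
    |s.re| ≤ σ0 → ‖bvhG r w s‖ ≤ K * Real.exp (2 * π * r * |w.im|) * vw_g w.im s.im := by
  obtain ⟨A, hA, h⟩ := bvh_R_le σ0
  set c : ℝ := 2 * π * r with hc
  have c0 : 0 ≤ c := by positivity
  refine ⟨(‖1 / (2 * π : ℂ)‖ + 1) * √π * A ^ r * Real.exp ((σ0 + R0) ^ 2 / 4 + 2 * c ^ 2),
    by positivity, fun w hw s hs => ?_⟩
  have hR : ‖vw_R s ^ r‖ ≤ A ^ r * Real.exp (c * |s.im|) := by
    rw [norm_pow]
    refine (pow_le_pow_left₀ (norm_nonneg _) (h s hs) r).trans_eq ?_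
    rw [mul_pow, ← Real.exp_nat_mul, hc]; congr 2; ring
  have hE : ‖Complex.exp ((s + w) ^ 2 / 4)‖ * Real.exp (c * |s.im|) ≤
      Real.exp ((σ0 + R0) ^ 2 / 4 + 2 * c ^ 2) * Real.exp (c * |w.im|) * vw_g w.im s.im := by
    have e : ((s + w) ^ 2 / 4 : ℂ).re = ((s.re + w.re) ^ 2 - (s.im + w.im) ^ 2) / 4 := by
      simp [sq]
    rw [norm_exp, vw_g, ← Real.exp_add, ← Real.exp_add, ← Real.exp_add, Real.exp_le_exp, e]
    have k1 : (s.re + w.re) ^ 2 ≤ (σ0 + R0) ^ 2 :=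
      sq_le_sq' (by linarith [abs_le.1 hw, abs_le.1 hs]) (by linarith [abs_le.1 hw, abs_le.1 hs])
    have k2 : |s.im| ≤ |s.im + w.im| + |w.im| := by simpa using abs_sub (s.im + w.im) w.im
    have k3 := mul_le_mul_of_nonneg_left k2 c0
    nlinarith [sq_nonneg (|s.im + w.im| - 4 * c), sq_abs (s.im + w.im)]
  rw [bvhG, norm_mul, norm_mul, norm_mul, norm_real, Real.norm_of_nonneg (Real.sqrt_nonneg _)]
  calc _ ≤ (‖1 / (2 * π : ℂ)‖ + 1) * (√π * ‖Complex.exp ((s + w) ^ 2 / 4)‖) *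
        (A ^ r * Real.exp (c * |s.im|)) := by gcongr; linarith
    _ = (‖1 / (2 * π : ℂ)‖ + 1) * √π * A ^ r *
        (‖Complex.exp ((s + w) ^ 2 / 4)‖ * Real.exp (c * |s.im|)) := by ring
    _ ≤ (‖1 / (2 * π : ℂ)‖ + 1) * √π * A ^ r * (Real.exp ((σ0 + R0) ^ 2 / 4 + 2 * c ^ 2) *
        Real.exp (c * |w.im|) * vw_g w.im s.im) := by gcongr
    _ = _ := by ring

theorem bvh_G_int (r : ℕ) (w : ℂ) (σ : ℝ) :
    Integrable fun τ : ℝ => bvhG r w (σ + τ * Complex.I) := by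
  obtain ⟨K, -, h⟩ := bvh_G_le r |w.re| |σ|
  exact gamB_line (fun s _ => bvh_G_diff r w s) ((vw_g_int w.im).const_mul _)
    fun s hs => h w le_rfl s (by rw [hs])

/-- the kernel on the line `re s = σ` -/
def bvhH (r : ℕ) (w : ℂ) (σ t : ℝ) : ℂ :=
  ∫ τ : ℝ, bvhG r w (σ + τ * Complex.I) * Complex.exp (-((σ + τ * Complex.I) * t))

theorem bvh_shift (r : ℕ) (w : ℂ) {a b : ℝ} (hab : a ≤ b) (t : ℝ) :
    bvhH r w a t = bvhH r w b t := by
  obtain ⟨K, hK, h⟩ := bvh_G_le r |w.re| (max |a| |b|)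
  refine shift_strip (F := fun s => bvhG r w s * Complex.exp (-(s * t))) hab
    (fun s _ _ => (bvh_G_diff r w s).mul (by fun_prop))
    (((vw_g_int w.im).const_mul (K * Real.exp (2 * π * r * |w.im|))).mul_const
      (Real.exp (max |a| |b| * |t|)))
    (by simpa using ((vw_g_lim w.im).const_mul _).mul_const _) fun s k1 k2 => ?_
  have k := abs_le_max_abs_abs k1 k2
  rw [norm_mul]
  refine mul_le_mul (h w le_rfl s k) ?_ (norm_nonneg _) ((norm_nonneg _).trans (h w le_rfl s k))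
  rw [norm_exp, Real.exp_le_exp]
  refine (le_abs_self _).trans ?_
  simp only [neg_re, mul_re, ofReal_re, ofReal_im, mul_zero, sub_zero, abs_neg, abs_mul]
  gcongr

theorem bvh_H_le (r : ℕ) (w : ℂ) (σ t : ℝ) : ‖bvhH r w σ t‖ ≤
    (∫ τ : ℝ, ‖bvhG r w (σ + τ * Complex.I)‖) * Real.exp (-(σ * t)) := by
  rw [← integral_mul_const]
  refine (norm_integral_le_integral_norm _).trans_eq (integral_congr_ae (ae_of_all _ fun τ => ?_))
  simp [Complex.norm_exp]

theorem bvh_decay (r : ℕ) (w : ℂ) (a : ℝ) :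
    ∃ B : ℝ, ∀ t, ‖bvhH r w 0 t‖ ≤ B * Real.exp (-(a * |t|)) := by
  set B1 := ∫ τ : ℝ, ‖bvhG r w ((|a| : ℝ) + τ * Complex.I)‖
  set B2 := ∫ τ : ℝ, ‖bvhG r w ((-|a| : ℝ) + τ * Complex.I)‖
  have b1 : 0 ≤ B1 := integral_nonneg fun _ => norm_nonneg _
  have b2 : 0 ≤ B2 := integral_nonneg fun _ => norm_nonneg _
  refine ⟨B1 + B2, fun t => ?_⟩
  have e : Real.exp (-(|a| * |t|)) ≤ Real.exp (-(a * |t|)) := by
    gcongr; exact le_abs_self a
  rcases le_total 0 t with ht | ht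
  · rw [bvh_shift r w (abs_nonneg a)]
    refine (bvh_H_le r w _ t).trans (mul_le_mul (by linarith) ?_ (by positivity) (by positivity))
    rwa [abs_of_nonneg ht] at e ⊢
  · rw [← bvh_shift r w (neg_nonpos.2 (abs_nonneg a))]
    refine (bvh_H_le r w _ t).trans (mul_le_mul (by linarith) ?_ (by positivity) (by positivity))
    rw [abs_of_nonpos ht] at e ⊢
    rwa [neg_mul_comm]

theorem bvh_H0 (r : ℕ) (w : ℂ) (t : ℝ) : bvhH r w 0 t =
    ∫ τ : ℝ, bvhG r w (τ * Complex.I) * Complex.exp (-(τ * Complex.I * t)) := by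
  simp [bvhH]

theorem bvh_G0 (r : ℕ) (w : ℂ) : Integrable fun τ : ℝ => bvhG r w (τ * Complex.I) := by
  simpa using bvh_G_int r w 0

theorem bvh_cont (r : ℕ) (w : ℂ) : Continuous (bvhH r w 0) := by
  rw [show bvhH r w 0 = _ from funext (bvh_H0 r w)]
  refine continuous_of_dominated (bound := fun τ : ℝ => ‖bvhG r w (τ * Complex.I)‖)
    (fun t => (bvh_G0 r w).1.mul (Continuous.aestronglyMeasurable (by fun_prop)))
    (fun t => ae_of_all _ fun τ => ?_) (bvh_G0 r w).norm (ae_of_all _ fun τ => by fun_prop)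
  simp [Complex.norm_exp]

theorem bvh_fub {m : ℝ → ℂ} (hm : Integrable m) {f : ι → ℝ → ℂ} (hf : ∀ σ, Integrable (f σ)) :
    ∫ y : ι → ℝ, (∫ τ : ℝ, m τ * Complex.exp (-(τ * Complex.I * ((∑ σ, y σ : ℝ) : ℂ)))) *
      ∏ σ, f σ (y σ) =
      ∫ τ : ℝ, m τ * ∏ σ, ∫ u : ℝ, Complex.exp (-(τ * Complex.I * u)) * f σ u := by
  have i1 : Integrable (fun y : ι → ℝ => ∏ σ, f σ (y σ)) := Integrable.fintype_prod hf
  have i2 : Integrable (fun z : (ι → ℝ) × ℝ => (∏ σ, f σ (z.1 σ)) * m z.2 *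
      Complex.exp (-(z.2 * Complex.I * ((∑ σ, z.1 σ : ℝ) : ℂ)))) (volume.prod volume) :=
    (i1.mul_prod hm).mul_bdd (c := 1) (Continuous.aestronglyMeasurable (by fun_prop))
      (ae_of_all _ fun z => by rw [norm_exp]; simp [-ofReal_sum])
  have := integral_integral_swap (f := fun (y : ι → ℝ) (τ : ℝ) => (∏ σ, f σ (y σ)) * m τ *
      Complex.exp (-(τ * Complex.I * ((∑ σ, y σ : ℝ) : ℂ)))) i2
  refine Eq.trans (integral_congr_ae (ae_of_all _ fun y => ?_))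
    (this.trans (integral_congr_ae (ae_of_all _ fun τ => ?_)))
  · simp only [mul_assoc (∏ σ, f σ (y σ))]
    rw [integral_const_mul, mul_comm]
  · simp only
    rw [← integral_fintype_prod_volume_eq_prod, ← integral_const_mul]
    refine integral_congr_ae (ae_of_all _ fun y => ?_)
    simp only
    rw [Finset.prod_mul_distrib, ← Complex.exp_sum, Finset.sum_neg_distrib, ← Finset.mul_sum,
      ofReal_sum]
    ring

theorem bvh_one {s : ℂ} (hs : -(1 / 3) < s.re) (p : ℝ) :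
    ∫ u : ℝ, Complex.exp (-(s * u)) * kk (Real.exp (p - u)) = Complex.exp (-(s * p)) * vw_k s := by
  rw [← (bvh_int hs).2, ← integral_sub_left_eq_self
    (fun y : ℝ => Complex.exp (s * y) * kk (Real.exp y)) volume p, ← integral_const_mul]
  refine integral_congr_ae (ae_of_all _ fun u => ?_)
  simp only
  rw [← mul_assoc, ← Complex.exp_add]
  congr 2; push_cast; ring

theorem bvh_two {s : ℂ} (hs : -(1 / 3) < s.re) (p : ℝ) :
    ∫ u : ℝ, Complex.exp (s * u) * kk (Real.exp (p + u)) = Complex.exp (-(s * p)) * vw_k s := by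
  rw [← (bvh_int hs).2, ← integral_add_left_eq_self
    (fun y : ℝ => Complex.exp (s * y) * kk (Real.exp y)) p, ← integral_const_mul]
  refine integral_congr_ae (ae_of_all _ fun u => ?_)
  simp only
  rw [← mul_assoc, ← Complex.exp_add]
  congr 2; push_cast; ring

theorem bvh_prod (s : ℂ) (p : ι → ℝ) (c : ℂ) : ∏ σ, Complex.exp (-(s * p σ)) * c =
    ((Real.exp (∑ σ, p σ) : ℝ) : ℂ) ^ (-s) * c ^ Fintype.card ι := by
  rw [Finset.prod_mul_distrib, Finset.prod_const, Finset.card_univ, ← Complex.exp_sum,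
    wb_cpow (Real.exp_pos _), Real.log_exp, Finset.sum_neg_distrib, ← Finset.mul_sum, ofReal_sum]
  congr 2; ring

theorem bvh_first (w : ℂ) (p : ι → ℝ) :
    ∫ y : ι → ℝ, bvhH (Fintype.card ι) w 0 (∑ σ, y σ) * ∏ σ, kk (Real.exp (p σ - y σ)) =
      W w (Real.exp (∑ σ, p σ)) := by
  simp only [bvh_H0]
  rw [bvh_fub (bvh_G0 _ w) (f := fun σ u => kk (Real.exp (p σ - u))) fun σ => by
    simpa using (bvh_int (s := 0) (by simp)).1.comp_sub_left (p σ),
    W_inv_mellin w 0 (Real.exp_pos _), ← integral_const_mul]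
  refine integral_congr_ae (ae_of_all _ fun τ => ?_)
  have k := vw_R_mul (s := τ * Complex.I) (by simp)
  simp only [bvh_one (s := τ * Complex.I) (by simp), bvh_prod, bvhG, ofReal_zero, zero_add]
  rw [mul_mul_mul_comm, ← mul_pow, k, one_pow, mul_one, mul_assoc]

theorem bvh_second (w : ℂ) (p : ι → ℝ) :
    ∫ y : ι → ℝ, bvhH (Fintype.card ι) w 0 (∑ σ, y σ) * ((Real.exp (∑ σ, y σ) : ℝ) : ℂ) *
      ∏ σ, kk (Real.exp (p σ + y σ)) = ∫ τ : ℝ, bvhM (Fintype.card ι) w ((1 : ℝ) + τ * Complex.I) *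
        ((Real.exp (∑ σ, p σ) : ℝ) : ℂ) ^ (-((1 : ℝ) + τ * Complex.I)) := by
  have e : ∀ y : ι → ℝ, ((Real.exp (∑ σ, y σ) : ℝ) : ℂ) * ∏ σ, kk (Real.exp (p σ + y σ)) =
      ∏ σ, Complex.exp (y σ) * kk (Real.exp (p σ + y σ)) := fun y => by
    rw [Finset.prod_mul_distrib, ← Complex.exp_sum]; push_cast; rfl
  simp only [bvh_H0, mul_assoc _ ((Real.exp _ : ℝ) : ℂ), e]
  rw [bvh_fub (bvh_G0 _ w) (f := fun σ u => Complex.exp u * kk (Real.exp (p σ + u))) fun σ => by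
    refine (((bvh_int (s := 1) (by norm_num)).1.comp_add_left (p σ)).const_mul
      (Complex.exp (-p σ))).congr (ae_of_all _ fun u => ?_)
    simp only
    rw [← mul_assoc, ← Complex.exp_add]
    congr 2; push_cast; ring, ← integral_neg_eq_self]
  refine integral_congr_ae (ae_of_all _ fun τ => ?_)
  have e1 : ∀ q : ℝ, ∫ u : ℝ, Complex.exp (-(((-τ : ℝ) : ℂ) * Complex.I * u)) *
      (Complex.exp u * kk (Real.exp (q + u))) =
      Complex.exp (-((((1 : ℝ) : ℂ) + τ * Complex.I) * q)) * vw_k ((1 : ℝ) + τ * Complex.I) := by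
    intro q
    rw [← bvh_two (by norm_num)]
    refine integral_congr_ae (ae_of_all _ fun u => ?_)
    simp only
    rw [← mul_assoc, ← Complex.exp_add]
    congr 2; push_cast; ring
  simp only [e1, bvh_prod, bvhM]
  rw [show ((-τ : ℝ) : ℂ) * Complex.I = 1 - (((1 : ℝ) : ℂ) + τ * Complex.I) by push_cast; ring]
  ring

theorem bvh_M_diff (r : ℕ) (w : ℂ) {s : ℂ} (hs : 0 ≤ s.re) : DifferentiableAt ℂ (bvhM r w) s :=
  ((bvh_G_diff r w _).comp s (f := fun s => 1 - s) (by fun_prop)).mul ((vw_k_diff hs).pow r)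

theorem bvh_M_le (r : ℕ) (R0 : ℝ) : ∃ K : ℝ, 0 < K ∧ ∀ w : ℂ, |w.re| ≤ R0 → ∀ s : ℂ, 0 ≤ s.re →
    s.re ≤ 3 → ‖bvhM r w s‖ ≤ K * Real.exp (2 * π * r * |w.im|) * vw_g (-w.im) s.im := by
  obtain ⟨K, hK, h⟩ := bvh_G_le r R0 2
  obtain ⟨K', hK', h'⟩ := vw_k_le
  refine ⟨K' ^ r * K, by positivity, fun w hw s h1 h2 => ?_⟩
  have e : vw_g (-w.im) s.im = vw_g w.im (1 - s).im := by simp [vw_g]; ring
  rw [bvhM, norm_mul, mul_comm, mul_assoc (K' ^ r), mul_assoc (K' ^ r), e, norm_pow]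
  exact mul_le_mul (pow_le_pow_left₀ (norm_nonneg _) (h' s h1 h2) r)
    (h w hw _ (abs_le.2 ⟨by simp; linarith, by simp; linarith⟩)) (norm_nonneg _) (by positivity)

theorem exists_H (ι : Type) [Fintype ι] (R0 : ℝ) : ∃ C : ℝ, 0 < C ∧ ∀ w : ℂ, |w.re| ≤ R0 →
    ∃ (H : ℝ → ℂ) (Wst : ℝ → ℂ), Continuous H ∧
      (∀ a : ℝ, ∃ B : ℝ, ∀ t, ‖H t‖ ≤ B * Real.exp (-(a * |t|))) ∧
      DualW Wst (C * Real.exp (C * |w.im|)) ∧
      (∀ p : ι → ℝ, Nonempty ι → ∫ y : ι → ℝ, H (∑ σ, y σ) * ∏ σ, kk (Real.exp (p σ - y σ)) =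
        W w (Real.exp (∑ σ, p σ))) ∧
      ∀ p : ι → ℝ, ∫ y : ι → ℝ, H (∑ σ, y σ) * ((Real.exp (∑ σ, y σ) : ℝ) : ℂ) *
        ∏ σ, kk (Real.exp (p σ + y σ)) = Wst (Real.exp (∑ σ, p σ)) := by

  set r := Fintype.card ι with hr
  obtain ⟨K, hK, hM⟩ := bvh_M_le r R0
  have hI : 0 ≤ ∫ τ, vw_g 0 τ := integral_nonneg fun τ => (Real.exp_pos _).le
  refine ⟨K * (∫ τ, vw_g 0 τ) + 2 * π * r + 1, by positivity, fun w hw => ⟨bvhH r w 0,
    fun x => ∫ τ : ℝ, bvhM r w ((1 : ℝ) + τ * Complex.I) * (x : ℂ) ^ (-((1 : ℝ) + τ * Complex.I)),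
    bvh_cont r w, bvh_decay r w, ⟨?_⟩, fun p _ => bvh_first w p, bvh_second w⟩⟩
  have hg := (vw_g_int (-w.im)).const_mul (K * Real.exp (2 * π * r * |w.im|))
  have key : ∀ σ : ℝ, 0 ≤ σ → σ ≤ 3 → Integrable (fun τ : ℝ => bvhM r w (σ + τ * Complex.I)) ∧
      ∫ τ : ℝ, ‖bvhM r w (σ + τ * Complex.I)‖ ≤ (K * (∫ τ, vw_g 0 τ) + 2 * π * r + 1) *
        Real.exp ((K * (∫ τ, vw_g 0 τ) + 2 * π * r + 1) * |w.im|) := fun σ h1 h2 => by
    have i := gamB_line (c := σ) (fun s h => bvh_M_diff r w (h ▸ h1)) hg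
      fun s h => hM w hw s (h ▸ h1) (h ▸ h2)
    refine ⟨i, (integral_mono i.norm hg fun τ => by
      simpa using hM w hw (σ + τ * Complex.I) (by simpa) (by simpa)).trans ?_⟩
    rw [integral_const_mul, vw_g_integral, mul_right_comm]
    have := mul_nonneg hK.le hI
    have : (0 : ℝ) ≤ 2 * π * r := by positivity
    gcongr <;> linarith
  have sh : ∀ x : ℝ, 0 < x → ∀ a b : ℝ, 0 ≤ a → a ≤ b → b ≤ 3 →
      ∫ τ : ℝ, bvhM r w (a + τ * Complex.I) * (x : ℂ) ^ (-(a + τ * Complex.I)) =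
        ∫ τ : ℝ, bvhM r w (b + τ * Complex.I) * (x : ℂ) ^ (-(b + τ * Complex.I)) :=
    fun x hx a b ha hab hb => shift_strip (F := fun s => bvhM r w s * (x : ℂ) ^ (-s)) hab
      (fun s k1 _ => (bvh_M_diff r w (ha.trans k1)).mul (vw_cpow_diff hx s))
      (hg.mul_const (x ^ (-a) + x ^ (-b)))
      (by simpa using ((vw_g_lim (-w.im)).const_mul _).mul_const _) fun s k1 k2 => by
        rw [norm_mul]
        exact mul_le_mul (hM w hw s (ha.trans k1) (k2.trans hb)) (vw_cpow_le hx k1 k2)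
          (norm_nonneg _) ((norm_nonneg _).trans (hM w hw s (ha.trans k1) (k2.trans hb)))
  refine ⟨_, _, (key 0 le_rfl (by norm_num)).1, (key 3 (by norm_num) le_rfl).1,
    (key 0 le_rfl (by norm_num)).2, (key 3 (by norm_num) le_rfl).2, fun x hx => ⟨?_, ?_⟩⟩
  · simpa using (sh x hx 0 1 le_rfl (by norm_num) (by norm_num)).symm
  · simpa using sh x hx 1 3 (by norm_num) (by norm_num) le_rfl

end

end Vale.Agent.P319N
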