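import Vale.Agent.P319N.BVor1

namespace Vale.Agent.P319N

open NumberField Complex MeasureTheory Filter Topology
open scoped Classical ComplexConjugate Real MatrixGroups
open Vale.Agent.P026 (omC kap psi W Hs ht QQ act uu muH hh LL Gs bb kk UU DualW)

noncomputable section

variable {ι : Type} [Fintype ι]


open Vale.Agent.P026 (norm_psi ht_pos)

/-- rapid decay -/
def bvmDec (f : ℂ → ℂ) : Prop := ∀ k : ℕ, ∃ C : ℝ, 0 ≤ C ∧ ∀ z, ‖f z‖ ≤ C / (1 + ‖z‖) ^ k

theorem bvm_dec {f : ℂ → ℂ} {B y : ℝ} (hB : 0 ≤ B) (hy : 0 < y)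
    (h : ∀ z, ‖f z‖ ≤ B * (1 + ‖z‖) * ‖bb (normSq z * y) (4 / 3)‖) : bvmDec f := fun k => by
  obtain ⟨C, hC, hb⟩ := bb_poly (k + 1) hy
  refine ⟨B * C, by positivity, fun z => (h z).trans
    ((mul_le_mul_of_nonneg_left (hb z y le_rfl) (by positivity)).trans_eq ?_)⟩
  have : 0 < 1 + ‖z‖ := by positivity
  rw [pow_succ]; field_simp

theorem bvm_ph (w : Hs) : bvmDec fun z => ph z w := by
  have h0 := ht_pos w
  refine bvm_dec (B := ht w ^ (2 / 3 : ℝ)) (y := ht w ^ 2 / 3) (by positivity) (by positivity)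
    fun z => ?_
  rw [ph, norm_mul, norm_mul, norm_psi, mul_one, Complex.norm_real,
    Real.norm_of_nonneg (by positivity), mul_div_assoc]
  gcongr
  exact le_mul_of_one_le_right (by positivity) (by simp)

theorem bvm_vk {y : ℝ} (hy : 0 < y) {u : ℂ → ℂ} (hu : ∀ z, ‖u z‖ = ‖z‖) (p : ℂ → ℂ) :
    bvmDec fun z => vk (u z) y * psi (p z) := by
  refine bvm_dec (B := y ^ (1 / 3 : ℝ)) (by positivity) hy fun z => ?_
  rw [vk, norm_mul, norm_mul, norm_mul, norm_psi, mul_one, Complex.norm_real,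
    Real.norm_of_nonneg (by positivity), Complex.normSq_eq_norm_sq, hu,
    ← Complex.normSq_eq_norm_sq, mul_comm ‖z‖]
  gcongr
  linarith

theorem bvm_summ {I : Type} {a : I → ℂ} {ν : I → ι → ℂ} (ha : PolyS a ν) {f : ι → ℂ → ℂ}
    (hf : ∀ σ, bvmDec (f σ)) : Summable fun i => ‖a i * ∏ σ, f σ (ν i σ)‖ := by
  obtain ⟨k, hk⟩ := ha
  choose C hC h using fun σ => hf σ k
  have c0 : 0 ≤ ∏ σ, C σ := Finset.prod_nonneg fun σ _ => hC σ
  refine Summable.of_nonneg_of_le (fun _ => norm_nonneg _) (fun i => ?_) (hk.mul_right (∏ σ, C σ))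
  rw [norm_mul, norm_prod, div_mul_eq_mul_div, mul_div_assoc]
  refine mul_le_mul_of_nonneg_left ((Finset.prod_le_prod (fun _ _ => norm_nonneg _)
    fun σ _ => h σ _).trans ?_) (norm_nonneg _)
  rw [Finset.prod_div_distrib, Finset.prod_pow]
  exact div_le_div_of_nonneg_left c0 (by positivity)
    (pow_le_pow_left₀ (by positivity) (one_add_norm_le_prod _) k)

theorem bvm_hyp {I : Type} {a : I → ℂ} {ν : I → ι → ℂ} (ha : PolyS a ν) {f : ι → ℂ → ℂ}
    (hf : ∀ σ, bvmDec (f σ)) (σ0 : ι) (y : ℝ) (hy : 0 < y) :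
    Summable fun i => ‖a i * ∏ σ ∈ Finset.univ.erase σ0, f σ (ν i σ)‖ * (1 + ‖ν i σ0‖) *
      ‖bb (normSq (ν i σ0) * y) (4 / 3)‖ := by
  refine (bvm_summ ha (f := fun σ z => if σ = σ0 then
    ((1 + ‖z‖ : ℝ) : ℂ) * bb (normSq z * y) (4 / 3) else f σ z) fun σ => ?_).congr fun i => ?_
  · by_cases h : σ = σ0
    · simp only [if_pos h]
      exact bvm_dec zero_le_one hy fun z => by
        rw [norm_mul, Complex.norm_real, Real.norm_of_nonneg (by positivity), one_mul]
    · simpa only [if_neg h] using hf σ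
  · rw [← Finset.prod_erase_mul _ _ (Finset.mem_univ σ0), if_pos rfl, ← mul_assoc, norm_mul,
      norm_mul _ (bb _ _), Complex.norm_real, Real.norm_of_nonneg (by positivity), ← mul_assoc,
      Finset.prod_congr rfl fun σ hσ => if_neg (Finset.ne_of_mem_erase hσ)]

theorem vorM {I I' : Type} {a : I → ℂ} {ν : I → ι → ℂ} {b : I' → ℂ} {ν' : I' → ι → ℂ}
    (ha : PolyS a ν) (hb : PolyS b ν') (g : ι → SL(2, ℂ)) (hc : ∀ σ, g σ 1 0 ≠ 0)
    (h : ∀ w : ι → Hs, ∑' i, a i * ∏ σ, ph (ν i σ) (act (g σ) (w σ)) =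
      ∑' i, b i * ∏ σ, ph (ν' i σ) (w σ)) (X : ι → ℝ) (hX : ∀ σ, 0 < X σ) :
    ∑' i, a i * ∏ σ, (vk (ν i σ) (X σ)⁻¹ * psi (ν i σ * g σ 0 0 / g σ 1 0)) =
      (∏ σ, g σ 1 0 / conj (g σ 1 0) * ((X σ / (3 * normSq (g σ 1 0)) : ℝ) : ℂ)) *
        ∑' i, b i * ∏ σ, (vk (conj (ν' i σ)) (X σ / (3 * normSq (g σ 1 0)) ^ 2) *
          psi (-(ν' i σ * g σ 1 1 / g σ 1 0))) := by

  set L : ι → ℂ → ℂ := fun σ z => vk z (X σ)⁻¹ * psi (z * g σ 0 0 / g σ 1 0) with hL
  set L' : ι → ℂ → ℂ := fun σ z => vk (conj z) (X σ / (3 * normSq (g σ 1 0)) ^ 2) *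
    psi (-(z * g σ 1 1 / g σ 1 0)) with hL'
  set c : ι → ℂ := fun σ => g σ 1 0 / conj (g σ 1 0) *
    ((X σ / (3 * normSq (g σ 1 0)) : ℝ) : ℂ) with hcd
  have key : ∀ S : Finset ι, ∀ w : ι → Hs,
      ∑' i, a i * ∏ σ, (if σ ∈ S then L σ (ν i σ) else ph (ν i σ) (act (g σ) (w σ))) =
        (∏ σ ∈ S, c σ) * ∑' i, b i * ∏ σ, (if σ ∈ S then L' σ (ν' i σ) else ph (ν' i σ) (w σ)) := by
    intro S
    induction S using Finset.induction_on with
    | empty => intro w; simpa using h w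
    | insert σ0 S h0 ih =>
      intro w
      set f : ι → ℂ → ℂ := fun σ z => if σ ∈ S then L σ z else ph z (act (g σ) (w σ)) with hf
      set f' : ι → ℂ → ℂ := fun σ z => if σ ∈ S then L' σ z else ph z (w σ) with hf'
      have d : ∀ σ, bvmDec (f σ) := fun σ => by
        by_cases k : σ ∈ S
        · simpa only [hf, if_pos k] using bvm_vk (inv_pos.2 (hX σ)) (u := fun z => z)
            (fun _ => rfl) _
        · simpa only [hf, if_neg k] using bvm_ph _
      have d' : ∀ σ, bvmDec (f' σ) := fun σ => by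
        have := normSq_pos.2 (hc σ)
        have := hX σ
        by_cases k : σ ∈ S
        · simpa only [hf', if_pos k] using bvm_vk (by positivity) (u := fun z => conj z)
            Complex.norm_conj _
        · simpa only [hf', if_neg k] using bvm_ph _
      have v := vor1 (a := fun i => a i * ∏ σ ∈ Finset.univ.erase σ0, f σ (ν i σ))
        (ν := fun i => ν i σ0)
        (b := fun i => (∏ σ ∈ S, c σ) * (b i * ∏ σ ∈ Finset.univ.erase σ0, f' σ (ν' i σ)))
        (ν' := fun i => ν' i σ0) (bvm_hyp ha d σ0)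
        (fun y hy => ((bvm_hyp hb d' σ0 y hy).mul_left ‖∏ σ ∈ S, c σ‖).congr fun i => by
          rw [norm_mul (∏ σ ∈ S, c σ)]; ring) (g σ0) (hc σ0) (fun w0 => ?_) (hX σ0)
      · have e : ∀ (u : ι → ℂ) (u' : ι → ℂ), ∏ σ, (if σ ∈ insert σ0 S then u σ else u' σ) =
            (∏ σ ∈ Finset.univ.erase σ0, if σ ∈ S then u σ else u' σ) * u σ0 := fun u u' => by
          rw [← Finset.prod_erase_mul _ _ (Finset.mem_univ σ0), if_pos (Finset.mem_insert_self _ _)]
          congr 1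
          exact Finset.prod_congr rfl fun σ hσ => by
            simp only [Finset.mem_insert, Finset.ne_of_mem_erase hσ, false_or]
        simp only [e, ← mul_assoc]
        refine v.trans ?_
        rw [Finset.prod_insert h0, mul_assoc (c σ0), ← tsum_mul_left (a := ∏ σ ∈ S, c σ)]
        simp only [mul_assoc, hcd, hf', hL']
      · have e : ∀ (u : ι → ℂ) (u' : ι → Hs → ℂ), ∏ σ, (if σ ∈ S then u σ else
            u' σ (Function.update w σ0 w0 σ)) =
            (∏ σ ∈ Finset.univ.erase σ0, if σ ∈ S then u σ else u' σ (w σ)) * u' σ0 w0 := by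
          intro u u'
          rw [← Finset.prod_erase_mul _ _ (Finset.mem_univ σ0), if_neg h0, Function.update_self]
          congr 1
          exact Finset.prod_congr rfl fun σ hσ => by
            rw [Function.update_of_ne (Finset.ne_of_mem_erase hσ)]
        have := ih (Function.update w σ0 w0)
        rw [tsum_congr fun i => by rw [e _ fun σ w => ph (ν i σ) (act (g σ) w)],
          tsum_congr (f := fun i => b i * _) fun i => by rw [e _ fun σ w => ph (ν' i σ) w],
          ← tsum_mul_left] at this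
        simpa only [mul_assoc] using this
  simpa only [Finset.mem_univ, if_true] using key Finset.univ fun _ => (0, 0)

end

end Vale.Agent.P319N
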