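import Vale.Agent.P319N.BVorH
import Vale.Agent.P319N.BRep
import Vale.Agent.P319N.BBox
import Vale.Agent.P319N.BQ

namespace Vale.Agent.P319N

open NumberField Complex MeasureTheory Filter Topology
open scoped Classical ComplexConjugate Real MatrixGroups
open Vale.Agent.P026 (omC kap psi W Hs ht QQ act uu muH hh LL Gs bb kk UU DualW)

noncomputable section

variable {K : Type} [Field K] [NumberField K] [Level K]

theorem bvu_int {h : ℝ → ℂ} (hc : Continuous h) {B : ℝ} (hB : ∀ t, ‖h t‖ ≤ B) {ε : ℝ}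
    (hε : ε ≠ 0) (p : Emb K → ℝ) :
    Integrable fun y : Emb K → ℝ => h (∑ σ, y σ) * ∏ σ, kk (Real.exp (p σ + ε * y σ)) := by
  have h1 : Integrable fun y : ℝ => kk (Real.exp y) := by
    simpa using (bvh_int (s := 0) (by simp)).1
  exact (Integrable.fintype_prod (f := fun σ x => kk (Real.exp (p σ + ε * x)))
    fun σ => (h1.comp_add_left (p σ)).comp_mul_left' hε).bdd_mul
      (Continuous.aestronglyMeasurable (by fun_prop)) (ae_of_all _ fun y => hB _)

theorem bvu_bound {h : ℝ → ℂ} (hd : ∀ c : ℝ, ∃ B : ℝ, ∀ t, ‖h t‖ ≤ B * Real.exp (-(c * |t|)))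
    {ε : ℝ} (hε : |ε| = 1) (p : Emb K → ℝ) (k : ℕ) : ∃ C : ℝ, ∀ (n : K), ∀ y ∈ DD K,
      ‖h (∑ σ, y σ) * ∏ σ : Emb K, kk (normSq (σ.1 n) * Real.exp (p σ + ε * y σ))‖ ≤
        C / (1 + ‖jj n‖) ^ k * Real.exp (-(1 * |∑ σ, y σ|)) := by
  obtain ⟨C, hC, hk⟩ := kk_poly k
  obtain ⟨D, hD, hb⟩ := DD_bal (K := K)
  obtain ⟨B, hB⟩ := hd (k * rk K + 1)
  have B0 : 0 ≤ B := by simpa using (norm_nonneg _).trans (hB 0)
  refine ⟨B * (C * (2 * Real.exp (‖p‖ + D)) ^ k) ^ rk K, fun n y hy => ?_⟩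
  have h1 : ∀ σ, 1 + (Real.exp (p σ + ε * y σ))⁻¹ ≤
      2 * Real.exp (‖p‖ + D) * Real.exp |∑ σ, y σ| := fun σ => by
    have a1 := bmu_bal (hb y hy) σ
    have a2 : |p σ| ≤ ‖p‖ := norm_le_pi_norm p σ
    have a3 : |ε * y σ| = |y σ| := by rw [abs_mul, hε, one_mul]
    have a4 := neg_abs_le (p σ)
    have a5 := neg_abs_le (ε * y σ)
    have a6 := abs_nonneg (∑ σ, y σ)
    rw [mul_assoc, ← Real.exp_add, ← Real.exp_neg, two_mul]
    exact add_le_add (Real.one_le_exp (by positivity)) (Real.exp_le_exp.2 (by linarith))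
  have h2 : ∏ σ : Emb K, ‖kk (normSq (σ.1 n) * Real.exp (p σ + ε * y σ))‖ ≤
      (C * (2 * Real.exp (‖p‖ + D) * Real.exp |∑ σ, y σ|) ^ k) ^ rk K / (1 + ‖jj n‖) ^ k := by
    refine (Finset.prod_le_prod (fun _ _ => norm_nonneg _) fun σ _ =>
      (hk _ _ (Real.exp_pos _)).trans (div_le_div_of_nonneg_right (mul_le_mul_of_nonneg_left
        (pow_le_pow_left₀ (by positivity) (h1 σ) k) hC.le) (by positivity))).trans ?_
    rw [Finset.prod_div_distrib, Finset.prod_pow, Finset.prod_const]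
    exact div_le_div_of_nonneg_left (by positivity) (by positivity)
      (pow_le_pow_left₀ (by positivity) (one_add_norm_le_prod (jj n)) k)
  rw [norm_mul, norm_prod]
  refine (mul_le_mul (hB _) h2 (Finset.prod_nonneg fun _ _ => norm_nonneg _)
    (by positivity)).trans (le_of_eq ?_)
  have e : Real.exp (-(1 * |∑ σ, y σ|)) = Real.exp (-((k * rk K + 1) * |∑ σ, y σ|)) *
      (Real.exp |∑ σ, y σ| ^ k) ^ rk K := by
    rw [← pow_mul, ← Real.exp_nat_mul, ← Real.exp_add]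
    congr 1
    push_cast
    ring
  rw [e, mul_pow (2 * _), ← mul_assoc C, mul_pow (C * _)]
  ring

theorem bvu_unfold {a : K → ℂ} (h0 : a 0 = 0) (hu : ∀ u ∈ U1 K, ∀ n, a ((u : K) * n) = a n)
    (ha : PolyS a jj) {h : ℝ → ℂ} (hc : Continuous h)
    (hd : ∀ c : ℝ, ∃ B : ℝ, ∀ t, ‖h t‖ ≤ B * Real.exp (-(c * |t|))) {ε : ℝ}
    (hε : ε = 1 ∨ ε = -1) (p : Emb K → ℝ) :
    ∫ y in DD K, h (∑ σ, y σ) *
        ∑' n : K, a n * ∏ σ : Emb K, kk (normSq (σ.1 n) * Real.exp (p σ + ε * y σ)) =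
      ∑' n : K, if Rep n then a n * ∫ y : Emb K → ℝ, h (∑ σ, y σ) *
        ∏ σ, kk (Real.exp (Lg n σ + p σ + ε * y σ)) else 0 := by
  have e1 : |ε| = 1 := by rcases hε with rfl | rfl <;> simp
  have e0 : ε ≠ 0 := fun c => by simp [c] at e1
  obtain ⟨k, hk⟩ := ha
  obtain ⟨C, hC⟩ := bvu_bound hd e1 p k
  obtain ⟨B, hB⟩ := hd 0
  obtain ⟨D, -, hD⟩ := DD_bal (K := K)
  simp only [zero_mul, neg_zero, Real.exp_zero, mul_one] at hB
  set G : K → (Emb K → ℝ) → ℂ := fun n y =>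
    h (∑ σ, y σ) * ∏ σ, kk (Real.exp (Lg n σ + p σ + ε * y σ)) with hG
  set f : K → (Emb K → ℝ) → ℂ := fun n y => a n * (h (∑ σ, y σ) *
    ∏ σ : Emb K, kk (normSq (σ.1 n) * Real.exp (p σ + ε * y σ))) with hf
  have iG : ∀ n, Integrable (G n) := fun n => bvu_int hc hB e0 (Lg n + p)
  have fG : ∀ n, f n = fun y => a n * G n y := fun n => by
    by_cases hn : n = 0
    · simp [hf, hn, h0]
    · simp only [hf, hG, add_assoc, Real.exp_add (Lg n _), exp_Lg hn]
  have i1 : ∀ n, IntegrableOn (f n) (DD K) := fun n =>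
    fG n ▸ ((iG n).const_mul _).integrableOn
  have i2 : IntegrableOn (fun y : Emb K → ℝ => Real.exp (-(1 * |∑ σ, y σ|))) (DD K) :=
    (integrableOn_bal D one_pos).mono_set hD
  have s1 : Summable fun n => ∫ y in DD K, ‖f n y‖ := by
    refine Summable.of_nonneg_of_le (fun n => integral_nonneg fun _ => norm_nonneg _) (fun n => ?_)
      (hk.mul_right (C * ∫ y in DD K, Real.exp (-(1 * |∑ σ, y σ|))))
    rw [← mul_assoc, ← integral_const_mul]
    refine setIntegral_mono_on (i1 n).norm (i2.const_mul _) (isFD_DD (K := K)).1 fun y hy => ?_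
    rw [hf, norm_mul]
    refine (mul_le_mul_of_nonneg_left (hC n y hy) (norm_nonneg _)).trans (le_of_eq ?_)
    ring
  have s2 := hasSum_integral_of_summable_integral_norm i1 s1
  have s3 : HasSum (fun n : {n : K // n ≠ 0} => ∫ y in DD K, f n y)
      (∫ y in DD K, ∑' n, f n y) :=
    (hasSum_subtype_iff_of_support_subset (s := {n | n ≠ 0}) fun n hn c => hn (by
      simp [hf, c, h0])).2 s2
  obtain ⟨e, he⟩ := rep_equiv (K := K)
  have s4 : ∀ n : {n : K // Rep n}, HasSum (fun u : U1 K => ∫ y in DD K, f (e (n, u)) y)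
      (a n * ∫ y, G n y) := fun n => by
    have t1 : HasSum (fun u : U1 K => ∫ y in DD K, G n (y + ε • Lg ((u : Kˣ) : K)))
        (∫ y, G n y) := by
      rcases hε with rfl | rfl
      · simpa only [one_smul] using hasSum_integral_DD (iG n)
      · have := (Equiv.inv (U1 K)).hasSum_iff.2 (hasSum_integral_DD (iG n))
        simpa [Function.comp_def, Lg_inv] using this
    refine (t1.mul_left (a n)).congr_fun fun u => ?_
    rw [he, fG, hu _ u.2, integral_const_mul]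
    congr 2
    funext y
    have t2 : ∑ σ, Lg ((u : Kˣ) : K) σ = 0 := by
      rw [bl_sum_Lg (Units.ne_zero _), U1_absN u.2, Real.log_one]
    have t3 : ε * ε = 1 := by rw [← abs_mul_abs_self, e1, one_mul]
    simp only [hG, bl_Lg_mul (Units.ne_zero (u : Kˣ)) n.2.1, Pi.add_apply, Pi.smul_apply,
      smul_eq_mul, Finset.sum_add_distrib, ← Finset.mul_sum, t2, mul_zero, add_zero, mul_add,
      ← mul_assoc, t3, one_mul]
    congr 2
    funext σ
    congr 2
    ring
  have s5 := (e.hasSum_iff.2 s3).prod_fiberwise s4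
  have s6 := tsum_subtype {n : K | Rep n} fun n => a n * ∫ y, G n y
  simp only [Set.indicator, Set.mem_ofPred_eq] at s6
  refine Eq.trans ?_ (s5.tsum_eq.symm.trans s6)
  congr 1
  funext y
  simp only [hf, ← tsum_mul_left, mul_left_comm (a _)]

theorem exists_vorU (R0 : ℝ) : ∃ C : ℝ, 0 < C ∧ ∀ w : ℂ, |w.re| ≤ R0 →
    ∃ Wst : ℝ → ℂ, DualW Wst (C * Real.exp (C * |w.im|)) ∧ VorU K w Wst := by
  obtain ⟨C, hC, h⟩ := exists_H (Emb K) R0
  refine ⟨C, hC, fun w hw => ?_⟩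
  obtain ⟨H, Wst, hc, hd, hW, k1, k2⟩ := h w hw
  refine ⟨Wst, hW, fun a a' η Cc hCc h0 h0' hu hu' ha ha' hV X hX => ?_⟩
  have r0 : (rk K : ℝ) ≠ 0 := by exact_mod_cast rk_pos.ne'
  have r1 : ∑ _σ : Emb K, Real.log X / rk K = Real.log X := by
    rw [Finset.sum_const, nsmul_eq_mul, Finset.card_univ]
    exact mul_div_cancel₀ _ r0
  have hP : 0 < ∏ σ, Cc σ := Finset.prod_pos fun σ _ => hCc σ
  have u1 := bvu_unfold h0 hu ha hc hd (Or.inr rfl) fun _ => -(Real.log X / rk K)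
  have u2 := bvu_unfold h0' hu' ha' (h := fun t => H t * ((Real.exp t : ℝ) : ℂ)) (by fun_prop)
    (fun c => by
      obtain ⟨B, hB⟩ := hd (c + 1)
      have B0 : 0 ≤ B := by simpa using (norm_nonneg _).trans (hB 0)
      refine ⟨B, fun t => ?_⟩
      rw [norm_mul, Complex.norm_real, Real.norm_of_nonneg (Real.exp_pos _).le]
      refine (mul_le_mul_of_nonneg_right (hB t) (Real.exp_pos _).le).trans ?_
      rw [mul_assoc, ← Real.exp_add]
      exact mul_le_mul_of_nonneg_left (Real.exp_le_exp.2 (by nlinarith [le_abs_self t])) B0)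
    (Or.inl rfl) fun σ => Real.log X / rk K - 2 * Real.log (Cc σ)
  have v1 : ∀ n : K, Rep n → ∫ y : Emb K → ℝ, H (∑ σ, y σ) *
      ∏ σ, kk (Real.exp (Lg n σ + -(Real.log X / rk K) + -1 * y σ)) = W w (absN n / X) := by
    intro n hn
    have := k1 (fun σ => Lg n σ + -(Real.log X / rk K)) inferInstance
    rw [Finset.sum_add_distrib, Finset.sum_neg_distrib, r1, bl_sum_Lg hn.1, ← sub_eq_add_neg,
      Real.exp_sub, Real.exp_log hX, Real.exp_log (bl_absN_pos hn.1)] at this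
    simpa only [neg_one_mul, sub_eq_add_neg] using this
  have v2 : ∀ n : K, Rep n → ∫ y : Emb K → ℝ, H (∑ σ, y σ) * ((Real.exp (∑ σ, y σ) : ℝ) : ℂ) *
      ∏ σ, kk (Real.exp (Lg n σ + (Real.log X / rk K - 2 * Real.log (Cc σ)) + 1 * y σ)) =
        Wst (absN n * X / (∏ σ, Cc σ) ^ 2) := by
    intro n hn
    have := k2 (fun σ => Lg n σ + (Real.log X / rk K - 2 * Real.log (Cc σ)))
    rw [Finset.sum_add_distrib, Finset.sum_sub_distrib, r1, bl_sum_Lg hn.1, ← Finset.mul_sum,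
      ← Real.log_prod (fun σ _ => (hCc σ).ne'), Real.exp_add, Real.exp_sub, Real.exp_log hX,
      Real.exp_log (bl_absN_pos hn.1), two_mul, Real.exp_add, Real.exp_log hP, ← sq,
      ← mul_div_assoc] at this
    simpa only [one_mul] using this
  rw [tsum_congr fun n => if_ctx_congr Iff.rfl (fun hn => by rw [← v1 n hn]) fun _ => rfl, ← u1,
    tsum_congr (f := fun n => if Rep n then a' n * _ else 0) fun n =>
      if_ctx_congr Iff.rfl (fun hn => by rw [← v2 n hn]) fun _ => rfl, ← u2, ← integral_const_mul]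
  congr 1
  funext y
  have key := hV (fun σ => Real.exp (Real.log X / rk K + y σ)) fun σ => Real.exp_pos _
  have w1 : ∀ (σ : Emb K) (x : ℝ), x / Real.exp (Real.log X / rk K + y σ) =
      x * Real.exp (-(Real.log X / rk K) + -1 * y σ) := fun σ x => by
    rw [div_eq_mul_inv, ← Real.exp_neg, neg_add, neg_one_mul]
  have w2 : ∀ (σ : Emb K) (x : ℝ), x * Real.exp (Real.log X / rk K + y σ) / Cc σ ^ 2 =
      x * Real.exp (Real.log X / rk K - 2 * Real.log (Cc σ) + 1 * y σ) := fun σ x => by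
    rw [one_mul, sub_add_eq_add_sub, Real.exp_sub, two_mul, Real.exp_add (Real.log _),
      Real.exp_log (hCc σ), ← sq, mul_div_assoc]
  have w3 : ∏ σ : Emb K, Real.exp (Real.log X / rk K + y σ) / Cc σ =
      X / (∏ σ, Cc σ) * Real.exp (∑ σ, y σ) := by
    rw [Finset.prod_div_distrib, ← Real.exp_sum, Finset.sum_add_distrib, r1, Real.exp_add,
      Real.exp_log hX]
    ring
  simp only [w1, w2, w3] at key
  rw [key, ofReal_mul]
  ring

end

end Vale.Agent.P319N
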