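import Vale.Agent.P319N.BGeo

namespace Vale.Agent.P319N

open NumberField Complex MeasureTheory Filter Topology
open scoped Classical ComplexConjugate Real MatrixGroups
open Vale.Agent.P026 (omC kap psi W Hs ht QQ act uu muH hh LL Gs bb kk UU DualW)

noncomputable section

variable {K : Type} [Field K] [NumberField K] [Setup K]

instance wgt_countable : Countable (SLK K) := by
  have : Countable (Matrix (Fin 2) (Fin 2) K) := inferInstanceAs (Countable (Fin 2 → Fin 2 → K))
  exact Subtype.countable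

theorem gw_summable (q : K) {S : Set (HH K)} (hS : IsCompact S) : ∃ C : ℝ, 0 < C ∧ ∀ w ∈ S,
    Summable (fun γ : Gam q => gw (actK (γ : SLK K) w)) ∧
      ∑' γ : Gam q, gw (actK (γ : SLK K) w) ≤ C := by
  have hht : ∀ w : Hs, 0 < ht w := fun w => Real.exp_pos _
  let b : Hs → ℝ := fun w => (1 + 2 * normSq w.1 + 2 * ht w ^ 2) / ht w
  have hb0 : ∀ w, 0 < b w := fun w => by
    have := hht w
    have := normSq_nonneg w.1
    positivity
  have hbc : Continuous b := by
    refine Continuous.div ?_ ?_ fun w => (hht w).ne'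
    · unfold ht; fun_prop
    · unfold ht; fun_prop
  obtain ⟨B0, hB⟩ := hS.bddAbove_image (f := fun w : HH K => ∑ σ, b (w σ))
    (continuous_finsetSum _ fun σ _ => hbc.comp (continuous_apply σ)).continuousOn
  set B := max B0 1 with hBd
  have B1 : 0 < B := lt_of_lt_of_le one_pos (le_max_right _ _)
  have h1 := summable_gauss (K := K) (c := 1 / (2 * B)) (by positivity)
  set f := fun a : K => if IsI a then
    Real.exp (-(1 / (2 * B) * ∑ σ : Emb K, normSq (σ.1 a))) else 0 with hf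
  have h0 : ∀ x, 0 ≤ f x := fun x => ite_nonneg (Real.exp_pos _).le le_rfl
  have h2 := h1.mul_of_nonneg h1 h0 h0
  have h0' : ∀ x : K × K, 0 ≤ f x.1 * f x.2 := fun x => mul_nonneg (h0 _) (h0 _)
  have h3 := h2.mul_of_nonneg h2 h0' h0'
  let i : Gam q → (K × K) × K × K := fun γ => ((γ.1 0 0, γ.1 0 1), row γ)
  have hi : Function.Injective i := fun γ γ' h => Subtype.ext (bg_ext (congrArg (·.1.1) h)
    (congrArg (·.1.2) h) (congrArg (·.2.1) h) (congrArg (·.2.2) h))
  have h4 := h3.comp_injective hi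
  refine ⟨∑' γ : Gam q, ((fun p : (K × K) × K × K => f p.1.1 * f p.1.2 * (f p.2.1 * f p.2.2)) ∘ i)
    γ + 1, add_pos_of_nonneg_of_pos (tsum_nonneg fun γ => mul_nonneg (h0' _) (h0' _)) one_pos,
    fun w hw => ?_⟩
  have e : ∀ γ : Gam q, gw (actK (γ : SLK K) w) ≤
      ((fun p : (K × K) × K × K => f p.1.1 * f p.1.2 * (f p.2.1 * f p.2.2)) ∘ i) γ := fun γ => by
    simp only [Function.comp, hf, i, row, if_pos (γ.2.1 _ _), gw, actK, uu_act_j, ← Real.exp_add]
    refine Real.exp_le_exp.2 ?_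
    rw [← neg_add, ← neg_add, ← neg_add, neg_le_neg_iff, ← mul_add, ← mul_add, ← mul_add,
      ← Finset.sum_add_distrib, ← Finset.sum_add_distrib, ← Finset.sum_add_distrib, Finset.mul_sum]
    refine Finset.sum_le_sum fun σ _ => ?_
    have a0 : b (w σ) ≤ B := ((Finset.single_le_sum (f := fun σ => b (w σ))
      (fun σ _ => (hb0 _).le) (Finset.mem_univ σ)).trans (hB ⟨w, hw, rfl⟩)).trans (le_max_left _ _)
    have a1 : ∀ c d : ℂ, normSq c + normSq d ≤ B * QQ (w σ) c d := fun c d => by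
      refine (QQ_lower (w σ) c d).trans (mul_le_mul_of_nonneg_right a0 ?_)
      have := hht (w σ)
      have := normSq_nonneg c
      have := normSq_nonneg (c * (w σ).1 + d)
      unfold QQ; positivity
    have a2 := a1 (σ.1 (γ.1 0 0)) (σ.1 (γ.1 0 1))
    have a3 := a1 (σ.1 (γ.1 1 0)) (σ.1 (γ.1 1 1))
    rw [one_div, inv_mul_le_iff₀ (by positivity)]
    change _ ≤ 2 * B * ((QQ (w σ) (σ.1 (γ.1 0 0)) (σ.1 (γ.1 0 1)) +
      QQ (w σ) (σ.1 (γ.1 1 0)) (σ.1 (γ.1 1 1))) / 2)
    linarith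
  have h5 := Summable.of_nonneg_of_le (fun γ : Gam q => (Real.exp_pos _).le) e h4
  exact ⟨h5, (h5.tsum_le_tsum e h4).trans (by linarith)⟩

theorem wgt_sum (q : K) (w : HH K) : Summable (fun γ : Gam q => gw (actK (γ : SLK K) w)) := by
  obtain ⟨C, -, h⟩ := gw_summable q (isCompact_singleton (x := w))
  exact (h w rfl).1

theorem wgt_pos (q : K) (w : HH K) : 0 < ∑' γ : Gam q, gw (actK (γ : SLK K) w) :=
  (wgt_sum q w).tsum_pos (fun _ => (Real.exp_pos _).le) 1 (Real.exp_pos _)

theorem beta_pos (q : K) (w : HH K) : 0 < beta q w := by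
  exact div_pos (Real.exp_pos _) (wgt_pos q w)
theorem measurable_beta (q : K) : Measurable (beta q) := by
  have h : Continuous (gw (ι := Emb K)) := continuous_gw
  exact h.measurable.div (Measurable.tsum fun γ => (h.comp (continuous_actK _)).measurable)
theorem hasSum_beta (q : K) (w : HH K) :
    HasSum (fun γ : Gam q => beta q (actK (γ : SLK K) w)) 1 := by
  have h := (wgt_sum q w).hasSum.div_const (∑' γ : Gam q, gw (actK (γ : SLK K) w))
  rw [div_self (wgt_pos q w).ne'] at h
  refine h.congr_fun fun γ => ?_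
  rw [beta, ← (Equiv.mulRight γ).tsum_eq fun γ : Gam q => gw (actK (γ : SLK K) w)]
  simp only [← actK_mul]
  rfl
instance nu_sigmaFinite (q : K) : SigmaFinite (nu q) := by
  exact SigmaFinite.withDensity_ofReal _
theorem nu_ac (q : K) : nu q ≪ muP (Emb K) := by
  exact withDensity_absolutelyContinuous _ _
theorem ac_nu (q : K) : muP (Emb K) ≪ nu q := by
  exact withDensity_absolutelyContinuous' (measurable_beta q).ennreal_ofReal.aemeasurable
    (ae_of_all _ fun w => (ENNReal.ofReal_pos.2 (beta_pos q w)).ne')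
theorem wgt_inv (q : K) (w : HH K) :
    HasSum (fun γ : Gam q => beta q (actK ((γ⁻¹ : Gam q) : SLK K) w)) 1 :=
  (Equiv.inv (Gam q)).hasSum_iff.2 (hasSum_beta q w)

theorem wgt_cancel {q : K} (γ : Gam q) (w : HH K) :
    actK ((γ⁻¹ : Gam q) : SLK K) (actK (γ : SLK K) w) = w := by
  rw [← actK_mul, InvMemClass.coe_inv, inv_mul_cancel, actK_one]

theorem wgt_meas {q : K} (γ : SLK K) : Measurable fun w => beta q (actK γ w) :=
  (measurable_beta q).comp (continuous_actK γ).measurable

theorem wgt_un (q : K) {F : HH K → ENNReal} (hF : AEMeasurable F (muP (Emb K))) :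
    ∑' γ : Gam q, ∫⁻ w, F (actK (γ : SLK K) w) ∂(nu q) = ∫⁻ w, F w ∂(muP (Emb K)) := by
  have h : ∀ γ : Gam q, ∫⁻ w, F (actK (γ : SLK K) w) ∂(nu q) =
      ∫⁻ w, ENNReal.ofReal (beta q (actK ((γ⁻¹ : Gam q) : SLK K) w)) * F w ∂(muP (Emb K)) :=
    fun γ => by
    rw [nu, lintegral_withDensity_eq_lintegral_mul_non_measurable _
      (measurable_beta q).ennreal_ofReal (ae_of_all _ fun _ => ENNReal.ofReal_lt_top),
      ← (measurePreserving_actK (γ : SLK K)).lintegral_comp_emb (measurableEmbedding_actK _)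
        fun w => ENNReal.ofReal (beta q (actK ((γ⁻¹ : Gam q) : SLK K) w)) * F w]
    simp only [wgt_cancel, Pi.mul_apply]
  rw [tsum_congr h, ← lintegral_tsum fun γ => (wgt_meas _).ennreal_ofReal.aemeasurable.fun_mul hF]
  refine lintegral_congr fun w => ?_
  rw [ENNReal.tsum_mul_right, ← ENNReal.ofReal_tsum_of_nonneg (fun _ => (beta_pos _ _).le)
    (wgt_inv q w).summable, (wgt_inv q w).tsum_eq, ENNReal.ofReal_one, one_mul]

theorem lintegral_unfold (q : K) {F : HH K → ENNReal} (hF : Measurable F) :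
    ∫⁻ w, ∑' γ : Gam q, F (actK (γ : SLK K) w) ∂(nu q) = ∫⁻ w, F w ∂(muP (Emb K)) := by
  rw [← wgt_un q hF.aemeasurable]
  exact lintegral_tsum fun γ => (hF.comp (continuous_actK _).measurable).aemeasurable
theorem integral_unfold (q : K) {F : HH K → ℂ} (hF : Integrable F (muP (Emb K))) :
    HasSum (fun γ : Gam q => ∫ w, F (actK (γ : SLK K) w) ∂(nu q)) (∫ w, F w ∂(muP (Emb K))) ∧
    ∫ w, ∑' γ : Gam q, F (actK (γ : SLK K) w) ∂(nu q) = ∫ w, F w ∂(muP (Emb K)) := by
  have h : ∀ γ : Gam q, ∫ w, F (actK (γ : SLK K) w) ∂(nu q) =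
      ∫ w, beta q (actK ((γ⁻¹ : Gam q) : SLK K) w) • F w ∂(muP (Emb K)) := fun γ => by
    rw [nu, integral_withDensity_eq_integral_toReal_smul
      (measurable_beta q).ennreal_ofReal (ae_of_all _ fun _ => ENNReal.ofReal_lt_top),
      ← (measurePreserving_actK (γ : SLK K)).integral_comp (measurableEmbedding_actK _)
        fun w => beta q (actK ((γ⁻¹ : Gam q) : SLK K) w) • F w]
    simp only [wgt_cancel, ENNReal.toReal_ofReal (beta_pos _ _).le]
  have h1 : HasSum (fun γ : Gam q => ∫ w, F (actK (γ : SLK K) w) ∂(nu q))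
      (∫ w, F w ∂(muP (Emb K))) := by
    rw [funext h]
    refine hasSum_integral_of_dominated_convergence
      (fun γ w => beta q (actK ((γ⁻¹ : Gam q) : SLK K) w) * ‖F w‖)
      (fun γ => (wgt_meas _).aestronglyMeasurable.fun_smul hF.1)
      (fun γ => ae_of_all _ fun w => (norm_smul_of_nonneg (beta_pos _ _).le _).le)
      (ae_of_all _ fun w => (wgt_inv q w).summable.mul_right _) ?_
      (ae_of_all _ fun w => by simpa only [one_smul] using (wgt_inv q w).smul_const (F w))
    simpa only [tsum_mul_right, (wgt_inv q _).tsum_eq, one_mul] using hF.norm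
  refine ⟨h1, (integral_tsum (fun γ => (hF.1.comp_measurePreserving
    (measurePreserving_actK _)).mono_ac (nu_ac q)) ?_).trans h1.tsum_eq⟩
  exact (wgt_un q hF.1.enorm).trans_ne hF.2.ne
theorem muP_le_nu (q : K) {S : Set (HH K)} (hS : IsCompact S) :
    ∃ C : NNReal, (muP (Emb K)).restrict S ≤ C • nu q := by
  obtain ⟨C, hC, H⟩ := gw_summable q hS
  obtain ⟨B, hB⟩ := hS.bddAbove_image (f := fun w : HH K => (gw w)⁻¹)
    (continuous_gw.inv₀ fun w => (Real.exp_pos _).ne').continuousOn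
  refine ⟨(C * max B 1).toNNReal, ?_⟩
  rw [← withDensity_indicator_one hS.measurableSet, ENNReal.smul_def, nu,
    ← withDensity_smul' _ _ ENNReal.coe_ne_top]
  refine withDensity_mono (ae_of_all _ fun w => Set.indicator_le (fun w hw => ?_) w)
  have m0 : 0 < max B 1 := lt_of_lt_of_le one_pos (le_max_right _ _)
  refine (ENNReal.one_le_ofReal.2 ?_).trans_eq (ENNReal.ofReal_mul (mul_pos hC m0).le)
  have g0 : 0 < gw w := Real.exp_pos _
  have a1 : (gw w)⁻¹ ≤ max B 1 := (hB ⟨w, hw, rfl⟩).trans (le_max_left _ _)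
  have a2 : gw w / C ≤ beta q w := div_le_div_of_nonneg_left g0.le (wgt_pos q w) (H w hw).2
  calc (1 : ℝ) = C * (gw w)⁻¹ * (gw w / C) := by field_simp
    _ ≤ C * max B 1 * beta q w := by gcongr

end

end Vale.Agent.P319N
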