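import Vale.Agent.P319N.CKub
import Vale.Agent.P319N.BRep

namespace Vale.Agent.P319N

open NumberField Complex MeasureTheory Filter Topology
open scoped Classical ComplexConjugate Real MatrixGroups
open Vale.Agent.P026 (omC kap psi W Hs ht QQ act uu muH hh LL Gs bb kk UU DualW)

noncomputable section

variable {K : Type} [Field K] [NumberField K] [Level K]

theorem Gam_mul_le {q q' : K} (hq : q ≠ 0) (h : IsI q') (h0 : q' ≠ 0) : Gam (q * q') ≤ Gam q := by
  have key : ∀ x : K, IsI (x / (q * q')) → IsI (x / q) := fun x hx => by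
    have e : x / q = q' * (x / (q * q')) := by field_simp
    rw [e]; exact h.mul hx
  rintro γ ⟨h1, h2, h3, h4, h5⟩
  exact ⟨h1, key _ h2, key _ h3, key _ h4, key _ h5⟩
theorem Ent.mem_R {j : ℕ} {σ : SLK K} (h : Ent j σ) (a b : Fin 2) : σ a b ∈ R K := ⟨j, h a b⟩
theorem ent_Sm : Ent 0 (Sm K) := by
  intro a b
  rw [pow_zero, one_mul]
  fin_cases a <;> fin_cases b
  · exact isIntegral_zero
  · exact isIntegral_one.neg
  · exact isIntegral_one
  · exact isIntegral_zero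
theorem qL_ne : qL K ≠ 0 := pow_ne_zero _ MK_ne
theorem qL_isI : IsI (qL K) := bg_MK _
theorem pd_qL (j : ℕ) : pd (qL K) j = MK K ^ (ee K + 1 + 2 * j) := by
  rw [pow_add (MK K) (ee K + 1)]; rfl
theorem kub_unip {j : ℕ} {σ : SLK K} (hσ : Ent j σ) {k : K} (hk : IsI k) :
    kub (σ * Tm (qL K * MK K ^ (2 * j) * k) * σ⁻¹) = 1 := by
  obtain ⟨m, hm⟩ := Setup.six (K := K)
  have hg := conj_Tm_mem (bg_MK (K := K) (ee K)) (pow_ne_zero _ MK_ne) hσ
    ((isI_nat (2 * m)).mul hk)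
  set t := pd (MK K ^ ee K) j * (((2 * m : ℕ) : K) * k) with ht
  have e : qL K * MK K ^ (2 * j) * k = t + t + t := by
    have e1 : MK K = 6 * (m : K) := by rw [MK, hm]; push_cast; rfl
    rw [ht, qL, pow_succ, pd]
    push_cast
    linear_combination MK K ^ ee K * MK K ^ (2 * j) * k * e1
  have e2 : σ * Tm (t + t + t) * σ⁻¹ =
      σ * Tm t * σ⁻¹ * (σ * Tm t * σ⁻¹) * (σ * Tm t * σ⁻¹) := by
    rw [Tm_add, Tm_add]; group
  rw [e, e2, kub_mul (mul_mem hg hg) hg, kub_mul hg hg, ← kub_cube hg]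
  ring

theorem cadm_le : Gam (qL K) ≤ Gam (MK K ^ ee K) := by
  rw [qL, pow_succ]
  exact Gam_mul_le (pow_ne_zero _ MK_ne) (isI_nat _) MK_ne

theorem cadm_ne {l : K} {x : K × K} (h : PhiL l x ≠ 0) : Nl l x ∧ S3 x.2 x.1 ≠ 0 := by
  unfold PhiL at h
  split_ifs at h with h1
  · exact ⟨h1, h⟩
  · exact absurd rfl h

theorem cadm_A {j k : ℕ} {x : K} (h : MK K ^ j * x ∈ A K) : MK K ^ (j + k) * x ∈ A K := by
  rw [pow_add, mul_comm (MK K ^ j), mul_assoc]
  exact (A K).mul_mem ((A K).pow_mem MK_mem_A _) h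

theorem cadm_supp (l : K) : ∃ j, ∀ x, PhiL l x ≠ 0 → Supp j x := by
  obtain ⟨j1, h1⟩ := exists_mul_mem_A l
  obtain ⟨j2, h2⟩ := exists_mul_mem_A l⁻¹
  replace h1 := cadm_A (k := j2) h1
  replace h2 := cadm_A (k := j1) h2
  rw [add_comm] at h2
  refine ⟨j1 + j2, fun x hx => ?_⟩
  set j := j1 + j2
  obtain ⟨hN, hS⟩ := cadm_ne hx
  obtain ⟨hl, hc⟩ := hN.ne
  obtain ⟨c, d⟩ := x
  obtain ⟨hd, hc'⟩ := S3_ne hS
  obtain ⟨ha, hb⟩ := hN
  simp only at hl hc hd hc' ha hb hS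
  lift d to R K using hd
  lift c to R K using hc'
  have hc0 : c ≠ 0 := by exact_mod_cast hc
  rw [S3_coe] at hS
  have hcop : IsCoprime d c := by
    by_contra h; exact hS ((sym3_eq_zero_iff hc0).2 h)
  obtain ⟨b0, a0, hab⟩ := hcop
  have hab' : (b0 : K) * d + a0 * c = 1 := by exact_mod_cast congrArg Subtype.val hab
  obtain ⟨b, b1, b2⟩ := approx hc one_ne_zero (b0 : K) 0
  rw [sub_zero, div_one] at b2
  have hM := pow_ne_zero (ee K) (MK_ne (K := K))
  have hMR : MK K ^ j ∈ R K := mem_R_of_isI (bg_MK j)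
  have hMA : ∀ i, MK K ^ i ∈ A K := fun i => mem_A_of_isI (bg_MK i)
  have bR : b ∈ R K := by
    have e : b = b0 + c * ((b - b0) / c) := by field_simp; ring
    rw [e]; exact (R K).add_mem b0.2 ((R K).mul_mem c.2 b1)
  have cA : MK K ^ j * c ∈ A K := by
    have e : MK K ^ j * c = MK K ^ j * l * (c / l) := by field_simp
    rw [e]; exact (A K).mul_mem h1 ha.mem
  refine ⟨isI_of_mem ((R K).mul_mem hMR c.2) cA, isI_of_mem ((R K).mul_mem hMR d.2) ?_,
    MK K ^ j * ((1 - b * d) / c), MK K ^ j * b, isI_of_mem ((R K).mul_mem hMR ?_) ?_,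
    isI_of_mem ((R K).mul_mem hMR bR) ((A K).mul_mem (hMA _) b2), ?_⟩
  · have e : MK K ^ j * d = MK K ^ j * c * MK K ^ ee K * (d / (c * MK K ^ ee K)) := by
      field_simp
    simp only
    rw [e]; exact (A K).mul_mem ((A K).mul_mem cA (hMA _)) hb
  · have e : (1 - b * d) / c = a0 - (b - b0) / c * d := by
      field_simp; linear_combination -hab'
    rw [e]; exact (R K).sub_mem a0.2 ((R K).mul_mem b1 d.2)
  · have e : MK K ^ j * ((1 - b * d) / c) = MK K ^ j * l⁻¹ * (c / l)⁻¹ -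
        MK K ^ j * b * MK K ^ ee K * (d / (c * MK K ^ ee K)) := by
      field_simp
    rw [e]
    exact (A K).sub_mem ((A K).mul_mem h2 (ha.inv cls_he).mem)
      ((A K).mul_mem ((A K).mul_mem ((A K).mul_mem (hMA _) b2) (hMA _)) hb)
  · simp only
    field_simp; ring

theorem cadm_R {u : Kˣ} (hu : u ∈ unitsR K) (x : K) : (u : K) * x ∈ R K ↔ x ∈ R K :=
  ⟨fun h => by simpa using (R K).mul_mem hu.2 h, fun h => (R K).mul_mem hu.1 h⟩

theorem cadm_Nl {l : K} {u : Kˣ} (hu : u ∈ H1 K (ee K)) (x : K × K) :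
    Nl l ((u : K) * x.1, (u : K) * x.2) ↔ Nl l x := by
  have e : (u : K) * x.2 / (u * x.1 * MK K ^ ee K) = x.2 / (x.1 * MK K ^ ee K) := by
    rw [mul_assoc, mul_div_mul_left _ _ u.ne_zero]
  simp only [Nl, e, mul_div_assoc]
  refine and_congr_left' ⟨fun h => ?_, fun h => hu.1.mul h⟩
  simpa using hu.2.mul h

theorem cadm_unit (l : K) {u : Kˣ} (hu : u ∈ U1 K) (x : K × K) :
    PhiL l ((u : K) * x.1, (u : K) * x.2) = PhiL l x := by
  by_cases h : Nl l x
  · rw [PhiL, PhiL, if_pos h, if_pos ((cadm_Nl hu.2 x).2 h)]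
    have hc := h.ne.2
    obtain ⟨c, d⟩ := x
    simp only at hc ⊢
    by_cases hR : d ∈ R K ∧ c ∈ R K
    · lift d to R K using hR.1
      lift c to R K using hR.2
      obtain ⟨v, hv⟩ := mem_unitsR.1 hu.1
      have h1 : One (ee K) ((v : R K) : K) := hv ▸ hu.2.1
      rw [← hv, ← Subring.coe_mul, ← Subring.coe_mul, S3_coe, S3_coe,
        sym3_assoc _ (associated_unit_mul_left c v v.isUnit), sym3_mul_left,
        sym3_unit_left v.isUnit (by exact_mod_cast hc), E_one_left h1, one_mul]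
    · rw [S3, S3, dif_neg hR, dif_neg]
      rwa [cadm_R hu.1, cadm_R hu.1]
  · rw [PhiL, PhiL, if_neg h, if_neg (fun h' => h ((cadm_Nl hu.2 x).1 h'))]

theorem cadm_bd (l : K) (x : K × K) : ‖PhiL l x‖ ≤ 1 := by
  unfold PhiL
  split_ifs
  · exact norm_S3_le _ _
  · simp

theorem adm_PhiL (l : K) : Adm (qL K) kub (PhiL l) where
  qne := qL_ne
  qint := qL_isI
  bd := ⟨1, cadm_bd l⟩
  supp := cadm_supp l
  unit := fun _ hu x => cadm_unit l hu x
  norm := fun _ h => norm_kub (cadm_le h)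
  mul := fun _ h _ h' => kub_mul (cadm_le h) (cadm_le h')
  eqv := fun _ h x => PhiL_eqv l (cadm_le h) x
  unip := fun _ _ hσ _ hk => kub_unip hσ hk

theorem adm_lev (l : K) {p : R K} (h0 : p ≠ 0) (hI : IsI (p : K)) :
    Adm (qL K * p) kub (fun x => PhiL l x * lev p x) := by
  have hp : (p : K) ≠ 0 := by exact_mod_cast h0
  have hle : Gam (qL K * p) ≤ Gam (MK K ^ ee K) := (Gam_mul_le qL_ne hI hp).trans cadm_le
  refine ⟨mul_ne_zero qL_ne hp, qL_isI.mul hI, ⟨1 + ‖1 / (((N p : ℝ) : ℂ) + 1)‖, fun x => ?_⟩, ?_,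
    fun u hu x => ?_, fun _ h => norm_kub (hle h), fun _ h _ h' => kub_mul (hle h) (hle h'),
    fun γ h x => ?_, fun j σ hσ k hk => ?_⟩
  · rw [norm_mul]
    refine (mul_le_of_le_one_left (norm_nonneg _) (cadm_bd l x)).trans
      ((norm_sub_le _ _).trans (add_le_add_left ?_ _))
    split_ifs <;> simp
  · obtain ⟨j, hj⟩ := cadm_supp l
    exact ⟨j, fun x hx => hj x (left_ne_zero_of_mul hx)⟩
  · simp only [cadm_unit l hu x, lev, mul_div_assoc, cadm_R hu.1]
  · simp only [PhiL_eqv l (hle h) x]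
    by_cases hx : PhiL l x = 0
    · simp [hx]
    · obtain ⟨hd, hc⟩ := S3_ne (cadm_ne hx).2
      have hq := qL_ne (K := K)
      have e : (rmul x γ).1 / p = x.1 / p + qL K * (x.1 * ((γ 0 0 - 1) / (qL K * p)) +
          x.2 * (γ 1 0 / (qL K * p))) := by
        simp only [rmul]; field_simp; ring
      have hm : qL K * (x.1 * ((γ 0 0 - 1) / (qL K * p)) + x.2 * (γ 1 0 / (qL K * p))) ∈ R K :=
        (R K).mul_mem (mem_R_of_isI qL_isI) ((R K).add_mem
          ((R K).mul_mem hc (mem_R_of_isI h.2.1)) ((R K).mul_mem hd (mem_R_of_isI h.2.2.2.1)))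
      have e2 : (rmul x γ).1 / p ∈ R K ↔ x.1 / p ∈ R K := by
        rw [e]
        exact ⟨fun h => by simpa using (R K).sub_mem h hm, fun h => (R K).add_mem h hm⟩
      simp only [lev, e2, mul_assoc]
  · have := kub_unip hσ (hI.mul hk)
    rwa [show qL K * MK K ^ (2 * j) * (p * k) = qL K * p * MK K ^ (2 * j) * k by ring] at this

end

end Vale.Agent.P319N
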