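import Vale.Agent.P319N.GE2

namespace Vale.Agent.P319N

open NumberField Complex MeasureTheory Filter Topology
open scoped Classical ComplexConjugate Real
open Vale.Agent.P026 (omC kap psi W)

noncomputable section

variable {K : Type} [Field K] [NumberField K] [Level K]

theorem inst_poisson (k : ℕ) {a b : R K} {Y : ℝ} (ha : Squarefree a) (hb : Squarefree b)
    (hab : IsCoprime a b) (hu : ¬ (IsUnit a ∧ IsUnit b)) (h1 : 1 ≤ k) (h5 : k ≤ 5) (hY : 0 < Y) :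
    ∑' m : MM K, chi6 (lft m) a ^ k * conj (chi6 (lft m) b ^ k) *
        ((Vw K ((Nm (lft m) : ℝ) / Y) : ℝ) : ℂ) =
      ((Y / √((Nm a : ℝ) * (Nm b : ℝ)) : ℝ) : ℂ) *
        (chi6 b a ^ k * conj (chi6 a b ^ k) * gt k a * conj (gt k b)) *
        ∑' h : MM K, chi6 (lft h) a ^ (6 - k) * conj (chi6 (lft h) b ^ (6 - k)) *
          ((Vw K ((Nm (lft h) : ℝ) * (Y / ((Nm a : ℝ) * (Nm b : ℝ)))) : ℝ) : ℂ) := by
  have ha0 := ha.ne_zero
  have hb0 := hb.ne_zero
  have hq : a * b ≠ 0 := mul_ne_zero ha0 hb0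
  have hz : ∀ j : ℕ, 1 ≤ j → chi6 0 a ^ j * conj (chi6 0 b ^ j) = 0 := by
    intro j hj
    by_cases h : IsUnit a
    · have : chi6 0 b = 0 := (chi6_eq_zero_iff hb0).2 fun hc =>
        hu ⟨h, isCoprime_zero_left.1 hc⟩
      simp [this, Nat.one_le_iff_ne_zero.1 hj]
    · have : chi6 0 a = 0 := (chi6_eq_zero_iff ha0).2 fun hc => h (isCoprime_zero_left.1 hc)
      simp [this, Nat.one_le_iff_ne_zero.1 hj]
  have hN : ∀ x : R K, x ≠ 0 → ((√(N x) : ℝ) : ℂ) ≠ 0 := fun x hx => by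
    exact_mod_cast (Real.sqrt_pos.2 (N_pos hx)).ne'
  have hhat : ∀ h : R K, ∑ x ∈ rs (a * b), chi6 x a ^ k * conj (chi6 x b ^ k) *
      psiS ((h : K) * x / (a * b : R K)) = ((√(N a) * √(N b) : ℝ) : ℂ) *
        (chi6 b a ^ k * conj (chi6 a b ^ k) * gt k a * conj (gt k b)) *
        (chi6 h a ^ (6 - k) * conj (chi6 h b ^ (6 - k))) := by
    intro h
    rw [gs_crt ha0 hb0 hab, gs_twist ha h1 h5, gs_twist hb h1 h5]
    unfold gt
    have := hN a ha0
    have := hN b hb0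
    simp only [map_mul, map_div₀, Complex.conj_ofReal]
    push_cast
    field_simp
  have key := tate (K := K) hq (f := fun m => chi6 m a ^ k * conj (chi6 m b ^ k))
    (fun x y h => by
      simp only [chi6_congr ((Dvd.intro _ rfl).trans h), chi6_congr ((Dvd.intro_left _ rfl).trans h)])
    (fun u hu m => by
      simp only [chi6_mul_left, chi6_triv u.isUnit hu, one_mul])
    (hz k h1)
    (by
      have := hhat 0
      rw [hz _ (by omega), mul_zero] at this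
      simpa [psiS_zero] using this) hY
  simp only [hhat] at key
  unfold N at key
  rw [key, ← tsum_mul_left, ← tsum_mul_left]
  refine tsum_congr fun h => ?_
  have e1 : (Nm (a * b) : ℝ) = (Nm a : ℝ) * Nm b := by rw [Nm_mul]; push_cast; ring
  rw [e1, Real.sqrt_mul (Nat.cast_nonneg _)]
  have pa : 0 < (Nm a : ℝ) := N_pos ha0
  have pb : 0 < (Nm b : ℝ) := N_pos hb0
  have e2 : Y / (√(Nm a : ℝ) * √(Nm b : ℝ)) =
      Y / ((Nm a : ℝ) * Nm b) * (√(Nm a : ℝ) * √(Nm b : ℝ)) := by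
    have h3 := Real.mul_self_sqrt pa.le
    have h4 := Real.mul_self_sqrt pb.le
    have h5 := Real.sqrt_pos.2 pa
    have h6 := Real.sqrt_pos.2 pb
    field_simp
    nlinarith
  rw [e2]
  push_cast
  ring

instance arMM : Ab.Ar (MM K) where
  Nm n := Nm (lft n)
  Nm_mul x y := by
    obtain ⟨a, rfl⟩ := mkM_surj x
    obtain ⟨b, rfl⟩ := mkM_surj y
    rw [← map_mul, Nm_lft, Nm_lft, Nm_lft, Nm_mul]
  Nm_eq_zero x := Nm_eq_zero.trans lft_eq_zero
  Nm_eq_one x := by rw [Nm_eq_one, ← isUnit_mkM, mkM_lft]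
  four_le p hp := four_le_Nm (prime_mkM.1 (by rwa [mkM_lft]))
  fin_ball := fin_ball_MM
  card_le := card_le_MM
  G := GG K
  finG := Fintype.ofFinite _
  cls n := clsK (lft n : K)
  cls_mul x y hx hy := by
    obtain ⟨a, rfl⟩ := mkM_surj x
    obtain ⟨b, rfl⟩ := mkM_surj y
    rw [← map_mul, clsK_lft, clsK_lft, clsK_lft, Subring.coe_mul]
    refine clsK_mul ?_ ?_
    · exact_mod_cast fun h => hx (mkM_eq_zero.2 h)
    · exact_mod_cast fun h => hy (mkM_eq_zero.2 h)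
  Om := OmG K
  prim_ex x hx := prim_ex_MM hx
  prim_unit u hu h := prim_unit_MM hu h
  chi6 x n := chi6 (lft x) (lft n)
  chi6_mul_left x y n _ := by
    obtain ⟨a, rfl⟩ := mkM_surj x
    obtain ⟨b, rfl⟩ := mkM_surj y
    obtain ⟨c, rfl⟩ := mkM_surj n
    rw [← map_mul, chi6_lft, chi6_lft, chi6_lft, chi6_mul_left]
  chi6_mul_right x n m hn hm := by
    obtain ⟨a, rfl⟩ := mkM_surj x
    obtain ⟨b, rfl⟩ := mkM_surj n
    obtain ⟨c, rfl⟩ := mkM_surj m
    rw [← map_mul, chi6_lft, chi6_lft, chi6_lft]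
    exact chi6_mul_right _ (fun h => hn (mkM_eq_zero.2 h)) (fun h => hm (mkM_eq_zero.2 h))
  chi6_pow_six x n hn := by
    rw [chi6_pow_six (fun h => hn (lft_eq_zero.1 h)), ← isRelPrime_mkM, mkM_lft, mkM_lft]
  chi6_unit_right x u hu := chi6_unit_right _ (isUnit_mkM.1 (by rwa [mkM_lft]))
  chi6_zero_right x := norm_chi6_le _ _
  epsG := E6
  norm_epsG := norm_E6
  chi6_flip a b ha hb :=
    chi6_flip (fun h => ha (lft_eq_zero.1 h)) (fun h => hb (lft_eq_zero.1 h))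
  gt k n := gt k (lft n)
  norm_gt k n hn h1 h5 := norm_gt (squarefree_mkM.1 (by rwa [mkM_lft])) h1 h5
  gt_mul k x y hx hy hxy := by
    obtain ⟨a, rfl⟩ := mkM_surj x
    obtain ⟨b, rfl⟩ := mkM_surj y
    have ha := (squarefree_mkM.1 hx).ne_zero
    have hb := (squarefree_mkM.1 hy).ne_zero
    rw [← map_mul, gt_lft k ha, gt_lft k hb, gt_lft k (mul_ne_zero ha hb), chi6_lft, chi6_lft]
    exact gt_mul ha hb (isRelPrime_mkM.1 hxy) k
  gt_one k := by rw [← map_one mkM, gt_lft k one_ne_zero, gt_one]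
  gt_five n hn := gt_five (squarefree_mkM.1 (by rwa [mkM_lft])).ne_zero
  gt_three_real n hn := gt_three_real (squarefree_mkM.1 (by rwa [mkM_lft])).ne_zero
  gt_three_cls x y hx hy hxy hc := by
    obtain ⟨a, rfl⟩ := mkM_surj x
    obtain ⟨b, rfl⟩ := mkM_surj y
    have ha := squarefree_mkM.1 hx
    have hb := squarefree_mkM.1 hy
    rw [clsK_lft, clsK_lft] at hc
    rw [← map_mul, gt_lft 3 (mul_ne_zero ha.ne_zero hb.ne_zero),
      gt_three (squarefree_mul_iff.2 ⟨(isRelPrime_mkM.1 hxy).isRelPrime, ha, hb⟩)]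
    exact F1_mul_cls ha.ne_zero hb.ne_zero hc
  V := Vw K
  V_nonneg := Vw_nonneg
  V_ge := Vw_ge
  V_le a ha := Vw_le ha
  V_mellin σ hσ := Vw_mellin hσ
  poisson k n1 n2 Y h1 h2 h12 hu k1 k5 hY :=
    inst_poisson k (squarefree_mkM.1 (by rwa [mkM_lft])) (squarefree_mkM.1 (by rwa [mkM_lft]))
      (isRelPrime_mkM.1 (by rwa [mkM_lft, mkM_lft]))
      (by rwa [← isUnit_mkM, ← isUnit_mkM, mkM_lft, mkM_lft]) k1 k5 hY
  gerr := gerr_MM

theorem ab_Nm (n : MM K) : Ab.Nm n = Nm (lft n) := rfl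
theorem ab_N (n : MM K) : Ab.N n = N (lft n) := rfl
theorem ab_cls (n : MM K) : Ab.cls n = clsK (lft n : K) := rfl
theorem ab_chi6 (x n : MM K) : Ab.chi6 x n = chi6 (lft x) (lft n) := rfl
theorem ab_gt (k : ℕ) (n : MM K) : Ab.gt k n = gt k (lft n) := rfl
theorem ab_prim (n : MM K) : Ab.Prim n ↔ n ≠ 0 ∧ clsK (lft n : K) ∈ OmG K := Iff.rfl
theorem ab_mu (n : MM K) : Ab.mu n = mu (lft n) := by
  unfold Ab.mu mu
  rw [← squarefree_mkM, ← card_factors_mkM, mkM_lft]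
theorem ab_sym2 (x : MM K) {n : MM K} (hn : n ≠ 0) : Ab.sym2 x n = sym2 (lft x) (lft n) :=
  chi6_cube _ (fun h => hn (lft_eq_zero.1 h))

end

end Vale.Agent.P319N
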