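import Vale.Agent.P319N.Nrm

namespace Vale.Agent.P319N

open NumberField Complex MeasureTheory Filter Topology
open scoped Classical ComplexConjugate Real
open Vale.Agent.P026 (omC kap psi W)

noncomputable section

variable {K : Type} [Field K] [NumberField K] [Setup K]

theorem one_le_sA {a : Associates (A K)} (ha : a ≠ 0) : 1 ≤ sA a := by
  obtain ⟨a, rfl⟩ := Associates.mk_surjective a
  rw [Associates.mk_ne_zero] at ha
  rw [sA_mk ha]
  exact one_le_sN (by simpa using ha) a.2

theorem sA_one : sA (1 : Associates (A K)) = 1 := by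
  rw [← Associates.mk_one, sA_mk one_ne_zero]
  exact sN_one

theorem SumA_closure {M : Type} [CommMonoid M] (f : M →* ℝ) (h0 : ∀ a, 0 ≤ f a) (P : Finset M)
    (h : ∀ p ∈ P, f p < 1) : Summable fun a : Submonoid.closure (P : Set M) => f a := by
  induction P using Finset.induction_on with
  | empty =>
    rw [Finset.coe_empty, Submonoid.closure_empty]
    have : Finite (⊥ : Submonoid M) := (Set.finite_singleton (1 : M)).subset fun _ h => h
    exact Summable.of_finite
  | insert p P _ ih =>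
    have h1 := (summable_geometric_of_lt_one (h0 p) (h p (Finset.mem_insert_self _ _))).mul_of_nonneg
      (ih fun q hq => h q (Finset.mem_insert_of_mem hq)) (fun _ => pow_nonneg (h0 p) _)
      fun _ => h0 _
    have h2 : ∀ a : Submonoid.closure ((insert p P : Finset M) : Set M),
        ∃ x : ℕ × Submonoid.closure (P : Set M), p ^ x.1 * x.2 = a := by
      rintro ⟨a, ha⟩
      rw [Finset.coe_insert, Set.insert_eq, Submonoid.closure_union, Submonoid.mem_sup] at ha
      obtain ⟨_, hy, z, hz, rfl⟩ := ha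
      obtain ⟨n, rfl⟩ := Submonoid.mem_closure_singleton.1 hy
      exact ⟨(n, ⟨z, hz⟩), rfl⟩
    choose g hg using h2
    refine (h1.comp_injective (i := g) fun a b hab => Subtype.ext ?_).congr fun a => ?_
    · rw [← hg a, ← hg b, hab]
    · simp [← hg a]

theorem summable_sA {σ : ℝ} (hσ : 0 < σ) :
    Summable fun a : Associates (A K) => if a ≠ 0 then sA a ^ (-σ) else 0 := by
  let f : Associates (A K) →* ℝ :=
    { toFun := fun a => if a ≠ 0 then sA a ^ (-σ) else 0
      map_one' := by simp [sA_one]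
      map_mul' := fun a b => by
        by_cases ha : a = 0
        · simp [ha]
        by_cases hb : b = 0
        · simp [hb]
        rw [if_pos ha, if_pos hb, if_pos (mul_ne_zero ha hb), sA_mul ha hb]
        exact Real.mul_rpow (sN_pos _).le (sN_pos _).le }
  have hM : Associates.mk (Setup.M K : A K) ≠ 0 := Associates.mk_ne_zero.2 RngA_M
  have h1 := SumA_closure f (fun a => by
    change 0 ≤ if a ≠ 0 then sA a ^ (-σ) else 0
    split_ifs
    · exact Real.rpow_nonneg (sN_pos _).le _
    · exact le_rfl) ((finite_dvd_A hM).toFinset.filter Prime) fun p hp => by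
      have hp := (Finset.mem_filter.1 hp).2
      change (if p ≠ 0 then sA p ^ (-σ) else 0) < 1
      rw [if_pos hp.ne_zero]
      obtain ⟨p, rfl⟩ := Associates.mk_surjective p
      rw [Associates.prime_mk] at hp
      rw [sA_mk hp.ne_zero]
      exact Real.rpow_lt_one_of_one_lt_of_neg
        (one_lt_two.trans_le (two_le_sN hp.ne_zero hp.not_isUnit)) (by linarith)
  refine (Subtype.val_injective.summable_iff fun a ha => if_neg fun h0 => ha ?_).1 h1
  rw [Subtype.range_coe_subtype]
  clear ha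
  induction a using UniqueFactorizationMonoid.induction_on_prime with
  | h₁ => exact absurd rfl h0
  | h₂ a ha =>
    rw [Associates.isUnit_iff_eq_one] at ha
    rw [ha]
    exact (Submonoid.closure _).one_mem
  | h₃ a p ha hp ih =>
    refine Submonoid.mul_mem _ (Submonoid.subset_closure ?_) (ih ha)
    obtain ⟨p, rfl⟩ := Associates.mk_surjective p
    exact Finset.mem_coe.2 (Finset.mem_filter.2 ⟨(Set.Finite.mem_toFinset _).2
      (Associates.mk_dvd_mk.2 (prime_A_dvd (Associates.prime_mk.1 hp))), hp⟩)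

theorem SumA_card {ε : ℝ} (hε : 0 < ε) : ∃ C : ℝ, 0 < C ∧ ∀ L : ℝ,
    ∀ T : Finset {a : Associates (A K) // a ≠ 0}, (∀ a ∈ T, sA a.1 ≤ L) → 0 ≤ L →
      (T.card : ℝ) ≤ C * L ^ ε := by
  have h1 : Summable fun a : {a : Associates (A K) // a ≠ 0} => sA a.1 ^ (-ε) :=
    ((summable_sA hε).subtype _).congr fun a => if_pos a.2
  have h2 : ∀ a : {a : Associates (A K) // a ≠ 0}, 0 ≤ sA a.1 ^ (-ε) := fun a =>
    Real.rpow_nonneg (sN_pos _).le _
  refine ⟨∑' a : {a : Associates (A K) // a ≠ 0}, sA a.1 ^ (-ε) + 1,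
    add_pos_of_nonneg_of_pos (tsum_nonneg h2) one_pos, fun L T hT hL => ?_⟩
  calc (T.card : ℝ) = ∑ _a ∈ T, 1 := by simp
    _ ≤ ∑ a ∈ T, sA a.1 ^ (-ε) * L ^ ε := Finset.sum_le_sum fun a ha => by
      have h3 : 0 < sA a.1 := sN_pos _
      rw [Real.rpow_neg h3.le, ← div_eq_inv_mul, one_le_div (Real.rpow_pos_of_pos h3 _)]
      exact Real.rpow_le_rpow h3.le (hT a ha) hε.le
    _ ≤ _ := by
      rw [← Finset.sum_mul]
      exact mul_le_mul_of_nonneg_right ((h1.sum_le_tsum T fun a _ => h2 a).trans (by linarith))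
        (Real.rpow_nonneg hL _)

theorem sidx_sA : Ab.SIdx {a : Associates (A K) // a ≠ 0} (fun a => sA a.1) := by
  have hf : ∀ L : ℝ, {a : {a : Associates (A K) // a ≠ 0} | sA a.1 ≤ L}.Finite := fun L => by
    by_contra hc
    obtain ⟨C, -, h⟩ := SumA_card (K := K) one_pos
    obtain ⟨n, hn⟩ := exists_nat_gt (C * |L| ^ (1 : ℝ))
    obtain ⟨T, h1, h2⟩ := Set.Infinite.exists_subset_card_eq hc n
    have := h |L| T (fun a ha => le_trans (h1 ha) (le_abs_self L)) (abs_nonneg L)
    rw [h2] at this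
    linarith
  refine ⟨fun a => one_le_sA a.2, hf, fun ε hε => ?_⟩
  obtain ⟨C, hC, h⟩ := SumA_card (K := K) hε
  refine ⟨C, hC, fun L hL => ?_⟩
  rw [Set.ncard_eq_toFinset_card _ (hf L)]
  exact h L _ (fun a ha => (hf L).mem_toFinset.1 ha) (by linarith)

/-- unique decomposition into a squarefree ideal and a square -/
theorem tsum_sA_sq : ∃ S : Finset (Associates (A K)), (∀ b ∈ S, b ≠ 0) ∧
    ∀ F : ℝ → ℝ, (Summable fun a : Associates (A K) => if a ≠ 0 then F (sA a) else 0) →
      ∑' a : Associates (A K), (if a ≠ 0 then F (sA a) else 0) =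
        ∑ b ∈ S, ∑' c : Associates (A K), if c ≠ 0 then F (sA b * sA c ^ 2) else 0 := by
  have hM : Associates.mk (Setup.M K : A K) ≠ 0 := Associates.mk_ne_zero.2 RngA_M
  have hS : {b : Associates (A K) | Squarefree b}.Finite := (finite_dvd_A hM).subset fun b hb => by
    obtain ⟨b, rfl⟩ := Associates.mk_surjective b
    obtain ⟨j, hj, h⟩ := RngA_dvd (Associates.mk_ne_zero.1 (Squarefree.ne_zero hb))
    refine (Squarefree.dvd_pow_iff_dvd hb hj).1 ?_
    rw [← Associates.mk_pow]
    exact Associates.mk_dvd_mk.2 h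
  refine ⟨hS.toFinset, fun b hb => Squarefree.ne_zero (hS.mem_toFinset.1 hb), fun F hF => ?_⟩
  let g : hS.toFinset × {c : Associates (A K) // c ≠ 0} → Associates (A K) :=
    fun x => x.2.1 ^ 2 * x.1.1
  have hg : Function.Injective g := by
    rintro ⟨⟨b, hb⟩, c, hc⟩ ⟨⟨b', hb'⟩, c', hc'⟩ h
    have hb1 : Squarefree b := hS.mem_toFinset.1 hb
    have hb2 : Squarefree b' := hS.mem_toFinset.1 hb'
    obtain ⟨u, u', d, h1, rfl, rfl⟩ := UniqueFactorizationMonoid.exists_reduced_factors' c c' hc'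
    have h2 : u ^ 2 * b = u' ^ 2 * b' := by
      refine mul_left_cancel₀ (pow_ne_zero 2 (left_ne_zero_of_mul hc)) ?_
      simpa only [g, mul_pow, mul_assoc] using h
    have h3 : u = 1 := (Associates.isUnit_iff_eq_one u).1 (hb2 u (by
      rw [← sq]
      exact (h1.pow (m := 2) (n := 2)).dvd_of_dvd_mul_left (h2 ▸ dvd_mul_right _ _)))
    have h4 : u' = 1 := (Associates.isUnit_iff_eq_one u').1 (hb1 u' (by
      rw [← sq]
      exact (h1.symm.pow (m := 2) (n := 2)).dvd_of_dvd_mul_left (h2 ▸ dvd_mul_right _ _)))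
    subst h3 h4
    simpa using h2
  rw [← hg.tsum_eq (f := fun a => if a ≠ 0 then F (sA a) else 0) fun a ha => by
    obtain ⟨c, s, rfl, hs⟩ := RngA_sq a fun h0 => ha (by simp [h0])
    exact ⟨(⟨s, hS.mem_toFinset.2 hs⟩, ⟨c, fun h0 => ha (by simp [h0])⟩), rfl⟩]
  refine ((hF.comp_injective hg).tsum_prod).trans ?_
  rw [← Finset.tsum_subtype]
  refine tsum_congr fun b => ?_
  rw [← (Subtype.val_injective (p := fun c : Associates (A K) => c ≠ 0)).tsum_eq
    (f := fun c => if c ≠ 0 then F (sA b.1 * sA c ^ 2) else 0) fun c hc => by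
      exact ⟨⟨c, fun h0 => hc (by simp [h0])⟩, rfl⟩]
  refine tsum_congr fun c => ?_
  have hb : b.1 ≠ 0 := Squarefree.ne_zero (hS.mem_toFinset.1 b.2)
  simp only [Function.comp, g]
  rw [if_pos (mul_ne_zero (pow_ne_zero 2 c.2) hb), if_pos c.2, sA_mul (pow_ne_zero 2 c.2) hb, sq,
    sA_mul c.2 c.2, mul_comm, sq]

end

end Vale.Agent.P319N
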