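import Vale.Agent.P319N.CD
import Vale.Agent.P319N.SumA
import Vale.Agent.P319N.Inst
import Vale.Agent.P319N.ALat

namespace Vale.Agent.P319N

open NumberField Complex MeasureTheory Filter Topology
open scoped Classical ComplexConjugate Real MatrixGroups
open Vale.Agent.P026 (omC kap psi W Hs ht QQ act uu muH hh LL Gs bb kk UU DualW)

noncomputable section

variable {K : Type} [Field K] [NumberField K] [Level K]

theorem csum_fin (j : ℕ) : Finite (Kˣ ⧸ (H1 K j ⊔ unitsR K)) := by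
  have h : (H1 K j ⊔ unitsR K).FiniteIndex :=
    cls_fin (finite_unitsA_H1 j) (by rw [sup_comm]; exact finite_unitsA_R)
  exact Subgroup.finite_quotient_of_finiteIndex

instance finite_Lam : Finite (Lam K) := csum_fin _
theorem L3_pos : 0 < L3 K := by
  have : Nonempty {μ : Lam K // μ ^ 3 = 1} := ⟨⟨1, one_pow 3⟩⟩
  exact Nat.card_pos
theorem lo_ne (μ : Lam K) : lo μ ≠ 0 := Units.ne_zero _
theorem lt0_ne (m : Lt K) : lt0 m ≠ 0 := Units.ne_zero _
theorem csum_clt (z : Kˣ) : clt (z : K) = QuotientGroup.mk z := by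
  simp only [clt, dif_pos z.ne_zero, Units.mk0_val]
theorem csum_clam (z : Kˣ) : clam (z : K) = QuotientGroup.mk z := by
  simp only [clam, dif_pos z.ne_zero, Units.mk0_val]
theorem clt_lt0 (m : Lt K) : clt (lt0 m) = m := by
  rw [lt0, csum_clt, QuotientGroup.out_eq']
theorem clam_lo (μ : Lam K) : clam (lo μ) = μ := by
  rw [lo, csum_clam, QuotientGroup.out_eq']
theorem clt_eq_iff {x y : K} (hx : x ≠ 0) (hy : y ≠ 0) :
    clt x = clt y ↔ One (ee K) (y / x) := by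
  rw [← Units.val_mk0 hx, ← Units.val_mk0 hy, csum_clt, csum_clt, QuotientGroup.eq,
    mem_H1 cls_he]
  simp [div_eq_inv_mul]
theorem one_lt0_clt {x : K} (hx : x ≠ 0) : One (ee K) (lt0 (clt x) / x) :=
  (clt_eq_iff hx (lt0_ne _)).1 (clt_lt0 _).symm
theorem csum_sup {j : ℕ} (hj : 1 ≤ j) (z : Kˣ) :
    z ∈ H1 K j ⊔ unitsR K ↔ ∃ u : (R K)ˣ, One j ((z : K) / ((u : R K) : K)) := by
  rw [Subgroup.mem_sup]
  constructor
  · rintro ⟨h, hh, w, hw, rfl⟩
    obtain ⟨u, hu⟩ := mem_unitsR.1 hw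
    refine ⟨u, ?_⟩
    rw [hu, Units.val_mul, mul_div_cancel_right₀ _ w.ne_zero]
    exact (mem_H1 hj).1 hh
  · rintro ⟨u, hu⟩
    refine ⟨z / Units.mk0 _ (unit_ne u), (mem_H1 hj).2 (by simpa using hu),
      Units.mk0 _ (unit_ne u), mem_unitsR.2 ⟨u, rfl⟩, div_mul_cancel _ _⟩
theorem clam_eq_iff {x y : K} (hx : x ≠ 0) (hy : y ≠ 0) :
    clam x = clam y ↔ ∃ u : (R K)ˣ, One (ee K) (y / (((u : R K) : K) * x)) := by
  rw [← Units.val_mk0 hx, ← Units.val_mk0 hy, csum_clam, csum_clam, QuotientGroup.eq,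
    csum_sup cls_he]
  refine exists_congr fun u => ?_
  have : ((((Units.mk0 x hx)⁻¹ * Units.mk0 y hy : Kˣ)) : K) / ((u : R K) : K) =
      y / (((u : R K) : K) * x) := by
    simp only [Units.val_mul, Units.val_inv_eq_inv_val, Units.val_mk0]
    have := unit_ne u
    field_simp
  rw [this]
  rfl
theorem clt_mul {x y : K} (hx : x ≠ 0) (hy : y ≠ 0) : clt (x * y) = clt x * clt y := by
  rw [← Units.val_mk0 hx, ← Units.val_mk0 hy, ← Units.val_mul, csum_clt, csum_clt, csum_clt,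
    QuotientGroup.mk_mul]
theorem clam_mul {x y : K} (hx : x ≠ 0) (hy : y ≠ 0) : clam (x * y) = clam x * clam y := by
  rw [← Units.val_mk0 hx, ← Units.val_mk0 hy, ← Units.val_mul, csum_clam, csum_clam, csum_clam,
    QuotientGroup.mk_mul]
theorem mem_QG {x : K} (hx : x ≠ 0) : clsK x ∈ QG K ↔ ∃ μ : Lam K, clam x = μ ^ 3 := by
  rw [← Units.val_mk0 hx, clsK_unit, csum_clam]
  generalize Units.mk0 x hx = z
  constructor
  · rintro ⟨w, hw, h⟩
    obtain ⟨u, hu, _, ⟨t, rfl⟩, rfl⟩ := Subgroup.mem_sup.1 hw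
    obtain ⟨a, ha, _, ⟨k, rfl⟩, h2⟩ := Subgroup.mem_sup.1 (QuotientGroup.eq.1 h)
    refine ⟨QuotientGroup.mk (t * k ^ 2), ?_⟩
    rw [← QuotientGroup.mk_pow, eq_comm, QuotientGroup.eq]
    have hz : z = u * t ^ 3 * (a * k ^ 6) := by
      simp only [powMonoidHom_apply] at h2
      rw [h2, mul_inv_cancel_left]
    have : ((t * k ^ 2) ^ 3)⁻¹ * z = a * u := by
      rw [hz, inv_mul_eq_iff_eq_mul, mul_pow, ← pow_mul]
      ac_rfl
    rw [this]
    exact Subgroup.mul_mem_sup ha hu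
  · rintro ⟨μ, h⟩
    obtain ⟨t, rfl⟩ := QuotientGroup.mk_surjective μ
    rw [← QuotientGroup.mk_pow, eq_comm, QuotientGroup.eq] at h
    obtain ⟨a, ha, u, hu, h2⟩ := Subgroup.mem_sup.1 h
    refine ⟨u * t ^ 3, Subgroup.mul_mem_sup hu ⟨t, rfl⟩, QuotientGroup.eq.2 ?_⟩
    have : (u * t ^ 3)⁻¹ * z = a := by
      rw [mul_inv, mul_assoc, ← h2, mul_comm a, inv_mul_cancel_left]
    rw [this]
    exact Subgroup.mem_sup_left ha
theorem mem_QG_iff {g : GG K} :
    g ∈ QG K ↔ ∃ (u : (R K)ˣ) (k : GG K), g = clsK ((u : R K) : K) * k ^ 3 := by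
  constructor
  · rintro ⟨w, hw, rfl⟩
    obtain ⟨u, hu, _, ⟨t, rfl⟩, rfl⟩ := Subgroup.mem_sup.1 hw
    obtain ⟨v, hv⟩ := mem_unitsR.1 hu
    exact ⟨v, QuotientGroup.mk t, by rw [hv, clsK_unit]; rfl⟩
  · rintro ⟨u, k, rfl⟩
    obtain ⟨t, rfl⟩ := QuotientGroup.mk_surjective k
    refine ⟨Units.mk0 _ (unit_ne u) * t ^ 3,
      Subgroup.mul_mem_sup (mem_unitsR.2 ⟨u, rfl⟩) ⟨t, rfl⟩, ?_⟩
    have := clsK_unit (Units.mk0 _ (unit_ne u))
    rw [Units.val_mk0] at this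
    rw [this]
    rfl
theorem exists_clsK (g : GG K) : ∃ l : K, l ≠ 0 ∧ clsK l = g := by
  obtain ⟨z, rfl⟩ := QuotientGroup.mk_surjective g
  exact ⟨z, z.ne_zero, clsK_unit z⟩

theorem csum_fib {ι κ : Type} (p : ι → κ) {g : κ → ℝ} (h0 : ∀ b, 0 ≤ g b) (hg : Summable g) (n : ℕ)
    (h : ∀ (s : Finset ι) b, g b ≠ 0 → (∀ a ∈ s, p a = b) → s.card ≤ n) :
    Summable fun a => g (p a) := by
  refine summable_of_sum_le (c := n * ∑' b, g b) (fun a => h0 _) fun s => ?_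
  rw [Finset.sum_comp g p]
  refine le_trans (Finset.sum_le_sum (g := fun b => n * g b) fun b _ => ?_) ?_
  · by_cases hb : g b = 0
    · simp [hb]
    · rw [nsmul_eq_mul]
      exact mul_le_mul_of_nonneg_right (Nat.cast_le.2
        (h _ b hb fun a ha => (Finset.mem_filter.1 ha).2)) (h0 b)
  · rw [← Finset.mul_sum]
    exact mul_le_mul_of_nonneg_left (hg.sum_le_tsum _ fun b _ => h0 b) (Nat.cast_nonneg n)

theorem summable_Lt (k : ℕ) {a : ℝ} (ha : 0 < a) : Summable fun m : Lt K =>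
    if MK K ^ k * lt0 m ∈ A K then sN (MK K ^ k * lt0 m) ^ (-a) else 0 := by
  have hM : MK K ^ k ≠ 0 := pow_ne_zero _ MK_ne
  let p : Lt K → Associates (A K) := fun m =>
    if h : MK K ^ k * lt0 m ∈ A K then Associates.mk ⟨_, h⟩ else 0
  have : Finite (unitsA K ⧸ (H1 K (ee K)).subgroupOf (unitsA K)) :=
    Nat.finite_of_card_ne_zero (finite_unitsA_H1 _)
  have := Fintype.ofFinite (unitsA K ⧸ (H1 K (ee K)).subgroupOf (unitsA K))
  refine (csum_fib p (g := fun b => if b ≠ 0 then sA b ^ (-a) else 0) (fun b => ?_)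
    (summable_sA ha) (Fintype.card (unitsA K ⧸ (H1 K (ee K)).subgroupOf (unitsA K)))
    fun s b hb hs => ?_).congr fun m => ?_
  · split_ifs
    · exact Real.rpow_nonneg (sN_pos _).le _
    · exact le_rfl
  · have hb0 : b ≠ 0 := fun h => hb (by simp [h])
    rcases s.eq_empty_or_nonempty with h | ⟨m0, hm0⟩
    · simp [h]
    have key : ∀ m, p m = b → ∃ h : MK K ^ k * lt0 m ∈ A K, Associates.mk ⟨_, h⟩ = b := by
      intro m hm
      by_cases h : MK K ^ k * lt0 m ∈ A K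
      · exact ⟨h, by simpa only [p, dif_pos h] using hm⟩
      · exact absurd (by simpa only [p, dif_neg h] using hm.symm) hb0
    obtain ⟨h0, e0⟩ := key m0 (hs _ hm0)
    refine le_trans (Finset.card_le_card (t := Finset.univ.image
      fun q : unitsA K ⧸ (H1 K (ee K)).subgroupOf (unitsA K) =>
        (QuotientGroup.mk (m0.out * (q.out : Kˣ)) : Lt K)) fun m hm => ?_)
      (Finset.card_image_le.trans (by simp))
    obtain ⟨h1, e1⟩ := key m (hs _ hm)
    obtain ⟨v, hv⟩ := Associates.mk_eq_mk_iff_associated.1 (e0.trans e1.symm)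
    have hv' : MK K ^ k * lt0 m0 * ((v : A K) : K) = MK K ^ k * lt0 m := congrArg Subtype.val hv
    have hu : m0.out⁻¹ * m.out ∈ unitsA K := mem_unitsA.2 ⟨v, by
      rw [mul_assoc] at hv'
      have := mul_left_cancel₀ hM hv'
      simp only [lt0] at this
      rw [Units.val_mul, ← this, ← mul_assoc, Units.inv_mul, one_mul]⟩
    refine Finset.mem_image.2 ⟨QuotientGroup.mk ⟨_, hu⟩, Finset.mem_univ _, ?_⟩
    obtain ⟨w, hw⟩ := QuotientGroup.mk_out_eq_mul ((H1 K (ee K)).subgroupOf (unitsA K)) ⟨_, hu⟩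
    rw [hw, Subgroup.coe_mul, ← mul_assoc, mul_inv_cancel_left,
      QuotientGroup.mk_mul_of_mem _ (Subgroup.mem_subgroupOf.1 w.2), QuotientGroup.out_eq']
  · by_cases h : MK K ^ k * lt0 m ∈ A K
    · have h1 : (⟨_, h⟩ : A K) ≠ 0 := fun e =>
        mul_ne_zero hM (lt0_ne m) (congrArg Subtype.val e)
      simp only [p, dif_pos h, if_pos h]
      rw [if_pos (Associates.mk_ne_zero.2 h1), sA_mk h1]
    · simp [p, h]

theorem csum_card (k : ℕ) {ε : ℝ} (hε : 0 < ε) : ∃ C : ℝ, 0 < C ∧ ∀ L : ℝ,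
    ∀ T : Finset (II K k), (∀ a ∈ T, sgI a ≤ L) → 0 ≤ L → (T.card : ℝ) ≤ C * L ^ ε := by
  have h1 : Summable fun a : II K k => sgI a ^ (-ε) :=
    ((summable_Lt k hε).subtype {m : Lt K | MK K ^ k * lt0 m ∈ A K}).congr fun a => if_pos a.2
  have h2 : ∀ a : II K k, 0 ≤ sgI a ^ (-ε) := fun a => Real.rpow_nonneg (sN_pos _).le _
  refine ⟨∑' a : II K k, sgI a ^ (-ε) + 1,
    add_pos_of_nonneg_of_pos (tsum_nonneg h2) one_pos, fun L T hT hL => ?_⟩
  calc (T.card : ℝ) = ∑ _a ∈ T, 1 := by simp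
    _ ≤ ∑ a ∈ T, sgI a ^ (-ε) * L ^ ε := Finset.sum_le_sum fun a ha => by
      have h3 : 0 < sgI a := sN_pos _
      rw [Real.rpow_neg h3.le, ← div_eq_inv_mul, one_le_div (Real.rpow_pos_of_pos h3 _)]
      exact Real.rpow_le_rpow h3.le (hT a ha) hε.le
    _ ≤ _ := by
      rw [← Finset.sum_mul]
      exact mul_le_mul_of_nonneg_right ((h1.sum_le_tsum T fun a _ => h2 a).trans (by linarith))
        (Real.rpow_nonneg hL _)

theorem sidx_II (k : ℕ) : Ab.SIdx (II K k) sgI := by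
  have hf : ∀ L : ℝ, {a : II K k | sgI a ≤ L}.Finite := fun L => by
    by_contra hc
    obtain ⟨C, -, h⟩ := csum_card (K := K) k one_pos
    obtain ⟨n, hn⟩ := exists_nat_gt (C * |L| ^ (1 : ℝ))
    obtain ⟨T, h1, h2⟩ := Set.Infinite.exists_subset_card_eq hc n
    have := h |L| T (fun a ha => le_trans (h1 ha) (le_abs_self L)) (abs_nonneg L)
    rw [h2] at this
    linarith
  refine ⟨fun a => one_le_sN (mul_ne_zero (pow_ne_zero _ MK_ne) (lt0_ne _)) a.2, hf,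
    fun ε hε => ?_⟩
  obtain ⟨C, hC, h⟩ := csum_card (K := K) k hε
  refine ⟨C, hC, fun L hL => ?_⟩
  rw [Set.ncard_eq_toFinset_card _ (hf L)]
  exact h L _ (fun a ha => (hf L).mem_toFinset.1 ha) (by linarith)
theorem summable_NM {a : ℝ} (ha : 1 < a) : Summable fun c : MM K => N (lft c) ^ (-a) :=
  Ab.summable_N_rpow (O := MM K) ha
theorem primM_iff (c : MM K) : PrimM c ↔ Ab.Prim c := Iff.rfl
theorem csum_assoc {a b : R K} : Associated (mkM a) (mkM b) ↔ Associated a b :=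
  ⟨fun h => associated_of_dvd_dvd (mkM_dvd.1 h.dvd) (mkM_dvd.1 h.symm.dvd),
    fun h => associated_of_dvd_dvd (mkM_dvd.2 h.dvd) (mkM_dvd.2 h.symm.dvd)⟩
theorem exists_primM {c : R K} (hc : c ≠ 0) : ∃! ν : MM K, PrimM ν ∧ Associated (lft ν) c := by
  obtain ⟨u, hu, h⟩ := Ab.exists_prim_assoc (O := MM K) (x := mkM c) (fun e => hc (mkM_eq_zero.1 e))
  have h1 : Associated (lft (u * mkM c)) c := by
    rw [← csum_assoc, mkM_lft]
    exact associated_unit_mul_left _ _ hu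
  refine ⟨u * mkM c, ⟨h, h1⟩, fun ν hν => Ab.Prim.eq_of_associated hν.1 h ?_⟩
  rw [← mkM_lft ν, ← mkM_lft (u * mkM c), csum_assoc]
  exact hν.2.trans h1.symm
theorem exists_norm {j : ℕ} (hj : 1 ≤ j) : ∃ Λ : Finset K, (∀ la ∈ Λ, la ≠ 0) ∧
    ∀ y : R K, y ≠ 0 → ∃ y' : R K, Associated y' y ∧ ∃ la ∈ Λ, One j ((y' : K) / la) := by
  have := csum_fin (K := K) j
  have := Fintype.ofFinite (Kˣ ⧸ (H1 K j ⊔ unitsR K))
  refine ⟨Finset.univ.image fun q : Kˣ ⧸ (H1 K j ⊔ unitsR K) => ((q.out : Kˣ) : K), ?_, ?_⟩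
  · intro la h
    obtain ⟨q, -, rfl⟩ := Finset.mem_image.1 h
    exact Units.ne_zero _
  · intro y hy
    have hy' : (y : K) ≠ 0 := by exact_mod_cast hy
    set q : Kˣ ⧸ (H1 K j ⊔ unitsR K) := QuotientGroup.mk (Units.mk0 _ hy') with hq
    have h := QuotientGroup.eq.1 ((QuotientGroup.out_eq' q).trans hq)
    obtain ⟨u, hu⟩ := (csum_sup hj _).1 h
    refine ⟨y * (u⁻¹ : (R K)ˣ), associated_mul_unit_left _ _ (Units.isUnit _),
      _, Finset.mem_image_of_mem _ (Finset.mem_univ q), ?_⟩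
    have e : (((u⁻¹ : (R K)ˣ) : R K) : K) = (((u : R K) : K))⁻¹ := by
      apply eq_inv_of_mul_eq_one_left
      rw [← Subring.coe_mul, Units.inv_mul]
      rfl
    have e2 : ((y * (u⁻¹ : (R K)ˣ) : R K) : K) / ((q.out : Kˣ) : K) =
        ((q.out⁻¹ * Units.mk0 _ hy' : Kˣ) : K) / ((u : R K) : K) := by
      rw [Subring.coe_mul, e, Units.val_mul, Units.val_inv_eq_inv_val, Units.val_mk0]
      ring
    rw [e2]
    exact hu

end

end Vale.Agent.P319N
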