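import Vale.Agent.P319N.QuadB
import Vale.Agent.P026.Hd

namespace Vale.Agent.P319N

open NumberField Complex MeasureTheory Filter Topology
open scoped Classical ComplexConjugate Real
open Vale.Agent.P026 (omC kap psi W)

noncomputable section

variable {K : Type} [Field K] [NumberField K] [Setup K]

theorem hd_out (q x : R K) : q ∣ (Ideal.Quotient.mk (Ideal.span {q}) x).out - x :=
  rs_mk_eq.1 (Ideal.Quotient.mk_out _)

theorem hd_unit {q x : R K} :
    IsUnit (Ideal.Quotient.mk (Ideal.span {q}) x) ↔ IsCoprime x q := by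
  constructor
  · intro h
    obtain ⟨y, hy⟩ := h.exists_right_inv
    obtain ⟨y, rfl⟩ := Ideal.Quotient.mk_surjective y
    rw [← map_mul, ← map_one (Ideal.Quotient.mk _), rs_mk_eq] at hy
    obtain ⟨c, hc⟩ := hy
    exact ⟨y, -c, by linear_combination hc⟩
  · rintro ⟨a, b, h⟩
    refine IsUnit.of_mul_eq_one (Ideal.Quotient.mk _ a) ?_
    rw [← map_mul, ← map_one (Ideal.Quotient.mk _), rs_mk_eq]
    exact ⟨-b, by linear_combination h⟩

theorem hd_max {p : R K} (hp : Prime p) : (Ideal.span {p}).IsMaximal :=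
  PrincipalIdealRing.isMaximal_of_irreducible hp.irreducible

theorem hd_mulChar {q : R K} (f : R K → ℂ) (h0 : ∀ x y, q ∣ x - y → f x = f y)
    (h1 : f 1 = 1) (h2 : ∀ x y, f (x * y) = f x * f y) (h3 : ∀ x, ¬ IsCoprime x q → f x = 0) :
    ∃ χ : MulChar (R K ⧸ Ideal.span {q}) ℂ, ∀ x, χ (Ideal.Quotient.mk _ x) = f x := by
  have e : ∀ x, f (Ideal.Quotient.mk (Ideal.span {q}) x).out = f x := fun x => h0 _ _ (hd_out q x)
  refine ⟨{ toFun := fun y => f y.out
            map_one' := by rw [← map_one (Ideal.Quotient.mk _), e, h1]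
            map_mul' := fun x y => ?_
            map_nonunit' := fun x hx => ?_ }, e⟩
  · obtain ⟨x, rfl⟩ := Ideal.Quotient.mk_surjective x
    obtain ⟨y, rfl⟩ := Ideal.Quotient.mk_surjective y
    rw [← map_mul, e, e, e, h2]
  · obtain ⟨x, rfl⟩ := Ideal.Quotient.mk_surjective x
    exact (e x).trans (h3 x fun h => hx (hd_unit.2 h))

theorem hd_psi {q : R K} (hq : q ≠ 0) : ∃ ψ : AddChar (R K ⧸ Ideal.span {q}) ℂ,
    (∀ x : R K, ψ (Ideal.Quotient.mk _ x) = psiS ((x : K) / q)) ∧ (¬ IsUnit q → ψ ≠ 1) := by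
  have e : ∀ x : R K, psiS ((((Ideal.Quotient.mk (Ideal.span {q}) x).out : R K) : K) / q) =
      psiS ((x : K) / q) := fun x => psiS_congr hq (hd_out q x)
  refine ⟨{ toFun := fun y => psiS (((y.out : R K) : K) / q)
            map_zero_eq_one' := by
              rw [← map_zero (Ideal.Quotient.mk _), e, Subring.coe_zero, zero_div, psiS_zero]
            map_add_eq_mul' := fun x y => ?_ }, e, fun hu h => ?_⟩
  · obtain ⟨x, rfl⟩ := Ideal.Quotient.mk_surjective x
    obtain ⟨y, rfl⟩ := Ideal.Quotient.mk_surjective y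
    rw [← map_add, e, e, e, Subring.coe_add, add_div, psiS_add]
  · refine hu (isUnit_of_dvd_one ((psiS_div_eq_one_iff hq 1).1 fun x => ?_))
    rw [Subring.coe_one, one_mul, ← e x]
    exact DFunLike.congr_fun h (Ideal.Quotient.mk _ x)

theorem hd_cubic {p : R K} (hp : Prime p) : ∃ χ : MulChar (R K ⧸ Ideal.span {p}) ℂ,
    (∀ x, χ (Ideal.Quotient.mk _ x) = sym3 x p) ∧ orderOf χ = 3 := by
  obtain ⟨χ, hχ⟩ := hd_mulChar (q := p) (fun x => sym3 x p) (fun _ _ h => sym3_congr h)
    (sym3_one_left p) (fun x y => sym3_mul_left x y p)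
    (fun _ hx => (sym3_eq_zero_iff hp.ne_zero).2 hx)
  refine ⟨χ, hχ, ?_⟩
  haveI : Fact (Nat.Prime 3) := ⟨Nat.prime_three⟩
  refine orderOf_eq_prime (MulChar.ext fun a => ?_) fun h => ?_
  · obtain ⟨x, hx⟩ := Ideal.Quotient.mk_surjective (a : R K ⧸ Ideal.span {p})
    rw [MulChar.pow_apply_coe, MulChar.one_apply_coe, ← hx, hχ,
      sym3_cube (hd_unit.1 (hx ▸ a.isUnit))]
  · obtain ⟨x, hx, hx'⟩ := exists_sym3_ne hp
    have hc : IsCoprime x p := ((hp.irreducible.coprime_iff_not_dvd).2 hx).symm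
    have := DFunLike.congr_fun h (Ideal.Quotient.mk _ x)
    rw [MulChar.one_apply (hd_unit.2 hc), hχ] at this
    exact hx' this

theorem hd_g3_cube {p : R K} (hp : Prime p) : g3 1 p ^ 3 = ((N p : ℝ) : ℂ) * Jp p := by
  obtain ⟨χ, hχ, hoC⟩ := hd_cubic hp
  obtain ⟨ψ, hψ, hψ1⟩ := hd_psi hp.ne_zero
  haveI := hd_max hp
  letI := Ideal.Quotient.field (Ideal.span {p})
  haveI := finite_quot hp.ne_zero
  letI := Fintype.ofFinite (R K ⧸ Ideal.span {p})
  have e1 : jacobiSum χ χ = Jp p := by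
    rw [jacobiSum, ← sum_rs_eq_sum_quot hp.ne_zero (fun y => χ y * χ (1 - y)), Jp]
    refine Finset.sum_congr rfl fun x _ => ?_
    rw [← hχ, ← hχ, map_sub (Ideal.Quotient.mk _), map_one]
  have e2 : g3 1 p = gaussSum χ ψ := by
    rw [gaussSum, ← sum_rs_eq_sum_quot hp.ne_zero (fun y => χ y * ψ y), g3]
    simp only [hχ, hψ, Subring.coe_one, one_mul]
  have := gaussSum_pow_eq_prod_jacobiSum (χ := χ) (ψ := ψ) (by omega)
    (AddChar.IsPrimitive.of_ne_one (hψ1 hp.not_isUnit))
  have e3 : χ (-1) = 1 := by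
    have := hχ (-1)
    rwa [map_neg, map_one, sym3_neg_one] at this
  rw [hoC, e3, ← Nat.card_eq_fintype_card, natCard_quot] at this
  rw [e2, this]
  simp [e1, N]

theorem hd_Jp_assoc {p q : R K} (h : Associated p q) : Jp p = Jp q := by
  rcases eq_or_ne p 0 with rfl | hp
  · rw [(associated_zero_iff_eq_zero q).1 h.symm]
  · unfold Jp
    simp only [← sym3_assoc _ h]
    refine (sum_rs_assoc hp h (f := fun x => sym3 x p * sym3 (1 - x) p) fun x y hxy => ?_).symm
    have h2 : p ∣ (1 - x) - (1 - y) := by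
      rw [show (1 - x) - (1 - y) = -(x - y) by ring]; exact hxy.neg_right
    simp only [sym3_congr hxy, sym3_congr h2]

theorem hd_lam_assoc (p q : R K) (h : Associated p q) :
    -Jp p / ((√(N p) : ℝ) : ℂ) = -Jp q / ((√(N q) : ℝ) : ℂ) := by
  rw [hd_Jp_assoc h, N, N, Nm_assoc h]

theorem normSq_Jp {p : R K} (hp : Prime p) : normSq (Jp p) = N p := by
  have h1 := congrArg norm (hd_g3_cube hp)
  have h2 := norm_gt3 hp.squarefree
  have h3 := N_pos hp.ne_zero
  have h4 := Real.sqrt_pos.2 h3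
  have h5 := Real.sq_sqrt h3.le
  rw [gt3, norm_div, Complex.norm_real, Real.norm_of_nonneg h4.le, div_eq_one_iff_eq h4.ne'] at h2
  rw [norm_pow, norm_mul, h2, Complex.norm_real, Real.norm_of_nonneg h3.le] at h1
  have h6 : ‖Jp p‖ = √(N p) := by
    apply mul_left_cancel₀ h3.ne'
    rw [← h1, pow_succ, h5]
  rw [normSq_eq_norm_sq, h6, h5]

theorem lamA_prime {p : R K} (hp : Prime p) : lamA p = -Jp p / ((√(N p) : ℝ) : ℂ) :=
  sym_J_prime hd_lam_assoc hp

theorem lamA_mul {a b : R K} (ha : a ≠ 0) (hb : b ≠ 0) : lamA (a * b) = lamA a * lamA b :=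
  sym_J_mul hd_lam_assoc ha hb

theorem lamA_unit {u : R K} (hu : IsUnit u) : lamA u = 1 := by
  simp [lamA, UniqueFactorizationMonoid.factors_of_isUnit hu]

theorem lamA_assoc {a b : R K} (h : Associated a b) : lamA a = lamA b :=
  sym_rel hd_lam_assoc (UniqueFactorizationMonoid.factors_rel_of_associated h)

theorem norm_lamA (n : R K) : ‖lamA n‖ = 1 := by
  induction n using UniqueFactorizationMonoid.induction_on_prime with
  | h₁ => simp [lamA]
  | h₂ u hu => rw [lamA_unit hu, norm_one]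
  | h₃ a p ha hp ih =>
    have h3 := N_pos hp.ne_zero
    have h4 := Real.sqrt_pos.2 h3
    rw [lamA_mul hp.ne_zero ha, norm_mul, ih, mul_one, lamA_prime hp, norm_div, norm_neg,
      Complex.norm_real, Real.norm_of_nonneg h4.le, ← normSq_Jp hp, normSq_eq_norm_sq,
      Real.sqrt_sq (norm_nonneg _), div_self]
    intro h0
    have := normSq_Jp hp
    rw [normSq_eq_norm_sq, h0] at this
    linarith

theorem g3_cube {p : R K} (hp : Prime p) : g3 1 p ^ 3 = ((N p : ℝ) : ℂ) * Jp p :=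
  hd_g3_cube hp

theorem hd_mu_gt_prime {p : R K} (hp : Prime p) :
    -gt 1 p = conj (gt3 p) * lamA p * conj (sym3 2 p) * F1 p := by
  obtain ⟨χ, hχ, hoC⟩ := hd_cubic hp
  obtain ⟨ψ, hψ, hψ1⟩ := hd_psi hp.ne_zero
  haveI := hd_max hp
  letI := Ideal.Quotient.field (Ideal.span {p})
  haveI := finite_quot hp.ne_zero
  letI := Fintype.ofFinite (R K ⧸ Ideal.span {p})
  have hF : ringChar (R K ⧸ Ideal.span {p}) ≠ 2 := by
    rw [Ne, FiniteField.even_card_iff_char_two, ← Nat.card_eq_fintype_card, natCard_quot]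
    have := Nm_mod hp
    omega
  have hρ : ∀ x, (quadraticChar (R K ⧸ Ideal.span {p})).ringHomComp (Int.castRingHom ℂ)
      (Ideal.Quotient.mk _ x) = sym2 x p := by
    intro x
    rw [MulChar.ringHomComp_apply]
    by_cases hx : p ∣ x
    · rw [Ideal.Quotient.eq_zero_iff_mem.2 (Ideal.mem_span_singleton.2 hx), MulChar.map_zero,
        map_zero, (sym2_eq_zero_iff hp.ne_zero).2 fun h => hp.not_isUnit (h.symm.isUnit_of_dvd hx)]
    · have h0 : Ideal.Quotient.mk (Ideal.span {p}) x ≠ 0 := fun h =>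
        hx (Ideal.mem_span_singleton.1 (Ideal.Quotient.eq_zero_iff_mem.1 h))
      have hs : sym2 x p = 1 ↔ IsSquare (Ideal.Quotient.mk (Ideal.span {p}) x) := by
        rw [sym2_eq_one_iff hp hx]
        constructor
        · rintro ⟨y, hy⟩
          exact ⟨Ideal.Quotient.mk _ y, by rw [← map_mul, ← pow_two, rs_mk_eq]; exact hy⟩
        · rintro ⟨y, hy⟩
          obtain ⟨y, rfl⟩ := Ideal.Quotient.mk_surjective y
          exact ⟨y, by rwa [← map_mul, ← pow_two, rs_mk_eq] at hy⟩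
      by_cases hq : IsSquare (Ideal.Quotient.mk (Ideal.span {p}) x)
      · rw [(quadraticChar_one_iff_isSquare h0).2 hq, hs.2 hq, map_one]
      · rw [quadraticChar_neg_one_iff_not_isSquare.2 hq, map_neg, map_one]
        rcases sym2_cases x p with h | h | h
        · exact absurd (hp.irreducible.coprime_iff_not_dvd.2 hx).symm
            ((sym2_eq_zero_iff hp.ne_zero).1 h)
        · exact absurd (hs.1 h) hq
        · exact h.symm
  have e3 : χ (-1) = 1 := by
    have := hχ (-1)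
    rwa [map_neg, map_one, sym3_neg_one] at this
  have key := P026.hd_abs hF hoC (AddChar.IsPrimitive.of_ne_one (hψ1 hp.not_isUnit)) e3
  have hg : ∀ X : MulChar (R K ⧸ Ideal.span {p}) ℂ, gaussSum X ψ =
      ∑ x ∈ rs p, X (Ideal.Quotient.mk _ x) * psiS (((1 : R K) : K) * x / p) := fun X => by
    rw [gaussSum, ← sum_rs_eq_sum_quot hp.ne_zero (fun y => X y * ψ y)]
    simp only [hψ, Subring.coe_one, one_mul]
  have e2 : χ 2 = sym3 2 p := by
    have := hχ 2
    rwa [map_ofNat] at this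
  rw [hg, hg, hg, e2] at key
  simp only [MulChar.mul_apply, MulChar.pow_apply' _ two_ne_zero, hχ, hρ] at key
  replace key : conj (g3 1 p) * gs 1 1 p * sym3 2 p = g3 1 p * g2 1 p := by
    simpa only [g3, gs, g2, chi6, pow_one] using key
  have hr := sqrtN_ne hp.ne_zero
  have c1 := hd_g3_cube hp
  have c2 := mul_conj (gt3 p)
  have c3 := mul_conj (sym3 2 p)
  rw [normSq_eq_norm_sq, norm_gt3 hp.squarefree] at c2
  rw [normSq_eq_norm_sq,
    norm_sym3 (hp.irreducible.coprime_iff_not_dvd.2 (sym_not_dvd_two hp)).symm] at c3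
  have c4 : g3 1 p = ((√(N p) : ℝ) : ℂ) * gt3 p := by rw [gt3]; field_simp
  have c5 : gs 1 1 p = ((√(N p) : ℝ) : ℂ) * gt 1 p := by rw [gt]; field_simp
  have c6 : Jp p = -(((√(N p) : ℝ) : ℂ) * lamA p) := by rw [lamA_prime hp]; field_simp
  have c7 : g2 1 p = ((√(N p) : ℝ) : ℂ) * F1 p := by
    rw [g2_eq hp.squarefree, F1]; field_simp
  rw [← sqrtN_sq, c4, c6] at c1
  rw [c7, c4, c5, map_mul, conj_ofReal] at key
  simp only [one_pow, ofReal_one] at c2 c3
  have k1 : gt3 p ^ 3 = -lamA p := mul_left_cancel₀ (pow_ne_zero 3 hr) (by linear_combination c1)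
  have k2 : conj (gt3 p) * gt 1 p * sym3 2 p = gt3 p * F1 p :=
    mul_left_cancel₀ (pow_ne_zero 2 hr) (by linear_combination key)
  linear_combination (-gt3 p * conj (sym3 2 p)) * k2 - (conj (gt3 p) * conj (sym3 2 p) * F1 p) * k1
    + (gt 1 p * sym3 2 p * conj (sym3 2 p) + gt3 p ^ 2 * conj (sym3 2 p) * F1 p) * c2 + gt 1 p * c3

theorem hd_mu_unit {u : R K} (hu : IsUnit u) : mu u = 1 := by
  simp [mu, hu.squarefree, UniqueFactorizationMonoid.factors_of_isUnit hu]

theorem hd_mu_prime {p : R K} (hp : Prime p) : mu p = -1 := by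
  simp [mu, hp.squarefree, UniqueFactorizationMonoid.card_factors_of_irreducible hp.irreducible]

theorem hd_mu_mul {a b : R K} (h : IsCoprime a b) : mu (a * b) = mu a * mu b := by
  have h0 : ∀ n : R K, ¬ Squarefree n → mu n = 0 := fun n hn => by simp [mu, hn]
  by_cases hab : Squarefree (a * b)
  · have ha := hab.of_mul_left
    have hb := hab.of_mul_right
    have := Multiset.card_eq_card_of_rel
      (UniqueFactorizationMonoid.factors_mul ha.ne_zero hb.ne_zero)
    simp only [mu, hab, ha, hb, if_true, this, Multiset.card_add, pow_add]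
  · rw [h0 _ hab]
    rw [squarefree_mul_iff] at hab
    by_cases ha : Squarefree a
    · have hb : ¬ Squarefree b := fun hb => hab ⟨h.isRelPrime, ha, hb⟩
      rw [h0 _ hb, mul_zero]
    · rw [h0 _ ha, zero_mul]

theorem mu_gt {n : R K} (hn : Squarefree n) :
    mu n * gt 1 n = conj (gt3 n) * lamA n * conj (sym3 2 n) * F1 n := by
  refine gau_sqf_ind
    (P := fun n => mu n * gt 1 n = conj (gt3 n) * lamA n * conj (sym3 2 n) * F1 n)
    (fun u hu => ?_) (fun p n hp hn0 _ hc ih => ?_) hn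
  · rw [hd_mu_unit hu, gt, gt3, F1, ← gs_two hu.ne_zero, gau_gs_unit hu, gau_gs_unit hu,
      Gq_unit hu, gau_N_unit hu, lamA_unit hu, sym3_unit_right _ hu]
    simp
  · rw [hd_mu_mul hc, hd_mu_prime hp, gt_mul hp.ne_zero hn0 hc, gt3_mul hp.ne_zero hn0 hc,
      lamA_mul hp.ne_zero hn0, sym3_mul_right _ hp.ne_zero hn0, F1_mul hp.ne_zero hn0 hc]
    simp only [map_mul, conj_sym3 p, conj_sym3 n, chi6, pow_one]
    have a5 := hd_mu_gt_prime hp
    linear_combination (sym3 p n ^ 2 * sym2 p n * (sym3 n p ^ 2 * sym2 n p)) *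
      (mu n * gt 1 n * a5 + (conj (gt3 p) * lamA p * conj (sym3 2 p) * F1 p) * ih)

end

end Vale.Agent.P319N
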