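import Vale.Agent.P319N.CT
import Vale.Agent.P319N.CSum
import Vale.Agent.P319N.Hd

namespace Vale.Agent.P319N

open NumberField Complex MeasureTheory Filter Topology
open scoped Classical ComplexConjugate Real MatrixGroups
open Vale.Agent.P026 (omC kap psi W Hs ht QQ act uu muH hh LL Gs bb kk UU DualW)

noncomputable section

variable {K : Type} [Field K] [NumberField K] [Level K]

theorem tM_mk (a : R K) : tM (mkM a) = TT a * lamA a := by
  obtain ⟨u, hu, e⟩ := lft_mkM a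
  rw [tM, e]
  by_cases ha : a = 0
  · rw [ha, mul_zero]
  · rw [TT_unit u.isUnit ha, E, hu, E3_one_left, map_one, one_mul, lamA_mul u.ne_zero ha,
      lamA_unit u.isUnit, one_mul]
theorem norm_tM (n : MM K) : ‖tM n‖ = ‖TT (lft n)‖ := by
  rw [tM, norm_mul, norm_lamA, mul_one]
theorem tM_gauss : ∃ η : MM K → ℂ, Ab.Wt η ∧
    ∀ n, Ab.NN n → Ab.mu n * Ab.gt 1 n = tM n * η n ∧ ‖η n‖ = 1 := by
  have h2 : IsUnit (2 : R K) := isUnit_of_mul_isUnit_left (y := 3) (by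
    rw [show (2 : R K) * 3 = 6 by norm_num]; exact isUnit_six)
  have hn : ∀ n : MM K, n ≠ 0 → ‖conj (sym3 2 (lft n)) * F1 (lft n)‖ = 1 := fun n h => by
    have h0 : lft n ≠ 0 := fun e => h (lft_eq_zero.1 e)
    rw [norm_mul, RCLike.norm_conj, sym3_unit_left h2 h0, E, norm_E3, norm_F1 h0, one_mul]
  refine ⟨fun n => if n = 0 then 0 else conj (sym3 2 (lft n)) * F1 (lft n),
    ⟨fun x y hx hy h => ?_, fun x => ?_⟩, fun n h => ?_⟩
  · have h0 : lft x ≠ 0 := fun e => hx (lft_eq_zero.1 e)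
    have h1 : lft y ≠ 0 := fun e => hy (lft_eq_zero.1 e)
    rw [ab_cls, ab_cls] at h
    beta_reduce
    rw [if_neg hx, if_neg hy, sym3_unit_left h2 h0, sym3_unit_left h2 h1, E, E, h, F1_cls h0 h1 h]
  · beta_reduce
    split_ifs with h
    · simp
    · exact (hn x h).le
  · have hs : Squarefree (lft n) := squarefree_mkM.1 (by rw [mkM_lft]; exact h.2)
    have := TT_eq hs one_ne_zero
    rw [one_pow, mul_one, show N (1 : R K) = 1 by simp [N, Nm_eq_one.2 isUnit_one], Real.sqrt_one,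
      ofReal_one, mul_one] at this
    simp only [if_neg h.1.1]
    refine ⟨?_, hn n h.1.1⟩
    rw [ab_mu, ab_gt, mu_gt hs, tM, this]
    ring
theorem tM_cube' (n : MM K) {d : MM K} (hd : d ≠ 0) :
    tM (n * d ^ 3) = ((√(Ab.N d) : ℝ) : ℂ) * lamA (lft d) ^ 3 * tM n := by
  have h0 : lft d ≠ 0 := fun e => hd (lft_eq_zero.1 e)
  have e : n * d ^ 3 = mkM (lft n * lft d ^ 3) := by rw [map_mul, map_pow, mkM_lft, mkM_lft]
  rw [e, tM_mk, TT_cube h0, tM, ab_N]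
  by_cases hn : lft n = 0
  · rw [hn, TT_zero]
    ring
  · rw [lamA_mul hn (pow_ne_zero 3 h0), pow_three (lft d), lamA_mul h0 (mul_ne_zero h0 h0),
      lamA_mul h0 h0]
    ring
theorem tM_cube : ∃ a : MM K → ℂ, a 1 = 1 ∧ (∀ x y, x ≠ 0 → y ≠ 0 → a (x * y) = a x * a y) ∧
    (∀ x, ‖a x‖ ≤ 1) ∧ ∀ n d, Ab.Prim n → Ab.Prim d →
      tM (n * d ^ 3) = ((√(Ab.N d) : ℝ) : ℂ) * a d * tM n := by
  refine ⟨fun d => lamA (lft d) ^ 3, ?_, fun x y hx hy => ?_, fun x => ?_,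
    fun n d _ hd => tM_cube' n hd.1⟩
  · beta_reduce
    rw [lamA_unit (isUnit_mkM.1 (by rw [mkM_lft]; exact isUnit_one)), one_pow]
  · have h0 : lft x ≠ 0 := fun e => hx (lft_eq_zero.1 e)
    have h1 : lft y ≠ 0 := fun e => hy (lft_eq_zero.1 e)
    obtain ⟨u, -, e⟩ := lft_mul x y
    beta_reduce
    rw [e, lamA_mul u.ne_zero (mul_ne_zero h0 h1), lamA_unit u.isUnit, one_mul, lamA_mul h0 h1,
      mul_pow]
  · rw [norm_pow, norm_lamA, one_pow]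
theorem tM_sq (n p : MM K) (hp : Prime p) (h : ¬ p ∣ n) : tM (n * p ^ 2) = 0 := by
  have e : n * p ^ 2 = mkM (lft n * lft p ^ 2) := by rw [map_mul, map_pow, mkM_lft, mkM_lft]
  rw [e, tM_mk, TT_sq (prime_mkM.1 (by rwa [mkM_lft])) (by
    rwa [← mkM_dvd, mkM_lft, mkM_lft]), zero_mul]
theorem ccoef_dec {n : MM K} (h : tM n ≠ 0) :
    ∃ b d : MM K, (Squarefree b ∧ b ≠ 0) ∧ d ≠ 0 ∧ n = b * d ^ 3 ∧ ‖tM n‖ ^ 2 = Ab.N d := by
  obtain ⟨y, d, hy, hd, e⟩ := TT_ne (left_ne_zero_of_mul h)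
  refine ⟨mkM y, mkM d, ⟨squarefree_mkM.2 hy, fun e => hy.ne_zero (mkM_eq_zero.1 e)⟩, fun e => hd (mkM_eq_zero.1 e), ?_, ?_⟩
  · rw [← map_pow, ← map_mul, ← e, mkM_lft]
  · rw [norm_tM, e, TT_eq hy hd, norm_mul, RCLike.norm_conj, norm_gt3 hy, one_mul, norm_real,
      Real.norm_eq_abs, sq_abs, Real.sq_sqrt (N_pos hd).le, ab_N, N, N, Nm_lft]
theorem tM_supp {n : MM K} (h : tM n ≠ 0) :
    ∃ u b d, IsUnit u ∧ Ab.NN b ∧ Ab.Prim d ∧ n = u * b * d ^ 3 := by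
  obtain ⟨b, d, hb, hd, e, -⟩ := ccoef_dec h
  obtain ⟨u, b0, hu, hb0, rfl⟩ := Ab.exists_unit_prim hb.2
  obtain ⟨v, d0, hv, hd0, rfl⟩ := Ab.exists_unit_prim hd
  exact ⟨u * v ^ 3, b0, d0, hu.mul (hv.pow 3), ⟨hb0, hb.1.of_mul_right⟩, hd0, by
    rw [e, mul_pow, mul_mul_mul_comm, mul_assoc (u * v ^ 3), mul_mul_mul_comm]⟩
theorem tM_bound : ∃ C : ℝ, 0 ≤ C ∧ ∀ X : ℝ, 0 ≤ X →
    ∑ n ∈ Ab.ballO (MM K) X, ‖tM n‖ ^ 2 ≤ C * X := by
  obtain ⟨C, hC, H⟩ := Ab.card_ballO_le (O := MM K)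
  have hS := Ab.summable_N_rpow (O := MM K) one_lt_two
  have h0 : ∀ d : MM K, 0 ≤ Ab.N d ^ (-2 : ℝ) := fun d => Real.rpow_nonneg (Ab.N_nonneg d) _
  refine ⟨C * ∑' d : MM K, Ab.N d ^ (-2 : ℝ), mul_nonneg hC.le (tsum_nonneg h0), fun X hX => ?_⟩
  choose! b d hb hd e hn using fun n : MM K => ccoef_dec (n := n)
  rw [← Finset.sum_filter_of_ne (p := fun n => tM n ≠ 0) (fun n _ h e => h (by simp [e])),
    ← Finset.sum_fiberwise_of_maps_to (g := d) fun n hn => Finset.mem_image_of_mem d hn,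
    mul_right_comm, ← tsum_mul_left]
  refine le_trans (Finset.sum_le_sum fun c hc => ?_) ((hS.mul_left (C * X)).sum_le_tsum _
    fun c _ => mul_nonneg (by positivity) (h0 c))
  obtain ⟨n0, hn0, e0⟩ := Finset.mem_image.1 hc
  have hc0 : c ≠ 0 := e0 ▸ hd n0 (Finset.mem_filter.1 hn0).2
  have hp := Ab.N_pos hc0
  rw [Finset.sum_congr rfl (g := fun _ => Ab.N c) fun n h => by
    simp only [Finset.mem_filter] at h
    rw [hn n h.1.2, h.2], Finset.sum_const, nsmul_eq_mul]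
  refine (mul_le_mul_of_nonneg_right ((Nat.cast_le.2 (Finset.card_le_card_of_injOn b
    (fun n h => ?_) fun n h m h' hb => ?_)).trans (H (X / Ab.N c ^ 3) (by positivity)))
    hp.le).trans_eq ?_
  · simp only [Finset.coe_filter, Finset.mem_filter, Set.mem_ofPred_eq, Ab.mem_ballO'] at h
    refine Ab.mem_ballO'.2 ⟨(hb n h.1.2).2, ?_⟩
    rw [le_div_iff₀ (by positivity), ← Ab.N_pow, ← Ab.N_mul, ← h.2, ← e n h.1.2]
    exact h.1.1.2
  · simp only [Finset.coe_filter, Finset.mem_filter, Set.mem_ofPred_eq] at h h'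
    rw [e n h.1.2, e m h'.1.2, hb, h.2, h'.2]
  · rw [Real.rpow_neg hp.le, Real.rpow_two]
    field_simp
theorem dcoef_tauI (k : ℕ) (C0 : ℝ) : ∃ Bd : ℝ, 0 ≤ Bd ∧ Ab.DCoef sgI (tauI (K := K) k C0) Bd := by
  obtain ⟨C, hC, H⟩ := tM_bound (K := K)
  refine ⟨C0 ^ 2 * C, by positivity, fun i n h => tM_supp (right_ne_zero_of_mul h),
    fun i d X hd hX => ?_⟩
  have h1 : 1 ≤ sgI i := one_le_sN (mul_ne_zero (pow_ne_zero k MK_ne) (lt0_ne _)) i.2
  have hp := Ab.N_nonneg d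
  have h2 : (sgI i ^ (1 / 6 : ℝ)) ^ 2 ≤ sgI i := by
    rw [← Real.rpow_natCast, ← Real.rpow_mul (by linarith)]
    exact Real.rpow_le_self_of_one_le h1 (by norm_num)
  calc _ = C0 ^ 2 * (sgI i ^ (1 / 6 : ℝ)) ^ 2 * Ab.N d * ∑ n ∈ Ab.ballO (MM K) X, ‖tM n‖ ^ 2 := by
        rw [Finset.mul_sum]
        refine Finset.sum_congr rfl fun n _ => ?_
        rw [tauI, tM_cube' n hd.1, norm_mul, norm_mul, norm_mul, norm_pow, norm_lamA, norm_real,
          norm_real, mul_pow, mul_pow, mul_pow, Real.norm_eq_abs, Real.norm_eq_abs, sq_abs, sq_abs,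
          Real.sq_sqrt hp]
        ring
    _ ≤ C0 ^ 2 * sgI i * Ab.N d * (C * X) := by
        gcongr
        exact H X hX.le
    _ = _ := by ring

end

end Vale.Agent.P319N
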