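import Vale.Agent.P319N.Defs

namespace Vale.Agent.P319N

open NumberField Complex MeasureTheory Filter Topology
open scoped Classical ComplexConjugate Real
open Vale.Agent.P026 (omC kap psi)

noncomputable section

section setup
variable {K : Type} [Field K] [NumberField K] [Setup K]

/-- units of `A` inside `Kˣ` -/
def unitsA (K : Type) [Field K] [NumberField K] [Setup K] : Subgroup Kˣ where
  carrier := {u | (u : K) ∈ A K ∧ ((u⁻¹ : Kˣ) : K) ∈ A K}
  one_mem' := ⟨by simpa using (A K).one_mem, by simpa using (A K).one_mem⟩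
  mul_mem' := by
    rintro a b ⟨h1, h2⟩ ⟨h3, h4⟩
    exact ⟨by simpa using (A K).mul_mem h1 h3, by simpa using (A K).mul_mem h4 h2⟩
  inv_mem' := by
    rintro a ⟨h1, h2⟩
    exact ⟨h2, by simpa using h1⟩

/-- `sN` of an ideal of `A` -/
def sA (a : Associates (A K)) : ℝ := sN ((Quot.out a : A K) : K)

/-- index type of the integral basis -/
abbrev Ix (K : Type) [Field K] [NumberField K] : Type := Module.Free.ChooseBasisIndex ℤ (𝓞 K)

/-- integral combination of a basis -/
def cmb (b : Module.Basis (Ix K) ℚ K) (c : Ix K → ℤ) : K := ∑ i, (c i : K) * b i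

/-- Fourier transform for `psiV` and Lebesgue measure -/
def FT (F : (Emb K → ℂ) → ℂ) (ξ : Emb K → ℂ) : ℂ := ∫ z : Emb K → ℂ, F z * psiV (ξ * z)

/-- inverse covolume of `LL2 y x` -/
def CL (y x : K) : ℝ := √(sN (del K)) / (absN y / sN y * sN x)

/-- the Gaussian -/
def Ga (t : Emb K → ℂ) (m : K) : ℂ :=
  Complex.exp (-(kap * ∑ σ : Emb K, t σ * (normSq (σ.1 m) : ℝ)))

/-- squared length -/
def len (m : K) : ℝ := ∑ σ : Emb K, normSq (σ.1 m)

/-- `T` is a system of representatives of `L` modulo `L'` -/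
def RepsL (L L' : AddSubgroup K) (T : Finset K) : Prop :=
  (∀ t ∈ T, t ∈ L) ∧ ∀ m ∈ L, ∃! t, t ∈ T ∧ m - t ∈ L'

end setup

section level
variable {K : Type} [Field K] [NumberField K] [Level K]

/-- units of `R` of trivial class -/
def U0 (K : Type) [Field K] [NumberField K] [Level K] : Subgroup Kˣ := unitsR K ⊓ H6 K

/-- the index of `U1` in the integral units of trivial class -/
def i0 (K : Type) [Field K] [NumberField K] [Level K] : ℕ :=
  (U1 K).relIndex (U0 K ⊓ unitsA K)

/-- representatives of `Kˣ` modulo `U0` and the units of `A` -/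
def RepsX (X : Finset Kˣ) : Prop := ∀ z : Kˣ, ∃! x, x ∈ X ∧ z * x⁻¹ ∈ U0 K ⊔ unitsA K

/-- the sextic Hilbert symbol of the places over `M` -/
def EE (x y : K) : ℂ := E6 (clsK x) (clsK y)

end level

end

end Vale.Agent.P319N
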