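import Vale.Agent.P319N.BD
import Vale.Agent.P319N.Defs2

/-! Definitions for the arithmetic of the cubic theta coefficients. -/

namespace Vale.Agent.P319N

open NumberField Complex MeasureTheory Filter Topology
open scoped Classical ComplexConjugate Real MatrixGroups
open Vale.Agent.P026 (omC kap psi W Hs ht QQ act uu muH hh LL Gs bb kk UU DualW)

noncomputable section

variable {K : Type} [Field K] [NumberField K] [Level K]

/-- extension by zero -/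
def extR (f : R K → ℂ) (x : K) : ℂ := if h : x ∈ R K then f ⟨x, h⟩ else 0
def S3 (d c : K) : ℂ := if h : d ∈ R K ∧ c ∈ R K then sym3 ⟨d, h.1⟩ ⟨c, h.2⟩ else 0
def Nl (l : K) (x : K × K) : Prop :=
  One (ee K) (x.1 / l) ∧ x.2 / (x.1 * MK K ^ ee K) ∈ A K
def PhiL (l : K) (x : K × K) : ℂ := if Nl l x then S3 x.2 x.1 else 0
/-- the Kubota character -/
def kub (γ : SLK K) : ℂ := S3 (γ 0 1) (γ 0 0)
def qL (K : Type) [Field K] [NumberField K] [Level K] : K := MK K ^ (ee K + 1)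
def Lw (k : K) : SLK K := ⟨!![1, 0; k, 1], by simp [Matrix.det_fin_two]⟩
def Sm (K : Type) [Field K] : SLK K := ⟨!![0, -1; 1, 0], by simp [Matrix.det_fin_two]⟩
def PhiH (l : K) (x : K × K) : ℂ :=
  ∑ᶠ μ : Lam K, ((sN (lo μ) ^ 4 : ℝ) : ℂ) * PhiL (l * lo μ ^ 3) x

/-- good functions of the places over `M` -/
structure Sg (i j : ℕ) (φ : K × K → ℂ) : Prop where
  per : PerS i φ
  supp : ∀ x, φ x ≠ 0 → MK K ^ j * x.1 ∈ A K ∧ MK K ^ j * x.2 ∈ A K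
  bd : ∀ x, ‖φ x‖ ≤ 1
  unit : ∀ u ∈ H1 K (ee K), ∀ x : K × K, φ ((u : K) * x.1, (u : K) * x.2) = φ x

def Jq (i : ℕ) (φ : K × K → ℂ) (n c : K) : ℂ :=
  ((absN (MK K ^ i) : ℝ) : ℂ)⁻¹ *
    ∑' d : K ⧸ lattA (c * MK K ^ i), φ (c, d.out) * psiF (n * d.out / c)
def scl (m : K) (φ : K × K → ℂ) (x : K × K) : ℂ := φ (x.1 / m, x.2 / m)
def phS (l : K) (σ : SLK K) (x : K × K) : ℂ :=
  if Nl l (rmul x σ⁻¹) then E (σ 1 0 / l) x.1 else 0
def kS (l : K) (σ : SLK K) : ℂ := S3 (σ 0 0) (σ 1 0) * E l (σ 1 0)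
def ind (l : K) (x : K × K) : ℂ := if Nl l x then 1 else 0
def Fac (l : K) (σ : SLK K) (φ : K × K → ℂ) : Prop :=
  ∀ μ : K, μ ≠ 0 → ∀ c d : K, c ≠ 0 →
    tw (PhiL (l * μ ^ 3)) σ (c, d) = S3 d c * scl (μ ^ 3) φ (c, d)

/-- bounded functions of the ideal -/
def ClF (χ : R K → ℂ) : Prop := (∀ a b, Associated a b → χ a = χ b) ∧ ∃ B : ℝ, ∀ a, ‖χ a‖ ≤ B
def chp (p c : R K) : ℂ := if p ∣ c then 0 else 1
def ch1 (p c : R K) : ℂ := 1 - chp p c - 1 / (((N p : ℝ) : ℂ) + 1)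
def ch2 (p c : R K) : ℂ := chp p c / ((N p : ℝ) : ℂ) - 1 / (((N p : ℝ) : ℂ) + 1)
def DJ (χ : R K → ℂ) (i : ℕ) (φ : K × K → ℂ) (n : R K) (s : ℂ) : ℂ :=
  ∑' c : R K, if Rep (c : K) then
    χ c * ((absN (c : K) : ℝ) : ℂ) ^ (-s) * (g3 n c * Jq i φ n c) else 0

abbrev Lt (K : Type) [Field K] [NumberField K] [Level K] : Type := Kˣ ⧸ H1 K (ee K)
def lt0 (m : Lt K) : K := ((m.out : Kˣ) : K)
def clt (x : K) : Lt K := if h : x ≠ 0 then QuotientGroup.mk (Units.mk0 x h) else 1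
def clam (x : K) : Lam K := if h : x ≠ 0 then QuotientGroup.mk (Units.mk0 x h) else 1
def L3 (K : Type) [Field K] [NumberField K] [Level K] : ℕ := Nat.card {μ : Lam K // μ ^ 3 = 1}
def QG (K : Type) [Field K] [NumberField K] [Level K] : Subgroup (GG K) :=
  (unitsR K ⊔ (powMonoidHom 3 : Kˣ →* Kˣ).range).map (QuotientGroup.mk' (H6 K))
def PrimM (c : MM K) : Prop := c ≠ 0 ∧ clsK (lft c : K) ∈ OmG K

def trm (g : GG K) (n c : R K) (s : ℂ) : ℂ :=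
  if clsK (c : K) * g⁻¹ ∈ QG K then E3 g (clsK (c : K)) * g3 n c * ((N c : ℝ) : ℂ) ^ (-s) else 0
def YY (χ : R K → ℂ) (g : GG K) (n : R K) (s : ℂ) : ℂ :=
  ∑' c : MM K, if PrimM c then χ (lft c) * trm g n (lft c) s else 0
def ZZ (χ : R K → ℂ) (m : K) (n : R K) (s : ℂ) : ℂ :=
  ∑' c : MM K, if PrimM c ∧ clam (lft c : K) = clam m then
    χ (lft c) * (E m (lft c) * g3 n (lft c) * ((N (lft c) : ℝ) : ℂ) ^ (-s)) else 0
def FF (i : ℕ) (φ : K × K → ℂ) (n : K) (g : GG K) (s : ℂ) : ℂ :=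
  ∑' m : Lt K, if clsK (lt0 m) = g then ((sN (lt0 m) : ℝ) : ℂ) ^ (-s) * Jq i φ n (lt0 m) else 0
/-- the basic residues -/
def rr (g : GG K) (n : R K) : ℂ := Classical.epsilon (IsRes (eta K) (YY (fun _ => 1) g n))
def RR (i : ℕ) (φ : K × K → ℂ) (n : R K) : ℂ :=
  (L3 K : ℂ) * ∑ᶠ g : GG K, FF i φ n g (4 / 3) * rr g n
def Hat (l : K) (ρ : SLK K → K → ℂ) : Prop :=
  ThetaOut (qL K) (PhiH l) ρ ∧ ∀ j σ, Ent j σ → ∀ j' φ, Sg (ee K + 1 + 2 * j) j' φ →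
    Fac l σ φ → ∀ n : R K, DualF (ee K + 1 + 2 * j) (n : K) → ρ σ n = RR (ee K + 1 + 2 * j) φ n

/-- Euler's function -/
def phiR (c : R K) : ℕ := ((rs c).filter (fun x => IsCoprime x c)).card
def TT (n : R K) : ℂ :=
  if h : ∃ p : R K × R K, Squarefree p.1 ∧ p.2 ≠ 0 ∧ n = p.1 * p.2 ^ 3 then
    conj (gt3 h.choose.1) * ((√(N h.choose.2) : ℝ) : ℂ) else 0
/-- the coefficient sequence -/
def tM (n : MM K) : ℂ := TT (lft n) * lamA (lft n)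

def ph0 (l c ξ : K) (x : K × K) : ℂ :=
  if One (ee K) (-(c * x.2) / l) ∧ (x.1 / (c ^ 2 * x.2) + ξ) / MK K ^ ee K ∈ A K then
    E (c / l) x.1 else 0
def Bf (i : ℕ) (l c ξ : K) (n : R K) : ℂ := if DualF i (n : K) then RR i (ph0 l c ξ) n else 0
/-- primal coefficients with additive twists -/
def aa (ρ : K → ℂ) (ξ z : K) (h : R K) (n : K) : ℂ :=
  tauOf ρ n * angK n * psiF (n * ξ) * psiS (n * z) * extR (fun y => chi6 y h ^ 5) n
/-- dual coefficients -/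
def ad (i : ℕ) (l c ξ z : K) (n : K) : ℂ :=
  ((absN n ^ (1 / 6 : ℝ) : ℝ) : ℂ) * extR (Bf i l c ξ) n * conj (angK n) * psiS (-(n * z))
/-- primal coefficients in one class -/
def a0 (ρ : K → ℂ) (z : K) (s h : R K) (n : K) : ℂ :=
  if One (ee K) (n / z) then
    tauOf ρ n * angK n * extR (fun y => chi6 y s ^ 5 * chi6 y h ^ 5) n else 0
/-- the sum over one class -/
def SL1 (lam : K) (G : R K → ℂ) : ℂ :=
  ∑' y : K, if Rep y ∧ One (ee K) (y / lam) then extR G y else 0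
def II (K : Type) [Field K] [NumberField K] [Level K] (k : ℕ) : Type :=
  {m : Lt K // MK K ^ k * lt0 m ∈ A K}
def sgI {k : ℕ} (m : II K k) : ℝ := sN (MK K ^ k * lt0 m.1)
def tauI (k : ℕ) (C0 : ℝ) (m : II K k) (n : MM K) : ℂ :=
  ((C0 * sgI m ^ (1 / 6 : ℝ) : ℝ) : ℂ) * tM n
/-- the shape of the final bound -/
def QB (H m X : ℝ) : ℝ := H ^ (8 / 7 : ℝ) + (H ^ 2 * m ^ 2 / X) ^ (8 / 5 : ℝ)

end

end Vale.Agent.P319N
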