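import Vale.Agent.P319N.CJq
import Vale.Agent.P319N.CSum

namespace Vale.Agent.P319N

open NumberField Complex MeasureTheory Filter Topology
open scoped Classical ComplexConjugate Real MatrixGroups
open Vale.Agent.P026 (omC kap psi W Hs ht QQ act uu muH hh LL Gs bb kk UU DualW)

noncomputable section

variable {K : Type} [Field K] [NumberField K] [Level K]

theorem cff_bd {i j : ℕ} {φ : K × K → ℂ} (h : Sg i j φ) (n : K) {s : ℂ} {a b : ℝ}
    (ha : 1 + a ≤ s.re) (hb : s.re ≤ b) (m : Lt K) :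
    ‖((sN (lt0 m) : ℝ) : ℂ) ^ (-s) * Jq i φ n (lt0 m)‖ ≤ sN (MK K ^ j) ^ b *
      if MK K ^ j * lt0 m ∈ A K then sN (MK K ^ j * lt0 m) ^ (-a) else 0 := by
  have hM : MK K ^ j ≠ 0 := pow_ne_zero _ MK_ne
  split_ifs with h1
  · have h2 := one_le_sN (mul_ne_zero hM (lt0_ne m)) h1
    have h3 := one_le_sN hM ((A K).pow_mem MK_mem_A j)
    have h4 : sN (lt0 m) = sN (MK K ^ j * lt0 m) / sN (MK K ^ j) := by
      rw [sN_mul hM (lt0_ne m), mul_div_cancel_left₀ _ (sN_pos _).ne']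
    rw [norm_mul, Complex.norm_cpow_eq_rpow_re_of_pos (sN_pos _), neg_re]
    refine (mul_le_mul_of_nonneg_left (norm_Jq_le h n (lt0_ne m))
      (Real.rpow_nonneg (sN_pos _).le _)).trans ?_
    rw [h4]
    generalize sN (MK K ^ j * lt0 m) = y at h2 ⊢
    generalize sN (MK K ^ j) = x at h3 ⊢
    have hy : 0 < y := by linarith
    have hx : 0 < x := by linarith
    rw [Real.div_rpow hy.le hx.le, Real.rpow_neg hx.le, div_inv_eq_mul, mul_right_comm,
      ← Real.rpow_add_one hy.ne', mul_comm]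
    exact mul_le_mul (Real.rpow_le_rpow_of_exponent_le h3 hb)
      (Real.rpow_le_rpow_of_exponent_le h2 (by linarith)) (by positivity) (by positivity)
  · have : Jq i φ n (lt0 m) = 0 := by_contra fun h2 => h1 (Jq_supp h h2)
    simp [this]

theorem summable_FF {i j : ℕ} {φ : K × K → ℂ} (h : Sg i j φ) (n : K) {s : ℂ} (hs : 1 < s.re) :
    Summable fun m : Lt K => ((sN (lt0 m) : ℝ) : ℂ) ^ (-s) * Jq i φ n (lt0 m) :=
  Summable.of_norm_bounded ((summable_Lt j (a := s.re - 1) (by linarith)).mul_left _)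
    (cff_bd h n (by linarith) le_rfl)

theorem cff_bd2 {i j : ℕ} {φ : K × K → ℂ} (h : Sg i j φ) (n : K) (g : GG K) {s : ℂ} {a b : ℝ}
    (ha : 1 + a ≤ s.re) (hb : s.re ≤ b) (m : Lt K) :
    ‖if clsK (lt0 m) = g then ((sN (lt0 m) : ℝ) : ℂ) ^ (-s) * Jq i φ n (lt0 m) else 0‖ ≤
      sN (MK K ^ j) ^ b *
        if MK K ^ j * lt0 m ∈ A K then sN (MK K ^ j * lt0 m) ^ (-a) else 0 := by
  by_cases h1 : clsK (lt0 m) = g
  · rw [if_pos h1]
    exact cff_bd h n ha hb m
  · rw [if_neg h1, norm_zero]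
    exact (norm_nonneg _).trans (cff_bd h n ha hb m)

theorem FF_diff {i j : ℕ} {φ : K × K → ℂ} (h : Sg i j φ) (n : K) (g : GG K) :
    DifferentiableOn ℂ (FF i φ n g) {s | 1 < s.re} := by
  intro s hs
  have hs' : 1 < s.re := hs
  have ho : IsOpen {z : ℂ | 1 + (s.re - 1) / 2 < z.re ∧ z.re < s.re + 1} :=
    (isOpen_lt continuous_const Complex.continuous_re).inter
      (isOpen_lt Complex.continuous_re continuous_const)
  have h1 := differentiableOn_tsum_of_summable_norm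
    (F := fun (m : Lt K) (z : ℂ) =>
      if clsK (lt0 m) = g then ((sN (lt0 m) : ℝ) : ℂ) ^ (-z) * Jq i φ n (lt0 m) else 0)
    ((summable_Lt j (a := (s.re - 1) / 2) (by linarith)).mul_left (sN (MK K ^ j) ^ (s.re + 1)))
    (fun m => ?_) ho (fun m z hz => cff_bd2 h n g hz.1.le hz.2.le m)
  · exact (h1.differentiableAt (ho.mem_nhds ⟨by linarith, by linarith⟩)).differentiableWithinAt
  · by_cases h1 : clsK (lt0 m) = g
    · simp only [if_pos h1]
      refine Differentiable.differentiableOn (Differentiable.mul_const ?_ _)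
      exact differentiable_id.neg.const_cpow
        (Or.inl (Complex.ofReal_ne_zero.2 (sN_pos _).ne'))
    · simp only [if_neg h1]
      exact differentiableOn_const _
theorem norm_FF_le (j : ℕ) : ∃ C : ℝ, 0 ≤ C ∧ ∀ (i : ℕ) (φ : K × K → ℂ) (n : K) (g : GG K),
    Sg i j φ → ‖FF i φ n g (4 / 3)‖ ≤ C := by
  have hs := (summable_Lt (K := K) j (a := 1 / 3) (by norm_num)).mul_left
    (sN (MK K ^ j) ^ (4 / 3 : ℝ))
  have hre : (4 / 3 : ℂ).re = 4 / 3 := by norm_num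
  refine ⟨max (∑' m : Lt K, sN (MK K ^ j) ^ (4 / 3 : ℝ) *
    if MK K ^ j * lt0 m ∈ A K then sN (MK K ^ j * lt0 m) ^ (-(1 / 3 : ℝ)) else 0) 0,
    le_max_right _ _, fun i φ n g h => le_trans ?_ (le_max_left _ _)⟩
  exact tsum_of_norm_bounded hs.hasSum
    (cff_bd2 h n g (by rw [hre]; norm_num) (by rw [hre]))
theorem FF_const_mul (i : ℕ) (c : ℂ) (φ : K × K → ℂ) (n : K) (g : GG K) (s : ℂ) :
    FF i (fun x => c * φ x) n g s = c * FF i φ n g s := by
  rw [FF, FF, ← tsum_mul_left]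
  refine tsum_congr fun m => ?_
  rw [Jq_const_mul]
  split_ifs
  · ring
  · simp
theorem FF_shift {i : ℕ} {φ : K × K → ℂ} (h : PerS i φ) {n : K} (hn : DualF i n) (z : K)
    (g : GG K) (s : ℂ) :
    FF i (fun x => φ (x.1, x.2 - x.1 * z)) n g s = psiF (n * z) * FF i φ n g s := by
  rw [FF, FF, ← tsum_mul_left]
  refine tsum_congr fun m => ?_
  rw [Jq_shift h hn z (lt0_ne m)]
  split_ifs
  · ring
  · simp
theorem FF_dil {i : ℕ} {φ : K × K → ℂ} (h : PerS i φ) {n : K} (hn : DualF i n) {u : Kˣ}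
    (hu : u ∈ unitsA K) (hφ : ∀ x : K × K, φ (x.1, (u : K) * x.2) = φ x) (g : GG K) (s : ℂ) :
    FF i φ ((u : K) * n) g s = FF i φ n g s := by
  rw [FF, FF]
  refine tsum_congr fun m => ?_
  rw [Jq_dil h hn hu hφ (lt0_ne m)]
theorem FF_ind {l : K} (hl : l ≠ 0) {i : ℕ} (hi : ee K ≤ i) {n : K} (hn : DualF (ee K) n)
    (g : GG K) (s : ℂ) : FF i (ind l) n g s = if clsK l = g then
      ((sN l : ℝ) : ℂ) ^ (-s) * ((absN (MK K ^ ee K) : ℝ) : ℂ)⁻¹ else 0 := by
  have h1 := one_lt0_clt hl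
  rw [FF, tsum_eq_single (clt l)]
  · rw [Jq_ind l hi hn (lt0_ne _), if_pos h1, sN_congr cls_he h1,
      ← (clsK_eq_iff hl (lt0_ne _)).2 ⟨1, one_ne_zero, by simpa using h1⟩]
  · intro m hm
    rw [Jq_ind l hi hn (lt0_ne _), if_neg (fun h => hm
      ((clt_lt0 m).symm.trans ((clt_eq_iff hl (lt0_ne _)).2 h).symm)), mul_zero, ite_self]

end

end Vale.Agent.P319N
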