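import Vale.Agent.P319N.CJq
import Vale.Agent.P319N.BPer

namespace Vale.Agent.P319N

open NumberField Complex MeasureTheory Filter Topology
open scoped Classical ComplexConjugate Real MatrixGroups
open Vale.Agent.P026 (omC kap psi W Hs ht QQ act uu muH hh LL Gs bb kk UU DualW)

noncomputable section

variable {K : Type} [Field K] [NumberField K] [Level K]

theorem cfac_out_mk (L : AddSubgroup K) (r : K) : (QuotientAddGroup.mk r : K ⧸ L).out - r ∈ L := by
  have := QuotientAddGroup.eq.1 (QuotientAddGroup.out_eq' (QuotientAddGroup.mk r : K ⧸ L)).symm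
  rwa [neg_add_eq_sub] at this

/-- the Chinese remainder theorem between the places over `M` and the other finite places -/
theorem cfac_gen {q : R K} (hq : q ≠ 0) {y : K} (h1 : y / q ∈ R K) (h2 : (q : K) / y ∈ R K)
    (hy : y ≠ 0) {f : R K → ℂ} (hf : Per q f) {G : K → ℂ}
    (hG : ∀ d d' : K, (d - d') / y ∈ A K → G d = G d')
    (hS : Summable fun D : K ⧸ lattA y => ‖G D.out‖) :
    ∑' d : K ⧸ latt y, extR f d.out * G d.out =
      (∑ x ∈ rs q, f x) * ∑' D : K ⧸ lattA y, G D.out := by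
  have hqK : (q : K) ≠ 0 := by exact_mod_cast hq
  have hdvd : ∀ a b : R K, q ∣ a - b ↔ ((a : K) - b) / y ∈ R K := by
    intro a b
    rw [dvd_iff_div_mem hq]
    push_cast
    constructor
    · intro h
      have : ((a : K) - b) / y = ((a : K) - b) / q * (q / y) := by field_simp
      rw [this]; exact (R K).mul_mem h h2
    · intro h
      have : ((a : K) - b) / q = ((a : K) - b) / y * (y / q) := by field_simp
      rw [this]; exact (R K).mul_mem h h1
  have hyR : y ∈ R K := by
    have : y = y / q * q := by field_simp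
    rw [this]; exact (R K).mul_mem h1 q.2
  choose r hr1 hr2 using fun z1 z2 : K => approx hy hy z1 z2
  let Θ : (rs q) × (K ⧸ lattA y) → K ⧸ latt y :=
    fun p => QuotientAddGroup.mk (r ((p.1 : R K) : K) p.2.out)
  have key : ∀ p : (rs q) × (K ⧸ lattA y), ((Θ p).out - ((p.1 : R K) : K)) / y ∈ R K ∧
      ((Θ p).out - p.2.out) / y ∈ A K := by
    intro p
    have h0 : IsI (((Θ p).out - r ((p.1 : R K) : K) p.2.out) / y) := cfac_out_mk (latt y) _
    constructor
    · have := (R K).add_mem (mem_R_of_isI h0) (hr1 ((p.1 : R K) : K) p.2.out)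
      rwa [← add_div, sub_add_sub_cancel] at this
    · have := (A K).add_mem (mem_A_of_isI h0) (hr2 ((p.1 : R K) : K) p.2.out)
      rwa [← add_div, sub_add_sub_cancel] at this
  have hinj : Function.Injective Θ := by
    intro p p' h
    obtain ⟨a1, a2⟩ := key p
    obtain ⟨b1, b2⟩ := key p'
    rw [h] at a1 a2
    refine Prod.ext (Subtype.ext (rs_inj p.1.2 p'.1.2 ((hdvd _ _).2 ?_))) ?_
    · have := (R K).sub_mem b1 a1
      rwa [← sub_div, sub_sub_sub_cancel_left] at this
    · rw [← p.2.out_eq', ← p'.2.out_eq']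
      refine QuotientAddGroup.eq.2 ?_
      have := (A K).sub_mem a2 b2
      rw [← sub_div, sub_sub_sub_cancel_left] at this
      rwa [neg_add_eq_sub]
  have hsupp : Function.support (fun d : K ⧸ latt y => extR f d.out * G d.out) ⊆ Set.range Θ := by
    intro d hd
    have hR : d.out ∈ R K := by
      by_contra hR
      exact hd (by simp only [extR_of_not f hR, zero_mul])
    obtain ⟨x, hx, hx'⟩ := rs_exists hq ⟨d.out, hR⟩
    refine ⟨(⟨x, hx⟩, QuotientAddGroup.mk d.out), ?_⟩
    obtain ⟨a1, a2⟩ := key (⟨x, hx⟩, QuotientAddGroup.mk d.out)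
    refine (Quotient.out_eq' _).symm.trans (Eq.trans ?_ d.out_eq')
    refine (QuotientAddGroup.eq.2 ?_).symm
    rw [neg_add_eq_sub]
    refine isI_of_mem ?_ ?_
    · have := (R K).sub_mem a1 ((hdvd _ _).1 hx')
      rwa [← sub_div, sub_sub_sub_cancel_right] at this
    · have := (A K).add_mem a2 (cfac_out_mk (lattA y) d.out)
      rwa [← add_div, sub_add_sub_cancel] at this
  rw [← hinj.tsum_eq hsupp, ← Finset.sum_coe_sort (rs q) f, ← tsum_fintype (L := .unconditional _),
    tsum_mul_tsum_of_summable_norm Summable.of_finite hS]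
  refine tsum_congr fun p => ?_
  obtain ⟨a1, a2⟩ := key p
  have hR : (Θ p).out ∈ R K := by
    have : (Θ p).out = ((Θ p).out - ((p.1 : R K) : K)) / y * y + ((p.1 : R K) : K) := by
      field_simp; ring
    rw [this]
    exact (R K).add_mem ((R K).mul_mem a1 hyR) (p.1 : R K).2
  rw [hG _ _ a2, show extR f (Θ p).out = f ⟨(Θ p).out, hR⟩ from extR_coe f ⟨_, hR⟩,
    hf ⟨(Θ p).out, hR⟩ p.1 ((hdvd _ _).2 a1)]

theorem cfac_per {i : ℕ} {φ : K × K → ℂ} (hφ : PerS i φ) {n c : K} (hn : DualF i n) (hc : c ≠ 0)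
    (d d' : K) (h : (d - d') / (c * MK K ^ i) ∈ A K) :
    φ (c, d) * psiF (n * d / c) = φ (c, d') * psiF (n * d' / c) := by
  have hM := pow_ne_zero i (MK_ne (K := K))
  have e1 : φ (c, d) = φ (c, d') := by
    rw [← hφ c d' _ h]
    congr 2
    field_simp; ring
  have e2 : psiF (n * (d / c)) = psiF (n * (d' / c)) := hn.psiF_congr (by
    convert h using 1
    field_simp)
  rw [e1, mul_div_assoc, mul_div_assoc, e2]

theorem cfac_summable {i j : ℕ} {φ : K × K → ℂ} (hφ : Sg i j φ) (n c : K) {y : K} (hy : y ≠ 0) :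
    Summable fun D : K ⧸ lattA y => ‖φ (c, D.out) * psiF (n * D.out / c)‖ := by
  have hM := pow_ne_zero j (MK_ne (K := K))
  refine summable_of_hasFiniteSupport ((finite_clsA (inv_ne_zero hM) hy).subset fun D hD => ?_)
  have : φ (c, D.out) ≠ 0 := fun h => hD (by simp only [h, zero_mul, norm_zero])
  have h2 := (hφ.supp _ this).2
  change D.out / (MK K ^ j)⁻¹ ∈ A K
  rwa [div_inv_eq_mul, mul_comm]

theorem cfac_S3 (n c : R K) (d : K) : S3 d c * psiS (n * d / c) =
    extR (fun x => sym3 x c * psiS ((n : K) * x / c)) d := by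
  by_cases hd : d ∈ R K
  · rw [show S3 d c = sym3 ⟨d, hd⟩ c from S3_coe ⟨d, hd⟩ c]
    exact (extR_coe (fun x => sym3 x c * psiS ((n : K) * x / c)) ⟨d, hd⟩).symm
  · rw [extR_of_not _ hd]
    have : S3 d c = 0 := by
      by_contra h
      exact hd (S3_ne h).1
    rw [this, zero_mul]

theorem Ssum_fac {i j : ℕ} {Φ φ : K × K → ℂ} (hφ : Sg i j φ) {n c : R K} (hn : DualF i (n : K))
    (hc : c ≠ 0) (z : ℂ) (h : ∀ d : K, Φ (c, d) = z * (S3 d c * φ (c, d))) :
    Ssum (MK K ^ i) Φ n c = z * (g3 n c * Jq i φ n c) := by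
  have hM := pow_ne_zero i (MK_ne (K := K))
  have hcK : (c : K) ≠ 0 := by exact_mod_cast hc
  have hper : Per c (fun x => sym3 x c * psiS ((n : K) * x / c)) := by
    intro x y h
    have h2 : psiS ((n : K) * x / c) = psiS ((n : K) * y / c) := rs_per_psi hc n x y h
    show sym3 x c * psiS ((n : K) * x / c) = sym3 y c * psiS ((n : K) * y / c)
    rw [sym3_congr h, h2]
  have e := cfac_gen hc (y := c * MK K ^ i)
    (by rw [mul_div_cancel_left₀ _ hcK]; exact (R K).pow_mem (natCast_mem _ _) i)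
    (by rw [← div_div, div_self hcK]; exact div_MK_pow_mem_R (R K).one_mem i)
    (mul_ne_zero hcK hM) hper (G := fun d => φ (c, d) * psiF (n * d / c))
    (cfac_per hφ.per hn hcK) (cfac_summable hφ n c (mul_ne_zero hcK hM))
  have e2 : ∀ d : K, Φ (c, d) * psiK (n * d / c) =
      z * (extR (fun x => sym3 x c * psiS ((n : K) * x / c)) d *
        (φ (c, d) * psiF (n * d / c))) := by
    intro d
    rw [h, psiK_eq_mul, ← cfac_S3]; ring
  rw [Ssum, tsum_congr fun d => e2 _, tsum_mul_left, e, g3, Jq]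
  ring

theorem Dser_fac {i j : ℕ} {Φ φ : K × K → ℂ} (hφ : Sg i j φ) {n : R K} (hn : DualF i (n : K))
    (χ : R K → ℂ) (h : ∀ c d : K, c ≠ 0 → Φ (c, d) = extR χ c * (S3 d c * φ (c, d))) (s : ℂ) :
    Dser (MK K ^ i) Φ n s = DJ χ i φ n s := by
  have hinj : Function.Injective (fun x : R K => (x : K)) := Subtype.val_injective
  rw [Dser, DJ, ← hinj.tsum_eq]
  · refine tsum_congr fun c => ?_
    split_ifs with hc
    · have hc0 : c ≠ 0 := fun e => hc.1 (by rw [e]; rfl)
      rw [Ssum_fac hφ hn hc0 (χ c) fun d => by rw [h c d hc.1, extR_coe]]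
      ring
    · rfl
  · intro c hc
    by_contra hR
    have hR' : c ∉ R K := fun h' => hR ⟨⟨c, h'⟩, rfl⟩
    apply hc
    simp only
    split_ifs with h1
    · have : ∀ d : K, Φ (c, d) = 0 := fun d => by rw [h c d h1.1, extR_of_not χ hR', zero_mul]
      simp [Ssum, this]
    · rfl

end

end Vale.Agent.P319N
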