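import Vale.Agent.P319N.CKub

namespace Vale.Agent.P319N

open NumberField Complex MeasureTheory Filter Topology
open scoped Classical ComplexConjugate Real MatrixGroups
open Vale.Agent.P026 (omC kap psi W Hs ht QQ act uu muH hh LL Gs bb kk UU DualW)

noncomputable section

variable {K : Type} [Field K] [NumberField K] [Level K]

theorem cg3_N_one : N (1 : R K) = 1 := by
  rw [N, Nm_eq_one.2 isUnit_one, Nat.cast_one]

theorem cg3_N_pow (p : R K) (k : ℕ) : N (p ^ k) = N p ^ k := by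
  induction k with
  | zero => simpa using cg3_N_one
  | succ k ih => rw [pow_succ, N_mul, ih, pow_succ]

theorem cg3_coe_ne {p : R K} (hp : p ≠ 0) : (p : K) ≠ 0 := by exact_mod_cast hp

theorem cg3_per (m : R K) {c : R K} (hc : c ≠ 0) :
    Per c (fun x => sym3 x c * psiS ((m : K) * x / c)) := by
  intro x y h
  have h2 : psiS ((m : K) * x / c) = psiS ((m : K) * y / c) := rs_per_psi hc m x y h
  show sym3 x c * psiS ((m : K) * x / c) = sym3 y c * psiS ((m : K) * y / c)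
  rw [sym3_congr h, h2]

theorem cg3_shift {p : R K} (hp : Prime p) {a : ℕ} (ha : 1 ≤ a) (b : ℕ) (m : R K) :
    g3 m (p ^ a * p ^ b) = ∑ x ∈ rs (p ^ a), sym3 x p ^ (a + b) *
      psiS ((m : K) * x / ((p ^ a * p ^ b : R K) : K)) *
        (if p ^ b ∣ m then ((N (p ^ b) : ℝ) : ℂ) else 0) := by
  have h0 := hp.ne_zero
  have ha0 : p ^ a ≠ 0 := pow_ne_zero _ h0
  have hb0 : p ^ b ≠ 0 := pow_ne_zero _ h0
  rw [g3, sum_rs_split ha0 hb0 (cg3_per m (mul_ne_zero ha0 hb0))]
  refine Finset.sum_congr rfl fun x _ => ?_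
  rw [← sum_psi hb0 m, Finset.mul_sum]
  refine Finset.sum_congr rfl fun y _ => ?_
  have e1 : sym3 (x + p ^ a * y) (p ^ a * p ^ b) = sym3 x p ^ (a + b) := by
    rw [← pow_add, sym3_pow_right _ h0, sym3_congr (y := x)]
    rw [add_sub_cancel_left]
    exact Dvd.dvd.mul_right (dvd_pow_self p (by omega)) y
  have e2 : (m : K) * ((x + p ^ a * y : R K) : K) / ((p ^ a * p ^ b : R K) : K) =
      (m : K) * x / ((p ^ a * p ^ b : R K) : K) + (m : K) * y / ((p ^ b : R K) : K) := by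
    have := cg3_coe_ne h0
    push_cast
    field_simp
  rw [e1, e2, psiS_add, mul_assoc]

theorem cg3_cube {p : R K} (hp : Prime p) (x : R K) {k : ℕ} (hk : k ≠ 0) (h3 : 3 ∣ k) :
    sym3 x p ^ k = 1 - (if p ∣ 0 - x then 1 else 0) := by
  by_cases hx : p ∣ x
  · have : sym3 x p = 0 := (sym3_eq_zero_iff hp.ne_zero).2 fun h =>
      (hp.coprime_iff_not_dvd.1 h.symm) hx
    rw [this, zero_pow hk, if_pos (by simpa using hx), sub_self]
  · obtain ⟨t, rfl⟩ := h3
    rw [pow_mul, sym3_cube (hp.coprime_iff_not_dvd.2 hx).symm, one_pow,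
      if_neg (by simpa using hx), sub_zero]

theorem cg3_sum_pow {p : R K} (hp : Prime p) {k : ℕ} (hk : ¬ 3 ∣ k) :
    ∑ x ∈ rs p, sym3 x p ^ k = 0 := by
  obtain ⟨t, ht, h1⟩ := exists_sym3_ne hp
  have hc : IsCoprime t p := (hp.coprime_iff_not_dvd.2 ht).symm
  have hper : Per p (fun x => sym3 x p ^ k) := fun x y h => by
    show sym3 x p ^ k = sym3 y p ^ k
    rw [sym3_congr h]
  have e := sum_rs_mul hp.ne_zero hc hper
  simp only [sym3_mul_left, mul_pow] at e
  rw [← Finset.mul_sum] at e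
  have h3 := sym3_cube hc
  have hne : sym3 t p ^ k ≠ 1 := by
    intro h
    apply h1
    have hk' : k % 3 = 1 ∨ k % 3 = 2 := by omega
    have e2 : sym3 t p ^ k = sym3 t p ^ (k % 3) := by
      conv_lhs => rw [← Nat.div_add_mod k 3, pow_add, pow_mul, h3, one_pow, one_mul]
    rw [e2] at h
    rcases hk' with h' | h'
    · rwa [h', pow_one] at h
    · rw [h'] at h
      calc sym3 t p = sym3 t p ^ 2 * sym3 t p := by rw [h, one_mul]
        _ = 1 := by rw [← h3]; ring
  have : (sym3 t p ^ k - 1) * ∑ x ∈ rs p, sym3 x p ^ k = 0 := by linear_combination e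
  exact (mul_eq_zero.1 this).resolve_left (sub_ne_zero.2 hne)

theorem norm_g3_le (n : R K) {c : R K} (hc : c ≠ 0) : ‖g3 n c‖ ≤ N c := by
  rw [g3]
  refine (norm_sum_le _ _).trans ?_
  calc ∑ x ∈ rs c, ‖sym3 x c * psiS ((n : K) * x / c)‖ ≤ ∑ _x ∈ rs c, (1 : ℝ) := by
        refine Finset.sum_le_sum fun x _ => ?_
        rw [norm_mul, norm_psiS, mul_one]
        exact norm_sym3_le x c
    _ = N c := by rw [Finset.sum_const, card_rs hc, N]; simp

theorem g3_one (n : R K) : g3 n 1 = 1 := by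
  rw [g3]
  calc ∑ x ∈ rs (1 : R K), sym3 x 1 * psiS ((n : K) * x / ((1 : R K) : K))
      = ∑ _x ∈ rs (1 : R K), (1 : ℂ) := by
        refine Finset.sum_congr rfl fun x _ => ?_
        rw [sym3_unit_right x isUnit_one, psiS_R, mul_one]
        simpa using (R K).mul_mem n.2 x.2
    _ = 1 := by
        rw [Finset.sum_const, card_rs one_ne_zero, Nm_eq_one.2 isUnit_one]; simp

theorem g3_split {a b : R K} (ha : a ≠ 0) (hb : b ≠ 0) (h : IsCoprime a b) (n : R K) :
    g3 n (a * b) = E (a : K) b * g3 (n * b) a * g3 n b := by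
  rw [g3_crt ha hb h, g3_mul_left ha h.symm, sym3_flip ha hb, conj_sym3]
  ring

theorem g3_unit_n {u c : R K} (hu : IsUnit u) (hc : c ≠ 0) (n : R K) :
    g3 (n * u) c = conj (E (u : K) c) * g3 n c := by
  have hco : IsCoprime u c := by
    obtain ⟨v, rfl⟩ := hu
    exact ⟨↑v⁻¹, 0, by simp⟩
  rw [g3_mul_left hc hco, sym3_unit_left hu hc]

theorem g3_cube_n {d c : R K} (hc : c ≠ 0) (h : IsCoprime d c) (n : R K) :
    g3 (n * d ^ 3) c = g3 n c := by
  rw [g3_mul_left hc (h.pow_left), sym3_pow_left, sym3_cube h, map_one, one_mul]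

theorem g3_high {p n : R K} (hp : Prime p) (hn : ¬ p ∣ n) {j k : ℕ} (h : j + 2 ≤ k) :
    g3 (n * p ^ j) (p ^ k) = 0 := by
  obtain ⟨a, rfl⟩ : ∃ a, k = (a + 1) + (j + 1) := ⟨k - j - 2, by omega⟩
  rw [pow_add, cg3_shift hp (by omega)]
  refine Finset.sum_eq_zero fun x _ => ?_
  rw [if_neg, mul_zero]
  intro hd
  rw [pow_succ'] at hd
  exact hn ((mul_dvd_mul_iff_right (pow_ne_zero j hp.ne_zero)).1 hd)

theorem g3_dvd {p n : R K} (hp : Prime p) {k : ℕ} (h : p ^ (k + 1) ∣ n) :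
    g3 n (p ^ (k + 1)) =
      if 3 ∣ k + 1 then ((N p : ℝ) : ℂ) ^ (k + 1) - ((N p : ℝ) : ℂ) ^ k else 0 := by
  have h0 := hp.ne_zero
  have e : g3 n (p ^ (k + 1)) = (∑ x ∈ rs p, sym3 x p ^ (k + 1)) * ((N p : ℝ) : ℂ) ^ k := by
    have e0 : p ^ (k + 1) = p ^ 1 * p ^ k := by ring
    rw [e0, cg3_shift hp le_rfl, pow_one, Finset.sum_mul]
    refine Finset.sum_congr rfl fun x _ => ?_
    rw [if_pos ((pow_dvd_pow p (by omega)).trans h), cg3_N_pow, psiS_R, mul_one, add_comm 1 k]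
    · push_cast; rfl
    · have h' : p * p ^ k ∣ n * x := by
        rw [← pow_succ']; exact h.mul_right x
      have := (dvd_iff_div_mem (mul_ne_zero h0 (pow_ne_zero k h0))).1 h'
      simpa using this
  rw [e]
  split_ifs with h3
  · have : ∑ x ∈ rs p, sym3 x p ^ (k + 1) = ((N p : ℝ) : ℂ) - 1 := by
      rw [Finset.sum_congr rfl fun x _ => cg3_cube hp x (by omega) h3, Finset.sum_sub_distrib,
        sum_class h0, Finset.sum_const, card_rs h0, N]
      simp
    rw [this]; ring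
  · rw [cg3_sum_pow hp h3, zero_mul]

theorem g3_sq3 {p n : R K} (hp : Prime p) (hn : ¬ p ∣ n) :
    g3 (n * p ^ 2) (p ^ 3) = -((N p : ℝ) : ℂ) ^ 2 := by
  have h0 := hp.ne_zero
  have hK := cg3_coe_ne h0
  have e0 : p ^ 3 = p ^ 1 * p ^ 2 := by ring
  rw [e0, cg3_shift hp le_rfl, pow_one, ← Finset.sum_mul, if_pos (dvd_mul_left _ _), cg3_N_pow]
  have : ∑ x ∈ rs p, sym3 x p ^ (1 + 2) *
      psiS (((n * p ^ 2 : R K) : K) * x / ((p * p ^ 2 : R K) : K)) = -1 := by
    have e1 : ∀ x ∈ rs p, sym3 x p ^ (1 + 2) *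
        psiS (((n * p ^ 2 : R K) : K) * x / ((p * p ^ 2 : R K) : K)) =
        psiS ((n : K) * x / p) - (if p ∣ 0 - x then 1 else 0) := by
      intro x _
      have e2 : ((n * p ^ 2 : R K) : K) * x / ((p * p ^ 2 : R K) : K) = (n : K) * x / p := by
        push_cast; field_simp
      rw [e2, cg3_cube hp x (by omega) (by omega)]
      split_ifs with hx
      · have hx' : p ∣ n * x := Dvd.dvd.mul_left (by simpa using hx) n
        have : psiS ((n : K) * x / p) = 1 := psiS_R (by simpa using (dvd_iff_div_mem h0).1 hx')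
        rw [this]; ring
      · ring
    rw [Finset.sum_congr rfl e1, Finset.sum_sub_distrib, sum_psi h0, if_neg hn, sum_class h0]
    ring
  rw [this]
  push_cast; ring

theorem g3_prime {p : R K} (hp : Prime p) (n : R K) :
    g3 n p = conj (sym3 n p) * gt3 p * ((√(N p) : ℝ) : ℂ) := by
  have h : ((√(N p) : ℝ) : ℂ) ≠ 0 :=
    Complex.ofReal_ne_zero.2 (Real.sqrt_pos.2 (N_pos hp.ne_zero)).ne'
  rw [g3_twist hp.squarefree, gt3, mul_assoc, div_mul_cancel₀ _ h]

end

end Vale.Agent.P319N
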