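import Vale.Agent.P319N.CRep
import Vale.Agent.P319N.BTC
import Vale.Agent.P319N.BInc
import Vale.Agent.P319N.BPer
import Vale.Agent.P319N.BHil

namespace Vale.Agent.P319N

open NumberField Complex MeasureTheory Filter Topology
open scoped Classical ComplexConjugate Real MatrixGroups
open Vale.Agent.P026 (omC kap psi W Hs ht QQ act uu muH hh LL Gs bb kk UU DualW)

noncomputable section

variable {K : Type} [Field K] [NumberField K] [Level K]

theorem chat_card {G : Type} [AddCommGroup G] (H H' : AddSubgroup G)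
    [Finite (H ⧸ H'.addSubgroupOf H)] (T : Finset (G ⧸ H')) (hT : ∀ d ∈ T, d.out ∈ H) :
    T.card ≤ H'.relIndex H := by
  have := Nat.card_le_card_of_injective
    (fun d : T => (QuotientAddGroup.mk ⟨d.1.out, hT d.1 d.2⟩ : H ⧸ H'.addSubgroupOf H))
    (fun a b h => by
      have h1 := AddSubgroup.mem_addSubgroupOf.1 (QuotientAddGroup.eq.1 h)
      have h2 : ((a.1.out : G) : G ⧸ H') = (b.1.out : G) := QuotientAddGroup.eq.2 h1
      rw [QuotientAddGroup.out_eq', QuotientAddGroup.out_eq'] at h2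
      exact Subtype.ext h2)
  rwa [Nat.card_eq_fintype_card, Fintype.card_coe] at this

theorem chat_off {j : ℕ} {B : ℝ} {Φ : K × K → ℂ} (hΦ : Ad1 j B Φ) {m c : K} (h0 : m ≠ 0)
    (hc : c ≠ 0) (n : K) :
    ∀ d ∉ (finite_classes hc h0 (pow_ne_zero j (MK_ne (K := K)))).toFinset,
      Φ (c, d.out) * psiK (n * d.out / c) = 0 := fun d hd => by
  by_contra h
  exact hd ((Set.Finite.mem_toFinset _).2 (hΦ.supp _ (left_ne_zero_of_mul h)).2.1)

theorem chat_bound {j : ℕ} {B : ℝ} {Φ : K × K → ℂ} (hΦ : Ad1 j B Φ) {m c : K} (h0 : m ≠ 0)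
    (hm : IsI m) (hc : c ≠ 0) (n : K) :
    ‖Ssum m Φ n c‖ ≤ if IsI (MK K ^ j * c) then B * absN (MK K ^ j) * absN c else 0 := by
  have hM := pow_ne_zero j (MK_ne (K := K))
  have hB : 0 ≤ B := (norm_nonneg _).trans (hΦ.bd 0)
  split_ifs with h
  · have e : (MK K ^ j)⁻¹ * (MK K ^ j * c * m) = c * m := by field_simp
    have h1 := mul_ne_zero (mul_ne_zero hM hc) h0
    have hf := bp_fin (inv_ne_zero hM) (h.mul hm) h1
    have hr := bl_relIndex (inv_ne_zero hM) (h.mul hm) h1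
    rw [e] at hf hr
    have hcard := chat_card (latt (MK K ^ j)⁻¹) (latt (c * m))
      (finite_classes hc h0 hM).toFinset (fun d hd => by
        have := (Set.Finite.mem_toFinset _).1 hd
        change IsI _
        rw [div_inv_eq_mul, mul_comm]
        exact this)
    have hc' : (((finite_classes hc h0 hM).toFinset.card : ℕ) : ℝ) ≤ absN (MK K ^ j * c * m) := by
      rw [← hr]
      exact_mod_cast hcard
    have hp := absN_pos h0
    rw [Ssum, tsum_eq_sum (chat_off hΦ h0 hc n), norm_mul, norm_inv, Complex.norm_real,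
      Real.norm_of_nonneg hp.le, inv_mul_le_iff₀ hp]
    refine (norm_sum_le _ _).trans ((Finset.sum_le_card_nsmul _ _ B fun d _ => ?_).trans ?_)
    · rw [norm_mul, norm_psiK, mul_one]
      exact hΦ.bd _
    · rw [nsmul_eq_mul]
      refine (mul_le_mul_of_nonneg_right hc' hB).trans (le_of_eq ?_)
      rw [absN_mul, absN_mul]
      ring
  · have : ∀ d : K ⧸ latt (c * m), Φ (c, d.out) * psiK (n * d.out / c) = 0 := fun d => by
      by_contra h'
      exact h (hΦ.supp _ (left_ne_zero_of_mul h')).1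
    simp [Ssum, this]

theorem summable_Dser {j : ℕ} {B : ℝ} {Φ : K × K → ℂ} (hΦ : Ad1 j B Φ) {m : K} (h0 : m ≠ 0)
    (hm : IsI m) (n : K) {s : ℂ} (hs : 3 < s.re) :
    Summable fun c : K => if Rep c then ((absN c : ℝ) : ℂ) ^ (-s) * Ssum m Φ n c else 0 := by
  have hM := pow_ne_zero j (MK_ne (K := K))
  refine Summable.of_norm_bounded
    ((summable_rep hM (a := s.re - 1) (by linarith)).mul_left (B * absN (MK K ^ j))) fun c => ?_
  by_cases hc : Rep c
  · have hp := absN_pos hc.1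
    have hb := chat_bound hΦ h0 hm hc.1 n
    rw [if_pos hc, norm_mul, Complex.norm_cpow_eq_rpow_re_of_pos hp, Complex.neg_re]
    by_cases h : IsI (MK K ^ j * c)
    · rw [if_pos h] at hb
      rw [if_pos ⟨hc, h⟩]
      refine (mul_le_mul_of_nonneg_left hb (Real.rpow_nonneg hp.le _)).trans (le_of_eq ?_)
      rw [neg_sub, sub_eq_add_neg, Real.rpow_add hp, Real.rpow_one]
      ring
    · rw [if_neg h] at hb
      rw [if_neg fun h' => h h'.2, mul_zero]
      exact mul_nonpos_of_nonneg_of_nonpos (Real.rpow_nonneg hp.le _) hb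
  · rw [if_neg hc, if_neg fun h' => hc h'.1, norm_zero, mul_zero]
theorem Dser_sum {I : Type} [Fintype I] {j : I → ℕ} {B : I → ℝ} {Φ : I → K × K → ℂ}
    (hΦ : ∀ i, Ad1 (j i) (B i) (Φ i)) (c : I → ℂ) {m : K} (h0 : m ≠ 0) (hm : IsI m) (n : K) {s : ℂ}
    (hs : 3 < s.re) :
    Dser m (fun x => ∑ i, c i * Φ i x) n s = ∑ i, c i * Dser m (Φ i) n s := by
  simp only [Dser, ← tsum_mul_left]
  rw [← Summable.tsum_finsetSum fun i _ => (summable_Dser (hΦ i) h0 hm n hs).mul_left (c i)]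
  refine tsum_congr fun x => ?_
  by_cases hx : Rep x
  · simp only [if_pos hx, Ssum, Finset.sum_mul, mul_assoc]
    rw [Summable.tsum_finsetSum fun i _ =>
      (summable_of_ne_finset_zero (chat_off (hΦ i) h0 hx.1 n)).mul_left (c i)]
    simp only [tsum_mul_left, Finset.mul_sum]
    exact Finset.sum_congr rfl fun i _ => by ring
  · simp [hx]
theorem IsRes.sum {η : ℝ} {I : Type} (t : Finset I) {D : I → ℂ → ℂ} {r : I → ℂ}
    (h : ∀ i ∈ t, IsRes η (D i) (r i)) : IsRes η (fun s => ∑ i ∈ t, D i s) (∑ i ∈ t, r i) := by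
  induction t using Finset.induction_on with
  | empty => simpa using isRes_zero
  | insert a t ha ih =>
    simp only [Finset.sum_insert ha]
    exact (h a (Finset.mem_insert_self _ _)).add
      (ih fun i hi => h i (Finset.mem_insert_of_mem hi))
theorem eta_pos : 0 < eta K := by
  exact inv_pos.2 (Nat.cast_pos.2 rk_pos)
theorem Adm.sum {I : Type} [Fintype I] [Nonempty I] {q : K} {κ : SLK K → ℂ} {Φ : I → K × K → ℂ}
    (h : ∀ i, Adm q κ (Φ i)) (c : I → ℂ) : Adm q κ (fun x => ∑ i, c i * Φ i x) := by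
  have h0 := h (Classical.arbitrary I)
  choose B hB using fun i => (h i).bd
  choose j hj using fun i => (h i).supp
  refine ⟨h0.qne, h0.qint, ⟨∑ i, ‖c i‖ * B i, fun x => ?_⟩, ⟨Finset.univ.sup j, fun x hx => ?_⟩,
    fun u hu x => ?_, h0.norm, h0.mul, fun γ hγ x => ?_, h0.unip⟩
  · refine (norm_sum_le _ _).trans (Finset.sum_le_sum fun i _ => ?_)
    rw [norm_mul]
    exact mul_le_mul_of_nonneg_left (hB i x) (norm_nonneg _)
  · obtain ⟨i, -, hi⟩ := Finset.exists_ne_zero_of_sum_ne_zero hx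
    exact (hj i x (right_ne_zero_of_mul hi)).mono (Finset.le_sup (Finset.mem_univ i))
  · exact Finset.sum_congr rfl fun i _ => by rw [(h i).unit u hu]
  · rw [Finset.mul_sum]
    exact Finset.sum_congr rfl fun i _ => by rw [(h i).eqv γ hγ]; ring
theorem hat {I : Type} [Fintype I] [Nonempty I] {q : K} {κ : SLK K → ℂ} {Φ : I → K × K → ℂ}
    (h : ∀ i, Adm q κ (Φ i)) {b : I → ℝ} (hb : ∀ i, 0 < b i) :
    ∃ ρ, ThetaOut q (fun x => ∑ i, ((b i ^ 4 : ℝ) : ℂ) * Φ i x) ρ ∧
      ∀ j σ, Ent j σ → ∀ n ∈ dualL (latt (pd q j)),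
        IsRes (eta K) (fun s => ∑ i, ((b i ^ 3 : ℝ) : ℂ) ^ s * Dser (pd q j) (tw (Φ i) σ) n s)
          (ρ σ n) := by
  have h0 := h (Classical.arbitrary I)
  obtain ⟨ρ, hρ⟩ := theta_machine (Adm.sum h fun i => ((b i ^ 4 : ℝ) : ℂ))
  choose r hr using fun i => theta_machine (h i)
  refine ⟨ρ, hρ, fun j σ hσ n hn => ?_⟩
  choose k B hk using fun i => (h i).ad1 σ hσ
  have hv := h0.val σ hσ
  have e1 : ρ σ n = ∑ i, ((b i ^ 4 : ℝ) : ℂ) * r i σ n := by
    refine IsRes.unique eta_pos (hρ.res j σ hσ n hn) ?_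
    refine (IsRes.sum Finset.univ fun i _ =>
      ((hr i).res j σ hσ n hn).const_mul ((b i ^ 4 : ℝ) : ℂ)).congr fun s hs => ?_
    exact (Dser_sum hk (fun i => ((b i ^ 4 : ℝ) : ℂ)) hv.1 hv.2.1 n hs).symm
  rw [e1]
  refine IsRes.sum Finset.univ fun i _ => ?_
  have hp : 0 < b i ^ 3 := pow_pos (hb i) 3
  have := ((hr i).res j σ hσ n hn).mul (f := fun s => ((b i ^ 3 : ℝ) : ℂ) ^ s)
    ((differentiable_id.const_cpow (Or.inl (by exact_mod_cast hp.ne'))).differentiableOn)
  convert this using 2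
  have e : (4 / 3 : ℂ) = ((4 / 3 : ℝ) : ℂ) := by push_cast; rfl
  rw [e, ← Complex.ofReal_cpow hp.le, ← Real.rpow_natCast, ← Real.rpow_natCast,
    ← Real.rpow_mul (hb i).le]
  norm_num

end

end Vale.Agent.P319N
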