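import Vale.Agent.P319N.QuadB
import Vale.Agent.P026.Sym

namespace Vale.Agent.P319N

open NumberField Complex MeasureTheory Filter Topology
open scoped Classical ComplexConjugate Real
open Vale.Agent.P026 (omC kap psi W)

noncomputable section

variable {K : Type} [Field K] [NumberField K] [Level K]

theorem cls_he : 1 ≤ ee K := Level.he

theorem One.pow {j : ℕ} {z : K} (h : One j z) (k : ℕ) : One j (z ^ k) := by
  induction k with
  | zero => simpa using one_one j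
  | succ k ih => rw [pow_succ]; exact ih.mul h

theorem cls_fin {G : Type} [CommGroup G] {H U P : Subgroup G} (h1 : H.relIndex U ≠ 0)
    (h2 : (U ⊔ P).FiniteIndex) : (H ⊔ P).FiniteIndex := by
  have h3 : (H ⊔ P).relIndex (U ⊔ P) ≠ 0 := by
    have a : (H ⊔ P).relIndex U ≠ 0 := fun h =>
      h1 (Subgroup.relIndex_eq_zero_of_le_left le_sup_left h)
    have b : (H ⊔ P).relIndex (U ⊔ (H ⊔ P)) ≠ 0 := by rwa [Subgroup.relIndex_sup_right]
    exact fun h => b (Subgroup.relIndex_eq_zero_of_le_right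
      (sup_le_sup_left le_sup_right U) h)
  refine ⟨fun h => ?_⟩
  have := Subgroup.relIndex_ne_zero_trans h3 (L := ⊤) (by simpa using h2.index_ne_zero)
  exact this (by simpa using h)

instance finite_GG : Finite (GG K) := by
  have : (H6 K).FiniteIndex :=
    cls_fin (finite_unitsA_H1 (ee K)) (finite_unitsA_pow (k := 6) (by norm_num))
  exact Subgroup.finite_quotient_of_finiteIndex

theorem GG_pow_six (c : GG K) : c ^ 6 = 1 := by
  obtain ⟨z, rfl⟩ := QuotientGroup.mk_surjective c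
  rw [← QuotientGroup.mk_pow, QuotientGroup.eq_one_iff]
  exact Subgroup.mem_sup_right ⟨z, rfl⟩

theorem clsK_unit (z : Kˣ) : clsK (z : K) = QuotientGroup.mk z := by
  simp only [clsK, dif_pos z.ne_zero, Units.mk0_val]

theorem clsK_one_of {z : K} (h : One (ee K) z) : clsK z = 1 := by
  have h0 := h.ne_zero cls_he
  rw [← Units.val_mk0 h0, clsK_unit, QuotientGroup.eq_one_iff]
  exact Subgroup.mem_sup_left ((mem_H1 cls_he).2 h)

theorem clsK_eq_iff {x y : K} (hx : x ≠ 0) (hy : y ≠ 0) :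
    clsK x = clsK y ↔ ∃ k : K, k ≠ 0 ∧ One (ee K) (y / (x * k ^ 6)) := by
  rw [← Units.val_mk0 hx, ← Units.val_mk0 hy, clsK_unit, clsK_unit, QuotientGroup.eq]
  simp only [Units.val_mk0]
  constructor
  · intro h
    obtain ⟨a, ha, _, ⟨k, rfl⟩, e⟩ := Subgroup.mem_sup.1 h
    refine ⟨k, k.ne_zero, ?_⟩
    have e' := congrArg Units.val e
    simp only [Units.val_mul, powMonoidHom_apply, Units.val_pow_eq_pow_val,
      Units.val_inv_eq_inv_val, Units.val_mk0] at e'
    have : y / (x * (k : K) ^ 6) = a := by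
      have := k.ne_zero
      field_simp at e' ⊢
      linear_combination -e'
    rw [this]; exact ha.1
  · rintro ⟨k, hk, h⟩
    refine Subgroup.mem_sup.2 ⟨Units.mk0 _ (h.ne_zero cls_he), (mem_H1 cls_he).2 h,
      Units.mk0 k hk ^ 6, ⟨_, rfl⟩, Units.ext ?_⟩
    simp only [Units.val_mul, Units.val_pow_eq_pow_val, Units.val_inv_eq_inv_val, Units.val_mk0]
    field_simp

theorem clsK_pow {x : K} (hx : x ≠ 0) (k : ℕ) : clsK (x ^ k) = clsK x ^ k := by
  rw [← Units.val_mk0 hx, ← Units.val_pow_eq_pow_val, clsK_unit, clsK_unit, QuotientGroup.mk_pow]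

theorem clsK_inv (x : K) : clsK x⁻¹ = (clsK x)⁻¹ := by
  by_cases hx : x = 0
  · subst hx
    have : clsK (0 : K) = 1 := by simp [clsK]
    rw [inv_zero, this]; exact (inv_one (G := GG K)).symm
  · rw [← Units.val_mk0 hx, ← Units.val_inv_eq_inv_val, clsK_unit, clsK_unit,
      QuotientGroup.mk_inv]

theorem cls_cop {r b : R K} (h : b ∣ r - 1) : IsCoprime r b := by
  obtain ⟨c, hc⟩ := h
  exact ⟨1, -c, by linear_combination hc⟩

theorem cls_ne {r : R K} {z : K} (h : One (ee K) ((r : K) / z)) : r ≠ 0 := by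
  rintro rfl
  exact h.ne_zero cls_he (by simp)

theorem exists_cls (c : GG K) {b : R K} (hb : b ≠ 0) :
    ∃ a : R K, a ≠ 0 ∧ IsCoprime a b ∧ clsK (a : K) = c := by
  obtain ⟨z, rfl⟩ := QuotientGroup.mk_surjective c
  obtain ⟨r, h1, h2⟩ := approx_one z.ne_zero (ee K) hb 1
  refine ⟨r, cls_ne h2, cls_cop h1, ?_⟩
  rw [← clsK_unit, eq_comm, clsK_eq_iff z.ne_zero (by exact_mod_cast cls_ne h2)]
  exact ⟨1, one_ne_zero, by simpa using h2⟩

theorem cls_compl {G : Type} [CommGroup G] (h : ∀ c : G, c ^ 6 = 1) (B : Subgroup G) :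
    ∃ C, IsCompl B C := by
  letI : Module (ZMod 6) (Additive G) := AddCommGroup.zmodModule (n := 6) fun x => by
    simpa using congrArg Additive.ofMul (h x.toMul)
  haveI : IsReduced (ZMod 6) := isReduced_zmod.2 (Or.inl
    ((Nat.squarefree_mul (by norm_num : Nat.Coprime 2 3)).2
      ⟨Nat.prime_two.prime.squarefree, Nat.prime_three.prime.squarefree⟩))
  haveI : IsSemisimpleRing (ZMod 6) := IsArtinianRing.isSemisimpleRing_of_isReduced _
  let e := (Subgroup.toAddSubgroup (G := G)).trans (AddSubgroup.toZModSubmodule 6)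
  obtain ⟨C, hC⟩ := exists_isCompl (e B)
  refine ⟨e.symm C, ?_⟩
  rwa [e.isCompl_iff, e.apply_symm_apply]

theorem isCompl_OmG : IsCompl (BB K) (OmG K) :=
  Classical.epsilon_spec (p := fun Ω : Subgroup (GG K) => IsCompl (BB K) Ω)
    (cls_compl (G := GG K) GG_pow_six (BB K))

theorem rec2 {a b : R K} (hb : b ≠ 0) (h : IsCoprime a b) (ha : One (ee K) (a : K)) :
    sym2 a b = sym2 b a := by
  have ha0 : a ≠ 0 := by exact_mod_cast ha.ne_zero cls_he
  have hb0 : (b : K) ≠ 0 := by exact_mod_cast hb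
  have h1 : F1 (a * b) = F1 b := Level.quad _ _ hb (by simpa [hb0] using ha)
  have h2 : F1 a = 1 := by rw [← F1_one (K := K)]; exact Level.quad _ _ one_ne_zero (by simpa using ha)
  have h3 := F1_mul ha0 hb h
  have h4 : F1 b ≠ 0 := fun e => by simpa [e] using norm_F1 hb
  rw [h1, h2, one_mul, mul_assoc] at h3
  have h5 : sym2 a b * sym2 b a = 1 := mul_left_cancel₀ h4 (by rw [← h3, mul_one])
  have h6 := sym2_sq h.symm
  linear_combination (-sym2 a b) * h6 + sym2 b a * h5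

/-- abstract residue symbols -/
structure Sy (s : R K → R K → ℂ) : Prop where
  ml : ∀ x y n, s (x * y) n = s x n * s y n
  mr : ∀ x n m, n ≠ 0 → m ≠ 0 → s x (n * m) = s x n * s x m
  six : ∀ x n, n ≠ 0 → IsCoprime x n → s x n ^ 6 = 1
  zero : ∀ x n, n ≠ 0 → ¬ IsCoprime x n → s x n = 0
  rc : ∀ a b : R K, b ≠ 0 → IsCoprime a b → One (ee K) (a : K) → s a b = s b a

def clsE (s : R K → R K → ℂ) (a b : R K) : ℂ := s a b * conj (s b a)

def clsG (s : R K → R K → ℂ) (c d : GG K) : ℂ :=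
  if h : ∃ p : R K × R K, p.1 ≠ 0 ∧ p.2 ≠ 0 ∧ IsCoprime p.1 p.2 ∧ clsK (p.1 : K) = c ∧
      clsK (p.2 : K) = d then clsE s h.choose.1 h.choose.2 else 1

variable {s : R K → R K → ℂ}

theorem Sy.nrm (h : Sy s) {x n : R K} (hn : n ≠ 0) (hc : IsCoprime x n) :
    s x n * conj (s x n) = 1 := by
  have := P026.sym_norm_of_pow (by norm_num) (h.six x n hn hc)
  rw [Complex.mul_conj, Complex.normSq_eq_norm_sq, this]; simp

theorem Sy.swap (a b : R K) : clsE s b a = conj (clsE s a b) := by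
  simp [clsE, mul_comm]

theorem Sy.eml (h : Sy s) {x y : R K} (hx : x ≠ 0) (hy : y ≠ 0) (b : R K) :
    clsE s (x * y) b = clsE s x b * clsE s y b := by
  simp only [clsE, h.ml, h.mr b x y hx hy, map_mul]; ring

theorem Sy.esix (h : Sy s) {a b : R K} (ha : a ≠ 0) (hb : b ≠ 0) (hc : IsCoprime a b) :
    clsE s a b ^ 6 = 1 := by
  rw [clsE, mul_pow, ← map_pow, h.six a b hb hc, h.six b a ha hc.symm]; simp

theorem Sy.eone (h : Sy s) {a b : R K} (hb : b ≠ 0) (hc : IsCoprime a b)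
    (ha : One (ee K) (a : K)) : clsE s a b = 1 := by
  rw [clsE, ← h.rc a b hb hc ha, h.nrm hb hc]

theorem Sy.epow (h : Sy s) {x : R K} (hx : x ≠ 0) (b : R K) (k : ℕ) :
    clsE s (x ^ (k + 1)) b = clsE s x b ^ (k + 1) := by
  induction k with
  | zero => simp
  | succ k ih => rw [pow_succ, h.eml (pow_ne_zero _ hx) hx, ih]; ring

theorem Sy.left (h : Sy s) {a a' b : R K} (ha : a ≠ 0) (ha' : a' ≠ 0) (hb : b ≠ 0)
    (hc : IsCoprime a b) (hc' : IsCoprime a' b) (e : clsK (a : K) = clsK (a' : K)) :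
    clsE s a b = clsE s a' b := by
  have ha0 : (a : K) ≠ 0 := by exact_mod_cast ha
  obtain ⟨k, hk, h1⟩ := (clsK_eq_iff ha0 (by exact_mod_cast ha')).1 e
  obtain ⟨k1, k2, k3⟩ := approx_one hk (ee K) hb 1
  have k0 : (k1 : K) ≠ 0 := by exact_mod_cast cls_ne k3
  obtain ⟨c, c2, c3⟩ := approx_one (inv_ne_zero (mul_ne_zero ha0 (pow_ne_zero 6 k0))) (ee K) hb 1
  have c0 := cls_ne c3
  have o1 : One (ee K) ((c * (a * k1 ^ 6) : R K) : K) := by
    rw [div_inv_eq_mul] at c3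
    simpa using c3
  have o2 : One (ee K) ((c * a' : R K) : K) := by
    have := (o1.mul h1).mul ((k3.inv cls_he).pow 6)
    convert this using 1
    push_cast
    field_simp
  have e1 := h.eone hb ((cls_cop c2).mul_left (hc.mul_left (cls_cop k2).pow_left)) o1
  have e2 := h.eone hb ((cls_cop c2).mul_left hc') o2
  rw [h.eml c0 (mul_ne_zero ha (pow_ne_zero 6 (cls_ne k3))), h.eml ha (pow_ne_zero 6 (cls_ne k3)),
    h.epow (cls_ne k3) b 5, h.esix (cls_ne k3) hb (cls_cop k2), mul_one] at e1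
  rw [h.eml c0 ha'] at e2
  linear_combination clsE s a' b * e1 - clsE s a b * e2

theorem Sy.both (h : Sy s) {a a' b b' : R K} (ha : a ≠ 0) (ha' : a' ≠ 0) (hb : b ≠ 0)
    (hb' : b' ≠ 0) (hc : IsCoprime a b) (hc' : IsCoprime a' b')
    (e : clsK (a : K) = clsK (a' : K)) (e' : clsK (b : K) = clsK (b' : K)) :
    clsE s a b = clsE s a' b' := by
  obtain ⟨x, x0, x1, x2⟩ := exists_cls (clsK (b : K)) (mul_ne_zero ha ha')
  have p1 := x1.of_mul_right_left
  have p2 := x1.of_mul_right_right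
  rw [Sy.swap b a, h.left hb x0 ha hc.symm p1 x2.symm, ← Sy.swap,
    h.left ha ha' x0 p1.symm p2.symm e, Sy.swap x a', h.left x0 hb' ha' p2 hc'.symm (x2.trans e'),
    ← Sy.swap]

theorem cls_pair (c d : GG K) : ∃ p : R K × R K, p.1 ≠ 0 ∧ p.2 ≠ 0 ∧ IsCoprime p.1 p.2 ∧
    clsK (p.1 : K) = c ∧ clsK (p.2 : K) = d := by
  obtain ⟨b, b0, -, b1⟩ := exists_cls d (one_ne_zero (α := R K))
  obtain ⟨a, a0, a1, a2⟩ := exists_cls c b0
  exact ⟨(a, b), a0, b0, a1, a2, b1⟩

theorem Sy.G_eq (h : Sy s) {a b : R K} (ha : a ≠ 0) (hb : b ≠ 0) (hc : IsCoprime a b) :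
    clsG s (clsK (a : K)) (clsK (b : K)) = clsE s a b := by
  have hp := cls_pair (clsK (a : K)) (clsK (b : K))
  rw [clsG, dif_pos hp]
  obtain ⟨h1, h2, h3, h4, h5⟩ := hp.choose_spec
  exact h.both h1 ha h2 hb h3 hc h4 h5

theorem Sy.flip (h : Sy s) {a b : R K} (ha : a ≠ 0) (hb : b ≠ 0) :
    s a b = clsG s (clsK (a : K)) (clsK (b : K)) * s b a := by
  by_cases hc : IsCoprime a b
  · rw [h.G_eq ha hb hc, clsE]
    linear_combination (-s a b) * h.nrm ha hc.symm
  · rw [h.zero a b hb hc, h.zero b a ha (fun e => hc e.symm), mul_zero]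

theorem Sy.G_swap (h : Sy s) (c d : GG K) : clsG s d c = conj (clsG s c d) := by
  obtain ⟨⟨a, b⟩, h1, h2, h3, rfl, rfl⟩ := cls_pair c d
  rw [h.G_eq h1 h2 h3, h.G_eq h2 h1 h3.symm, Sy.swap]

theorem Sy.G_left (h : Sy s) (c c' d : GG K) : clsG s (c * c') d = clsG s c d * clsG s c' d := by
  obtain ⟨⟨a, b⟩, h1, h2, h3, rfl, rfl⟩ := cls_pair c d
  obtain ⟨a', a0, a1, rfl⟩ := exists_cls c' h2
  rw [← clsK_mul (by exact_mod_cast h1) (by exact_mod_cast a0), ← Subring.coe_mul,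
    h.G_eq (mul_ne_zero h1 a0) h2 (h3.mul_left a1), h.G_eq h1 h2 h3, h.G_eq a0 h2 a1,
    h.eml h1 a0]

theorem Sy.G_right (h : Sy s) (c d d' : GG K) : clsG s c (d * d') = clsG s c d * clsG s c d' := by
  rw [h.G_swap (d * d') c, h.G_left, map_mul, ← h.G_swap, ← h.G_swap]

theorem Sy.G_one (h : Sy s) (d : GG K) : clsG s 1 d = 1 := by
  obtain ⟨b, b0, -, rfl⟩ := exists_cls d (one_ne_zero (α := R K))
  have := h.G_eq one_ne_zero b0 isCoprime_one_left
  rw [Subring.coe_one, clsK_one] at this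
  rw [this]
  exact h.eone b0 isCoprime_one_left (by simpa using one_one _)

theorem Sy.G_norm (h : Sy s) (c d : GG K) : ‖clsG s c d‖ = 1 := by
  obtain ⟨⟨a, b⟩, h1, h2, h3, rfl, rfl⟩ := cls_pair c d
  rw [h.G_eq h1 h2 h3]
  exact P026.sym_norm_of_pow (by norm_num) (h.esix h1 h2 h3)

theorem sy3 : Sy (sym3 (K := K)) where
  ml := sym3_mul_left
  mr x _ _ := sym3_mul_right x
  six x n _ h := by rw [show 6 = 3 * 2 by rfl, pow_mul, sym3_cube h, one_pow]
  zero x n hn h := (sym3_eq_zero_iff hn).2 h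
  rc a b := Level.rec3 a b

theorem sy6 : Sy (chi6 (K := K)) where
  ml := chi6_mul_left
  mr x _ _ := chi6_mul_right x
  six x n hn h := by rw [chi6_pow_six hn, if_pos h]
  zero x n hn h := (chi6_eq_zero_iff hn).2 h
  rc a b hb h ha := by unfold chi6; rw [Level.rec3 a b hb h ha, rec2 hb h ha]

theorem sym3_flip {a b : R K} (ha : a ≠ 0) (hb : b ≠ 0) : sym3 a b = E (a : K) b * sym3 b a :=
  sy3.flip ha hb

theorem chi6_flip {a b : R K} (ha : a ≠ 0) (hb : b ≠ 0) : chi6 a b = EE (a : K) b * chi6 b a :=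
  sy6.flip ha hb

theorem E3_mul_left (c c' d : GG K) : E3 (c * c') d = E3 c d * E3 c' d := sy3.G_left c c' d

theorem E3_mul_right (c d d' : GG K) : E3 c (d * d') = E3 c d * E3 c d' := sy3.G_right c d d'

theorem E3_swap (c d : GG K) : E3 d c = conj (E3 c d) := sy3.G_swap c d

theorem E3_cube (c d : GG K) : E3 c d ^ 3 = 1 := by
  obtain ⟨⟨a, b⟩, h1, h2, h3, rfl, rfl⟩ := cls_pair c d
  have : E3 (clsK (a : K)) (clsK (b : K)) = clsE sym3 a b := sy3.G_eq h1 h2 h3
  rw [this, clsE, mul_pow, ← map_pow, sym3_cube h3, sym3_cube h3.symm]; simp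

theorem E3_one_left (d : GG K) : E3 1 d = 1 := sy3.G_one d

theorem norm_E3 (c d : GG K) : ‖E3 c d‖ = 1 := sy3.G_norm c d

theorem E3_self (c : GG K) : E3 c c = 1 := by
  have h1 := E3_swap c c
  have h2 := E3_cube c c
  have h3 : E3 c c * conj (E3 c c) = 1 := by
    rw [Complex.mul_conj, Complex.normSq_eq_norm_sq, norm_E3]; simp
  rw [← h1] at h3
  linear_combination h2 - E3 c c * h3

theorem E6_mul_left (c c' d : GG K) : E6 (c * c') d = E6 c d * E6 c' d := sy6.G_left c c' d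

theorem E6_mul_right (c d d' : GG K) : E6 c (d * d') = E6 c d * E6 c d' := sy6.G_right c d d'

theorem E6_swap (c d : GG K) : E6 d c = conj (E6 c d) := sy6.G_swap c d

theorem E6_sq (c d : GG K) : E6 c d ^ 2 = E3 c d := by
  obtain ⟨⟨a, b⟩, h1, h2, h3, rfl, rfl⟩ := cls_pair c d
  have e1 : E3 (clsK (a : K)) (clsK (b : K)) = clsE sym3 a b := sy3.G_eq h1 h2 h3
  have e2 : E6 (clsK (a : K)) (clsK (b : K)) = clsE chi6 a b := sy6.G_eq h1 h2 h3
  rw [e1, e2, clsE, clsE, mul_pow, ← map_pow, chi6_sq _ h2, chi6_sq _ h1]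

theorem E6_one_left (d : GG K) : E6 1 d = 1 := sy6.G_one d

theorem norm_E6 (c d : GG K) : ‖E6 c d‖ = 1 := sy6.G_norm c d

theorem sym3_unit_left {u n : R K} (hu : IsUnit u) (hn : n ≠ 0) : sym3 u n = E (u : K) n := by
  rw [sym3_flip hu.ne_zero hn, sym3_unit_right _ hu, mul_one]

theorem chi6_unit_left {u n : R K} (hu : IsUnit u) (hn : n ≠ 0) : chi6 u n = EE (u : K) n := by
  rw [chi6_flip hu.ne_zero hn, chi6_unit_right _ hu, mul_one]

theorem chi6_triv {u : R K} (hu : IsUnit u) (hc : clsK (u : K) = 1) (n : R K) : chi6 u n = 1 := by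
  by_cases hn : n = 0
  · simp [hn, chi6, sym3, sym2]
  · rw [chi6_unit_left hu hn, EE, hc, E6_one_left]

theorem F1_cls {a b : R K} (ha : a ≠ 0) (hb : b ≠ 0) (h : clsK (a : K) = clsK (b : K)) :
    F1 a = F1 b := by
  obtain ⟨k, hk, h1⟩ := (clsK_eq_iff (by exact_mod_cast ha) (by exact_mod_cast hb)).1 h
  obtain ⟨x, y, hy, rfl⟩ := exists_div_R k
  have hx : x ≠ 0 := by rintro rfl; simp at hk
  rw [← F1_mul_sq ha (pow_ne_zero 3 hx), ← F1_mul_sq hb (pow_ne_zero 3 hy), eq_comm]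
  refine Level.quad _ _ (mul_ne_zero ha (pow_ne_zero _ (pow_ne_zero _ hx))) ?_
  convert h1 using 1
  have : (y : K) ≠ 0 := by exact_mod_cast hy
  push_cast
  field_simp

theorem F1_mul_cls {a b : R K} (ha : a ≠ 0) (hb : b ≠ 0) (h : clsK (a : K) = clsK (b : K)) :
    F1 (a * b) = 1 := by
  have ha0 : (a : K) ≠ 0 := by exact_mod_cast ha
  rw [← F1_one (K := K), ← F1_mul_sq one_ne_zero ha]
  refine F1_cls (mul_ne_zero ha hb) (by simpa using ha) ?_
  rw [one_mul, sq, Subring.coe_mul, Subring.coe_mul, clsK_mul ha0 (by exact_mod_cast hb),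
    clsK_mul ha0 ha0, h]

end

end Vale.Agent.P319N
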