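import Vale.Agent.P319N.CD
import Vale.Agent.P319N.Cls
import Vale.Agent.P319N.BGeo

namespace Vale.Agent.P319N

open NumberField Complex MeasureTheory Filter Topology
open scoped Classical ComplexConjugate Real MatrixGroups
open Vale.Agent.P026 (omC kap psi W Hs ht QQ act uu muH hh LL Gs bb kk UU DualW)

noncomputable section

variable {K : Type} [Field K] [NumberField K] [Level K]

theorem extR_coe (f : R K → ℂ) (x : R K) : extR f (x : K) = f x := by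
  rw [extR, dif_pos x.2]
theorem extR_of_not (f : R K → ℂ) {x : K} (h : x ∉ R K) : extR f x = 0 := by
  rw [extR, dif_neg h]
theorem S3_coe (d c : R K) : S3 (d : K) (c : K) = sym3 d c := by
  rw [S3, dif_pos ⟨d.2, c.2⟩]
theorem S3_ne {d c : K} (h : S3 d c ≠ 0) : d ∈ R K ∧ c ∈ R K := by
  by_contra h'
  exact h (by rw [S3, dif_neg h'])
theorem norm_S3_le (d c : K) : ‖S3 d c‖ ≤ 1 := by
  unfold S3
  split_ifs
  · exact norm_sym3_le _ _
  · simp
theorem E_mul_left {x y : K} (hx : x ≠ 0) (hy : y ≠ 0) (z : K) : E (x * y) z = E x z * E y z := by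
  rw [E, clsK_mul hx hy, E3_mul_left]; rfl
theorem E_mul_right {x y : K} (hx : x ≠ 0) (hy : y ≠ 0) (z : K) : E z (x * y) = E z x * E z y := by
  rw [E, clsK_mul hx hy, E3_mul_right]; rfl
theorem E_swap (x y : K) : E y x = conj (E x y) := E3_swap _ _
theorem E_self (x : K) : E x x = 1 := E3_self _
theorem norm_E (x y : K) : ‖E x y‖ = 1 := norm_E3 _ _
theorem E_cube (x y : K) : E x y ^ 3 = 1 := E3_cube _ _
theorem E_one_left {x : K} (h : One (ee K) x) (y : K) : E x y = 1 := by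
  rw [E, clsK_one_of h, E3_one_left]
theorem E_one_right {x : K} (h : One (ee K) x) (y : K) : E y x = 1 := by
  rw [E_swap, E_one_left h, map_one]
theorem clsK_congr {x x' : K} (h : One (ee K) (x' / x)) : clsK x' = clsK x := by
  have h0 := h.ne_zero cls_he
  have hx : x ≠ 0 := fun e => h0 (by simp [e])
  have e : x' = x' / x * x := by field_simp
  rw [e, clsK_mul h0 hx, clsK_one_of h]
  exact one_mul (clsK x)
theorem E_inv_left (x y : K) : E x⁻¹ y = conj (E x y) := by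
  have h1 : E x⁻¹ y * E x y = 1 := by
    rw [E, E, clsK_inv, ← E3_mul_left, inv_mul_cancel, E3_one_left]
  have h2 : E x y * conj (E x y) = 1 := by
    rw [Complex.mul_conj, Complex.normSq_eq_norm_sq, norm_E]; simp
  linear_combination conj (E x y) * h1 - E x⁻¹ y * h2
theorem E_cube_left {x m : K} (hm : m ≠ 0) (y : K) : E (x * m ^ 3) y = E x y := by
  by_cases hx : x = 0
  · rw [hx, zero_mul]
  · have h : E (m ^ 3) y = 1 := by
      rw [pow_three, E_mul_left hm (mul_ne_zero hm hm), E_mul_left hm hm, ← pow_three, E_cube]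
    rw [E_mul_left hx (pow_ne_zero 3 hm), h, mul_one]
theorem E_cube_right {x m : K} (hm : m ≠ 0) (y : K) : E y (x * m ^ 3) = E y x := by
  rw [E_swap, E_cube_left hm, ← E_swap]
theorem E_units {u v : R K} (hu : IsUnit u) (hv : IsUnit v) : E (u : K) v = 1 := by
  rw [← sym3_unit_left hu hv.ne_zero, sym3_unit_right _ hv]
theorem isUnit_MR : IsUnit ((Setup.M K : ℕ) : R K) := Nrm_unit Setup.Mne dvd_rfl
theorem clsK_MK6 (k : ℕ) : clsK (MK K ^ (6 * k)) = 1 := by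
  rw [mul_comm, pow_mul, clsK_pow (pow_ne_zero _ MK_ne), GG_pow_six]
theorem Nl.ne {l : K} {x : K × K} (h : Nl l x) : l ≠ 0 ∧ x.1 ≠ 0 := by
  have h0 := h.1.ne_zero cls_he
  exact ⟨fun e => h0 (by simp [e]), fun e => h0 (by simp [e])⟩
theorem Lw_apply (k : K) : Lw k 0 0 = 1 ∧ Lw k 0 1 = 0 ∧ Lw k 1 0 = k ∧ Lw k 1 1 = 1 :=
  ⟨rfl, rfl, rfl, rfl⟩
theorem Lw_mem {q k : K} (h : IsI k) (h' : IsI (k / q)) : Lw k ∈ Gam q := by
  obtain ⟨h1, h2, h3, h4⟩ := Lw_apply k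
  refine ⟨fun i j => ?_, ?_, ?_, ?_, ?_⟩
  · fin_cases i <;> fin_cases j
    · exact isIntegral_one
    · exact isIntegral_zero
    · exact h
    · exact isIntegral_one
  · rw [h1]; simpa using isIntegral_zero
  · rw [h2]; simpa using isIntegral_zero
  · rw [h3]; exact h'
  · rw [h4]; simpa using isIntegral_zero
theorem kub_Lw (k : K) : kub (Lw k) = 1 := by
  have h := S3_coe (K := K) 0 1
  rw [sym3_unit_right _ isUnit_one] at h
  exact h

theorem ckub_Nl {l : K} {γ : SLK K} (h0 : One (ee K) (γ 0 0)) (h1 : γ 0 1 / MK K ^ ee K ∈ A K)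
    (h2 : γ 1 0 ∈ A K) (h3 : γ 1 1 ∈ A K) {x : K × K} (h : Nl l x) :
    Nl l (rmul x γ) ∧ One (ee K) ((rmul x γ).1 / x.1) := by
  obtain ⟨hl, hc⟩ := h.ne
  obtain ⟨ha, hb⟩ := h
  have hM := pow_ne_zero (ee K) (MK_ne (K := K))
  have hu : One (ee K) ((rmul x γ).1 / x.1) := by
    have e : ((rmul x γ).1 / x.1 - 1) / MK K ^ ee K =
        (γ 0 0 - 1) / MK K ^ ee K + x.2 / (x.1 * MK K ^ ee K) * γ 1 0 := by
      simp only [rmul]; field_simp; ring
    unfold One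
    rw [e]
    exact (A K).add_mem h0 ((A K).mul_mem hb h2)
  have hu0 := hu.ne_zero cls_he
  have hc' : (rmul x γ).1 ≠ 0 := fun e => hu0 (by simp [e])
  refine ⟨⟨?_, ?_⟩, hu⟩
  · have e : (rmul x γ).1 / l = x.1 / l * ((rmul x γ).1 / x.1) := by field_simp
    rw [e]; exact ha.mul hu
  · have e : (rmul x γ).2 / ((rmul x γ).1 * MK K ^ ee K) =
        (γ 0 1 / MK K ^ ee K + x.2 / (x.1 * MK K ^ ee K) * γ 1 1) * ((rmul x γ).1 / x.1)⁻¹ := by
      have e2 : (rmul x γ).2 = x.1 * γ 0 1 + x.2 * γ 1 1 := rfl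
      rw [e2]; field_simp
    rw [e]
    exact (A K).mul_mem ((A K).add_mem h1 ((A K).mul_mem hb h3)) (hu.inv cls_he).mem

theorem ckub_Gam {l : K} {γ : SLK K} (hγ : γ ∈ Gam (MK K ^ ee K)) {x : K × K} (h : Nl l x) :
    Nl l (rmul x γ) ∧ One (ee K) ((rmul x γ).1 / x.1) :=
  ckub_Nl (mem_A_of_isI hγ.2.1) (mem_A_of_isI hγ.2.2.1) (mem_A_of_isI (hγ.1 1 0))
    (mem_A_of_isI (hγ.1 1 1)) h

theorem Nl_rmul {l : K} {γ : SLK K} (hγ : γ ∈ Gam (MK K ^ ee K)) (x : K × K) :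
    Nl l (rmul x γ) ↔ Nl l x := by
  refine ⟨fun h => ?_, fun h => (ckub_Gam hγ h).1⟩
  have := (ckub_Gam (inv_mem hγ) h).1
  rwa [← rmul_mul, mul_inv_cancel, rmul_one] at this

theorem ckub_shift {c c' d : R K} (h1 : One (ee K) ((c' : K) / c)) (h2 : d ∣ c' - c) :
    sym3 d c' = sym3 d c := by
  by_cases hd : d = 0
  · rw [hd, zero_dvd_iff, sub_eq_zero] at h2
    rw [h2]
  · have hc' := cls_ne h1
    have hc : c ≠ 0 := by
      rintro rfl
      exact h1.ne_zero cls_he (by simp)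
    rw [sym3_flip hd hc', sym3_flip hd hc, sym3_congr h2, E, E, clsK_congr h1]

theorem ckub_Lw {l k : K} (hk : IsI k) {x : K × K} (h : Nl l x) :
    Nl l (rmul x (Lw k)) ∧ One (ee K) ((rmul x (Lw k)).1 / x.1) := by
  obtain ⟨h1, h2, h3, h4⟩ := Lw_apply k
  refine ckub_Nl (one_one _) ?_ (mem_A_of_isI hk) (A K).one_mem h
  rw [h2, zero_div]; exact (A K).zero_mem

theorem ckub_rmul_Lw (k : K) (x : K × K) : rmul x (Lw k) = (x.1 + x.2 * k, x.2) := by
  obtain ⟨h1, h2, h3, h4⟩ := Lw_apply k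
  simp only [rmul, h1, h2, h3, h4, mul_one, mul_zero, zero_add]

theorem PhiL_Lw (l : K) {k : K} (hk : IsI k) (x : K × K) : PhiL l (rmul x (Lw k)) = PhiL l x := by
  by_cases h : Nl l x
  · obtain ⟨h1, h2⟩ := ckub_Lw hk h
    rw [PhiL, PhiL, if_pos h, if_pos h1]
    rw [ckub_rmul_Lw] at h2 ⊢
    obtain ⟨c, d⟩ := x
    simp only at h2 ⊢
    have hkR := mem_R_of_isI hk
    by_cases hR : d ∈ R K ∧ c ∈ R K
    · lift d to R K using hR.1
      lift c to R K using hR.2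
      lift k to R K using hkR
      rw [← Subring.coe_mul, ← Subring.coe_add] at h2 ⊢
      rw [S3_coe, S3_coe]
      exact ckub_shift h2 ⟨k, by ring⟩
    · rw [S3, S3, dif_neg hR, dif_neg]
      rintro ⟨a, b⟩
      refine hR ⟨a, ?_⟩
      simpa using (R K).sub_mem b ((R K).mul_mem a hkR)
  · rw [PhiL, PhiL, if_neg h, if_neg]
    intro h'
    have := (ckub_Lw hk.neg h').1
    rw [ckub_rmul_Lw, ckub_rmul_Lw] at this
    exact h (by simpa using this)

theorem ckub_alg {c d α β γ δ : R K} (hdet : α * δ - β * γ = 1) (hα : One (ee K) (α : K))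
    (h1 : One (ee K) (((c * α + d * γ : R K) : K) / c)) (hd : d = 0 ∨ IsCoprime α d) :
    sym3 (c * β + d * δ) (c * α + d * γ) = sym3 β α * sym3 d c := by
  have hc' := cls_ne h1
  have hc : c ≠ 0 := by
    rintro rfl
    exact h1.ne_zero cls_he (by simp)
  have hα0 : α ≠ 0 := by exact_mod_cast hα.ne_zero cls_he
  by_cases hd0 : d = 0
  · subst hd0
    simp only [zero_mul, add_zero]
    rw [sym3_mul_right _ hc hα0, sym3_congr (x := c * β) (y := 0) (n := c) ⟨β, by ring⟩,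
      sym3_mul_left]
    by_cases hu : IsUnit c
    · rw [sym3_unit_left hu hα0, E_one_right hα]; ring
    · rw [(sym3_eq_zero_iff hc).2 (fun h => hu (isCoprime_zero_left.1 h))]; ring
  · have hcop : IsCoprime α d := hd.resolve_left hd0
    have e1 : sym3 α (c * α + d * γ) * sym3 (c * β + d * δ) (c * α + d * γ) =
        sym3 d (c * α + d * γ) := by
      rw [← sym3_mul_left]
      exact sym3_congr ⟨β, by linear_combination d * hdet⟩
    have e2 : sym3 d (c * α + d * γ) = sym3 d c * sym3 d α := by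
      rw [sym3_flip hd0 hc', sym3_congr (x := c * α + d * γ) (y := c * α) ⟨γ, by ring⟩,
        sym3_mul_left, E, clsK_congr h1, sym3_flip hd0 hc, E,
        Level.rec3 α d hd0 hcop hα]
      ring
    have e3 : sym3 α (c * α + d * γ) = sym3 d α * sym3 γ α := by
      rw [sym3_flip hα0 hc', E_one_left hα, one_mul, ← sym3_mul_left]
      exact sym3_congr ⟨c, by ring⟩
    have e4 : sym3 β α * sym3 γ α = 1 := by
      rw [← sym3_mul_left, ← sym3_neg_one α]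
      exact sym3_congr ⟨δ, by linear_combination -hdet⟩
    have e5 : sym3 d α ≠ 0 := fun h => (sym3_eq_zero_iff hα0).1 h hcop.symm
    rw [e2, e3] at e1
    refine mul_left_cancel₀ e5 ?_
    linear_combination sym3 β α * e1 -
      sym3 d α * sym3 (c * β + d * δ) (c * α + d * γ) * e4

theorem ckub_cop (l : K) {γ : SLK K} (hγ : γ ∈ Gam (MK K ^ ee K)) {c d : R K}
    (h : Nl l ((c : K), (d : K)))
    (hd : d = 0 ∨ IsCoprime (⟨γ 0 0, mem_R_of_isI (hγ.1 0 0)⟩ : R K) d) :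
    PhiL l (rmul ((c : K), (d : K)) γ) = kub γ * PhiL l ((c : K), (d : K)) := by
  obtain ⟨h1, h2⟩ := ckub_Gam hγ h
  rw [PhiL, PhiL, if_pos h, if_pos h1]
  have key := ckub_alg (c := c) (d := d) (α := ⟨γ 0 0, mem_R_of_isI (hγ.1 0 0)⟩)
    (β := ⟨γ 0 1, mem_R_of_isI (hγ.1 0 1)⟩) (γ := ⟨γ 1 0, mem_R_of_isI (hγ.1 1 0)⟩)
    (δ := ⟨γ 1 1, mem_R_of_isI (hγ.1 1 1)⟩) (Subtype.ext (bg_det γ)) (mem_A_of_isI hγ.2.1) h2 hd
  rw [← S3_coe, ← S3_coe, ← S3_coe] at key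
  exact key

theorem PhiL_eqv (l : K) {γ : SLK K} (hγ : γ ∈ Gam (MK K ^ ee K)) (x : K × K) :
    PhiL l (rmul x γ) = kub γ * PhiL l x := by
  by_cases h : Nl l x
  swap
  · rw [PhiL, PhiL, if_neg h, if_neg (fun h' => h ((Nl_rmul hγ x).1 h')), mul_zero]
  obtain ⟨c, d⟩ := x
  have hR : ∀ i j, γ i j ∈ R K := fun i j => mem_R_of_isI (hγ.1 i j)
  by_cases hx : d ∈ R K ∧ c ∈ R K
  swap
  · have z1 : PhiL l (c, d) = 0 := by rw [PhiL, if_pos h, S3, dif_neg hx]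
    rw [z1, mul_zero, PhiL]
    split_ifs
    · rw [S3, dif_neg]
      rintro ⟨a, b⟩
      refine hx ⟨?_, ?_⟩
      · have e : d = γ 0 0 * (rmul (c, d) γ).2 - γ 0 1 * (rmul (c, d) γ).1 := by
          simp only [rmul]; linear_combination -d * bg_det γ
        rw [e]
        exact (R K).sub_mem ((R K).mul_mem (hR _ _) a) ((R K).mul_mem (hR _ _) b)
      · have e : c = γ 1 1 * (rmul (c, d) γ).1 - γ 1 0 * (rmul (c, d) γ).2 := by
          simp only [rmul]; linear_combination -c * bg_det γ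
        rw [e]
        exact (R K).sub_mem ((R K).mul_mem (hR _ _) b) ((R K).mul_mem (hR _ _) a)
    · rfl
  lift d to R K using hx.1
  lift c to R K using hx.2
  by_cases hd : d = 0
  · exact ckub_cop l hγ h (Or.inl hd)
  have hM := pow_ne_zero (ee K) (MK_ne (K := K))
  have hab : IsCoprime (⟨γ 0 0, hR 0 0⟩ : R K) ⟨γ 0 1, hR 0 1⟩ :=
    ⟨⟨γ 1 1, hR 1 1⟩, -⟨γ 1 0, hR 1 0⟩, Subtype.ext (by
      push_cast; linear_combination bg_det γ)⟩
  obtain ⟨k0, hk0⟩ := exists_coprime_shift hd hab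
  obtain ⟨r, r1, r2⟩ := approx (y := (d : K)) (by exact_mod_cast hd) hM (k0 : K) 0
  rw [sub_zero] at r2
  have rR : r ∈ R K := by
    have e : r = k0 + d * ((r - k0) / d) := by
      have : (d : K) ≠ 0 := by exact_mod_cast hd
      field_simp; ring
    rw [e]; exact (R K).add_mem k0.2 ((R K).mul_mem d.2 r1)
  have r3 : IsI (r / MK K ^ ee K) := isI_of_mem (div_MK_pow_mem_R rR _) r2
  have r4 : IsI r := by
    have e : r = MK K ^ ee K * (r / MK K ^ ee K) := by field_simp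
    rw [e]; exact (bg_MK _).mul r3
  have hg := (Gam (MK K ^ ee K)).mul_mem hγ (Lw_mem r4 r3)
  obtain ⟨l1, l2, l3, l4⟩ := Lw_apply r
  have e0 : (γ * Lw r) 0 0 = γ 0 0 + γ 0 1 * r := by rw [bg_mul, l1, l3, mul_one]
  have e1 : (γ * Lw r) 0 1 = γ 0 1 := by rw [bg_mul, l2, l4, mul_one, mul_zero, zero_add]
  lift r to R K using rR
  have hdv : d ∣ r - k0 := (dvd_iff_div_mem hd).2 (by simpa using r1)
  have e2 : (⟨(γ * Lw (r : K)) 0 0, mem_R_of_isI (hg.1 0 0)⟩ : R K) =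
      ⟨γ 0 0, hR 0 0⟩ + ⟨γ 0 1, hR 0 1⟩ * r := Subtype.ext e0
  have key := ckub_cop l hg h (Or.inr (by
    rw [e2]
    obtain ⟨t, ht⟩ := hdv
    have e3 : (⟨γ 0 0, hR 0 0⟩ + ⟨γ 0 1, hR 0 1⟩ * r : R K) =
        ⟨γ 0 0, hR 0 0⟩ + k0 * ⟨γ 0 1, hR 0 1⟩ + d * (t * ⟨γ 0 1, hR 0 1⟩) := by
      linear_combination (⟨γ 0 1, hR 0 1⟩ : R K) * ht
    rw [e3]
    exact (hk0.add_mul_left_right _).symm))
  rw [rmul_mul, PhiL_Lw l r4] at key
  rw [key]
  congr 1
  have hα : One (ee K) (γ 0 0) := mem_A_of_isI hγ.2.1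
  have hα' : One (ee K) ((γ * Lw (r : K)) 0 0) := mem_A_of_isI hg.2.1
  have k2 := ckub_shift (c := ⟨γ 0 0, hR 0 0⟩) (d := ⟨γ 0 1, hR 0 1⟩)
    (c' := ⟨(γ * Lw (r : K)) 0 0, mem_R_of_isI (hg.1 0 0)⟩)
    (by rw [div_eq_mul_inv]; exact hα'.mul (hα.inv cls_he)) ⟨r, by rw [e2]; ring⟩
  rw [← S3_coe, ← S3_coe] at k2
  rw [kub, kub, e1]
  exact k2

theorem ckub_base {γ : SLK K} (hγ : γ ∈ Gam (MK K ^ ee K)) : PhiL 1 (rmul (1, 0) γ) = kub γ := by
  have h : Nl (1 : K) (1, 0) := ⟨by simpa using one_one _, by simpa using (A K).zero_mem⟩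
  rw [PhiL, if_pos ((Nl_rmul hγ _).2 h), kub]
  simp only [rmul, one_mul, zero_mul, add_zero]

theorem kub_mul {γ γ' : SLK K} (hγ : γ ∈ Gam (MK K ^ ee K)) (hγ' : γ' ∈ Gam (MK K ^ ee K)) :
    kub (γ * γ') = kub γ * kub γ' := by
  rw [← ckub_base (mul_mem hγ hγ'), rmul_mul, PhiL_eqv 1 hγ', ckub_base hγ, mul_comm]

theorem ckub_val {γ : SLK K} (hγ : γ ∈ Gam (MK K ^ ee K)) :
    ∃ a b : R K, IsCoprime b a ∧ kub γ = sym3 b a := by
  have hR : ∀ i j, γ i j ∈ R K := fun i j => mem_R_of_isI (hγ.1 i j)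
  exact ⟨⟨γ 0 0, hR 0 0⟩, ⟨γ 0 1, hR 0 1⟩, ⟨-⟨γ 1 0, hR 1 0⟩, ⟨γ 1 1, hR 1 1⟩, Subtype.ext (by
      push_cast; linear_combination bg_det γ)⟩, S3_coe ⟨γ 0 1, hR 0 1⟩ ⟨γ 0 0, hR 0 0⟩⟩

theorem kub_cube {γ : SLK K} (hγ : γ ∈ Gam (MK K ^ ee K)) : kub γ ^ 3 = 1 := by
  obtain ⟨a, b, h, e⟩ := ckub_val hγ
  rw [e, sym3_cube h]
theorem norm_kub {γ : SLK K} (hγ : γ ∈ Gam (MK K ^ ee K)) : ‖kub γ‖ = 1 := by
  obtain ⟨a, b, h, e⟩ := ckub_val hγ
  rw [e, norm_sym3 h]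

end

end Vale.Agent.P319N
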