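import Vale.Agent.P319N.CJq0
import Vale.Agent.P319N.CKub

namespace Vale.Agent.P319N

open NumberField Complex MeasureTheory Filter Topology
open scoped Classical ComplexConjugate Real MatrixGroups
open Vale.Agent.P026 (omC kap psi W Hs ht QQ act uu muH hh LL Gs bb kk UU DualW)

noncomputable section

variable {K : Type} [Field K] [NumberField K] [Level K]

theorem cjq_per {i : ℕ} {φ : K × K → ℂ} (h : PerS i φ) {n : K} (hn : DualF i n) {c : K}
    (hc : c ≠ 0) (x k : K) (hk : k ∈ lattA (c * MK K ^ i)) :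
    φ (c, x + k) * psiF (n * (x + k) / c) = φ (c, x) * psiF (n * x / c) := by
  have hM := pow_ne_zero i (MK_ne (K := K))
  have hk' : k / (c * MK K ^ i) ∈ A K := hk
  have e1 : x + k = x + c * MK K ^ i * (k / (c * MK K ^ i)) := by field_simp
  have e2 : n * (x + k) / c = n * x / c + n * MK K ^ i * (k / (c * MK K ^ i)) := by field_simp
  rw [e2, psiF_add, hn _ hk', mul_one, e1, h _ _ _ hk']

theorem cjq_unit {u : Kˣ} (hu : u ∈ unitsA K) (x : K) : (u : K) * x ∈ A K ↔ x ∈ A K := by
  refine ⟨fun h => ?_, fun h => (A K).mul_mem hu.1 h⟩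
  have := (A K).mul_mem hu.2 h
  rwa [← mul_assoc, Units.inv_mul, one_mul] at this

theorem Sg.mono {i j j' : ℕ} {φ : K × K → ℂ} (h : Sg i j φ) (hj : j ≤ j') : Sg i j' φ := by
  refine ⟨h.per, fun x hx => ?_, h.bd, h.unit⟩
  obtain ⟨k, rfl⟩ := Nat.exists_eq_add_of_le hj
  obtain ⟨h1, h2⟩ := h.supp x hx
  constructor
  · rw [add_comm, pow_add, mul_assoc]
    exact (A K).mul_mem ((A K).pow_mem MK_mem_A k) h1
  · rw [add_comm, pow_add, mul_assoc]
    exact (A K).mul_mem ((A K).pow_mem MK_mem_A k) h2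
theorem Sg.scl {i j : ℕ} {φ : K × K → ℂ} (h : Sg i j φ) {m : K} (hm : m ≠ 0) :
    ∃ j', Sg i j' (scl m φ) := by
  obtain ⟨k, hk⟩ := exists_mul_mem_A m
  refine ⟨k + j, fun c d a ha => ?_, fun x hx => ?_, fun x => h.bd _, fun u hu x => ?_⟩
  · change φ (c / m, (d + c * MK K ^ i * a) / m) = φ (c / m, d / m)
    have : (d + c * MK K ^ i * a) / m = d / m + c / m * MK K ^ i * a := by ring
    rw [this, h.per _ _ _ ha]
  · obtain ⟨h1, h2⟩ := h.supp _ hx
    constructor
    · have : MK K ^ (k + j) * x.1 = MK K ^ k * m * (MK K ^ j * (x.1 / m)) := by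
        field_simp; ring
      rw [this]
      exact (A K).mul_mem hk h1
    · have : MK K ^ (k + j) * x.2 = MK K ^ k * m * (MK K ^ j * (x.2 / m)) := by
        field_simp; ring
      rw [this]
      exact (A K).mul_mem hk h2
  · change φ ((u : K) * x.1 / m, (u : K) * x.2 / m) = φ (x.1 / m, x.2 / m)
    rw [mul_div_assoc, mul_div_assoc]
    exact h.unit u hu (x.1 / m, x.2 / m)
theorem Sg.const_mul {i j : ℕ} {φ : K × K → ℂ} (h : Sg i j φ) {c : ℂ} (hc : ‖c‖ ≤ 1) :
    Sg i j (fun x => c * φ x) := by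
  refine ⟨fun a d k hk => ?_, fun x hx => h.supp x (right_ne_zero_of_mul hx), fun x => ?_,
    fun u hu x => ?_⟩
  · rw [h.per _ _ _ hk]
  · rw [norm_mul]
    exact mul_le_one₀ hc (norm_nonneg _) (h.bd x)
  · rw [h.unit u hu x]
theorem Jq_const_mul (i : ℕ) (c : ℂ) (φ : K × K → ℂ) (n m : K) :
    Jq i (fun x => c * φ x) n m = c * Jq i φ n m := by
  unfold Jq
  simp only [mul_assoc c]
  rw [tsum_mul_left]
  ring
theorem Jq_supp {i j : ℕ} {φ : K × K → ℂ} (h : Sg i j φ) {n c : K} (hne : Jq i φ n c ≠ 0) :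
    MK K ^ j * c ∈ A K := by
  by_contra hc
  apply hne
  unfold Jq
  have : ∀ d : K, φ (c, d) = 0 := fun d => by
    by_contra h0
    exact hc (h.supp _ h0).1
  simp [this]
theorem norm_Jq_le {i j : ℕ} {φ : K × K → ℂ} (h : Sg i j φ) (n : K) {c : K} (hc : c ≠ 0) :
    ‖Jq i φ n c‖ ≤ sN (MK K ^ j * c) := by
  by_cases h0 : Jq i φ n c = 0
  · rw [h0, norm_zero]; exact (sN_pos _).le
  have h1 := Jq_supp h h0
  have hMi := pow_ne_zero i (MK_ne (K := K))
  have hMj := pow_ne_zero j (MK_ne (K := K))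
  have hy : c * MK K ^ i ≠ 0 := mul_ne_zero hc hMi
  have e : c * MK K ^ i / (MK K ^ j)⁻¹ = MK K ^ j * c * MK K ^ i := by field_simp
  have hfin := finite_clsA (inv_ne_zero hMj) hy
  have hcard := ncard_clsA (inv_ne_zero hMj) hy
    (by rw [e]; exact (A K).mul_mem h1 ((A K).pow_mem MK_mem_A i))
  rw [e, sN_mul (mul_ne_zero hMj hc) hMi, Set.ncard_eq_toFinset_card _ hfin] at hcard
  have hs : ‖∑' d : K ⧸ lattA (c * MK K ^ i), φ (c, d.out) * psiF (n * d.out / c)‖ ≤
      (hfin.toFinset.card : ℝ) := by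
    rw [tsum_eq_sum (s := hfin.toFinset)]
    · refine (norm_sum_le _ _).trans ?_
      rw [← nsmul_one, ← Finset.sum_const]
      refine Finset.sum_le_sum fun d _ => ?_
      rw [norm_mul, norm_psiF, mul_one]
      exact h.bd _
    · intro d hd
      by_contra h2
      apply hd
      rw [Set.Finite.mem_toFinset]
      have h3 := (h.supp _ (left_ne_zero_of_mul h2)).2
      change d.out / (MK K ^ j)⁻¹ ∈ A K
      rwa [div_inv_eq_mul, mul_comm]
  unfold Jq
  rw [norm_mul, norm_inv, Complex.norm_real, absN_MK, Real.norm_of_nonneg (sN_pos _).le]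
  rw [hcard] at hs
  have hp := sN_pos (MK K ^ i)
  calc _ ≤ (sN (MK K ^ i))⁻¹ * (sN (MK K ^ j * c) * sN (MK K ^ i)) := by gcongr
    _ = _ := by field_simp
theorem Jq_scl {i : ℕ} {φ : K × K → ℂ} (h : PerS i φ) {n : K} (hn : DualF i n) {m c : K}
    (hm : m ≠ 0) (hc : c ≠ 0) : Jq i (scl m φ) n c = Jq i φ n (c / m) := by
  have hM := pow_ne_zero i (MK_ne (K := K))
  have hp : PerS i (scl m φ) := fun c d a ha => by
    change φ (c / m, (d + c * MK K ^ i * a) / m) = φ (c / m, d / m)
    have : (d + c * MK K ^ i * a) / m = d / m + c / m * MK K ^ i * a := by ring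
    rw [this, h _ _ _ ha]
  unfold Jq
  rw [tsum_quot_affine (L' := lattA (c / m * MK K ^ i)) hm 0 ?_
    (F := fun D => scl m φ (c, D) * psiF (n * D / c)) (cjq_per hp hn hc)]
  · congr 1
    refine tsum_congr fun d => ?_
    change φ (c / m, (m * d.out + 0) / m) * _ = _
    have e1 : (m * d.out + 0) / m = d.out := by field_simp; ring
    have e2 : n * (m * d.out + 0) / c = n * d.out / (c / m) := by field_simp; ring
    rw [e1, e2]
  · intro x
    change x / (c / m * MK K ^ i) ∈ A K ↔ m * x / (c * MK K ^ i) ∈ A K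
    have : x / (c / m * MK K ^ i) = m * x / (c * MK K ^ i) := by field_simp
    rw [this]
theorem Jq_congr {i j : ℕ} {φ : K × K → ℂ} (h : Sg i j φ) {n : K} (hn : DualF i n) {c c' : K}
    (hc : One (ee K) (c' / c)) : Jq i φ n c' = Jq i φ n c := by
  have hM := pow_ne_zero i (MK_ne (K := K))
  have h0 := hc.ne_zero Level.he
  have hc0 : c ≠ 0 := fun e => h0 (by rw [e, div_zero])
  have hc1 : c' ≠ 0 := fun e => h0 (by rw [e, zero_div])
  have hu : Units.mk0 (c' / c) h0 ∈ H1 K (ee K) := (mem_H1 Level.he).2 hc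
  unfold Jq
  rw [tsum_quot_affine (L' := lattA (c * MK K ^ i)) h0 0 ?_
    (F := fun D => φ (c', D) * psiF (n * D / c')) (cjq_per h.per hn hc1)]
  · congr 1
    refine tsum_congr fun d => ?_
    have e1 := h.unit _ hu (c, d.out)
    have e2 : c' / c * c = c' := by field_simp
    have e3 : n * (c' / c * d.out + 0) / c' = n * d.out / c := by field_simp; ring
    simp only [Units.val_mk0, e2] at e1
    rw [e3, add_zero, e1]
  · intro x
    change x / (c * MK K ^ i) ∈ A K ↔ c' / c * x / (c' * MK K ^ i) ∈ A K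
    have : x / (c * MK K ^ i) = c' / c * x / (c' * MK K ^ i) := by field_simp
    rw [this]
theorem Jq_shift {i : ℕ} {φ : K × K → ℂ} (h : PerS i φ) {n : K} (hn : DualF i n) (z : K) {c : K}
    (hc : c ≠ 0) :
    Jq i (fun x => φ (x.1, x.2 - x.1 * z)) n c = psiF (n * z) * Jq i φ n c := by
  have hp : PerS i (fun x => φ (x.1, x.2 - x.1 * z)) := fun c d a ha => by
    change φ (c, d + c * MK K ^ i * a - c * z) = φ (c, d - c * z)
    have : d + c * MK K ^ i * a - c * z = d - c * z + c * MK K ^ i * a := by ring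
    rw [this, h _ _ _ ha]
  unfold Jq
  rw [tsum_quot_affine (L' := lattA (c * MK K ^ i)) one_ne_zero (c * z) (by simp)
    (F := fun D => φ (c, D - c * z) * psiF (n * D / c)) (cjq_per hp hn hc), mul_left_comm,
    ← tsum_mul_left (a := psiF (n * z))]
  congr 1
  refine tsum_congr fun d => ?_
  have e1 : 1 * d.out + c * z - c * z = d.out := by ring
  have e2 : n * (1 * d.out + c * z) / c = n * z + n * d.out / c := by field_simp; ring
  rw [e1, e2, psiF_add]
  ring
theorem Jq_dil {i : ℕ} {φ : K × K → ℂ} (h : PerS i φ) {n : K} (hn : DualF i n) {u : Kˣ}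
    (hu : u ∈ unitsA K) (hφ : ∀ x : K × K, φ (x.1, (u : K) * x.2) = φ x) {c : K} (hc : c ≠ 0) :
    Jq i φ ((u : K) * n) c = Jq i φ n c := by
  unfold Jq
  rw [tsum_quot_affine (L := lattA (c * MK K ^ i)) (L' := lattA (c * MK K ^ i)) u.ne_zero 0 ?_
    (F := fun D => φ (c, D) * psiF (n * D / c)) (cjq_per h hn hc)]
  · congr 1
    refine tsum_congr fun d => ?_
    have e1 := hφ (c, d.out)
    have e2 : n * ((u : K) * d.out) / c = (u : K) * n * d.out / c := by ring
    simp only at e1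
    simp only [add_zero, e1, e2]
  · intro x
    change x / (c * MK K ^ i) ∈ A K ↔ (u : K) * x / (c * MK K ^ i) ∈ A K
    rw [mul_div_assoc, cjq_unit hu]
theorem sg_ind (l : K) {i : ℕ} (hi : ee K ≤ i) : ∃ j, Sg i j (ind l) := by
  obtain ⟨j, hj⟩ := exists_mul_mem_A l
  have hM := MK_ne (K := K)
  refine ⟨j, fun c d a ha => ?_, fun x hx => ?_, fun x => ?_, fun u hu x => ?_⟩
  · by_cases hc : c = 0
    · simp [hc]
    obtain ⟨k, rfl⟩ := Nat.exists_eq_add_of_le hi
    have e : (d + c * MK K ^ (ee K + k) * a) / (c * MK K ^ ee K) =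
        d / (c * MK K ^ ee K) + MK K ^ k * a := by field_simp; ring
    have : Nl l (c, d + c * MK K ^ (ee K + k) * a) ↔ Nl l (c, d) := by
      unfold Nl
      simp only [e]
      rw [add_mem_cancel_right ((A K).mul_mem ((A K).pow_mem MK_mem_A k) ha)]
    simp only [ind, this]
  · have hN : Nl l x := by
      by_contra hN
      exact hx (if_neg hN)
    have h0 := hN.1.ne_zero Level.he
    have hl : l ≠ 0 := fun e => h0 (by rw [e, div_zero])
    have hx1 : x.1 ≠ 0 := fun e => h0 (by rw [e, zero_div])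
    have h1 : MK K ^ j * x.1 ∈ A K := by
      have : MK K ^ j * x.1 = MK K ^ j * l * (x.1 / l) := by field_simp
      rw [this]
      exact (A K).mul_mem hj hN.1.mem
    refine ⟨h1, ?_⟩
    have : MK K ^ j * x.2 = MK K ^ j * x.1 * MK K ^ ee K * (x.2 / (x.1 * MK K ^ ee K)) := by
      field_simp
    rw [this]
    exact (A K).mul_mem ((A K).mul_mem h1 ((A K).pow_mem MK_mem_A _)) hN.2
  · unfold ind
    split_ifs <;> simp
  · have e : (u : K) * x.2 / ((u : K) * x.1 * MK K ^ ee K) = x.2 / (x.1 * MK K ^ ee K) := by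
      rw [mul_assoc, mul_div_mul_left _ _ u.ne_zero]
    have : Nl l ((u : K) * x.1, (u : K) * x.2) ↔ Nl l x := by
      unfold Nl
      simp only [e]
      refine and_congr_left fun _ => ⟨fun h1 => ?_, fun h1 => ?_⟩
      · have := hu.2.mul h1
        rwa [mul_div_assoc, ← mul_assoc, Units.inv_mul, one_mul] at this
      · rw [mul_div_assoc]
        exact hu.1.mul h1
    simp only [ind, this]
theorem ind_dil (l : K) {u : Kˣ} (hu : u ∈ unitsA K) (x : K × K) :
    ind l (x.1, (u : K) * x.2) = ind l x := by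
  have : Nl l (x.1, (u : K) * x.2) ↔ Nl l x := by
    unfold Nl
    simp only [mul_div_assoc, cjq_unit hu]
  simp only [ind, this]
theorem Jq_ind (l : K) {i : ℕ} (hi : ee K ≤ i) {n : K} (hn : DualF (ee K) n) {c : K} (hc : c ≠ 0) :
    Jq i (ind l) n c =
      if One (ee K) (c / l) then ((absN (MK K ^ ee K) : ℝ) : ℂ)⁻¹ else 0 := by
  have hMi := pow_ne_zero i (MK_ne (K := K))
  have hMe := pow_ne_zero (ee K) (MK_ne (K := K))
  unfold Jq
  split_ifs with h1
  · have hy : c * MK K ^ i ≠ 0 := mul_ne_zero hc hMi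
    have hx : c * MK K ^ ee K ≠ 0 := mul_ne_zero hc hMe
    have e : c * MK K ^ i / (c * MK K ^ ee K) = MK K ^ i / MK K ^ ee K := by field_simp
    have hfin := finite_clsA hx hy
    have hcard := ncard_clsA hx hy (by
      obtain ⟨k, rfl⟩ := Nat.exists_eq_add_of_le hi
      rw [e, pow_add, mul_div_cancel_left₀ _ hMe]
      exact (A K).pow_mem MK_mem_A k)
    rw [e, sN_div hMi hMe, Set.ncard_eq_toFinset_card _ hfin] at hcard
    have hs : ∑' d : K ⧸ lattA (c * MK K ^ i), ind l (c, d.out) * psiF (n * d.out / c) =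
        ((hfin.toFinset.card : ℝ) : ℂ) := by
      rw [tsum_eq_sum (s := hfin.toFinset)]
      · rw [Complex.ofReal_natCast, ← nsmul_one, ← Finset.sum_const]
        refine Finset.sum_congr rfl fun d hd => ?_
        rw [Set.Finite.mem_toFinset] at hd
        have hd' : d.out / (c * MK K ^ ee K) ∈ A K := hd
        have e2 : n * d.out / c = n * MK K ^ ee K * (d.out / (c * MK K ^ ee K)) := by field_simp
        rw [e2, hn _ hd', mul_one]
        exact if_pos ⟨h1, hd'⟩
      · intro d hd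
        rw [Set.Finite.mem_toFinset] at hd
        have : ind l (c, d.out) = 0 := if_neg fun h2 => hd h2.2
        rw [this, zero_mul]
    rw [hs, hcard, absN_MK, absN_MK]
    have hp : ((sN (MK K ^ i) : ℝ) : ℂ) ≠ 0 := Complex.ofReal_ne_zero.2 (sN_pos _).ne'
    push_cast
    field_simp
  · have : ∀ d : K, ind l (c, d) = 0 := fun d => if_neg fun h2 => h1 h2.1
    simp [this]

end

end Vale.Agent.P319N
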