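import Vale.Agent.P319N.RngA

namespace Vale.Agent.P319N

open NumberField Complex MeasureTheory Filter Topology
open scoped Classical ComplexConjugate Real
open Vale.Agent.P026 (omC kap psi W)

noncomputable section

variable {K : Type} [Field K] [NumberField K] [Setup K]

/-- the inclusion of the ring of integers -/
def Nrm_phi (K : Type) [Field K] [NumberField K] [Setup K] : 𝓞 K →+* R K :=
  (algebraMap (𝓞 K) K).codRestrict _ fun x => mem_R_of_isI x.isIntegral_coe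

/-- the reduction map -/
def Nrm_red (y : R K) (x : A K) : 𝓞 K →+* (R K ⧸ Ideal.span {y}) × (A K ⧸ Ideal.span {x}) :=
  ((Ideal.Quotient.mk _).comp (Nrm_phi K)).prod ((Ideal.Quotient.mk _).comp (RngA_phi K))

theorem Nrm_surj {y : R K} {x : A K} (hy : y ≠ 0) (hx : x ≠ 0) :
    Function.Surjective (Nrm_red y x) := by
  rintro ⟨z, w⟩
  obtain ⟨z, rfl⟩ := Ideal.Quotient.mk_surjective z
  obtain ⟨w, rfl⟩ := Ideal.Quotient.mk_surjective w
  have h0 : (x : K) ≠ 0 := by simpa using hx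
  have h1 : (y : K) ≠ 0 := by simpa using hy
  obtain ⟨r, h2, h3⟩ := approx h1 h0 z w
  have h4 : r ∈ A K := by
    have := (A K).add_mem ((A K).mul_mem h3 x.2) w.2
    rwa [div_mul_cancel₀ _ h0, sub_add_cancel] at this
  have h5 : r ∈ R K := by
    have := (R K).add_mem ((R K).mul_mem h2 y.2) z.2
    rwa [div_mul_cancel₀ _ h1, sub_add_cancel] at this
  exact ⟨⟨r, isI_of_mem h5 h4⟩, Prod.ext
    (Ideal.Quotient.eq.2 (Ideal.mem_span_singleton.2 ((dvd_iff_div_mem hy).2 h2)))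
    (Ideal.Quotient.eq.2 (Ideal.mem_span_singleton.2 ((RngA_dvd_iff hx).2 h3)))⟩

theorem Nrm_ker {y : R K} {x : A K} (hy : y ≠ 0) (hx : x ≠ 0) (r : 𝓞 K) :
    r ∈ RingHom.ker (Nrm_red y x) ↔ (r : K) ∈ LL2 (y : K) (x : K) := by
  rw [RingHom.mem_ker, Prod.ext_iff]
  exact and_congr
    (Ideal.Quotient.eq_zero_iff_mem.trans (Ideal.mem_span_singleton.trans (dvd_iff_div_mem hy)))
    (Ideal.Quotient.eq_zero_iff_mem.trans (Ideal.mem_span_singleton.trans (RngA_dvd_iff hx)))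

theorem Nrm_card {y : R K} {x : A K} (hy : y ≠ 0) (hx : x ≠ 0) :
    Nat.card (𝓞 K ⧸ RingHom.ker (Nrm_red y x)) = Nm y * Nat.card (A K ⧸ Ideal.span {x}) := by
  rw [Nat.card_congr (RingHom.quotientKerEquivOfSurjective (Nrm_surj hy hx)).toEquiv,
    Nat.card_prod, Nm]

theorem finite_quot {q : R K} (hq : q ≠ 0) : Finite (R K ⧸ Ideal.span {q}) := by
  obtain ⟨b, -, h1, h2⟩ := exists_mul_mem_R (q : K)⁻¹
  have := Ideal.finiteQuotientOfFreeOfNeBot (RingHom.ker (Nrm_red q 1)) fun hc => by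
    have : (b : 𝓞 K) ∈ RingHom.ker (Nrm_red q 1) :=
      (Nrm_ker hq one_ne_zero _).2 ⟨by simpa [div_eq_mul_inv] using h2, by simp⟩
    rw [hc, Submodule.mem_bot] at this
    exact h1 (by simpa using this)
  have := Finite.of_equiv _ (RingHom.quotientKerEquivOfSurjective (Nrm_surj hq one_ne_zero)).toEquiv
  exact Finite.prod_left (A K ⧸ Ideal.span {(1 : A K)})

theorem Nm_eq_zero {x : R K} : Nm x = 0 ↔ x = 0 := by
  refine ⟨fun h => by_contra fun hx => ?_, ?_⟩
  · have := finite_quot hx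
    exact Nat.card_pos.ne' h
  · rintro rfl
    rw [Nm, Ideal.span_singleton_eq_bot.2 rfl, Nat.card_congr (RingEquiv.quotientBot _).toEquiv]
    exact Nat.card_eq_zero_of_infinite

theorem Nm_mul (x y : R K) : Nm (x * y) = Nm x * Nm y := by
  by_cases hx : x = 0
  · simp [hx, Nm_eq_zero.2 rfl]
  have h1 := AddSubgroup.relIndex_map_map_of_injective (f := AddMonoidHom.mulLeft x)
    (Ideal.span {y}).toAddSubgroup ⊤ (mul_right_injective₀ hx)
  have h2 : (Ideal.span {y}).toAddSubgroup.map (AddMonoidHom.mulLeft x) =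
      (Ideal.span {x * y}).toAddSubgroup := by
    ext z
    simp only [AddSubgroup.mem_map, Submodule.mem_toAddSubgroup, Ideal.mem_span_singleton,
      AddMonoidHom.coe_mulLeft]
    exact ⟨by rintro ⟨_, ⟨c, rfl⟩, rfl⟩; exact ⟨c, (mul_assoc _ _ _).symm⟩,
      by rintro ⟨c, rfl⟩; exact ⟨_, ⟨c, rfl⟩, (mul_assoc _ _ _).symm⟩⟩
  have h3 : (⊤ : AddSubgroup (R K)).map (AddMonoidHom.mulLeft x) =
      (Ideal.span {x}).toAddSubgroup := by
    ext z
    simp only [AddSubgroup.mem_map, Submodule.mem_toAddSubgroup, Ideal.mem_span_singleton,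
      AddMonoidHom.coe_mulLeft]
    exact ⟨by rintro ⟨c, -, rfl⟩; exact ⟨c, rfl⟩, by rintro ⟨c, rfl⟩; exact ⟨c, trivial, rfl⟩⟩
  have h4 := AddSubgroup.relIndex_mul_index (H := (Ideal.span {x * y}).toAddSubgroup)
    (K := (Ideal.span {x}).toAddSubgroup)
    (Ideal.span_singleton_le_span_singleton.2 (dvd_mul_right x y))
  rw [h2, h3, AddSubgroup.relIndex_top_right] at h1
  rw [h1, mul_comm] at h4
  exact h4.symm

theorem Nm_eq_one {x : R K} : Nm x = 1 ↔ IsUnit x := by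
  rw [Nm, Nat.card_eq_one_iff_unique, Ideal.Quotient.subsingleton_iff, Ideal.span_singleton_eq_top]
  exact and_iff_left inferInstance

theorem Nm_assoc {x y : R K} (h : Associated x y) : Nm x = Nm y := by
  rw [Nm, Nm, Ideal.span_singleton_eq_span_singleton.2 h]

theorem N_mul (x y : R K) : N (x * y) = N x * N y := by simp [N, Nm_mul]

theorem N_pos {x : R K} (hx : x ≠ 0) : 0 < N x :=
  Nat.cast_pos.2 (Nat.pos_of_ne_zero (mt Nm_eq_zero.1 hx))

theorem one_le_N {x : R K} (hx : x ≠ 0) : 1 ≤ N x :=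
  Nat.one_le_cast.2 (Nat.pos_of_ne_zero (mt Nm_eq_zero.1 hx))

theorem Nrm_unit {l : ℕ} (hl : l ≠ 0) (h : l ∣ Setup.M K) : IsUnit (l : R K) :=
  IsUnit.of_mul_eq_one ⟨_, inv_nat_mem_R (j := 1) (by simpa using h)⟩ (Subtype.ext (by simp [hl]))

theorem Nm_coprime {x : R K} (hx : x ≠ 0) : (Nm x).Coprime (Setup.M K) := by
  have := finite_quot hx
  have := Fintype.ofFinite (R K ⧸ Ideal.span {x})
  refine Nat.coprime_of_dvd fun l hl h1 h2 => ?_
  have := Fact.mk hl
  refine not_isUnit_prime_of_dvd_card (R := R K ⧸ Ideal.span {x}) (p := l)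
    (by rwa [← Nat.card_eq_fintype_card]) ?_
  simpa using (Nrm_unit hl.ne_zero h2).map (Ideal.Quotient.mk (Ideal.span {x}))

theorem Nrm_max {p : R K} (hp : Prime p) : (Ideal.span {p}).IsMaximal :=
  PrincipalIdealRing.isMaximal_of_irreducible hp.irreducible

theorem Nm_prime {p : R K} (hp : Prime p) :
    ∃ l f : ℕ, l.Prime ∧ 1 ≤ f ∧ Nm p = l ^ f ∧ p ∣ (l : R K) ∧ l.Coprime (Setup.M K) := by
  have := finite_quot hp.ne_zero
  have := Fintype.ofFinite (R K ⧸ Ideal.span {p})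
  have := Nrm_max hp
  let _ := Ideal.Quotient.field (Ideal.span {p})
  obtain ⟨l, hl, f, h1, h2⟩ := FiniteField.card' (R K ⧸ Ideal.span {p})
  have h3 : p ∣ (l : R K) := by
    rw [← Ideal.mem_span_singleton, ← Ideal.Quotient.eq_zero_iff_mem, map_natCast]
    exact CharP.cast_eq_zero _ l
  exact ⟨l, f, h1, f.2, by rw [Nm, Nat.card_eq_fintype_card, h2], h3,
    (Nat.Prime.coprime_iff_not_dvd h1).2 fun h =>
      hp.not_isUnit (isUnit_of_dvd_unit h3 (Nrm_unit h1.ne_zero h))⟩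

theorem Nm_mod {p : R K} (hp : Prime p) : Nm p % 12 = 1 := by
  have := finite_quot hp.ne_zero
  have := Fintype.ofFinite (R K ⧸ Ideal.span {p})
  have := Nrm_max hp
  let _ := Ideal.Quotient.field (Ideal.span {p})
  obtain ⟨z, h1, h2, h3⟩ := exists_zeta_R (K := K)
  obtain ⟨f, hf⟩ : ∃ f, f = Ideal.Quotient.mk (Ideal.span {p}) := ⟨_, rfl⟩
  have h6 : (6 : R K ⧸ Ideal.span {p}) ≠ 0 := by
    simpa [map_ofNat] using (isUnit_six.map f).ne_zero
  have a1 : f z ^ 12 = 1 := by rw [← map_pow, h1.pow_eq_one, map_one]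
  have a2 : f z ^ 6 ≠ 1 := fun hc => by
    rw [← map_pow, h3, map_neg, map_one] at hc
    exact h6 (by linear_combination (-3 : R K ⧸ Ideal.span {p}) * hc)
  have a3 : f z ^ 4 ≠ 1 := fun hc => by
    have := congrArg f (om_sq_add (K := K))
    rw [← map_pow, h2] at hc
    rw [map_add, map_add, map_pow, hc, map_one, map_zero] at this
    exact h6 (by linear_combination (2 : R K ⧸ Ideal.span {p}) * this)
  have a4 : orderOf (f z) = 12 := orderOf_eq_of_pow_and_pow_div_prime (by norm_num) a1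
    fun q hq h => by
      have := Nat.le_of_dvd (by norm_num) h
      interval_cases q <;> first | assumption | (norm_num at hq; done) | norm_num at h
  have a5 := orderOf_dvd_of_pow_eq_one (FiniteField.pow_card_sub_one_eq_one (f z)
    fun hc => by simp [hc] at a1)
  have a6 := Fintype.card_pos (α := R K ⧸ Ideal.span {p})
  rw [a4] at a5
  rw [Nm, Nat.card_eq_fintype_card]
  omega

theorem four_le_Nm {p : R K} (hp : Prime p) : 4 ≤ Nm p := by
  have h1 := Nm_mod hp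
  have h2 := mt Nm_eq_one.1 hp.not_isUnit
  omega

omit [Setup K] in
theorem absN_mul (x y : K) : absN (x * y) = absN x * absN y := by simp [absN]

omit [Setup K] in
theorem absN_one : absN (1 : K) = 1 := by simp [absN]

omit [Setup K] in
theorem absN_pos {x : K} (hx : x ≠ 0) : 0 < absN x := by
  simpa [absN, Algebra.norm_eq_zero_iff] using hx

omit [Setup K] in
theorem absN_inv (x : K) : absN x⁻¹ = (absN x)⁻¹ := by simp [absN, Algebra.norm_inv]

omit [Setup K] in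
theorem absN_div (x y : K) : absN (x / y) = absN x / absN y := by
  rw [div_eq_mul_inv, absN_mul, absN_inv, div_eq_mul_inv]

omit [Setup K] in
theorem Nrm_absNorm (x : 𝓞 K) :
    |Algebra.norm ℚ (x : K)| = (Nat.card (𝓞 K ⧸ Ideal.span {x}) : ℚ) := by
  rw [← Algebra.coe_norm_int, ← Int.cast_abs, ← Int.natCast_natAbs, ← Ideal.absNorm_span_singleton,
    Ideal.absNorm_apply, Submodule.cardQuot_apply, Int.cast_natCast]

omit [Setup K] in
theorem one_le_absN {x : K} (hx : x ≠ 0) (h : IsI x) : 1 ≤ absN x := by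
  have h1 := Nrm_absNorm (⟨x, h⟩ : 𝓞 K)
  have h2 := absN_pos hx
  change |Algebra.norm ℚ x| = _ at h1
  rw [absN, ← Rat.cast_abs, h1, Rat.cast_natCast] at h2 ⊢
  exact Nat.one_le_cast.2 (Nat.cast_pos.1 h2)

theorem sN_mul {x y : K} (hx : x ≠ 0) (hy : y ≠ 0) : sN (x * y) = sN x * sN y := by
  rw [sN, sN, sN, ← Finset.prod_mul_distrib]
  refine Finset.prod_congr rfl fun l hl => ?_
  have := Fact.mk (Nat.prime_of_mem_primeFactors hl)
  rw [map_mul, padicValRat.mul (Algebra.norm_ne_zero_iff.2 hx) (Algebra.norm_ne_zero_iff.2 hy),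
    zpow_add₀ (Nat.cast_ne_zero.2 this.out.ne_zero)]

theorem sN_one : sN (1 : K) = 1 := by simp [sN]

theorem sN_pos (x : K) : 0 < sN x := Finset.prod_pos fun _ hl =>
  zpow_pos (Nat.cast_pos.2 (Nat.prime_of_mem_primeFactors hl).pos) _

theorem sN_inv (x : K) : sN x⁻¹ = (sN x)⁻¹ := by
  by_cases hx : x = 0
  · simp [hx, sN, Algebra.norm_zero]
  refine eq_inv_of_mul_eq_one_left ?_
  rw [← sN_mul (inv_ne_zero hx) hx, inv_mul_cancel₀ hx, sN_one]

theorem sN_div {x y : K} (hx : x ≠ 0) (hy : y ≠ 0) : sN (x / y) = sN x / sN y := by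
  rw [div_eq_mul_inv, sN_mul hx (inv_ne_zero hy), sN_inv, div_eq_mul_inv]

theorem Nrm_sN {x : K} {a c : ℕ} (ha : a.Coprime (Setup.M K)) (ha0 : a ≠ 0) (hc0 : c ≠ 0)
    (hc : ∀ l, l.Prime → l ∣ c → l ∣ Setup.M K) (h : |Algebra.norm ℚ x| = ((a * c : ℕ) : ℚ)) :
    sN x = c := by
  have h1 : ∀ l ∈ (Setup.M K).primeFactors, (l : ℝ) ^ padicValRat l (Algebra.norm ℚ x) =
      ((l ^ c.factorization l : ℕ) : ℝ) := fun l hl => by
    have := Fact.mk (Nat.prime_of_mem_primeFactors hl)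
    have h2 : padicValRat l (Algebra.norm ℚ x) = padicValRat l |Algebra.norm ℚ x| := by
      rcases abs_choice (Algebra.norm ℚ x) with e | e <;> simp [e]
    rw [h2, h, padicValRat.of_nat, padicValNat.mul ha0 hc0, padicValNat.eq_zero_of_not_dvd
      fun h3 => this.out.one_lt.ne' (Nat.eq_one_of_dvd_coprimes ha h3
        (Nat.dvd_of_mem_primeFactors hl)), zero_add, Nat.factorization_def _ this.out]
    simp
  rw [sN, Finset.prod_congr rfl h1, ← Nat.cast_prod]
  congr 1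
  refine (Finsupp.prod_of_support_subset _ (fun l hl => ?_) (· ^ ·) (by simp)).symm.trans
    (Nat.prod_factorization_pow_eq_self hc0)
  have := Nat.mem_primeFactors.1 hl
  exact Nat.mem_primeFactors.2 ⟨this.1, hc l this.1 this.2.1, Setup.Mne⟩

omit [Setup K] in
theorem Nrm_nat (n : ℕ) : |Algebra.norm ℚ (n : K)| = ((n ^ Module.finrank ℚ K : ℕ) : ℚ) := by
  rw [← map_natCast (algebraMap ℚ K), Algebra.norm_algebraMap]
  simp

theorem Nrm_int {x : K} (hx : x ≠ 0) (h : IsI x) :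
    absN x = N ⟨x, mem_R_of_isI h⟩ * sN x ∧
      (Nat.card (A K ⧸ Ideal.span {(⟨x, mem_A_of_isI h⟩ : A K)}) : ℝ) = sN x := by
  have h1 : (⟨x, mem_R_of_isI h⟩ : R K) ≠ 0 := fun hc => hx (congrArg Subtype.val hc)
  have h2 : (⟨x, mem_A_of_isI h⟩ : A K) ≠ 0 := fun hc => hx (congrArg Subtype.val hc)
  have h3 := Nrm_card h1 h2
  obtain ⟨x', rfl⟩ : ∃ x' : 𝓞 K, (x' : K) = x := ⟨⟨x, h⟩, rfl⟩
  have h4 : RingHom.ker (Nrm_red (K := K) ⟨x', mem_R_of_isI h⟩ ⟨x', mem_A_of_isI h⟩) =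
      Ideal.span {x'} := by
    ext r
    rw [Nrm_ker h1 h2, Ideal.mem_span_singleton']
    refine ⟨fun h5 => ⟨⟨_, isI_of_mem h5.1 h5.2⟩, Subtype.ext (div_mul_cancel₀ _ hx)⟩, ?_⟩
    rintro ⟨c, rfl⟩
    have : ((c * x' : 𝓞 K) : K) / x' = c := mul_div_cancel_right₀ _ hx
    exact ⟨this ▸ mem_R_of_isI c.isIntegral_coe, this ▸ mem_A_of_isI c.isIntegral_coe⟩
  have h5 := Nrm_absNorm x'
  rw [← h4, h3] at h5
  have := finite_quot_A h2
  have := Fintype.ofFinite (A K ⧸ Ideal.span {(⟨x', mem_A_of_isI h⟩ : A K)})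
  have h6 := Nrm_sN (Nm_coprime h1) (mt Nm_eq_zero.1 h1) Nat.card_pos.ne' (fun l hl h6 => by
    by_contra h7
    have := Fact.mk hl
    refine not_isUnit_prime_of_dvd_card (R := A K ⧸ Ideal.span {(⟨x', mem_A_of_isI h⟩ : A K)})
      (p := l) (by rwa [← Nat.card_eq_fintype_card]) ?_
    have : IsUnit (l : A K) := IsUnit.of_mul_eq_one
      ⟨_, inv_nat_mem_A ((Nat.Prime.coprime_iff_not_dvd hl).2 h7)⟩
      (Subtype.ext (by simp [hl.ne_zero]))
    simpa using this.map (Ideal.Quotient.mk (Ideal.span {(⟨x', mem_A_of_isI h⟩ : A K)}))) h5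
  exact ⟨by rw [absN, ← Rat.cast_abs, h5, h6, N]; simp, h6.symm⟩

theorem absN_eq {x : R K} (hx : x ≠ 0) : absN (x : K) = N x * sN (x : K) := by
  obtain ⟨j, hj⟩ := x.2
  have h0 : (x : K) ≠ 0 := by simpa using hx
  have hM := pow_ne_zero j (MK_ne (K := K))
  have h1 := (Nrm_int (mul_ne_zero hM h0) hj).1
  have h2 := Nrm_nat (K := K) (Setup.M K ^ j)
  have h3 := Nrm_sN (a := 1) (by simp) one_ne_zero (pow_ne_zero _ (pow_ne_zero j Setup.Mne))
    (fun l hl h => hl.dvd_of_dvd_pow (hl.dvd_of_dvd_pow h)) (by rwa [one_mul])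
  have h4 : absN (MK K ^ j) = sN (MK K ^ j) := by
    rw [Nat.cast_pow] at h2 h3
    rw [h3, absN, ← Rat.cast_abs, h2, Rat.cast_natCast]
  have h5 : N ⟨_, mem_R_of_isI hj⟩ = N x := by
    rw [show (⟨_, mem_R_of_isI hj⟩ : R K) = (Setup.M K : R K) ^ j * x from Subtype.ext (by simp),
      N_mul, N, Nm_eq_one.2 ((Nrm_unit Setup.Mne dvd_rfl).pow j)]
    simp
  rw [absN_mul, sN_mul hM h0, h4, h5, mul_left_comm] at h1
  exact mul_left_cancel₀ (sN_pos _).ne' h1

theorem Nrm_sN_nat {b : ℕ} (h : b.Coprime (Setup.M K)) (hb : b ≠ 0) : sN (b : K) = 1 := by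
  simpa using Nrm_sN (c := 1) (h.pow_left (Module.finrank ℚ K)) (pow_ne_zero _ hb) one_ne_zero
    (fun l hl h => absurd (Nat.dvd_one.1 h) hl.ne_one) (by rw [mul_one]; exact Nrm_nat b)

theorem Nm_nat {n : ℕ} (h : n.Coprime (Setup.M K)) : Nm (n : R K) = n ^ Module.finrank ℚ K := by
  have hn : n ≠ 0 := by
    rintro rfl
    have := Setup.six (K := K)
    rw [Nat.coprime_zero_left] at h
    simp [h] at this
  have h1 := absN_eq (x := (n : R K)) (Nat.cast_ne_zero.2 hn)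
  rw [SubringClass.coe_natCast, Nrm_sN_nat h hn, mul_one, absN, ← Rat.cast_abs, Nrm_nat,
    Rat.cast_natCast, N] at h1
  exact_mod_cast h1.symm

theorem card_quot_A {x : A K} (hx : x ≠ 0) : (Nat.card (A K ⧸ Ideal.span {x}) : ℝ) = sN (x : K) := by
  obtain ⟨b, b1, b2, b3⟩ := x.2
  have h0 : (x : K) ≠ 0 := by simpa using hx
  have hb : (b : K) ≠ 0 := Nat.cast_ne_zero.2 b2
  have h1 := (Nrm_int (mul_ne_zero hb h0) b3).2
  have h2 : IsUnit (b : A K) :=
    IsUnit.of_mul_eq_one ⟨_, inv_nat_mem_A b1⟩ (Subtype.ext (by simp [b2]))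
  rwa [sN_mul hb h0, Nrm_sN_nat b1 b2, one_mul,
    show (⟨_, mem_A_of_isI b3⟩ : A K) = (b : A K) * x from Subtype.ext (by simp),
    Ideal.span_singleton_mul_left_unit h2] at h1

theorem one_le_sN {x : K} (hx : x ≠ 0) (h : x ∈ A K) : 1 ≤ sN x := by
  have h1 : (⟨x, h⟩ : A K) ≠ 0 := fun hc => hx (congrArg Subtype.val hc)
  have := finite_quot_A h1
  exact (Nat.one_le_cast.2 Nat.card_pos).trans (card_quot_A h1).le

theorem sN_unit {u : Kˣ} (h : u ∈ unitsA K) : sN (u : K) = 1 := by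
  have h1 := one_le_sN u.ne_zero h.1
  have h2 := one_le_sN u⁻¹.ne_zero h.2
  rw [Units.val_inv_eq_inv_val, sN_inv, one_le_inv₀ (sN_pos _)] at h2
  exact le_antisymm h2 h1

theorem two_le_sN {x : A K} (hx : x ≠ 0) (h : ¬ IsUnit x) : 2 ≤ sN (x : K) := by
  have := finite_quot_A hx
  have : Nontrivial (A K ⧸ Ideal.span {x}) :=
    Ideal.Quotient.nontrivial_iff.2 (mt Ideal.span_singleton_eq_top.1 h)
  rw [← card_quot_A hx]
  exact_mod_cast Finite.one_lt_card

theorem absN_unit {u : Kˣ} (h : u ∈ unitsR K ⊓ unitsA K) : absN (u : K) = 1 := by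
  have h1 := one_le_absN u.ne_zero (isI_of_mem h.1.1 h.2.1)
  have h2 := one_le_absN u⁻¹.ne_zero (isI_of_mem h.1.2 h.2.2)
  rw [Units.val_inv_eq_inv_val, absN_inv, one_le_inv₀ (absN_pos u.ne_zero)] at h2
  exact le_antisymm h2 h1

theorem sA_mk {x : A K} (hx : x ≠ 0) : sA (Associates.mk x) = sN (x : K) := by
  have h : Associated (Quot.out (Associates.mk x)) x :=
    Associates.mk_eq_mk_iff_associated.1 (Associates.quot_out _)
  rw [sA, ← card_quot_A hx, ← card_quot_A (h.ne_zero_iff.2 hx),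
    Ideal.span_singleton_eq_span_singleton.2 h]

theorem sA_mul {a b : Associates (A K)} (ha : a ≠ 0) (hb : b ≠ 0) : sA (a * b) = sA a * sA b := by
  obtain ⟨a, rfl⟩ := Associates.mk_surjective a
  obtain ⟨b, rfl⟩ := Associates.mk_surjective b
  rw [Associates.mk_ne_zero] at ha hb
  rw [Associates.mk_mul_mk, sA_mk ha, sA_mk hb, sA_mk (mul_ne_zero ha hb), Subring.coe_mul,
    sN_mul (by simpa using ha) (by simpa using hb)]

theorem index_LL2 {y : R K} {x : A K} (hy : y ≠ 0) (hx : x ≠ 0) :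
    ((LL2 (y : K) (x : K)).relIndex (LL2 (1 : K) 1) : ℝ) = N y * sN (x : K) := by
  have h1 : LL2 (1 : K) 1 = (algebraMap (𝓞 K) K).toAddMonoidHom.range := by
    ext z
    refine ⟨fun h => ⟨⟨z, isI_of_mem (by simpa using h.1) (by simpa using h.2)⟩, rfl⟩, ?_⟩
    rintro ⟨r, rfl⟩
    exact ⟨by simpa using mem_R_of_isI r.isIntegral_coe,
      by simpa using mem_A_of_isI r.isIntegral_coe⟩
  have h2 : (LL2 (y : K) (x : K)).comap (algebraMap (𝓞 K) K).toAddMonoidHom =
      (RingHom.ker (Nrm_red y x)).toAddSubgroup := by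
    ext r
    exact (Nrm_ker hy hx r).symm
  rw [h1, ← AddSubgroup.index_comap, h2, ← card_quot_A hx, N, ← Nat.cast_mul, ← Nrm_card hy hx]
  rfl

end

end Vale.Agent.P319N
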