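import Vale.Agent.P319N.RngA

namespace Vale.Agent.P319N

open NumberField Complex MeasureTheory Filter Topology
open scoped Classical ComplexConjugate Real
open Vale.Agent.P026 (omC kap psi W)

noncomputable section

variable {K : Type} [Field K] [NumberField K] [Setup K]

theorem Psi_one (q : ℚ) : Complex.exp (2 * π * Complex.I * (q : ℂ)) = 1 ↔ ∃ k : ℤ, q = k := by
  rw [Complex.exp_eq_one_iff]
  refine exists_congr fun k => ?_
  rw [mul_comm (k : ℂ), mul_right_inj' Complex.two_pi_I_ne_zero]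
  exact_mod_cast Iff.rfl

theorem Psi_add (q r : ℚ) : Complex.exp (2 * π * Complex.I * ((q + r : ℚ) : ℂ)) =
    Complex.exp (2 * π * Complex.I * (q : ℂ)) * Complex.exp (2 * π * Complex.I * (r : ℂ)) := by
  rw [← Complex.exp_add, Rat.cast_add, mul_add]

theorem Psi_norm (q : ℚ) : ‖Complex.exp (2 * π * Complex.I * (q : ℂ))‖ = 1 := by
  simp [Complex.norm_exp]

theorem Psi_mod (x : ℚ) {a b : ℕ} (h : a ≡ b [MOD x.den]) :
    Complex.exp (2 * π * Complex.I * ((x * a : ℚ) : ℂ)) =
      Complex.exp (2 * π * Complex.I * ((x * b : ℚ) : ℂ)) := by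
  obtain ⟨k, hk⟩ := h.dvd
  have h1 : (b : ℚ) = a + x.den * k := by exact_mod_cast (by linarith : (b : ℤ) = a + x.den * k)
  rw [h1, mul_add, Psi_add, (Psi_one (x * (x.den * k))).2 ⟨x.num * k, by
    rw [← mul_assoc, Rat.mul_den_eq_num]; simp⟩, mul_one]

theorem Psi_idem (M : ℕ) {d : ℕ} (hd : d ≠ 0) (k : ℕ) :
    M ^ (d.factorial * (k + 1)) ≡ M ^ d.factorial [MOD d] := by
  have := NeZero.mk hd
  obtain ⟨i, j, hij, hj, h⟩ : ∃ i j : ℕ, i < j ∧ j ≤ d ∧ (M : ZMod d) ^ i = (M : ZMod d) ^ j := by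
    obtain ⟨i, j, h1, h2⟩ := Fintype.exists_ne_map_eq_of_card_lt
      (fun i : Fin (d + 1) => (M : ZMod d) ^ i.1) (by simp)
    rcases lt_or_gt_of_ne h1 with h | h
    · exact ⟨i, j, h, Nat.lt_succ_iff.1 j.2, h2⟩
    · exact ⟨j, i, h, Nat.lt_succ_iff.1 i.2, h2.symm⟩
  have h1 : ∀ t, (M : ZMod d) ^ (i + (j - i) * t) = (M : ZMod d) ^ i := by
    intro t
    induction t with
    | zero => simp
    | succ t ih =>
      rw [mul_add, mul_one, ← add_assoc, pow_add, ih, ← pow_add, Nat.add_sub_cancel' hij.le, h]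
  obtain ⟨t, ht⟩ := Nat.dvd_factorial (Nat.sub_pos_of_lt hij) ((Nat.sub_le j i).trans hj)
  obtain ⟨s, hs⟩ := Nat.exists_eq_add_of_le ((hij.le.trans hj).trans d.self_le_factorial)
  rw [← ZMod.natCast_eq_natCast_iff, Nat.cast_pow, Nat.cast_pow]
  have : d.factorial * (k + 1) = i + (j - i) * (t * k) + s := by
    rw [← mul_assoc, ← ht, mul_add]
    omega
  rw [this, pow_add, h1, ← pow_add, ← hs]

theorem Psi_eq (M : ℕ) (x : ℚ) {a : ℕ} (h : x.den.factorial ∣ a) (ha : a ≠ 0) :
    psiQ M x = Complex.exp (2 * π * Complex.I * ((x * (M : ℚ) ^ a : ℚ) : ℂ)) := by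
  obtain ⟨k, rfl⟩ := h
  obtain ⟨k, rfl⟩ := Nat.exists_eq_succ_of_ne_zero (right_ne_zero_of_mul ha)
  have := Psi_mod x (Psi_idem M x.den_ne_zero k)
  rw [Nat.cast_pow, Nat.cast_pow] at this
  exact this.symm

theorem psiQ_add (M : ℕ) (x y : ℚ) : psiQ M (x + y) = psiQ M x * psiQ M y := by
  have h : x.den.factorial * y.den.factorial * (x + y).den.factorial ≠ 0 := by positivity
  rw [Psi_eq M (x + y) (dvd_mul_left _ _) h, Psi_eq M x ((dvd_mul_right _ _).mul_right _) h,
    Psi_eq M y ((dvd_mul_left _ _).mul_right _) h, add_mul, Psi_add]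

theorem psiQ_eq_one_iff {M : ℕ} (hM : M ≠ 0) (x : ℚ) :
    psiQ M x = 1 ↔ ∃ (j : ℕ) (k : ℤ), (M : ℚ) ^ j * x = k := by
  refine ⟨fun h => ⟨_, by simpa only [mul_comm x] using (Psi_one _).1 h⟩, ?_⟩
  rintro ⟨j, k, h⟩
  obtain ⟨s, hs⟩ := Nat.exists_eq_add_of_le
    (j.le_succ.trans (Nat.le_mul_of_pos_left (j + 1) x.den.factorial_pos))
  rw [Psi_eq M x (a := x.den.factorial * (j + 1)) (dvd_mul_right _ _) (by positivity), Psi_one, hs,
    pow_add, ← mul_assoc, mul_comm x, h]
  exact ⟨k * M ^ s, by simp⟩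

theorem psiQ_eq {M : ℕ} {x : ℚ} (h : x.den.Coprime M) :
    psiQ M x = Complex.exp (2 * π * Complex.I * (x : ℂ)) := by
  obtain ⟨k, hk⟩ := Nat.dvd_factorial (Nat.totient_pos.2 x.den_pos) (Nat.totient_le x.den)
  have h1 := (Nat.ModEq.pow_totient h.symm).pow k
  rw [← pow_mul, ← hk, one_pow] at h1
  simpa [psiQ] using Psi_mod x h1

theorem Psi_tr (x y : K) : trK (x + y) = trK x + trK y := by simp [trK, add_div]

theorem psiK_add (x y : K) : psiK (x + y) = psiK x * psiK y := by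
  rw [psiK, Psi_tr, Psi_add, psiK, psiK]

theorem psiS_add (x y : K) : psiS (x + y) = psiS x * psiS y := by
  rw [psiS, Psi_tr, psiQ_add, psiS, psiS]

theorem psiF_add (x y : K) : psiF (x + y) = psiF x * psiF y := by
  simp only [psiF, psiK_add, psiS_add, map_mul]
  ring

theorem norm_psiK (x : K) : ‖psiK x‖ = 1 := Psi_norm _

theorem norm_psiS (x : K) : ‖psiS x‖ = 1 := Psi_norm _

theorem norm_psiF (x : K) : ‖psiF x‖ = 1 := by simp [psiF, norm_psiK, norm_psiS]

theorem psiK_zero : psiK (0 : K) = 1 := by simp [psiK, trK]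

theorem psiS_zero : psiS (0 : K) = 1 := by simp [psiS, psiQ, trK]

theorem psiF_zero : psiF (0 : K) = 1 := by simp [psiF, psiK_zero, psiS_zero]

theorem psiK_neg (x : K) : psiK (-x) = conj (psiK x) := by
  rw [← Complex.inv_eq_conj (norm_psiK x)]
  exact eq_inv_of_mul_eq_one_left (by rw [← psiK_add, neg_add_cancel, psiK_zero])

theorem psiS_neg (x : K) : psiS (-x) = conj (psiS x) := by
  rw [← Complex.inv_eq_conj (norm_psiS x)]
  exact eq_inv_of_mul_eq_one_left (by rw [← psiS_add, neg_add_cancel, psiS_zero])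

theorem psiF_neg (x : K) : psiF (-x) = conj (psiF x) := by
  rw [← Complex.inv_eq_conj (norm_psiF x)]
  exact eq_inv_of_mul_eq_one_left (by rw [← psiF_add, neg_add_cancel, psiF_zero])

theorem psiK_eq_mul (x : K) : psiK x = psiF x * psiS x := by
  rw [psiF, mul_assoc, ← psiS_neg, ← psiS_add, neg_add_cancel, psiS_zero, mul_one]

theorem psiK_eq_one_iff (x : K) : psiK x = 1 ↔ ∃ k : ℤ, trK x = k := Psi_one _

omit [Setup K] in
theorem Psi_int {x : K} (h : IsI x) : ∃ k : ℤ, Algebra.trace ℚ K x = k := by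
  obtain ⟨k, hk⟩ := IsIntegrallyClosed.isIntegral_iff.1 (Algebra.isIntegral_trace (L := ℚ) h)
  exact ⟨k, hk.symm⟩

theorem psiS_R {x : K} (h : x ∈ R K) : psiS x = 1 := by
  have h1 : x / lamK K ∈ R K := by
    have h2 : (lamK K)⁻¹ = -lamK K * ((3 : ℕ) : K)⁻¹ := by
      refine inv_eq_of_mul_eq_one_right ?_
      rw [← mul_assoc, mul_neg, ← sq, lamK_sq]
      simp
    rw [div_eq_mul_inv, h2]
    exact (R K).mul_mem h ((R K).mul_mem ((R K).neg_mem (mem_R_of_isI isI_lamK))
      (inv_nat_mem_R (j := 1) (by simpa using (by norm_num : 3 ∣ 6).trans Setup.six)))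
  obtain ⟨j, hj⟩ := h1
  obtain ⟨k, hk⟩ := Psi_int hj
  refine (psiQ_eq_one_iff Setup.Mne _).2 ⟨j, k, ?_⟩
  rw [← hk, trK, ← smul_eq_mul, ← map_smul, Algebra.smul_def]
  simp

theorem psiS_perfect {z : K} (h : ∀ a ∈ R K, psiS (z * a) = 1) : z ∈ R K := by
  choose j k hk using fun i => (psiQ_eq_one_iff Setup.Mne _).1 (h (integralBasis K i)
    (mem_R_of_isI (by
      rw [integralBasis_apply]
      exact (RingOfIntegers.basis K i).isIntegral_coe)))
  have h1 := Setup.diff (MK K ^ (∑ i, j i) * (z / lamK K)) fun y hy => by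
    have h2 := (mem_span_integralBasis (K := K)).2 (show y ∈ (algebraMap (𝓞 K) K).range from
      ⟨⟨y, hy⟩, rfl⟩)
    clear hy
    induction h2 using Submodule.span_induction with
    | mem y hy =>
      obtain ⟨i, rfl⟩ := hy
      obtain ⟨s, hs⟩ := Nat.exists_eq_add_of_le' (Finset.single_le_sum (f := j)
        (fun _ _ => Nat.zero_le _) (Finset.mem_univ i))
      refine ⟨Setup.M K ^ s * k i, ?_⟩
      push_cast
      rw [← hk i, ← mul_assoc, ← pow_add, ← hs, trK, ← smul_eq_mul ((Setup.M K : ℚ) ^ _),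
        ← map_smul, Algebra.smul_def]
      congr 1
      simp only [map_pow, map_natCast]
      ring
    | zero => exact ⟨0, by simp⟩
    | add y y' _ _ h1 h2 =>
      obtain ⟨a, ha⟩ := h1
      obtain ⟨b, hb⟩ := h2
      exact ⟨a + b, by rw [mul_add, map_add, ha, hb, Int.cast_add]⟩
    | smul c y _ h1 =>
      obtain ⟨a, ha⟩ := h1
      exact ⟨c * a, by rw [mul_smul_comm, map_zsmul, ha, zsmul_eq_mul, Int.cast_mul]⟩
  have h2 : z / lamK K ∈ R K := ⟨∑ i, j i + 1, by rwa [pow_succ', mul_assoc]⟩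
  have := (R K).mul_mem h2 (mem_R_of_isI isI_lamK)
  rwa [div_mul_cancel₀ _ lamK_ne] at this

theorem psiF_lam {x : K} (h : x / lamK K ∈ A K) : psiF x = 1 := by
  obtain ⟨b, b1, b2, b3⟩ := h
  obtain ⟨k, hk⟩ := Psi_int b3
  have h1 : trK x = (k : ℚ) / b := by
    rw [eq_div_iff (Nat.cast_ne_zero.2 b2), ← hk, trK, mul_comm, ← smul_eq_mul, ← map_smul,
      Algebra.smul_def]
    simp
  have h2 : (trK x).den ∣ b := by
    rw [h1]
    have := Rat.den_dvd k b
    rw [Rat.divInt_eq_div] at this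
    exact_mod_cast this
  have h3 : psiS x = psiK x := psiQ_eq (b1.coprime_dvd_left h2)
  rw [psiF, h3, ← psiK_neg, ← psiK_add, add_neg_cancel, psiK_zero]

theorem del_spec : del K ≠ 0 ∧ ∀ z : K, (∀ a ∈ A K, psiF (z * a) = 1) ↔ z / del K ∈ A K := by
  refine Classical.epsilon_spec
    (p := fun d : K => d ≠ 0 ∧ ∀ z : K, (∀ a ∈ A K, psiF (z * a) = 1) ↔ z / d ∈ A K) ?_
  have hl := lamK_ne (K := K)
  have hM := MK_ne (K := K)
  let J : Ideal (A K) :=
    { carrier := {a | ∀ a' ∈ A K, psiF (lamK K / MK K * a * a') = 1}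
      zero_mem' := fun a' _ => by simp [psiF_zero]
      add_mem' := fun {a b} ha hb a' h => by
        rw [Subring.coe_add, mul_add, add_mul, psiF_add, ha a' h, hb a' h, mul_one]
      smul_mem' := fun c a ha a' h => by
        have := ha _ ((A K).mul_mem c.2 h)
        rwa [smul_eq_mul, Subring.coe_mul, mul_comm (c : K), ← mul_assoc, mul_assoc _ (c : K)] }
  obtain ⟨g, hg⟩ := (IsPrincipalIdealRing.principal J).principal
  have h1 : ∀ a : A K, (∀ a' ∈ A K, psiF (lamK K / MK K * a * a') = 1) ↔ g ∣ a := fun a => by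
    rw [← Ideal.mem_span_singleton, ← Ideal.submodule_span_eq, ← hg]
    rfl
  have h2 : g ≠ 0 := by
    rintro rfl
    refine RngA_M (zero_dvd_iff.1 ((h1 (Setup.M K)).1 fun a' h => psiF_lam ?_))
    convert h using 1
    push_cast
    field_simp
  have h3 : (g : K) ≠ 0 := by simpa using h2
  refine ⟨lamK K / MK K * g, mul_ne_zero (div_ne_zero hl hM) h3, fun z => ⟨fun h => ?_,
    fun h a ha => ?_⟩⟩
  · obtain ⟨b, b1, b2, b3⟩ := exists_mul_mem_R z
    have h4 := Setup.diff (b * z / lamK K) fun y hy => by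
      obtain ⟨k, hk⟩ := (psiK_eq_one_iff (b * z * y)).1 (by
        rw [psiK_eq_mul, psiS_R ((R K).mul_mem b3 (mem_R_of_isI hy)), mul_one, mul_comm _ z,
          mul_assoc]
        exact h _ (mem_A_of_isI ((isI_nat b).mul hy)))
      exact ⟨k, by rw [← hk, trK, div_mul_eq_mul_div]⟩
    have h5 : MK K * z / lamK K ∈ A K := ⟨b, b1, b2, by convert h4 using 1; ring⟩
    have h6 := (RngA_dvd_iff h2).1 ((h1 ⟨_, h5⟩).1 fun a' h' => by
      convert h a' h' using 3
      field_simp)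
    convert h6 using 1
    field_simp
  · convert (h1 g).2 dvd_rfl _ ((A K).mul_mem h ha) using 2
    field_simp

theorem psiF_del {x : K} (h : x / del K ∈ A K) : psiF x = 1 := by
  simpa using (del_spec.2 x).2 h 1 (A K).one_mem

theorem dual_LL2 {y x : K} (hy : y ≠ 0) (hx : x ≠ 0) (n : K) :
    n ∈ dualL (LL2 y x) ↔ n ∈ LL2 y⁻¹ (del K / x) := by
  have hd := (del_spec (K := K)).1
  refine ⟨fun h => ?_, fun h z hz => ?_⟩
  · obtain ⟨b, -, b2, b3⟩ := exists_mul_mem_R (n * y)
    obtain ⟨j, hj⟩ := exists_mul_mem_A (n * x / del K)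
    have hb : (b : K) ≠ 0 := Nat.cast_ne_zero.2 b2
    have hM := pow_ne_zero j (MK_ne (K := K))
    have key : ∀ a ∈ R K, ∀ a' ∈ A K, psiF (n * x * a') * psiS (n * y * a) = 1 := by
      intro a ha a' ha'
      obtain ⟨r, h1, h2⟩ := approx (mul_ne_zero hb hy) (mul_ne_zero hM hx) (y * a) (x * a')
      have h3 := h r ⟨by
        convert (R K).add_mem ha ((R K).mul_mem h1 (natCast_mem _ b)) using 1
        field_simp
        ring, by
        convert (A K).add_mem ha' ((A K).mul_mem h2 ((A K).pow_mem MK_mem_A j)) using 1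
        field_simp
        ring⟩
      have h4 : psiS (n * r) = psiS (n * y * a) := by
        rw [← mul_one (psiS (n * y * a)), ← psiS_R ((R K).mul_mem h1 b3), ← psiS_add]
        congr 1
        field_simp
        ring
      have h5 : psiF (n * r) = psiF (n * x * a') := by
        rw [← mul_one (psiF (n * x * a')), ← psiF_del (x := n * (r - x * a')) (by
          convert (A K).mul_mem h2 hj using 1
          field_simp), ← psiF_add]
        congr 1
        ring
      rwa [psiK_eq_mul, h4, h5] at h3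
    refine ⟨?_, ?_⟩
    · rw [div_inv_eq_mul]
      exact psiS_perfect fun a ha => by simpa [psiF_zero] using key a ha 0 (A K).zero_mem
    · rw [div_div_eq_mul_div]
      exact (del_spec.2 _).1 fun a ha => by simpa [psiS_zero] using key 0 (R K).zero_mem a ha
  · rw [psiK_eq_mul, psiS_R, psiF_del, mul_one]
    · convert (A K).mul_mem h.2 hz.2 using 1
      field_simp
    · convert (R K).mul_mem h.1 hz.1 using 1
      field_simp

end

end Vale.Agent.P319N
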