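import Vale.Agent.P319N.CD
import Vale.Agent.P319N.Nrm
import Vale.Agent.P319N.Psi

namespace Vale.Agent.P319N

open NumberField Complex MeasureTheory Filter Topology
open scoped Classical ComplexConjugate Real MatrixGroups
open Vale.Agent.P026 (omC kap psi W Hs ht QQ act uu muH hh LL Gs bb kk UU DualW)

noncomputable section

variable {K : Type} [Field K] [NumberField K] [Level K]

theorem relIndex_lattA {x y : K} (hx : x ≠ 0) (hy : y ≠ 0) (h : y / x ∈ A K) :
    (((lattA y).relIndex (lattA x) : ℕ) : ℝ) = sN (y / x) := by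
  have h0 : (⟨y / x, h⟩ : A K) ≠ 0 := fun e => div_ne_zero hy hx (congrArg Subtype.val e)
  let φ : lattA x →+ A K ⧸ Ideal.span {(⟨y / x, h⟩ : A K)} :=
    { toFun := fun z => Ideal.Quotient.mk _ ⟨z.1 / x, z.2⟩
      map_zero' := by
        rw [← map_zero (Ideal.Quotient.mk _)]
        congr 1
        exact Subtype.ext (by simp)
      map_add' := fun a b => by
        rw [← map_add]
        congr 1
        exact Subtype.ext (by simp [add_div]) }
  have hs : Function.Surjective φ := by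
    intro q
    obtain ⟨a, rfl⟩ := Ideal.Quotient.mk_surjective q
    have e : (a : K) * x / x = a := by field_simp
    refine ⟨⟨a * x, show (a : K) * x / x ∈ A K by rw [e]; exact a.2⟩, ?_⟩
    change Ideal.Quotient.mk _ _ = _
    congr 1
    exact Subtype.ext e
  have hk : φ.ker = (lattA y).addSubgroupOf (lattA x) := by
    ext z
    rw [AddMonoidHom.mem_ker, AddSubgroup.mem_addSubgroupOf]
    change Ideal.Quotient.mk _ _ = 0 ↔ z.1 / y ∈ A K
    rw [Ideal.Quotient.eq_zero_iff_mem, Ideal.mem_span_singleton, RngA_dvd_iff h0]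
    have : z.1 / x / (y / x) = z.1 / y := by field_simp
    change z.1 / x / (y / x) ∈ A K ↔ _
    rw [this]
  rw [AddSubgroup.relIndex, ← hk, AddSubgroup.index_ker, AddMonoidHom.range_eq_top.2 hs,
    AddSubgroup.card_top, card_quot_A h0]
theorem cjq0_ncard {x y : K} (hx : x ≠ 0) (hy : y ≠ 0) (h : y / x ∈ A K) :
    ({d : K ⧸ lattA y | d.out ∈ lattA x}.ncard : ℝ) = sN (y / x) := by
  let ψ : lattA x →+ K ⧸ lattA y := (QuotientAddGroup.mk' (lattA y)).comp (lattA x).subtype
  have hk : ψ.ker = (lattA y).addSubgroupOf (lattA x) := by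
    ext z
    rw [AddMonoidHom.mem_ker, AddSubgroup.mem_addSubgroupOf]
    exact QuotientAddGroup.eq_zero_iff _
  have hr : {d : K ⧸ lattA y | d.out ∈ lattA x} = (ψ.range : Set (K ⧸ lattA y)) := by
    ext d
    constructor
    · intro hd
      exact ⟨⟨d.out, hd⟩, QuotientAddGroup.out_eq' d⟩
    · rintro ⟨z, rfl⟩
      obtain ⟨k, hk⟩ := QuotientAddGroup.mk_out_eq_add (lattA y) z.1
      change (QuotientAddGroup.mk z.1 : K ⧸ lattA y).out ∈ lattA x
      rw [hk]
      refine (lattA x).add_mem z.2 ?_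
      change k.1 / x ∈ A K
      have : k.1 / x = k.1 / y * (y / x) := by field_simp
      rw [this]
      exact (A K).mul_mem k.2 h
  rw [← relIndex_lattA hx hy h, AddSubgroup.relIndex, ← hk, AddSubgroup.index_ker, hr]
  rfl

theorem finite_clsA {x y : K} (hx : x ≠ 0) (hy : y ≠ 0) :
    {d : K ⧸ lattA y | d.out ∈ lattA x}.Finite := by
  obtain ⟨j, hj⟩ := exists_mul_mem_A (y / x)
  have hM := pow_ne_zero j (MK_ne (K := K))
  have e : y / (x / MK K ^ j) = MK K ^ j * (y / x) := by field_simp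
  have h1 := cjq0_ncard (div_ne_zero hx hM) hy (e ▸ hj)
  have h2 : {d : K ⧸ lattA y | d.out ∈ lattA (x / MK K ^ j)}.Finite := by
    refine Set.finite_of_ncard_ne_zero fun h0 => ?_
    rw [h0] at h1
    exact (sN_pos _).ne (by simpa using h1)
  refine h2.subset fun d hd => ?_
  change d.out / (x / MK K ^ j) ∈ A K
  have : d.out / (x / MK K ^ j) = MK K ^ j * (d.out / x) := by field_simp
  rw [this]
  exact (A K).mul_mem ((A K).pow_mem MK_mem_A j) hd
theorem ncard_clsA {x y : K} (hx : x ≠ 0) (hy : y ≠ 0) (h : y / x ∈ A K) :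
    ({d : K ⧸ lattA y | d.out ∈ lattA x}.ncard : ℝ) = sN (y / x) := by
  exact cjq0_ncard hx hy h
theorem tsum_quot_affine {L L' : AddSubgroup K} {u : K} (hu : u ≠ 0) (z : K)
    (h : ∀ x, x ∈ L' ↔ u * x ∈ L) {F : K → ℂ} (hF : ∀ x, ∀ k ∈ L, F (x + k) = F x) :
    ∑' d : K ⧸ L, F d.out = ∑' d : K ⧸ L', F (u * d.out + z) := by
  let f : K ⧸ L' → K ⧸ L := fun d => QuotientAddGroup.mk (u * d.out + z)
  have hb : Function.Bijective f := by
    constructor
    · intro a b hab
      have h1 := QuotientAddGroup.eq.1 hab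
      have e : -(u * a.out + z) + (u * b.out + z) = u * (-a.out + b.out) := by ring
      rw [e, ← h] at h1
      rw [← QuotientAddGroup.out_eq' a, ← QuotientAddGroup.out_eq' b]
      exact QuotientAddGroup.eq.2 h1
    · intro d
      obtain ⟨k, hk⟩ := QuotientAddGroup.mk_out_eq_add L' ((d.out - z) / u)
      refine ⟨QuotientAddGroup.mk ((d.out - z) / u), ?_⟩
      change QuotientAddGroup.mk _ = d
      rw [hk]
      conv_rhs => rw [← QuotientAddGroup.out_eq' d]
      refine (QuotientAddGroup.eq.2 ?_).symm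
      have e : -d.out + (u * ((d.out - z) / u + k) + z) = u * k := by field_simp; ring
      rw [e]
      exact (h _).1 k.2
  rw [← (Equiv.ofBijective f hb).tsum_eq]
  refine tsum_congr fun d => ?_
  obtain ⟨k, hk⟩ := QuotientAddGroup.mk_out_eq_add L (u * d.out + z)
  change F (QuotientAddGroup.mk (u * d.out + z) : K ⧸ L).out = _
  rw [hk, hF _ _ k.2]
theorem DualF_iff (i : ℕ) (n : K) : DualF i n ↔ n * MK K ^ i / del K ∈ A K := by
  exact del_spec.2 _
theorem DualF.mono {i j : ℕ} {n : K} (h : DualF i n) (hij : i ≤ j) : DualF j n := by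
  rw [DualF_iff] at h ⊢
  obtain ⟨k, rfl⟩ := Nat.exists_eq_add_of_le hij
  have : n * MK K ^ (i + k) / del K = n * MK K ^ i / del K * MK K ^ k := by ring
  rw [this]
  exact (A K).mul_mem h ((A K).pow_mem MK_mem_A k)
theorem DualF.mul_A {i : ℕ} {n u : K} (h : DualF i n) (hu : u ∈ A K) : DualF i (u * n) := by
  rw [DualF_iff] at h ⊢
  have : u * n * MK K ^ i / del K = u * (n * MK K ^ i / del K) := by ring
  rw [this]
  exact (A K).mul_mem hu h
theorem DualF.psiF_congr {i : ℕ} {n x y : K} (h : DualF i n) (hxy : (x - y) / MK K ^ i ∈ A K) :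
    psiF (n * x) = psiF (n * y) := by
  have hM := pow_ne_zero i (MK_ne (K := K))
  have : n * x = n * y + n * MK K ^ i * ((x - y) / MK K ^ i) := by field_simp; ring
  rw [this, psiF_add, h _ hxy, mul_one]
theorem dualF_zero (i : ℕ) : DualF i (0 : K) := by
  intro k _
  simp [psiF_zero]
theorem mem_dual_iff (i : ℕ) (n : K) :
    n ∈ dualL (latt (MK K ^ i)) ↔ n ∈ R K ∧ DualF i n := by
  have hM := pow_ne_zero i (MK_ne (K := K))
  have e : latt (MK K ^ i) = LL2 (MK K ^ i) (MK K ^ i) := by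
    ext z
    exact ⟨fun h => ⟨mem_R_of_isI h, mem_A_of_isI h⟩, fun h => isI_of_mem h.1 h.2⟩
  rw [e, dual_LL2 hM hM, DualF_iff]
  change n / (MK K ^ i)⁻¹ ∈ R K ∧ n / (del K / MK K ^ i) ∈ A K ↔ _
  have e1 : n / (del K / MK K ^ i) = n * MK K ^ i / del K := by
    rw [div_div_eq_mul_div]
  rw [e1, div_inv_eq_mul]
  refine and_congr_left fun _ => ⟨fun h => ?_, fun h => ?_⟩
  · have := div_MK_pow_mem_R h i
    rwa [mul_div_cancel_right₀ _ hM] at this
  · exact (R K).mul_mem h ((R K).pow_mem (natCast_mem _ _) i)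
theorem exists_dualF (i : ℕ) (n : K) : ∃ k : ℕ, DualF i (MK K ^ (6 * k) * n) := by
  obtain ⟨j, hj⟩ := exists_mul_mem_A (n * MK K ^ i / del K)
  refine ⟨j, (DualF_iff _ _).2 ?_⟩
  have : MK K ^ (6 * j) * n * MK K ^ i / del K =
      MK K ^ (5 * j) * (MK K ^ j * (n * MK K ^ i / del K)) := by ring
  rw [this]
  exact (A K).mul_mem ((A K).pow_mem MK_mem_A _) hj
theorem DualF.exists_mem (i : ℕ) : ∃ k : ℕ, ∀ n : K, DualF i n → MK K ^ k * n ∈ A K := by
  have hM := pow_ne_zero i (MK_ne (K := K))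
  have hd := (del_spec (K := K)).1
  obtain ⟨k, hk⟩ := exists_mul_mem_A (del K / MK K ^ i)
  refine ⟨k, fun n hn => ?_⟩
  have : MK K ^ k * n = MK K ^ k * (del K / MK K ^ i) * (n * MK K ^ i / del K) := by field_simp
  rw [this]
  exact (A K).mul_mem hk ((DualF_iff _ _).1 hn)
theorem absN_MK (i : ℕ) : absN (MK K ^ i) = sN (MK K ^ i) := by
  have hu : IsUnit ((Setup.M K : R K) ^ i) := (Nrm_unit Setup.Mne dvd_rfl).pow i
  have h := absN_eq hu.ne_zero
  have e : ((((Setup.M K : R K) ^ i : R K)) : K) = MK K ^ i := by push_cast; rfl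
  rw [e] at h
  rw [h, N, Nm_eq_one.2 hu, Nat.cast_one, one_mul]
theorem sN_congr {j : ℕ} (hj : 1 ≤ j) {x y : K} (h : One j (y / x)) : sN y = sN x := by
  have h0 := h.ne_zero hj
  have hx : x ≠ 0 := fun e => h0 (by rw [e, div_zero])
  have h1 : sN ((Units.mk0 (y / x) h0 : Kˣ) : K) = 1 :=
    sN_unit (H1_le_unitsA j ((mem_H1 hj).2 h))
  have e : y = y / x * x := by field_simp
  rw [e, sN_mul h0 hx]
  rw [Units.val_mk0] at h1
  rw [h1, one_mul]
theorem psiS_eq_of_R {x y : K} (h : x - y ∈ R K) : psiS x = psiS y := by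
  have : x = (x - y) + y := by ring
  rw [this, psiS_add, psiS_R h, one_mul]

end

end Vale.Agent.P319N
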