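import Vale.Agent.P319N.CFac
import Vale.Agent.P319N.CAdm

namespace Vale.Agent.P319N

open NumberField Complex MeasureTheory Filter Topology
open scoped Classical ComplexConjugate Real MatrixGroups
open Vale.Agent.P026 (omC kap psi W Hs ht QQ act uu muH hh LL Gs bb kk UU DualW)

noncomputable section

variable {K : Type} [Field K] [NumberField K] [Level K]

theorem clF_one : ClF (fun _ : R K => (1 : ℂ)) := by
  exact ⟨fun _ _ _ => rfl, 1, fun _ => by simp⟩
theorem clF_chp (p : R K) : ClF (chp p) := by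
  refine ⟨fun a b h => ?_, 1, fun a => ?_⟩
  · simp only [chp, h.dvd_iff_dvd_right]
  · rw [chp]
    split_ifs <;> simp
theorem clF_ch1 (p : R K) : ClF (ch1 p) := by
  obtain ⟨h1, B, h2⟩ := clF_chp p
  refine ⟨fun a b h => by rw [ch1, ch1, h1 a b h],
    ‖(1 : ℂ)‖ + B + ‖1 / (((N p : ℝ) : ℂ) + 1)‖, fun a => ?_⟩
  exact (norm_sub_le _ _).trans (add_le_add_left ((norm_sub_le _ _).trans
    (add_le_add_right (h2 a) _)) _)
theorem clF_ch2 (p : R K) : ClF (ch2 p) := by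
  obtain ⟨h1, B, h2⟩ := clF_chp p
  refine ⟨fun a b h => by rw [ch2, ch2, h1 a b h],
    B / ‖((N p : ℝ) : ℂ)‖ + ‖1 / (((N p : ℝ) : ℂ) + 1)‖, fun a => ?_⟩
  refine (norm_sub_le _ _).trans (add_le_add_left ?_ _)
  rw [norm_div]
  exact div_le_div_of_nonneg_right (h2 a) (norm_nonneg _)
theorem clev_rmul (c d : K) (σ : SLK K) : (rmul (c, d) σ⁻¹).1 = c * σ 1 1 - d * σ 1 0 := by
  obtain ⟨h1, -, h3, -⟩ := bg_inv σ
  simp only [rmul, h1, h3]
  ring

theorem clev_S3 (c d : K) {k : K} (hk : k ∈ R K) : S3 (d + c * k) c = S3 d c := by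
  by_cases hc : c ∈ R K
  · by_cases hd : d ∈ R K
    · lift c to R K using hc
      lift d to R K using hd
      lift k to R K using hk
      rw [← Subring.coe_mul, ← Subring.coe_add, S3_coe, S3_coe]
      exact sym3_congr ⟨k, by ring⟩
    · rw [S3, S3, dif_neg fun h => hd (by
        simpa using (R K).sub_mem h.1 ((R K).mul_mem hc hk)), dif_neg fun h => hd h.1]
  · rw [S3, S3, dif_neg fun h => hc h.2, dif_neg fun h => hc h.2]

theorem clev_per {i j : ℕ} {φ : K × K → ℂ} (hφ : Sg i j φ) (c d : K) {k : K} (hk : IsI k) :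
    S3 (d + c * MK K ^ i * k) c * φ (c, d + c * MK K ^ i * k) = S3 d c * φ (c, d) := by
  rw [hφ.per c d k (mem_A_of_isI hk), mul_assoc c,
    clev_S3 c d (mem_R_of_isI ((bg_MK i).mul hk))]

theorem clev_int {i j : ℕ} {φ : K × K → ℂ} (hφ : Sg i j φ) {c d : K}
    (h : S3 d c * φ (c, d) ≠ 0) : IsI (MK K ^ j * d) :=
  isI_of_mem ((R K).mul_mem (mem_R_of_isI (bg_MK j)) (S3_ne (left_ne_zero_of_mul h)).1)
    (hφ.supp _ (right_ne_zero_of_mul h)).2

theorem clev_mul {i j : ℕ} {Φ φ : K × K → ℂ} (hφ : Sg i j φ) {n c p : K}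
    (hn : n ∈ dualL (latt (MK K ^ i))) (hc : c ≠ 0) (hp : p ≠ 0) (hI : IsI p) (z : ℂ)
    (h : ∀ d : K, Φ (c, d) = z * (S3 d c * φ (c, d))) :
    Ssum (MK K ^ i * p) Φ n c = Ssum (MK K ^ i) Φ n c := by
  have hM := fun i => pow_ne_zero i (MK_ne (K := K))
  have := Ssum_mul (Φ := fun x => z * (S3 x.2 x.1 * φ x)) (hM j)
    (fun x hx => clev_int hφ (right_ne_zero_of_mul hx))
    ⟨hM i, bg_MK i, fun c d k hk => by simp only [clev_per hφ c d hk]⟩ hI hp hn hc
  simpa only [Ssum, h] using this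

theorem clev_avg {p y a g : R K} (hp : p ≠ 0) (hy : y ≠ 0) (hI : IsI (p : K))
    (hc : IsCoprime (y * g) p) {F : K → ℂ} (hF : ∀ d k, IsI k → F (d + y * k) = F d)
    (hR : ∀ d, F d ≠ 0 → d ∈ R K) (T : Finset (K ⧸ latt ((y : K) * p)))
    (hT : ∀ d ∉ T, F d.out = 0) :
    ((N p : ℝ) : ℂ) * ∑' d : K ⧸ latt ((y : K) * p),
        F d.out * (if ((a : K) - d.out * g) / p ∈ R K then 1 else 0) =
      ∑' d : K ⧸ latt ((y : K) * p), F d.out := by
  have hp' := coeR_ne hp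
  have hy' := coeR_ne hy
  have hk : ∀ r : R K, ∃ k : K, IsI k ∧ (k - r) / p ∈ R K := fun r => by
    obtain ⟨k, h1, h2⟩ := approx hp' one_ne_zero (r : K) 0
    refine ⟨k, isI_of_mem ?_ (by simpa using h2), h1⟩
    convert (R K).add_mem r.2 ((R K).mul_mem p.2 h1) using 1
    field_simp
    ring
  choose k hk1 hk2 using hk
  have hm : ∀ u v : K, v ∈ R K → (u - v ∈ R K ↔ u ∈ R K) := fun u v hv =>
    ⟨fun h => by simpa using (R K).add_mem h hv, fun h => (R K).sub_mem h hv⟩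
  have h1 : ∀ r : R K, ∑' d : K ⧸ latt ((y : K) * p),
      F d.out * (if ((a : K) - d.out * g) / p ∈ R K then 1 else 0) =
      ∑' d : K ⧸ latt ((y : K) * p),
        F d.out * (if ((a : K) - d.out * g - y * g * r) / p ∈ R K then 1 else 0) := fun r => by
    rw [tsum_quot_affine (L' := latt ((y : K) * p)) one_ne_zero (y * k r) (fun x => by simp)
      (F := fun d => F d * (if ((a : K) - d * g) / p ∈ R K then 1 else 0)) ?_]
    · refine tsum_congr fun d => ?_
      have e : ((a : K) - (1 * d.out + y * k r) * g) / p =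
          ((a : K) - d.out * g - y * g * r) / p - y * g * ((k r - r) / p) := by ring
      simp only [e, hm _ _ ((R K).mul_mem ((R K).mul_mem y.2 g.2) (hk2 r))]
      rw [one_mul, hF _ _ (hk1 r)]
    · intro x w hw
      have hw' : IsI (w / (y * p)) := hw
      have e : ((a : K) - (x + w) * g) / p = ((a : K) - x * g) / p - y * g * (w / (y * p)) := by
        field_simp
        ring
      have e' : x + w = x + y * (p * (w / (y * p))) := by field_simp
      simp only [e, hm _ _ ((R K).mul_mem ((R K).mul_mem y.2 g.2) (mem_R_of_isI hw'))]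
      rw [e', hF _ _ (hI.mul hw')]
  have h2 : ((N p : ℝ) : ℂ) = ((rs p).card : ℂ) := by rw [card_rs hp, N]; norm_cast
  rw [h2, ← nsmul_eq_mul, ← Finset.sum_const, Finset.sum_congr rfl fun r _ => h1 r,
    ← Summable.tsum_finsetSum fun r _ => summable_of_ne_finset_zero (s := T) fun d hd => by
      rw [hT d hd, zero_mul]]
  refine tsum_congr fun d => ?_
  by_cases h0 : F d.out = 0
  · simp [h0]
  obtain ⟨x, hx⟩ : ∃ x : R K, (x : K) = d.out := ⟨⟨_, hR _ h0⟩, rfl⟩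
  have h3 : ∀ r : R K, ((a : K) - d.out * g - y * g * r) / p ∈ R K ↔
      p ∣ a - x * g - y * g * r := fun r => by
    rw [dvd_iff_div_mem hp, ← hx]
    push_cast
    rfl
  have h4 := sum_rs_mul hp hc (f := fun r => if p ∣ a - x * g - r then (1 : ℂ) else 0)
    fun u v h => by
      have : p ∣ a - x * g - u ↔ p ∣ a - x * g - v := by
        rw [← dvd_add_left h]
        ring_nf
      simp only [this]
  simp only [h3]
  rw [← Finset.mul_sum, h4, sum_class hp, mul_one]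

theorem Dser_lev1 {p : R K} (hp : Prime p) (hI : IsI (p : K)) {j : ℕ} {σ : SLK K} (hσ : Ent j σ)
    (h : σ 1 0 / p ∈ R K) {i j' : ℕ} {Φ φ : K × K → ℂ} (hφ : Sg i j' φ) {n : R K}
    (hn : DualF i (n : K)) (hΦ : ∀ c d : K, c ≠ 0 → tw Φ σ (c, d) = S3 d c * φ (c, d)) (s : ℂ) :
    Dser (MK K ^ i * p) (tw (fun x => Φ x * lev p x) σ) n s = DJ (ch1 p) i φ n s := by
  have hp' := coeR_ne hp.ne_zero
  have key : ∀ c d : K, c ≠ 0 → tw (fun x => Φ x * lev p x) σ (c, d) =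
      extR (ch1 p) c * (S3 d c * φ (c, d)) := fun c d hc => by
    have e := hΦ c d hc
    rw [tw] at e ⊢
    rw [e]
    by_cases h0 : S3 d c = 0
    · simp [h0]
    obtain ⟨hd, hc'⟩ := S3_ne h0
    lift c to R K using hc'
    lift d to R K using hd
    obtain ⟨de, hde⟩ : ∃ x : R K, (x : K) = σ 1 1 := ⟨⟨_, hσ.mem_R 1 1⟩, rfl⟩
    obtain ⟨ga, hga⟩ : ∃ x : R K, (x : K) = σ 1 0 := ⟨⟨_, hσ.mem_R 1 0⟩, rfl⟩
    have hcop : IsCoprime ga de := ⟨-⟨_, hσ.mem_R 0 1⟩, ⟨_, hσ.mem_R 0 0⟩, Subtype.ext (by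
      push_cast
      rw [hde, hga]
      linear_combination bg_det σ)⟩
    have h1 : p ∣ ga := by rwa [dvd_iff_div_mem hp.ne_zero, hga]
    have h2 : (rmul ((c : K), (d : K)) σ⁻¹).1 / p ∈ R K ↔ p ∣ c := by
      rw [clev_rmul, ← hde, ← hga, ← Subring.coe_mul, ← Subring.coe_mul, ← AddSubgroupClass.coe_sub,
        ← dvd_iff_div_mem hp.ne_zero, dvd_sub_left (h1.mul_left d), hp.dvd_mul]
      exact or_iff_left fun h3 => hp.not_unit (hcop.isUnit_of_dvd' h1 h3)
    rw [extR_coe, lev, ch1, chp, mul_comm]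
    simp only [h2]
    split_ifs <;> simp
  rw [← Dser_fac hφ hn (ch1 p) key s]
  refine tsum_congr fun c => ?_
  split_ifs with hc
  · rw [clev_mul hφ ((mem_dual_iff i (n : K)).2 ⟨n.2, hn⟩) hc.1 hp' hI _ fun d => key c d hc.1]
  · rfl
theorem Dser_lev2 {p : R K} (hp : Prime p) (hI : IsI (p : K)) {j : ℕ} {σ : SLK K} (hσ : Ent j σ)
    (h : σ 1 0 / p ∉ R K) {i j' : ℕ} {Φ φ : K × K → ℂ} (hφ : Sg i j' φ)
    (hΦ : ∀ c d : K, c ≠ 0 → tw Φ σ (c, d) = S3 d c * φ (c, d)) (s : ℂ) :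
    Dser (MK K ^ i * p) (tw (fun x => Φ x * lev p x) σ) 0 s = DJ (ch2 p) i φ 0 s := by
  have hp' := coeR_ne hp.ne_zero
  have hM := fun i => pow_ne_zero i (MK_ne (K := K))
  have hn : ((0 : R K) : K) ∈ dualL (latt (MK K ^ i)) :=
    (mem_dual_iff i _).2 ⟨(R K).zero_mem, dualF_zero i⟩
  rw [← Dser_fac hφ (n := 0) (dualF_zero i) (ch2 p)
    (Φ := fun x => extR (ch2 p) x.1 * (S3 x.2 x.1 * φ x)) (fun _ _ _ => rfl) s]
  refine tsum_congr fun c => ?_
  split_ifs with hc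
  swap
  · rfl
  rw [← clev_mul hφ hn hc.1 hp' hI (extR (ch2 p) c) fun d => rfl]
  congr 1
  have key : ∀ d : K, tw (fun x => Φ x * lev p x) σ (c, d) = S3 d c * φ (c, d) *
      (if (c * σ 1 1 - d * σ 1 0) / p ∈ R K then 1 else 0) -
      1 / (((N p : ℝ) : ℂ) + 1) * (S3 d c * φ (c, d)) := fun d => by
    have e := hΦ c d hc.1
    rw [tw] at e ⊢
    rw [e, lev, clev_rmul]
    ring
  simp only [Ssum, key, ZeroMemClass.coe_zero, zero_mul, zero_div, psiK_zero, mul_one]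
  congr 1
  by_cases hR : c ∈ R K
  swap
  · have : ∀ d, S3 d c = 0 := fun d => by
      by_contra h0
      exact hR (S3_ne h0).2
    simp [this]
  lift c to R K using hR
  have hc0 : c ≠ 0 := fun e => hc.1 (by rw [e]; rfl)
  obtain ⟨de, hde⟩ : ∃ x : R K, (x : K) = σ 1 1 := ⟨⟨_, hσ.mem_R 1 1⟩, rfl⟩
  obtain ⟨ga, hga⟩ : ∃ x : R K, (x : K) = σ 1 0 := ⟨⟨_, hσ.mem_R 1 0⟩, rfl⟩
  have h1 : ¬ p ∣ ga := by rwa [dvd_iff_div_mem hp.ne_zero, hga]
  have hT : ∀ d ∉ (finite_classes hc.1 (mul_ne_zero (hM i) hp') (hM j')).toFinset,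
      S3 d.out (c : K) * φ (c, d.out) = 0 := fun d hd => by
    by_contra h0
    exact hd ((Set.Finite.mem_toFinset _).2 (clev_int hφ h0))
  rw [Summable.tsum_sub (summable_of_ne_finset_zero fun d hd => by rw [hT d hd, zero_mul])
    ((summable_of_ne_finset_zero hT).mul_left _), tsum_mul_left, tsum_mul_left, extR_coe, ch2,
    sub_mul]
  congr 1
  rw [chp]
  split_ifs with hpc
  · rw [zero_div, zero_mul]
    refine (tsum_congr fun d => ?_).trans tsum_zero
    by_cases h0 : S3 d.out (c : K) = 0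
    · simp [h0]
    obtain ⟨x, hx⟩ : ∃ x : R K, (x : K) = d.out := ⟨⟨_, (S3_ne h0).1⟩, rfl⟩
    rw [if_neg, mul_zero]
    rw [← hx, S3_coe, ← ne_eq, Ne, sym3_eq_zero_iff hc0, not_not] at h0
    rw [← hx, ← hde, ← hga, ← Subring.coe_mul, ← Subring.coe_mul, ← AddSubgroupClass.coe_sub,
      ← dvd_iff_div_mem hp.ne_zero, dvd_sub_right (hpc.mul_right de), hp.dvd_mul]
    rintro (h2 | h2)
    · exact hp.not_unit (h0.isUnit_of_dvd' h2 hpc)
    · exact h1 h2
  · obtain ⟨y, hy⟩ : ∃ y : R K, y = c * ((Setup.M K : ℕ) : R K) ^ i := ⟨_, rfl⟩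
    have hy' : (y : K) = c * MK K ^ i := by rw [hy]; push_cast; rfl
    have hcop : IsCoprime (y * ga) p := by
      rw [hy]
      exact ((hp.coprime_iff_not_dvd.2 hpc).symm.mul_left
        (gau_unit_coprime (isUnit_MR.pow i) p)).mul_left (hp.coprime_iff_not_dvd.2 h1).symm
    have hN : ((N p : ℝ) : ℂ) ≠ 0 := by exact_mod_cast (N_pos hp.ne_zero).ne'
    generalize (finite_classes hc.1 (mul_ne_zero (hM i) hp') (hM j')).toFinset = T at hT
    revert T
    rw [← mul_assoc, ← hy']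
    intro T hT
    have := clev_avg (a := c * de) (g := ga) hp.ne_zero
      (fun e => mul_ne_zero hc.1 (hM i) (by rw [← hy', e]; rfl)) hI hcop
      (F := fun d => S3 d (c : K) * φ (c, d)) (fun d k hk => by rw [hy']; exact clev_per hφ c d hk)
      (fun d h0 => (S3_ne (left_ne_zero_of_mul h0)).1) T hT
    rw [← this, ← mul_assoc, one_div_mul_cancel hN, one_mul, ← hde, ← hga]
    rfl

end

end Vale.Agent.P319N
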