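import Vale.Agent.P319N.CG3
import Vale.Agent.P319N.CSum

namespace Vale.Agent.P319N

open NumberField Complex MeasureTheory Filter Topology
open scoped Classical ComplexConjugate Real MatrixGroups
open Vale.Agent.P026 (omC kap psi W Hs ht QQ act uu muH hh LL Gs bb kk UU DualW)

noncomputable section

variable {K : Type} [Field K] [NumberField K] [Level K]

theorem cphi_per (a : R K) : Per a (fun x => if IsCoprime x a then (1 : ℂ) else 0) := by
  rintro x y ⟨t, h⟩
  have e : x = y + a * t := by rw [← h]; ring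
  show (if IsCoprime x a then (1 : ℂ) else 0) = if IsCoprime y a then 1 else 0
  rw [e]
  simp only [IsCoprime.add_mul_left_left_iff]

theorem cphi_sum (a : R K) :
    (phiR a : ℂ) = ∑ x ∈ rs a, if IsCoprime x a then (1 : ℂ) else 0 := by
  rw [phiR, Finset.card_filter]
  push_cast
  rfl

theorem phiR_assoc {a b : R K} (ha : a ≠ 0) (h : Associated a b) : phiR a = phiR b := by
  have e : (phiR a : ℂ) = phiR b := by
    rw [cphi_sum, cphi_sum, ← sum_rs_assoc ha h (cphi_per a)]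
    refine Finset.sum_congr rfl fun x _ => ?_
    have : IsCoprime x a ↔ IsCoprime x b :=
      ⟨fun h1 => h1.of_isCoprime_of_dvd_right h.symm.dvd,
        fun h1 => h1.of_isCoprime_of_dvd_right h.dvd⟩
    simp only [this]
  exact_mod_cast e

theorem phiR_le {a : R K} (ha : a ≠ 0) : (phiR a : ℝ) ≤ N a := by
  rw [phiR, N, ← card_rs ha]
  exact_mod_cast Finset.card_filter_le _ _

theorem cphi_cube {d : R K} (hd : d ≠ 0) (x : R K) :
    sym3 x d ^ 3 = if IsCoprime x d then (1 : ℂ) else 0 := by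
  split_ifs with h
  · exact sym3_cube h
  · rw [(sym3_eq_zero_iff hd).2 h]; norm_num

theorem g3_zero_cube {d : R K} (hd : d ≠ 0) :
    g3 0 (d ^ 3) = ((N d : ℝ) : ℂ) ^ 2 * (phiR d : ℂ) := by
  have h2 : d ^ 2 ≠ 0 := pow_ne_zero 2 hd
  have e : g3 0 (d ^ 3) = ∑ x ∈ rs (d * d ^ 2), if IsCoprime x d then (1 : ℂ) else 0 := by
    rw [g3, show d * d ^ 2 = d ^ 3 by ring]
    refine Finset.sum_congr rfl fun x _ => ?_
    rw [sym3_pow_right x hd, cphi_cube hd]
    simp [psiS_zero]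
  rw [e, sum_rs_split hd h2 (fun x y h => cphi_per d x y ((dvd_mul_right _ _).trans h)),
    cphi_sum, Finset.mul_sum]
  refine Finset.sum_congr rfl fun x _ => ?_
  simp only [IsCoprime.add_mul_left_left_iff]
  rw [Finset.sum_const, card_rs h2, nsmul_eq_mul]
  congr 1
  have := cg3_N_pow d 2
  rw [N] at this
  exact_mod_cast congrArg (fun t : ℝ => (t : ℂ)) this

theorem g3_zero_eq_zero {c : R K} (hc : c ≠ 0) (h : ¬ ∃ u d : R K, IsUnit u ∧ c = u * d ^ 3) :
    g3 0 c = 0 := by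
  induction hk : Nm c using Nat.strong_induction_on generalizing c with
  | _ k ih =>
  have hu : ¬ IsUnit c := fun hu => h ⟨c, 1, hu, by ring⟩
  obtain ⟨p, hp, hpc⟩ := WfDvdMonoid.exists_irreducible_factor hu hc
  obtain ⟨j, m, hm, rfl⟩ := WfDvdMonoid.max_power_factor hc hp
  have hp' := hp.prime
  have hm0 : m ≠ 0 := right_ne_zero_of_mul hc
  obtain ⟨i, rfl⟩ : ∃ i, j = i + 1 := by
    rcases j with _ | i
    · exact absurd (by simpa using hpc) hm
    · exact ⟨i, rfl⟩
  have hco : IsCoprime (p ^ (i + 1)) m := (hp'.coprime_iff_not_dvd.2 hm).pow_left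
  rw [g3_crt (pow_ne_zero _ hp'.ne_zero) hm0 hco]
  by_cases h3 : 3 ∣ i + 1
  · have hlt : Nm m < k := by
      have h4 := four_le_Nm hp'
      have h5 : 0 < Nm m := Nat.pos_of_ne_zero (fun h0 => hm0 (Nm_eq_zero.1 h0))
      have h6 : 0 < Nm (p ^ i) := Nat.pos_of_ne_zero fun h0 =>
        pow_ne_zero i hp'.ne_zero (Nm_eq_zero.1 h0)
      have h7 : Nm (p ^ (i + 1) * m) = Nm (p ^ i) * (Nm p * Nm m) := by
        rw [pow_succ, mul_assoc, Nm_mul, Nm_mul]
      rw [← hk, h7]
      have h8 : 4 * Nm m ≤ Nm p * Nm m := Nat.mul_le_mul_right _ h4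
      have h9 : 1 * (Nm p * Nm m) ≤ Nm (p ^ i) * (Nm p * Nm m) := Nat.mul_le_mul_right _ h6
      omega
    rw [ih _ hlt hm0 ?_ rfl, mul_zero]
    rintro ⟨u, d, hu', rfl⟩
    obtain ⟨t, ht⟩ := h3
    exact h ⟨u, p ^ t * d, hu', by rw [ht]; ring⟩
  · rw [g3_dvd hp' (dvd_zero _), if_neg h3, mul_zero, zero_mul]

/-- `x` has greatest common divisor `D / e` with `D` -/
def cphiR (D x : R K) (e : MM K) : Prop :=
  PrimM e ∧ ∃ g y, D = g * lft e ∧ x = g * y ∧ IsCoprime y (lft e)

theorem cphi_unique {D : R K} (hD : D ≠ 0) (x : R K) : ∃! e, cphiR D x e := by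
  obtain ⟨a, b, c, hab, h1, h2⟩ := UniqueFactorizationMonoid.exists_reduced_factors D hD x
  have ha : a ≠ 0 := by
    rintro rfl
    exact hD (by rw [← h1, mul_zero])
  have hco : IsCoprime a b := isRelPrime_iff_isCoprime.1 hab
  obtain ⟨e, ⟨he, hea⟩, hu⟩ := exists_primM ha
  refine ⟨e, ⟨he, ?_⟩, ?_⟩
  · obtain ⟨u, hu⟩ := hea
    refine ⟨c * u, (u⁻¹ : (R K)ˣ) * b, ?_, ?_, ?_⟩
    · rw [← h1, ← hu]; ring
    · rw [← h2, mul_assoc, ← mul_assoc (u : R K), Units.mul_inv, one_mul]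
    · exact (isCoprime_mul_unit_left_left (u⁻¹).isUnit _ _).2
        (hco.symm.of_isCoprime_of_dvd_right ⟨u, hu.symm⟩)
  · rintro e' ⟨he', g, y, h3, h4, h5⟩
    refine hu e' ⟨he', ?_⟩
    have hc : c ≠ 0 := by
      rintro rfl
      exact hD (by rw [← h1, zero_mul])
    have e1 : lft e' * b = a * y := by
      apply mul_left_cancel₀ hc
      calc c * (lft e' * b) = lft e' * (c * b) := by ring
        _ = (g * lft e') * y := by rw [h2, h4]; ring
        _ = c * (a * y) := by rw [← h3, ← h1]; ring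
    exact associated_of_dvd_dvd (h5.symm.dvd_of_dvd_mul_right ⟨b, e1.symm⟩)
      (hco.dvd_of_dvd_mul_right ⟨y, e1⟩)

theorem cphi_count {g E0 : R K} (hg : g ≠ 0) (hE : E0 ≠ 0) :
    ∑ x ∈ rs (g * E0), (if ∃ y, x = g * y ∧ IsCoprime y E0 then (1 : ℂ) else 0) = phiR E0 := by
  have hper : Per (g * E0) (fun x => if ∃ y, x = g * y ∧ IsCoprime y E0 then (1 : ℂ) else 0) := by
    rintro x z ⟨t, h⟩
    have : (∃ y, x = g * y ∧ IsCoprime y E0) ↔ ∃ y, z = g * y ∧ IsCoprime y E0 := by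
      constructor
      · rintro ⟨y, h1, h2⟩
        refine ⟨y + E0 * (-t), by linear_combination h1 - h, h2.add_mul_left_left _⟩
      · rintro ⟨y, h1, h2⟩
        refine ⟨y + E0 * t, by linear_combination h1 + h, h2.add_mul_left_left _⟩
    simp only [this]
  rw [sum_rs_split hg hE hper, ← sum_class hg 0 (phiR E0 : ℂ)]
  refine Finset.sum_congr rfl fun x _ => ?_
  split_ifs with hx
  · obtain ⟨y0, rfl⟩ : g ∣ x := by simpa using hx
    rw [cphi_sum, ← sum_rs_add hE (cphi_per E0) y0]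
    refine Finset.sum_congr rfl fun j _ => ?_
    have : (∃ y, g * y0 + g * j = g * y ∧ IsCoprime y E0) ↔ IsCoprime (j + y0) E0 := by
      constructor
      · rintro ⟨y, h1, h2⟩
        have : j + y0 = y := mul_left_cancel₀ hg (by linear_combination h1)
        rwa [this]
      · exact fun h => ⟨j + y0, by ring, h⟩
    simp only [this]
  · refine Finset.sum_eq_zero fun j _ => if_neg ?_
    rintro ⟨y, h1, -⟩
    exact hx ⟨j - y, by linear_combination -h1⟩

theorem sum_phiR {d : MM K} (hd : PrimM d) :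
    ∑' e : MM K, (if PrimM e ∧ e ∣ d then (phiR (lft e) : ℂ) else 0) = ((N (lft d) : ℝ) : ℂ) := by
  have hD : lft d ≠ 0 := fun h0 => hd.1 (lft_eq_zero.1 h0)
  have h1 : ∀ x ∈ rs (lft d), HasSum (fun e => if cphiR (lft d) x e then (1 : ℂ) else 0) 1 := by
    intro x _
    obtain ⟨e, he, hu⟩ := cphi_unique hD x
    have := hasSum_single (f := fun e => if cphiR (lft d) x e then (1 : ℂ) else 0) e
      (fun e' h => if_neg fun h' => h (hu e' h'))
    simpa [he] using this
  have h2 := hasSum_sum h1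
  rw [Finset.sum_const, card_rs hD, nsmul_eq_mul, mul_one] at h2
  have h3 : ∀ e : MM K, (if PrimM e ∧ e ∣ d then (phiR (lft e) : ℂ) else 0) =
      ∑ x ∈ rs (lft d), if cphiR (lft d) x e then (1 : ℂ) else 0 := by
    intro e
    have hdv : e ∣ d ↔ lft e ∣ lft d := by rw [← mkM_dvd, mkM_lft, mkM_lft]
    split_ifs with h
    · obtain ⟨g, hg⟩ := hdv.1 h.2
      have hE : lft e ≠ 0 := fun h0 => h.1.1 (lft_eq_zero.1 h0)
      have hg0 : g ≠ 0 := by
        rintro rfl
        exact hD (by rw [hg, mul_zero])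
      rw [← cphi_count hg0 hE, hg, mul_comm (lft e) g]
      refine Finset.sum_congr rfl fun x _ => ?_
      have : (∃ y, x = g * y ∧ IsCoprime y (lft e)) ↔ cphiR (g * lft e) x e := by
        constructor
        · rintro ⟨y, h1, h2⟩
          exact ⟨h.1, g, y, rfl, h1, h2⟩
        · rintro ⟨-, g', y, h1, h2, h3⟩
          rw [mul_right_cancel₀ hE h1]
          exact ⟨y, h2, h3⟩
      simp only [this]
    · refine (Finset.sum_eq_zero fun x _ => if_neg ?_).symm
      rintro ⟨h1, g, y, h2, -⟩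
      exact h ⟨h1, hdv.2 ⟨g, by rw [h2, mul_comm]⟩⟩
  rw [tsum_congr h3, h2.tsum_eq, N]
  simp

end

end Vale.Agent.P319N
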