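import Vale.Agent.P319N.Idl
import Vale.Agent.P319N.Emb
import Vale.Agent.P319E.Cont

namespace Vale.Agent.P319N

open NumberField Complex MeasureTheory Filter Topology
open scoped Classical ComplexConjugate Real
open Vale.Agent.P026 (omC kap psi W)

noncomputable section

variable {K : Type} [Field K] [NumberField K] [Level K]

open Vale.Agent.P319E in
theorem zet_id {F : Type} [Field F] [NumberField F] (J : Ideal (𝓞 F)) (hJ : J ≠ 0) :
    ∃ E : ℂ → ℂ, Differentiable ℂ E ∧ E 1 ≠ 0 ∧
    ∀ s : ℂ, 1 < s.re → (∑' I : Ideal (𝓞 F),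
      if IsCoprime I J then ((nm I : ℝ) : ℂ) ^ (-s) else 0) = E s * Zc F s := by
  induction J using UniqueFactorizationMonoid.induction_on_prime with
  | h₁ => exact absurd rfl hJ
  | h₂ I h =>
    obtain rfl : I = 1 := isUnit_iff_eq_one.1 h
    exact ⟨fun _ => 1, differentiable_const _, one_ne_zero, fun s _ => by
      simp only [Zc, isCoprime_one_right, if_true, one_mul]⟩
  | h₃ J P hJ0 hP ih =>
    obtain ⟨E, hE, h1, h⟩ := ih hJ0
    have hpr := (Ideal.prime_iff_isPrime hP.ne_zero).1 hP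
    have cp : ∀ I : Ideal (𝓞 F), IsCoprime P I ↔ ¬ P ∣ I := fun I => by
      have := Ideal.IsPrime.isMaximal hpr hP.ne_zero
      rw [Ideal.dvd_iff_le]
      exact ⟨fun a b => hP.not_isUnit (a.isUnit_of_dvd' dvd_rfl (Ideal.dvd_iff_le.2 b)), fun a =>
        Ideal.isCoprime_iff_sup_eq.2 (this.out.2 _ (left_lt_sup.2 a))⟩
    by_cases k : P ∣ J
    · refine ⟨E, hE, h1, fun s hs => ?_⟩
      rw [← h s hs]
      refine tsum_congr fun I => ?_
      rw [if_congr (show IsCoprime I (P * J) ↔ IsCoprime I J from ⟨fun a => a.of_mul_right_right,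
        fun a => (a.of_isCoprime_of_dvd_right k).mul_right a⟩) rfl rfl]
    · have p2 : 2 ≤ nm P := eul_two_le ⟨P, hpr, hP.ne_zero⟩
      refine ⟨fun s => (1 - ((nm P : ℝ) : ℂ) ^ (-s)) * E s, Differentiable.mul (fun s =>
        (differentiableAt_const _).sub (differentiableAt_id.neg.const_cpow (Or.inl (ofReal_ne_zero.2
          (one_pos.trans_le (one_le_nm hP.ne_zero)).ne')))) hE, mul_ne_zero ?_ h1, fun s hs => ?_⟩
      · rw [cpow_neg_one, sub_ne_zero, ← ofReal_inv, ← ofReal_one, Ne, ofReal_inj, eq_comm,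
          inv_eq_one]
        linarith
      · rw [mul_assoc, ← h s hs]
        have s0 : Summable fun I : Ideal (𝓞 F) =>
            if IsCoprime I J then ((nm I : ℝ) : ℂ) ^ (-s) else 0 :=
          ((cv_summ hs).of_norm.indicator {I | IsCoprime I J}).congr fun I => by
            simp only [Set.indicator_apply]; rfl
        have inj := mul_right_injective₀ hP.ne_zero
        have a1 := (inj.hasSum_iff (f := fun I : Ideal (𝓞 F) => if P ∣ I then
          (if IsCoprime I J then ((nm I : ℝ) : ℂ) ^ (-s) else 0) else 0)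
          fun I hI => if_neg fun ⟨c, hc⟩ => hI ⟨c, hc.symm⟩).1
          ((s0.hasSum.mul_left (((nm P : ℝ) : ℂ) ^ (-s))).congr_fun fun I => by
            simp only [Function.comp, dvd_mul_right, if_true, IsCoprime.mul_left_iff, cp, k,
              not_false_eq_true, true_and, cv_mul, mul_ite, mul_zero])
        rw [sub_mul, one_mul, ← (s0.hasSum.sub a1).tsum_eq]
        refine tsum_congr fun I => ?_
        simp only [IsCoprime.mul_right_iff, isCoprime_comm (x := I) (y := P), cp]
        by_cases a : P ∣ I <;> by_cases b : IsCoprime I J <;> simp [a, b]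

/-- continuation of the zeta function of the primary elements -/
theorem zeta_prim : ∃ g : ℂ → ℂ, DifferentiableOn ℂ g {s | 0 < s.re} ∧ g 1 ≠ 0 ∧
    ∀ s : ℂ, 1 < s.re → g s = (s - 1) *
      ∑' n : MM K, if n ≠ 0 ∧ clsK (lft n : K) ∈ OmG K then ((N (lft n) : ℝ) : ℂ) ^ (-s) else 0 := by
  have := isTotallyComplex (K := K)
  obtain ⟨C, -, hC⟩ := P319E.zeta_cont
  obtain ⟨g, g1, g2, g3, -⟩ := hC K
  obtain ⟨E, e1, e2, e3⟩ := zet_id (Ideal.span {((Setup.M K : ℕ) : 𝓞 K)})
    (Ideal.span_singleton_eq_bot.not.2 (Nat.cast_ne_zero.2 Setup.Mne))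
  refine ⟨fun s => E s * g s, e1.differentiableOn.mul g1, mul_ne_zero e2 g2, fun s hs => ?_⟩
  have h := tsum_prim (K := K) fun I => ((P319E.nm I : ℝ) : ℂ) ^ (-s)
  simp only [P319E.nm, absNorm_idl] at h
  simp only [N, h, g3 s hs]
  rw [mul_left_comm, ← e3 s hs]
  rfl

end

end Vale.Agent.P319N
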