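import Vale.Agent.P319N.CRes1
import Vale.Agent.P319N.CPhi
import Vale.Agent.P319N.Zet

namespace Vale.Agent.P319N

open NumberField Complex MeasureTheory Filter Topology
open scoped Classical ComplexConjugate Real MatrixGroups
open Vale.Agent.P026 (omC kap psi W Hs ht QQ act uu muH hh LL Gs bb kk UU DualW)

noncomputable section

variable {K : Type} [Field K] [NumberField K] [Level K]

theorem cz_ne {d : MM K} (h : PrimM d) : lft d ≠ 0 := fun e => h.1 (lft_eq_zero.1 e)

theorem cz_assoc {a : R K} {c : MM K} (h : mkM a = c) : Associated a (lft c) := by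
  obtain ⟨u, -, e⟩ := lft_mkM a
  exact ⟨u, by rw [← h, e, mul_comm]⟩

theorem cz_assoc' {a b : MM K} (h : Associated (lft a) (lft b)) : Associated a b := by
  refine associated_of_dvd_dvd ?_ ?_
  · rw [← mkM_lft a, ← mkM_lft b]; exact mkM_dvd.2 h.dvd
  · rw [← mkM_lft a, ← mkM_lft b]; exact mkM_dvd.2 h.symm.dvd

theorem cz_cube (d : MM K) : Associated (lft d ^ 3) (lft (d ^ 3)) :=
  cz_assoc (by rw [map_pow, mkM_lft])

theorem YY_zero {s : ℂ} (hs : 3 < s.re) : YY (fun _ => 1) (1 : GG K) 0 s =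
    ∑' d : MM K, if PrimM d then (phiR (lft d) : ℂ) * ((N (lft d) : ℝ) : ℂ) ^ (2 - 3 * s) else 0 := by
  set f : MM K → ℂ := fun c => if PrimM c then 1 * trm 1 0 (lft c) s else 0 with hf
  set g : MM K → ℂ := fun d =>
    if PrimM d then (phiR (lft d) : ℂ) * ((N (lft d) : ℝ) : ℂ) ^ (2 - 3 * s) else 0 with hg
  have key : ∀ d : MM K, PrimM d → f (d ^ 3) = g d := by
    intro d hd
    have h0 := cz_ne hd
    have h0' : (lft d : K) ≠ 0 := by exact_mod_cast h0
    have hp : PrimM (d ^ 3) := Ab.Prim.pow (a := d) hd 3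
    have hq : clsK ((lft d ^ 3 : R K) : K) * (1 : GG K)⁻¹ ∈ QG K := mem_QG_iff.2
      ⟨1, clsK (lft d : K), by
        rw [inv_one, Subring.coe_pow, clsK_pow h0', Units.val_one, OneMemClass.coe_one, clsK_one]
        exact (mul_one (clsK (lft d : K) ^ 3)).trans (one_mul (clsK (lft d : K) ^ 3)).symm⟩
    have hN := N_pos h0
    have hN' : ((N (lft d) : ℝ) : ℂ) ≠ 0 := by exact_mod_cast hN.ne'
    rw [hf, hg]; dsimp only
    rw [if_pos hp, if_pos hd, ← trm_assoc 1 0 (pow_ne_zero 3 h0) (cz_cube d), trm, if_pos hq,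
      E3_one_left, g3_zero_cube h0, show lft d ^ 3 = lft d * lft d * lft d by ring, N_mul, N_mul,
      Complex.ofReal_mul, Complex.ofReal_mul, ← Complex.ofReal_mul,
      Complex.mul_cpow_ofReal_nonneg (by positivity) hN.le, Complex.ofReal_mul,
      Complex.mul_cpow_ofReal_nonneg hN.le hN.le,
      show 2 - 3 * s = (2 : ℕ) + (-s + -s + -s) by push_cast; ring, Complex.cpow_add _ _ hN',
      Complex.cpow_add _ _ hN', Complex.cpow_add _ _ hN', Complex.cpow_natCast]
    ring
  have hP : ∀ d : Function.support g, PrimM (d : MM K) := fun d => by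
    by_contra h
    exact d.2 (if_neg h)
  refine tsum_eq_tsum_of_ne_zero_bij (f := f) (g := g) (fun d => (d : MM K) ^ 3) ?_ ?_
    fun d => key d (hP d)
  · intro d d' h
    have h1 : Associated (lft (d : MM K) ^ 3) (lft (d' : MM K) ^ 3) :=
      (cz_cube _).trans (by dsimp only at h; rw [h]; exact (cz_cube _).symm)
    exact Subtype.ext (Ab.Prim.eq_of_associated (hP d) (hP d')
      (cz_assoc' ((Associated.pow_iff (by norm_num)).1 h1)))
  · intro c hc
    have h1 : PrimM c := by
      by_contra h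
      exact hc (if_neg h)
    have h2 : ∃ u d : R K, IsUnit u ∧ lft c = u * d ^ 3 := by
      by_contra h
      refine hc ?_
      rw [hf]; dsimp only
      rw [if_pos h1, trm, g3_zero_eq_zero (cz_ne h1) h]
      simp
    obtain ⟨u, d, ⟨u, rfl⟩, e⟩ := h2
    have d0 : d ≠ 0 := by
      rintro rfl
      exact cz_ne h1 (by simpa using e)
    obtain ⟨ν, ⟨n1, n2⟩, -⟩ := exists_primM d0
    have e2 : ν ^ 3 = c := Ab.Prim.eq_of_associated (Ab.Prim.pow (a := ν) n1 3) h1
      (cz_assoc' ((cz_cube ν).symm.trans (n2.pow_pow.trans ⟨u, by rw [e, mul_comm]⟩)))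
    exact ⟨⟨ν, by rw [Function.mem_support, ← key ν n1, e2]; exact hc⟩, e2⟩

theorem cz_norm {d : MM K} (hd : PrimM d) (s : ℂ) :
    ‖((N (lft d) : ℝ) : ℂ) ^ (-s)‖ = N (lft d) ^ (-s.re) := by
  rw [Complex.norm_cpow_eq_rpow_re_of_pos (N_pos (cz_ne hd)), neg_re]

theorem cz_le {a : ℝ} {s : ℂ} (hs : a ≤ s.re) (d : MM K) :
    ‖if PrimM d then ((N (lft d) : ℝ) : ℂ) ^ (-s) else 0‖ ≤ N (lft d) ^ (-a) := by
  split_ifs with h
  · rw [cz_norm h]
    exact Real.rpow_le_rpow_of_exponent_le (one_le_N (cz_ne h)) (by linarith)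
  · rw [norm_zero]; exact Real.rpow_nonneg (Nat.cast_nonneg _) _

theorem phi_mul_zeta {s : ℂ} (hs : 2 < s.re) :
    (∑' d : MM K, if PrimM d then (phiR (lft d) : ℂ) * ((N (lft d) : ℝ) : ℂ) ^ (-s) else 0) *
      (∑' d : MM K, if PrimM d then ((N (lft d) : ℝ) : ℂ) ^ (-s) else 0) =
    ∑' d : MM K, if PrimM d then ((N (lft d) : ℝ) : ℂ) ^ (1 - s) else 0 := by
  set a : MM K → ℂ := fun d =>
    if PrimM d then (phiR (lft d) : ℂ) * ((N (lft d) : ℝ) : ℂ) ^ (-s) else 0 with ha
  set b : MM K → ℂ := fun d => if PrimM d then ((N (lft d) : ℝ) : ℂ) ^ (-s) else 0 with hb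
  have sa : Summable fun d => ‖a d‖ := by
    refine (summable_NM (K := K) (a := s.re - 1) (by linarith)).of_nonneg_of_le
      (fun _ => norm_nonneg _) fun d => ?_
    rw [ha]; dsimp only
    split_ifs with h
    · have hp := N_pos (cz_ne h)
      rw [norm_mul, cz_norm h, Complex.norm_natCast, show -(s.re - 1) = 1 + -s.re by ring,
        Real.rpow_add hp, Real.rpow_one]
      exact mul_le_mul_of_nonneg_right (phiR_le (cz_ne h)) (by positivity)
    · rw [norm_zero]; exact Real.rpow_nonneg (Nat.cast_nonneg _) _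
  have sb : Summable fun d => ‖b d‖ :=
    (summable_NM (K := K) (a := s.re) (by linarith)).of_nonneg_of_le
      (fun _ => norm_nonneg _) (cz_le le_rfl)
  have h1 := (summable_mul_of_summable_norm sa sb).hasSum
  rw [← tsum_mul_tsum_of_summable_norm sa sb] at h1
  set G : MM K × MM K → ℂ := fun p => if PrimM p.1 then
    (if PrimM p.2 ∧ p.2 ∣ p.1 then (phiR (lft p.2) : ℂ) else 0) * ((N (lft p.1) : ℝ) : ℂ) ^ (-s)
    else 0 with hG
  have key : ∀ e f : MM K, PrimM e → PrimM f → G (e * f, e) = a e * b f := by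
    intro e f he hf
    have hp : PrimM (e * f) := Ab.Prim.mul (a := e) (b := f) he hf
    have eN : N (lft (e * f)) = N (lft e) * N (lft f) := Ab.N_mul e f
    rw [hG, ha, hb]; dsimp only
    rw [if_pos hp, if_pos ⟨he, dvd_mul_right _ _⟩, if_pos he, if_pos hf, eN, Complex.ofReal_mul,
      Complex.mul_cpow_ofReal_nonneg (N_pos (cz_ne he)).le (N_pos (cz_ne hf)).le, mul_assoc]
  have hP : ∀ p : Function.support (fun p : MM K × MM K => a p.1 * b p.2),
      PrimM p.1.1 ∧ PrimM p.1.2 := fun p => by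
    constructor
    · by_contra h
      exact left_ne_zero_of_mul p.2 (if_neg h)
    · by_contra h
      exact right_ne_zero_of_mul p.2 (if_neg h)
  have h2 : HasSum G ((∑' d, a d) * ∑' d, b d) := by
    refine (hasSum_iff_hasSum_of_ne_zero_bij (f := G) (g := fun p : MM K × MM K => a p.1 * b p.2)
      (fun p => (p.1.1 * p.1.2, p.1.1)) ?_ ?_ fun p => key _ _ (hP p).1 (hP p).2).2 h1
    · intro p q h
      obtain ⟨e1, e2⟩ := Prod.ext_iff.1 h
      dsimp only at e1 e2
      rw [e2] at e1
      exact Subtype.ext (Prod.ext e2 (mul_left_cancel₀ (hP q).1.1 e1))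
    · rintro ⟨d, e⟩ hp
      have a1 : PrimM d := by
        by_contra h
        exact hp (if_neg h)
      have a2 : PrimM e ∧ e ∣ d := by
        by_contra h
        refine hp ?_
        rw [hG]; dsimp only
        rw [if_pos a1, if_neg h, zero_mul]
      obtain ⟨a2, f, rfl⟩ := a2
      have a3 : PrimM f := Ab.Prim.of_mul (a := e) (b := f) a1 a2
      exact ⟨⟨(e, f), by rw [Function.mem_support, ← key e f a2 a3]; exact hp⟩, rfl⟩
  rw [← h2.tsum_eq, h2.summable.tsum_prod]
  refine tsum_congr fun d => ?_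
  rw [hG]; dsimp only
  split_ifs with h
  · have hN' : ((N (lft d) : ℝ) : ℂ) ≠ 0 := by exact_mod_cast (N_pos (cz_ne h)).ne'
    rw [tsum_mul_right, sum_phiR h, sub_eq_add_neg, Complex.cpow_add _ _ hN', Complex.cpow_one]
  · simp

/-- the zeta function of the primary elements -/
def cz_Z (K : Type) [Field K] [NumberField K] [Level K] (s : ℂ) : ℂ :=
  ∑' d : MM K, if PrimM d then ((N (lft d) : ℝ) : ℂ) ^ (-s) else 0

theorem cz_diff {s : ℂ} (hs : 1 < s.re) : DifferentiableAt ℂ (cz_Z K) s := by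
  have ho : IsOpen {w : ℂ | (1 + s.re) / 2 < w.re} := isOpen_lt continuous_const continuous_re
  have := Complex.differentiableOn_tsum_of_summable_norm
    (summable_NM (K := K) (a := (1 + s.re) / 2) (by linarith))
    (F := fun (d : MM K) (w : ℂ) => if PrimM d then ((N (lft d) : ℝ) : ℂ) ^ (-w) else 0)
    (fun d => by
      by_cases h : PrimM d
      · simp only [if_pos h]
        exact (differentiable_id.neg.const_cpow
          (Or.inl (by exact_mod_cast (N_pos (cz_ne h)).ne'))).differentiableOn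
      · simp only [if_neg h]; exact differentiableOn_const _) ho
    (fun d w hw => cz_le (le_of_lt hw) d)
  exact this.differentiableAt (ho.mem_nhds (by simp only [Set.mem_setOf_eq]; linarith))

theorem cz_two : cz_Z K 2 ≠ 0 := by
  have e : cz_Z K 2 = ((∑' d : MM K, if PrimM d then N (lft d) ^ (-2 : ℝ) else 0 : ℝ) : ℂ) := by
    rw [cz_Z, Complex.ofReal_tsum]
    refine tsum_congr fun d => ?_
    split_ifs
    · rw [Complex.ofReal_cpow (show 0 ≤ N (lft d) from Nat.cast_nonneg _)]; simp
    · simp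
  have hn : ∀ d : MM K, 0 ≤ if PrimM d then N (lft d) ^ (-2 : ℝ) else 0 := fun d => by
    split_ifs
    · exact Real.rpow_nonneg (Nat.cast_nonneg _) _
    · exact le_rfl
  have sm : Summable fun d : MM K => if PrimM d then N (lft d) ^ (-2 : ℝ) else 0 :=
    (summable_NM (K := K) (a := 2) (by norm_num)).of_nonneg_of_le hn fun d => by
      split_ifs
      · exact le_rfl
      · exact Real.rpow_nonneg (Nat.cast_nonneg _) _
  have p1 : PrimM (1 : MM K) := Ab.prim_one
  rw [e]
  exact_mod_cast (sm.tsum_pos hn 1 (by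
    rw [if_pos p1]; exact Real.rpow_pos_of_pos (N_pos (cz_ne p1)) _)).ne'

theorem rr_one_zero : rr (1 : GG K) 0 ≠ 0 := by
  obtain ⟨g, g1, g2, g3⟩ := zeta_prim (K := K)
  have e2 : (3 * (4 / 3) - 2 : ℂ) = 2 := by norm_num
  have hI : (3 * Complex.I : ℂ) ≠ 0 := mul_ne_zero (by norm_num) Complex.I_ne_zero
  have h : IsRes (eta K) (YY (fun _ => 1) (1 : GG K) 0) (g 1 / (3 * Complex.I) / cz_Z K 2) := by
    refine ⟨fun s => g (3 * s - 3) / (3 * s - 4), fun s => cz_Z K (3 * s - 2), ?_, ?_, ?_, ?_, ?_⟩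
    · refine DifferentiableOn.div (g1.comp (by fun_prop) fun s hs => ?_) (by fun_prop) fun s hs e => ?_
      · have := hs.1
        simp only [Set.mem_setOf_eq, sub_re, mul_re, re_ofNat, im_ofNat]
        linarith
      · have := congrArg Complex.im e
        simp at this
        exact hs.2.1.ne' this
    · intro s hs
      have hs' : 1 < s.re := hs
      exact ((cz_diff (by simp; linarith)).comp s
        (f := fun s : ℂ => 3 * s - 2) (by fun_prop)).differentiableWithinAt
    · simp only [e2]; exact cz_two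
    · intro s _ hs
      have h4 : (3 * s - 4 : ℂ) ≠ 0 := fun e => by
        have := congrArg Complex.re e
        simp at this
        linarith
      have := phi_mul_zeta (K := K) (s := 3 * s - 2) (by simp; linarith)
      dsimp only
      rw [YY_zero hs, cz_Z, g3 _ (by simp; linarith), show 2 - 3 * s = -(3 * s - 2) by ring, this,
        show 1 - (3 * s - 2) = -(3 * s - 3) by ring, show 3 * s - 3 - 1 = 3 * s - 4 by ring,
        mul_div_cancel_left₀ _ h4]
      exact tsum_congr fun d => if_congr Iff.rfl rfl rfl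
    · simp only [e2]
      rw [div_mul_cancel₀ _ cz_two]
      have c1 : ContinuousAt g 1 := (g1.differentiableAt
        ((isOpen_lt continuous_const continuous_re).mem_nhds (by simp))).continuousAt
      have t1 : Tendsto (fun ε : ℝ => (1 + 3 * (ε * Complex.I) : ℂ)) (UU : Filter ℝ) (𝓝 1) := by
        have : Tendsto (fun ε : ℝ => (1 + 3 * (ε * Complex.I) : ℂ)) (𝓝 0)
            (𝓝 (1 + 3 * (((0 : ℝ) : ℂ) * Complex.I))) := Continuous.tendsto (by fun_prop) 0
        simp only [ofReal_zero, zero_mul, mul_zero, add_zero] at this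
        exact this.mono_left ((Ultrafilter.of_le _).trans nhdsWithin_le_nhds)
      refine ((c1.tendsto.comp t1).div_const (3 * Complex.I)).congr' ?_
      filter_upwards [eventually_mem_Om (eta_pos (K := K))] with ε hε
      have : (ε : ℂ) ≠ 0 := by exact_mod_cast hε.2.1.ne'
      simp only [Function.comp]
      rw [show (3 * (4 / 3 + ε * Complex.I) - 3 : ℂ) = 1 + 3 * (ε * Complex.I) by ring,
        show (3 * (4 / 3 + ε * Complex.I) - 4 : ℂ) = ε * (3 * Complex.I) by ring]
      field_simp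
  rw [(isRes_rr 1 0).unique eta_pos h]
  exact div_ne_zero (div_ne_zero g2 hI) cz_two

end

end Vale.Agent.P319N
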