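import Vale.Agent.P319N.CRel
import Vale.Agent.P319N.CZ

namespace Vale.Agent.P319N

open NumberField Complex MeasureTheory Filter Topology
open scoped Classical ComplexConjugate Real MatrixGroups
open Vale.Agent.P026 (omC kap psi W Hs ht QQ act uu muH hh LL Gs bb kk UU DualW)

noncomputable section

variable {K : Type} [Field K] [NumberField K] [Level K]

theorem cnz_theta {ρ : K → ℂ} (h : ∀ n, n ≠ 0 → ρ n = 0) (w : HH K) {t : ℝ}
    (hw : ∀ σ, ht (w σ) = Real.exp t) :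
    thetaF ρ w = ρ 0 * (((Real.exp (t * (2 / 3)) : ℝ) : ℂ) * bb 0 (4 / 3)) ^ rk K := by
  rw [thetaF, tsum_eq_single 0 fun n hn => by rw [h n hn, zero_mul]]
  congr 1
  rw [rk, ← Finset.card_univ, ← Finset.prod_const]
  refine Finset.prod_congr rfl fun σ _ => ?_
  rw [hw, Real.exp_mul]
  simp [P026.psi_zero]

theorem cnz_ht (t : ℝ) (σ : Emb K) :
    ht (actK (Sm K) (fun _ => ((0 : ℂ), t)) σ) = Real.exp (-t) := by
  have e0 : (Matrix.SpecialLinearGroup.map σ.1 (Sm K)) 1 0 = 1 := by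
    show σ.1 (Sm K 1 0) = 1
    exact map_one σ.1
  have e1 : (Matrix.SpecialLinearGroup.map σ.1 (Sm K)) 1 1 = 0 := by
    show σ.1 (Sm K 1 1) = 0
    exact map_zero σ.1
  rw [actK, P026.ht_act, e0, e1, QQ, ht, Real.exp_neg]
  have := Real.exp_pos t
  simp only [mul_zero, add_zero, map_zero, map_one, one_mul, zero_add]
  field_simp

theorem theta_nonconst {q : K} {Φ : K × K → ℂ} {ρ : SLK K → K → ℂ} (h : ThetaOut q Φ ρ)
    (h1 : ∀ n, n ≠ 0 → ρ 1 n = 0) (h2 : ∀ n, n ≠ 0 → ρ (Sm K) n = 0) : ρ 1 0 = 0 := by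
  have key : ∀ t : ℝ, ρ 1 0 * (((Real.exp (-t * (2 / 3)) : ℝ) : ℂ) * bb 0 (4 / 3)) ^ rk K =
      ρ (Sm K) 0 * (((Real.exp (t * (2 / 3)) : ℝ) : ℂ) * bb 0 (4 / 3)) ^ rk K := by
    intro t
    rw [← cnz_theta h1 _ (cnz_ht t), ← cnz_theta h2 (fun _ => ((0 : ℂ), t)) (fun _ => rfl)]
    exact h.aut 0 _ ent_Sm _
  obtain ⟨b, hb, -⟩ := P026.bb_real
  obtain ⟨hb1, hb2⟩ := hb 0 le_rfl
  have hb0 : bb 0 (4 / 3) ≠ 0 := by
    rw [hb1]; exact_mod_cast hb2.ne'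
  have k0 := key 0
  rw [neg_zero] at k0
  have e : ρ 1 0 = ρ (Sm K) 0 := mul_right_cancel₀ (pow_ne_zero _ (mul_ne_zero
    (by exact_mod_cast (Real.exp_pos _).ne') hb0)) k0
  have k1 := key 1
  rw [← e, mul_pow, mul_pow, ← mul_assoc, ← mul_assoc] at k1
  have k2 := mul_right_cancel₀ (pow_ne_zero _ hb0) k1
  by_contra hne
  have k3 := mul_left_cancel₀ hne k2
  have k4 : Real.exp (-1 * (2 / 3)) ^ rk K = Real.exp (1 * (2 / 3)) ^ rk K := by
    exact_mod_cast k3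
  have k5 : Real.exp (-1 * (2 / 3)) ^ rk K < Real.exp (1 * (2 / 3)) ^ rk K :=
    pow_lt_pow_left₀ (Real.exp_lt_exp.2 (by norm_num)) (Real.exp_pos _).le rk_pos.ne'
  exact k5.ne k4

theorem exists_rr_ne : ∃ g : GG K, rr g 1 ≠ 0 := by
  by_contra hcon
  push Not at hcon
  have hz : ∀ (g : GG K) (n : R K), n ≠ 0 → rr g n = 0 := by
    intro g n hn
    have := rr_formula hn g
    rw [hcon, mul_zero] at this
    refine (mul_eq_zero.1 this).resolve_left ?_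
    exact_mod_cast (Real.rpow_pos_of_pos (N_pos hn) _).ne'
  obtain ⟨ρ, hρ⟩ := exists_Hat (K := K) one_ne_zero
  have hv : ∀ σ : SLK K, Ent 0 σ → ∀ n, n ≠ 0 → ρ σ n = 0 := by
    intro σ hσ n hn
    by_contra hne
    obtain ⟨hR, hD⟩ := hρ.supp hσ hne
    obtain ⟨j', φ, hφ, hF⟩ := exists_Fac (K := K) one_ne_zero hσ
    have hn' : (⟨n, hR⟩ : R K) ≠ 0 := fun e => hn (congrArg Subtype.val e)
    have := hρ.2 0 σ hσ j' φ hφ hF ⟨n, hR⟩ hD
    apply hne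
    refine this.trans ?_
    simp only [RR, hz _ _ hn', mul_zero, finsum_zero]
  have h0 := theta_nonconst hρ.1 (hv 1 ent_one) (hv _ ent_Sm)
  have h1 := hρ.one one_ne_zero (n := 0) (dualF_zero _)
  rw [clsK_one, sN_one] at h1
  have h2 : ρ 1 ((0 : R K) : K) = 0 := h0
  rw [h2] at h1
  refine mul_ne_zero (mul_ne_zero ?_ (mul_ne_zero ?_ (inv_ne_zero ?_))) rr_one_zero h1.symm
  · exact_mod_cast (L3_pos (K := K)).ne'
  · simp
  · exact Complex.ofReal_ne_zero.2 (absN_pos (pow_ne_zero _ MK_ne)).ne'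

end

end Vale.Agent.P319N
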