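import Vale.Agent.P319N.CKub

namespace Vale.Agent.P319N

open NumberField Complex MeasureTheory Filter Topology
open scoped Classical ComplexConjugate Real MatrixGroups
open Vale.Agent.P026 (omC kap psi W Hs ht QQ act uu muH hh LL Gs bb kk UU DualW)

noncomputable section

variable {K : Type} [Field K] [NumberField K] [Level K]

theorem ct_fin {p a : R K} (hp : Prime p) (ha : a ≠ 0) : FiniteMultiplicity p a :=
  FiniteMultiplicity.of_prime_left hp ha

theorem ct_mul_pow {p a b : R K} (hp : Prime p) (ha : a ≠ 0) (hb : b ≠ 0) (k : ℕ) :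
    multiplicity p (a * b ^ k) = multiplicity p a + k * multiplicity p b := by
  rw [multiplicity_mul hp (ct_fin hp (mul_ne_zero ha (pow_ne_zero k hb))),
    (ct_fin hp hb).multiplicity_pow hp]

theorem ct_sqf {p y : R K} (hp : Prime p) (hy : Squarefree y) : multiplicity p y ≤ 1 := by
  by_contra h
  have h2 : p ^ 2 ∣ y := (ct_fin hp hy.ne_zero).pow_dvd_iff_le_multiplicity.2 (by omega)
  exact hp.not_isUnit (hy p (by rwa [sq] at h2))

theorem ct_dvd {n y d e : R K} (hy : Squarefree y) (hd : d ≠ 0) (he : e ≠ 0)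
    (h : n * d ^ 3 = y * e ^ 3) : d ∣ e := by
  have hn : n ≠ 0 := by
    rintro rfl
    exact mul_ne_zero hy.ne_zero (pow_ne_zero 3 he) (by rw [← h, zero_mul])
  rw [UniqueFactorizationMonoid.dvd_iff_emultiplicity_le hd]
  intro p hp
  have h1 := congrArg (multiplicity p) h
  rw [ct_mul_pow hp hn hd, ct_mul_pow hp hy.ne_zero he] at h1
  have h2 := ct_sqf hp hy
  rw [(ct_fin hp hd).emultiplicity_eq_multiplicity, (ct_fin hp he).emultiplicity_eq_multiplicity]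
  exact_mod_cast (by omega : multiplicity p d ≤ multiplicity p e)

theorem ct_gt3_unit {u y : R K} (hu : IsUnit u) (hy : y ≠ 0) :
    gt3 (u * y) = sym3 u y * gt3 y := by
  rw [gt3, gt3, g3_unit_mul hu hy, N_mul, gau_N_unit hu, one_mul, mul_div_assoc]

theorem TT_eq {y d : R K} (hy : Squarefree y) (hd : d ≠ 0) :
    TT (y * d ^ 3) = conj (gt3 y) * ((√(N d) : ℝ) : ℂ) := by
  have h : ∃ p : R K × R K, Squarefree p.1 ∧ p.2 ≠ 0 ∧ y * d ^ 3 = p.1 * p.2 ^ 3 :=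
    ⟨(y, d), hy, hd, rfl⟩
  rw [TT, dif_pos h]
  obtain ⟨h1, h2, h3⟩ := h.choose_spec
  generalize h.choose.1 = y' at h1 h3
  generalize h.choose.2 = d' at h2 h3
  have ha : Associated d d' := associated_of_dvd_dvd (ct_dvd h1 hd h2 h3) (ct_dvd hy h2 hd h3.symm)
  obtain ⟨u, rfl⟩ := ha
  have e : y = (u : R K) ^ 3 * y' := by
    apply mul_right_cancel₀ (pow_ne_zero 3 hd)
    rw [h3]; ring
  have hu : IsUnit ((u : R K) ^ 3) := u.isUnit.pow 3
  rw [e, ct_gt3_unit hu h1.ne_zero, sym3_pow_left, sym3_cube (gau_unit_coprime u.isUnit y'),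
    one_mul, N_mul, gau_N_unit u.isUnit, mul_one]

theorem TT_ne {n : R K} (h : TT n ≠ 0) : ∃ y d, Squarefree y ∧ d ≠ 0 ∧ n = y * d ^ 3 := by
  by_contra h2
  apply h
  rw [TT, dif_neg]
  rintro ⟨p, hp⟩
  exact h2 ⟨p.1, p.2, hp⟩

theorem TT_zero : TT (0 : R K) = 0 := by
  by_contra h
  obtain ⟨y, d, hy, hd, h⟩ := TT_ne h
  exact mul_ne_zero hy.ne_zero (pow_ne_zero 3 hd) h.symm

theorem TT_cube {d : R K} (hd : d ≠ 0) (n : R K) :
    TT (n * d ^ 3) = ((√(N d) : ℝ) : ℂ) * TT n := by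
  by_cases h : ∃ y e, Squarefree y ∧ e ≠ 0 ∧ n = y * e ^ 3
  · obtain ⟨y, e, hy, he, rfl⟩ := h
    rw [mul_assoc, ← mul_pow, TT_eq hy (mul_ne_zero he hd), TT_eq hy he, sqrtN_mul]
    ring
  · have h0 : TT n = 0 := by
      by_contra h1
      exact h (TT_ne h1)
    rw [h0, mul_zero]
    by_contra h1
    obtain ⟨y, e, hy, he, h2⟩ := TT_ne h1
    obtain ⟨f, rfl⟩ := ct_dvd hy hd he h2
    refine h ⟨y, f, hy, right_ne_zero_of_mul he, ?_⟩
    apply mul_right_cancel₀ (pow_ne_zero 3 hd)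
    rw [h2]; ring

theorem TT_sq {p n : R K} (hp : Prime p) (hn : ¬ p ∣ n) : TT (n * p ^ 2) = 0 := by
  by_contra h1
  obtain ⟨y, e, hy, he, h2⟩ := TT_ne h1
  have hn0 : n ≠ 0 := by
    rintro rfl
    exact hn (dvd_zero p)
  have h3 := congrArg (multiplicity p) h2
  rw [ct_mul_pow hp hn0 hp.ne_zero, ct_mul_pow hp hy.ne_zero he, multiplicity_eq_zero.2 hn,
    multiplicity_self] at h3
  have := ct_sqf hp hy
  omega

theorem ct_sqf_unit {u y : R K} (hu : IsUnit u) (hy : Squarefree y) : Squarefree (u * y) :=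
  fun x hx => hy x ((hu.dvd_mul_left).1 hx)

theorem TT_unit {u n : R K} (hu : IsUnit u) (hn : n ≠ 0) :
    TT (u * n) = conj (E (u : K) n) * TT n := by
  by_cases h : ∃ y e, Squarefree y ∧ e ≠ 0 ∧ n = y * e ^ 3
  · obtain ⟨y, e, hy, he, rfl⟩ := h
    rw [← sym3_unit_left hu hn, sym3_mul_right u hy.ne_zero (pow_ne_zero 3 he),
      sym3_pow_right u he, sym3_cube (gau_unit_coprime hu e), mul_one, ← mul_assoc,
      TT_eq (ct_sqf_unit hu hy) he, TT_eq hy he, ct_gt3_unit hu hy.ne_zero, map_mul, mul_assoc]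
  · have h0 : TT n = 0 := by
      by_contra h1
      exact h (TT_ne h1)
    rw [h0, mul_zero]
    by_contra h1
    obtain ⟨y, e, hy, he, h2⟩ := TT_ne h1
    obtain ⟨v, rfl⟩ := hu
    refine h ⟨(v⁻¹ : (R K)ˣ) * y, e, ct_sqf_unit (v⁻¹).isUnit hy, he, ?_⟩
    rw [mul_assoc, ← h2, ← mul_assoc, Units.inv_mul, one_mul]

theorem cube_cases {n : R K} (hn : n ≠ 0) : (∃ y d, Squarefree y ∧ d ≠ 0 ∧ n = y * d ^ 3) ∨
    ∃ m p d, Prime p ∧ ¬ p ∣ m ∧ d ≠ 0 ∧ n = m * p ^ 2 * d ^ 3 := by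
  induction hk : Nm n using Nat.strong_induction_on generalizing n with
  | _ k ih =>
  by_cases h3 : ∃ q : R K, Prime q ∧ q ^ 3 ∣ n
  · obtain ⟨q, hq, m, rfl⟩ := h3
    have hm : m ≠ 0 := right_ne_zero_of_mul hn
    have hlt : Nm m < k := by
      have h4 := four_le_Nm hq
      have h5 : 0 < Nm m := Nat.pos_of_ne_zero (fun h0 => hm (Nm_eq_zero.1 h0))
      have h6 : Nm (q ^ 3 * m) = Nm q * (Nm q * (Nm q * Nm m)) := by
        rw [show q ^ 3 * m = q * (q * (q * m)) by ring, Nm_mul, Nm_mul, Nm_mul]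
      rw [← hk, h6]
      have h7 : 4 * Nm m ≤ Nm q * Nm m := Nat.mul_le_mul_right _ h4
      have h8 : 1 * (Nm q * Nm m) ≤ Nm q * (Nm q * Nm m) := Nat.mul_le_mul_right _ (by omega)
      have h9 : 1 * (Nm q * (Nm q * Nm m)) ≤ Nm q * (Nm q * (Nm q * Nm m)) :=
        Nat.mul_le_mul_right _ (by omega)
      omega
    rcases ih _ hlt hm rfl with ⟨y, d, hy, hd, rfl⟩ | ⟨m', p, d, hp, hpm, hd, rfl⟩
    · exact Or.inl ⟨y, q * d, hy, mul_ne_zero hq.ne_zero hd, by ring⟩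
    · exact Or.inr ⟨m', p, q * d, hp, hpm, mul_ne_zero hq.ne_zero hd, by ring⟩
  · by_cases hs : Squarefree n
    · exact Or.inl ⟨n, 1, hs, one_ne_zero, by ring⟩
    · rw [squarefree_iff_irreducible_sq_not_dvd_of_ne_zero hn] at hs
      push Not at hs
      obtain ⟨p, hp, m, rfl⟩ := hs
      refine Or.inr ⟨m, p, 1, hp.prime, ?_, one_ne_zero, by ring⟩
      rintro ⟨f, rfl⟩
      exact h3 ⟨p, hp.prime, f, by ring⟩

end

end Vale.Agent.P319N
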