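import Vale.Agent.P319N.CRes2
import Vale.Agent.P319N.CT

namespace Vale.Agent.P319N

open NumberField Complex MeasureTheory Filter Topology
open scoped Classical ComplexConjugate Real MatrixGroups
open Vale.Agent.P026 (omC kap psi W Hs ht QQ act uu muH hh LL Gs bb kk UU DualW)

noncomputable section

variable {K : Type} [Field K] [NumberField K] [Level K]

theorem crel_P {p : R K} (hp : Prime p) : ((N p : ℝ) : ℂ) ≠ 0 ∧ ((N p : ℝ) : ℂ) + 1 ≠ 0 := by
  have h := N_pos hp.ne_zero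
  refine ⟨Complex.ofReal_ne_zero.2 h.ne', ?_⟩
  have : (N p + 1 : ℝ) ≠ 0 := by positivity
  exact_mod_cast this

theorem crel_conj {z : ℂ} (h : ‖z‖ = 1) : conj z * z = 1 := by
  rw [← Complex.inv_eq_conj h]
  exact inv_mul_cancel₀ (norm_ne_zero_iff.1 (by rw [h]; exact one_ne_zero))

theorem crel_conj3 {z : ℂ} (h : ‖z‖ = 1) (h3 : z ^ 3 = 1) : conj z = z ^ 2 := by
  have := crel_conj h
  linear_combination z ^ 2 * this - conj z * h3

theorem crel_ne {a : R K} (ha : a ≠ 0) : (a : K) ≠ 0 := by exact_mod_cast ha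

theorem crel_E3_cube (g k : GG K) : E3 g (k ^ 3) = 1 := by
  rw [← E3_cube g k, pow_three, pow_three, E3_mul_right, E3_mul_right]

theorem rr_unit_n (g : GG K) (n : R K) {u : R K} (hu : IsUnit u) :
    rr g (n * u) = conj (E3 (clsK (u : K)) g) * rr g n := by
  exact (isRes_rr g (n * u)).unique eta_pos
    (((isRes_rr g n).const_mul _).congr fun s _ => (YY_unit_n _ g n hu s).symm)
theorem rr_unit_g (g : GG K) (n : R K) {u : R K} (hu : IsUnit u) :
    rr (g * clsK (u : K)) n = E3 (clsK (u : K)) g * rr g n := by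
  exact (isRes_rr _ n).unique eta_pos
    (((isRes_rr g n).const_mul _).congr fun s _ => (YY_unit_g _ g n hu s).symm)
theorem rr_cube_g (g k : GG K) (n : R K) : rr (g * k ^ 3) n = rr g n := by
  unfold rr
  rw [YY_cube_g]
theorem rr_P {p : R K} (hp : Prime p) (g : GG K) (n : R K) : rr g (n * p ^ 3) = rr g n := by
  have h1 := isRes_chp hp g (n * p ^ 3)
  rw [YY_p3 hp] at h1
  exact mul_left_cancel₀ (div_ne_zero (crel_P hp).1 (crel_P hp).2)
    (h1.unique eta_pos (isRes_chp hp g n))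
theorem rr_Q {p n : R K} (hp : Prime p) (hn : ¬ p ∣ n) (g : GG K) : rr g (n * p ^ 2) = 0 := by
  obtain ⟨h0, h1⟩ := crel_P hp
  have hd : DifferentiableOn ℂ (fun s : ℂ => 1 - ((N p : ℝ) : ℂ) ^ (2 - 3 * s)) {s | 1 < s.re} :=
    (differentiableOn_const _).sub (DifferentiableOn.const_cpow (by fun_prop) (Or.inl h0))
  have h2 := (isRes_rr g (n * p ^ 2)).unique eta_pos
    (((isRes_chp hp g (n * p ^ 2)).mul hd).congr fun s hs => (YY_Q hp hn g hs).symm)
  have e : (2 - 3 * (4 / 3) : ℂ) = -((2 : ℕ) : ℂ) := by norm_num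
  rw [e, Complex.cpow_neg, Complex.cpow_natCast] at h2
  have h3 : rr g (n * p ^ 2) / ((N p : ℝ) : ℂ) = 0 := by
    have e2 : (1 - (((N p : ℝ) : ℂ) ^ 2)⁻¹) * (((N p : ℝ) : ℂ) / (((N p : ℝ) : ℂ) + 1) *
        rr g (n * p ^ 2)) = rr g (n * p ^ 2) - rr g (n * p ^ 2) / ((N p : ℝ) : ℂ) := by
      field_simp
      ring
    rw [e2] at h2
    linear_combination h2
  exact (div_eq_zero_iff.1 h3).resolve_right h0
theorem rr_G {p n : R K} (hp : Prime p) (hn : ¬ p ∣ n) (g : GG K) :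
    ((N p ^ (1 / 6 : ℝ) : ℝ) : ℂ) * rr g (n * p) =
      conj (E3 g (clsK (p : K))) * sym3 n p * conj (gt3 p) * rr (g * clsK (p : K)) n := by
  obtain ⟨h0, h1⟩ := crel_P hp
  have hpos := N_pos hp.ne_zero
  have hd : DifferentiableOn ℂ (fun s : ℂ => E3 (g * clsK (p : K)) (clsK (p : K)) * g3 n p *
      ((N p : ℝ) : ℂ) ^ (-s)) {s | 1 < s.re} :=
    (differentiableOn_const _).mul (DifferentiableOn.const_cpow (by fun_prop) (Or.inl h0))
  have h2 := (isRes_rr (g * clsK (p : K)) n).unique eta_pos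
    (((isRes_chp hp (g * clsK (p : K)) n).add ((isRes_chp hp g (n * p)).mul hd)).congr
      fun s hs => by rw [YY_G hp hn _ hs, mul_inv_cancel_right])
  rw [E3_mul_left, E3_self, mul_one, g3_prime hp] at h2
  have e : ((√(N p) : ℝ) : ℂ) * ((N p : ℝ) : ℂ) ^ (-(4 / 3) : ℂ) * ((N p : ℝ) : ℂ) =
      ((N p ^ (1 / 6 : ℝ) : ℝ) : ℂ) := by
    have e1 : (-(4 / 3) : ℂ) = ((-(4 / 3) : ℝ) : ℂ) := by push_cast; rfl
    rw [e1, ← Complex.ofReal_cpow hpos.le, ← Complex.ofReal_mul, ← Complex.ofReal_mul,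
      Real.sqrt_eq_rpow, ← Real.rpow_add hpos, ← Real.rpow_add_one hpos.ne']
    norm_num
  have h3 : rr (g * clsK (p : K)) n = E3 g (clsK (p : K)) * conj (sym3 n p) * gt3 p *
      (((N p ^ (1 / 6 : ℝ) : ℝ) : ℂ) * rr g (n * p)) := by
    rw [← e]
    field_simp at h2
    linear_combination h2
  have a1 := crel_conj (norm_E3 g (clsK (p : K)))
  have a2 := crel_conj (norm_sym3 ((hp.irreducible.coprime_iff_not_dvd.2 hn).symm))
  have a3 := crel_conj (norm_gt3 hp.irreducible.squarefree)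
  rw [h3]
  generalize ((N p ^ (1 / 6 : ℝ) : ℝ) : ℂ) * rr g (n * p) = x
  calc x = (conj (E3 g (clsK (p : K))) * E3 g (clsK (p : K))) * (conj (sym3 n p) * sym3 n p) *
      (conj (gt3 p) * gt3 p) * x := by rw [a1, a2, a3]; ring
    _ = _ := by ring
theorem rr_cube {d : R K} (hd : d ≠ 0) (g : GG K) (n : R K) : rr g (n * d ^ 3) = rr g n := by
  induction d using UniqueFactorizationMonoid.induction_on_prime with
  | h₁ => exact absurd rfl hd
  | h₂ u hu =>
    rw [rr_unit_n g n (hu.pow 3), E3_swap g, SubmonoidClass.coe_pow,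
      clsK_pow (crel_ne hu.ne_zero), crel_E3_cube]
    simp
  | h₃ a p ha hp ih =>
    rw [show n * (p * a) ^ 3 = n * a ^ 3 * p ^ 3 by ring, rr_P hp, ih ha]
theorem crel_sqf {y : R K} (hy : Squarefree y) (g : GG K) :
    ((N y ^ (1 / 6 : ℝ) : ℝ) : ℂ) * rr g y =
      conj (gt3 y) * conj (E3 g (clsK (y : K))) * rr (g * clsK (y : K)) 1 := by
  induction y using UniqueFactorizationMonoid.induction_on_prime generalizing g with
  | h₁ => exact absurd rfl hy.ne_zero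
  | h₂ u hu =>
    have e1 := rr_unit_n g 1 hu
    have e2 := ct_gt3_unit hu (one_ne_zero (α := R K))
    rw [one_mul] at e1
    rw [mul_one, sym3_unit_right _ isUnit_one, gt3_one] at e2
    rw [e1, e2, rr_unit_g g 1 hu, gau_N_unit hu, ← E3_swap g,
      crel_conj3 (norm_E3 _ _) (E3_cube _ _)]
    simp only [Real.one_rpow, Complex.ofReal_one, mul_one, map_one, one_mul]
    ring
  | h₃ a p ha hp ih =>
    have hpa : ¬ p ∣ a := fun h => hp.not_isUnit (hy p (mul_dvd_mul_left p h))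
    have hc : IsCoprime p a := hp.irreducible.coprime_iff_not_dvd.2 hpa
    have h1 := rr_G hp hpa g
    have h2 := ih hy.of_mul_right (g * clsK (p : K))
    have h3 := sym3_flip hp.ne_zero ha
    have h4 := sym3_cube hc.symm
    rw [N_mul, Real.mul_rpow (N_pos hp.ne_zero).le (N_pos ha).le, Complex.ofReal_mul,
      gt3_mul hp.ne_zero ha hc, MulMemClass.coe_mul, clsK_mul (crel_ne hp.ne_zero) (crel_ne ha),
      E3_mul_right, ← mul_assoc g, mul_comm p a, h3, E]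
    rw [E3_mul_left] at h2
    simp only [map_mul, conj_sym3] at h2 ⊢
    calc _ = ((N a ^ (1 / 6 : ℝ) : ℝ) : ℂ) * (((N p ^ (1 / 6 : ℝ) : ℝ) : ℂ) * rr g (a * p)) := by
          ring
      _ = conj (E3 g (clsK (p : K))) * sym3 a p * conj (gt3 p) *
          (((N a ^ (1 / 6 : ℝ) : ℝ) : ℂ) * rr (g * clsK (p : K)) a) := by rw [h1]; ring
      _ = sym3 a p ^ 3 * (conj (E3 g (clsK (p : K))) * sym3 a p * conj (gt3 p) *
          (((N a ^ (1 / 6 : ℝ) : ℝ) : ℂ) * rr (g * clsK (p : K)) a)) := by rw [h4, one_mul]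
      _ = _ := by rw [h2]; ring

theorem rr_formula {n : R K} (hn : n ≠ 0) (g : GG K) :
    ((N n ^ (1 / 6 : ℝ) : ℝ) : ℂ) * rr g n =
      TT n * conj (E3 g (clsK (n : K))) * rr (g * clsK (n : K)) 1 := by
  rcases cube_cases hn with ⟨y, d, hy, hd, rfl⟩ | ⟨m, p, d, hp, hm, hd, rfl⟩
  · have e : N (y * d ^ 3) ^ (1 / 6 : ℝ) = √(N d) * N y ^ (1 / 6 : ℝ) := by
      have hd' := N_pos hd
      rw [N_mul, pow_three, N_mul, N_mul, ← pow_three, Real.mul_rpow (N_pos hy.ne_zero).le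
        (by positivity), ← Real.rpow_natCast, ← Real.rpow_mul hd'.le, Real.sqrt_eq_rpow, mul_comm]
      norm_num
    rw [e, rr_cube hd, TT_eq hy hd, MulMemClass.coe_mul, SubmonoidClass.coe_pow,
      clsK_mul (crel_ne hy.ne_zero) (pow_ne_zero 3 (crel_ne hd)), clsK_pow (crel_ne hd),
      E3_mul_right, crel_E3_cube, mul_one, ← mul_assoc g, rr_cube_g, Complex.ofReal_mul,
      mul_assoc, crel_sqf hy]
    ring
  · rw [rr_cube hd, rr_Q hp hm, TT_cube hd, TT_sq hp hm]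
    simp
theorem Hat.unit {l : K} {ρ : SLK K → K → ℂ} (h : Hat l ρ) {u : Kˣ} (hu : u ∈ U1 K) (n : K) :
    ρ 1 ((u : K) * n) = ρ 1 n := by
  have huR : u ∈ unitsR K := hu.1
  have hu1 : u ∈ H1 K (ee K) := hu.2
  have huA := H1_le_unitsA _ hu1
  by_cases hn : n ∈ R K ∧ DualF (ee K + 1 + 2 * 0) n
  · obtain ⟨j', hj'⟩ := sg_ind l (i := ee K + 1 + 2 * 0) (by omega)
    obtain ⟨v, hv⟩ := mem_unitsR.1 huR
    have e1 := h.2 0 1 ent_one j' _ hj' (fac_one l) ⟨n, hn.1⟩ hn.2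
    have e0 : (((⟨n, hn.1⟩ : R K) * (v : R K) : R K) : K) = (u : K) * n := by
      rw [MulMemClass.coe_mul, hv, mul_comm]
    have e2 := h.2 0 1 ent_one j' _ hj' (fac_one l) (⟨n, hn.1⟩ * (v : R K))
      (by rw [e0]; exact hn.2.mul_A huA.1)
    rw [e0] at e2
    rw [e2, e1]
    unfold RR
    congr 1
    refine finsum_congr fun g => ?_
    rw [e0, FF_dil hj'.per hn.2 huA (ind_dil l huA), rr_unit_n g _ v.isUnit, hv,
      clsK_one_of hu1.1, E3_one_left]
    simp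
  · have e1 : ρ 1 n = 0 := by
      by_contra h1
      exact hn (h.supp ent_one h1)
    rw [e1]
    by_contra h1
    obtain ⟨h2, h3⟩ := h.supp ent_one h1
    have e : n = ((u⁻¹ : Kˣ) : K) * ((u : K) * n) := by
      rw [← mul_assoc, Units.inv_mul, one_mul]
    exact hn ⟨e ▸ (R K).mul_mem huR.2 h2, e ▸ h3.mul_A huA.2⟩
theorem norm_RR_le (j : ℕ) : ∃ C : ℝ, 0 ≤ C ∧ ∀ (i : ℕ) (φ : K × K → ℂ) (n : R K), Sg i j φ →
    n ≠ 0 → N n ^ (1 / 6 : ℝ) * ‖RR i φ n‖ ≤ C * ‖TT n‖ := by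
  obtain ⟨C, hC, h⟩ := norm_FF_le (K := K) j
  have := Fintype.ofFinite (GG K)
  refine ⟨L3 K * (C * ∑ g : GG K, ‖rr g (1 : R K)‖), by positivity, fun i φ n hφ hn => ?_⟩
  have hN : 0 ≤ N n ^ (1 / 6 : ℝ) := (Real.rpow_pos_of_pos (N_pos hn) _).le
  have e : ((N n ^ (1 / 6 : ℝ) : ℝ) : ℂ) * RR i φ n = (L3 K : ℂ) * ∑ g : GG K,
      FF i φ n g (4 / 3) * (TT n * conj (E3 g (clsK (n : K))) * rr (g * clsK (n : K)) 1) := by
    rw [RR, finsum_eq_sum_of_fintype, mul_left_comm, Finset.mul_sum]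
    congr 1
    refine Finset.sum_congr rfl fun g _ => ?_
    rw [← rr_formula hn g]
    ring
  have e2 : N n ^ (1 / 6 : ℝ) * ‖RR i φ n‖ = ‖((N n ^ (1 / 6 : ℝ) : ℝ) : ℂ) * RR i φ n‖ := by
    rw [norm_mul, Complex.norm_real, Real.norm_of_nonneg hN]
  rw [e2, e, norm_mul, Complex.norm_natCast, mul_assoc]
  gcongr
  rw [← Equiv.sum_comp (Equiv.mulRight (clsK (n : K))) (fun g => ‖rr g (1 : R K)‖), Finset.mul_sum,
    Finset.sum_mul]
  refine (norm_sum_le _ _).trans (Finset.sum_le_sum fun g _ => ?_)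
  rw [norm_mul, norm_mul, norm_mul, RCLike.norm_conj, norm_E3, mul_one, Equiv.coe_mulRight,
    mul_assoc, mul_comm ‖TT n‖]
  gcongr
  exact h i φ n g hφ

end

end Vale.Agent.P319N
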