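import Vale.Agent.P319N.CD
import Vale.Agent.P319N.BRep
import Vale.Agent.P319N.BBox
import Vale.Agent.P319N.Ang
import Vale.Agent.P026.Wb

namespace Vale.Agent.P319N

open NumberField Complex MeasureTheory Filter Topology
open scoped Classical ComplexConjugate Real MatrixGroups
open Vale.Agent.P026 (omC kap psi W Hs ht QQ act uu muH hh LL Gs bb kk UU DualW)

noncomputable section

variable {K : Type} [Field K] [NumberField K] [Level K]

theorem rep_norm_le : ∃ C : ℝ, 0 < C ∧ ∀ c : K, Rep c → ‖jj c‖ ^ (2 * rk K) ≤ C * absN c := by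
  obtain ⟨D, -, hD⟩ := DD_bal (K := K)
  refine ⟨Real.exp (rk K * D), Real.exp_pos _, fun c hc => ?_⟩
  obtain ⟨σ, hσ⟩ := Finite.exists_max (fun σ : Emb K => ‖σ.1 c‖)
  have h1 : ‖jj c‖ ≤ ‖σ.1 c‖ := (pi_norm_le_iff_of_nonneg (norm_nonneg _)).2 hσ
  have h2 : (rk K : ℝ) * Lg c σ ≤ rk K * D + ∑ τ, Lg c τ := by
    have e : ∀ x : ℝ, (rk K : ℝ) * x = ∑ _τ : Emb K, x := fun x => by simp [rk]
    rw [e, e, ← Finset.sum_add_distrib]
    exact Finset.sum_le_sum fun τ _ => by linarith [(abs_le.1 (hD _ hc.2 σ τ)).2]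
  have h3 := Real.exp_le_exp.2 h2
  rw [Real.exp_add, sum_Lg hc.1, Real.exp_log (absN_pos hc.1), Real.exp_nat_mul, exp_Lg hc.1,
    Complex.normSq_eq_norm_sq, ← pow_mul] at h3
  exact (pow_le_pow_left₀ (norm_nonneg _) h1 _).trans h3

theorem crep_poly : ∃ C : ℝ, 0 < C ∧ ∀ c : K, Rep c →
    (1 + ‖jj c‖) ^ (2 * rk K) ≤ C * (1 + absN c) := by
  obtain ⟨C, hC, h⟩ := rep_norm_le (K := K)
  refine ⟨2 ^ (2 * rk K - 1) * (1 + C), by positivity, fun c hc => ?_⟩
  refine (add_pow_le zero_le_one (norm_nonneg _) _).trans ?_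
  rw [mul_assoc, one_pow]
  refine mul_le_mul_of_nonneg_left ?_ (by positivity)
  nlinarith [h c hc, bl_absN_nonneg c]

theorem summable_rep {m : K} (hm : m ≠ 0) {a : ℝ} (ha : 2 ≤ a) :
    Summable fun c : K => if Rep c ∧ IsI (m * c) then absN c ^ (-a) else 0 := by
  obtain ⟨C, hC, h⟩ := crep_poly (K := K)
  have hm0 := absN_pos hm
  refine Summable.of_nonneg_of_le (fun c => ?_) (fun c => ?_)
    ((summable_box hm).mul_left ((C * (absN m + 1)) ^ 2 * (absN m)⁻¹ ^ (2 - a)))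
  · split_ifs
    · exact Real.rpow_nonneg (bl_absN_nonneg c) _
    · exact le_rfl
  · by_cases hc : Rep c ∧ IsI (m * c)
    · rw [if_pos hc, if_pos hc.2]
      have h0 := absN_pos hc.1.1
      have h1 := one_le_absN (mul_ne_zero hm hc.1.1) hc.2
      rw [absN_mul] at h1
      have h2 : (absN m)⁻¹ ≤ absN c := by
        rw [inv_le_iff_one_le_mul₀' hm0]; exact h1
      have h3 : absN c ^ (2 - a) ≤ (absN m)⁻¹ ^ (2 - a) :=
        Real.rpow_le_rpow_of_nonpos (inv_pos.2 hm0) h2 (by linarith)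
      have h4 : (1 + ‖jj c‖) ^ (2 * rk K) ≤ C * (absN m + 1) * absN c := by
        refine (h c hc.1).trans ?_
        rw [mul_assoc]
        exact mul_le_mul_of_nonneg_left (by nlinarith) hC.le
      have h5 : (1 + ‖jj c‖) ^ (2 * rk K + 2) ≤ (C * (absN m + 1)) ^ 2 * absN c ^ 2 := by
        rw [← mul_pow]
        refine le_trans ?_ (pow_le_pow_left₀ (by positivity) h4 2)
        rw [← pow_mul]
        exact pow_le_pow_right₀ (le_add_of_nonneg_right (norm_nonneg _))
          (by have := rk_pos (K := K); omega)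
      have e : absN c ^ (-a) = absN c ^ (2 - a) / absN c ^ 2 := by
        rw [← Real.rpow_natCast, ← Real.rpow_sub h0]; congr 1; push_cast; ring
      rw [e, ← div_eq_mul_inv, div_le_div_iff₀ (by positivity) (by positivity)]
      calc absN c ^ (2 - a) * (1 + ‖jj c‖) ^ (2 * rk K + 2)
          ≤ (absN m)⁻¹ ^ (2 - a) * ((C * (absN m + 1)) ^ 2 * absN c ^ 2) :=
            mul_le_mul h3 h5 (by positivity) (by positivity)
        _ = _ := by ring
    · rw [if_neg hc]
      split_ifs <;> positivity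

theorem summable_rep_W {a : K → ℂ} (ha : PolyS a jj) (w : ℂ) {X : ℝ} (hX : 0 < X) :
    Summable fun n : K => if Rep n then a n * W w (absN n / X) else 0 := by
  obtain ⟨k, hk⟩ := ha
  obtain ⟨C, hC, h⟩ := crep_poly (K := K)
  obtain ⟨C0, hC0, h0⟩ := P026.W_le 0 |w.re|
  obtain ⟨C1, hC1, h1⟩ := P026.W_le (-(k : ℝ)) |w.re|
  refine Summable.of_norm_bounded (hk.mul_left (C ^ k * (2 ^ (k - 1) * (C0 + C1 * X ^ k))))
    fun n => ?_
  split_ifs with hn
  · have hp := absN_pos hn.1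
    have a0 := h0 w _ le_rfl (div_pos hp hX)
    have a1 := h1 w _ le_rfl (div_pos hp hX)
    rw [Real.rpow_zero, mul_one] at a0
    rw [Real.rpow_neg (div_pos hp hX).le, Real.rpow_natCast, div_pow, inv_div, ← mul_div_assoc,
      le_div_iff₀ (by positivity)] at a1
    have b1 : (1 + ‖jj n‖) ^ k ≤ C ^ k * (2 ^ (k - 1) * (1 + absN n ^ k)) := by
      have b2 : 1 + ‖jj n‖ ≤ C * (1 + absN n) :=
        (le_self_pow₀ (le_add_of_nonneg_right (norm_nonneg _))
          (by have := rk_pos (K := K); omega)).trans (h n hn)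
      refine (pow_le_pow_left₀ (by positivity) b2 k).trans ?_
      rw [mul_pow]
      refine mul_le_mul_of_nonneg_left ?_ (by positivity)
      simpa using add_pow_le zero_le_one hp.le k
    rw [norm_mul, ← mul_div_assoc, le_div_iff₀ (by positivity)]
    calc ‖a n‖ * ‖W w (absN n / X)‖ * (1 + ‖jj n‖) ^ k
        ≤ ‖a n‖ * ‖W w (absN n / X)‖ * (C ^ k * (2 ^ (k - 1) * (1 + absN n ^ k))) :=
          mul_le_mul_of_nonneg_left b1 (by positivity)
      _ = C ^ k * (2 ^ (k - 1) * (‖W w (absN n / X)‖ + ‖W w (absN n / X)‖ * absN n ^ k)) *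
          ‖a n‖ := by ring
      _ ≤ _ := by gcongr
  · rw [norm_zero]; positivity

theorem crep_Lg (k : ℕ) {n : K} (hn : n ≠ 0) :
    Lg (MK K ^ k * n) = fun σ => Lg n σ + Real.log (normSq ((Setup.M K : ℂ) ^ k)) := by
  rw [Lg_mul (pow_ne_zero _ MK_ne) hn]
  funext σ
  simp only [Pi.add_apply, Lg, map_pow, map_natCast]
  ring

theorem rep_MK (k : ℕ) (n : K) : Rep (MK K ^ k * n) ↔ Rep n := by
  have hD := (isFD_DD (K := K)).2.2.1
  constructor
  · rintro ⟨h0, h1⟩
    have hn := right_ne_zero_of_mul h0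
    refine ⟨hn, ?_⟩
    have := hD _ h1 (-Real.log (normSq ((Setup.M K : ℂ) ^ k)))
    rw [crep_Lg k hn] at this
    simpa using this
  · rintro ⟨h0, h1⟩
    refine ⟨mul_ne_zero (pow_ne_zero _ MK_ne) h0, ?_⟩
    rw [crep_Lg k h0]
    exact hD _ h1 _

theorem angK_U1 {u : Kˣ} (hu : u ∈ U1 K) : angK (u : K) = 1 := by
  obtain ⟨v, hv⟩ := mem_unitsR.1 hu.1
  have h1 : One (ee K) ((v : R K) : K) := hv ▸ hu.2.1
  rw [← hv, ← lamA_eq Level.he h1, lamA_unit v.isUnit]

theorem norm_angK_le (x : K) : ‖angK x‖ ≤ 1 := by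
  by_cases hx : x = 0
  · have := rk_pos (K := K)
    rw [rk] at this
    simp [hx, angK, zero_pow this.ne']
  · exact (norm_angK hx).le

theorem PolyS.tauOf {ρ : K → ℂ} (h : PolyS ρ jj) : PolyS (tauOf ρ) jj := by
  have := h.mul_le (f := fun n => ((absN n ^ (1 / 6 : ℝ) : ℝ) : ℂ)) (C := 1) (k := 2 * rk K)
    fun n => by
      have h1 : (1 : ℝ) ≤ (1 + ‖jj n‖) ^ (2 * rk K) :=
        one_le_pow₀ (le_add_of_nonneg_right (norm_nonneg _))
      rw [Complex.norm_real, Real.norm_of_nonneg (Real.rpow_nonneg (bl_absN_nonneg n) _), one_mul]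
      refine (Real.rpow_le_rpow (bl_absN_nonneg n) (absN_le_poly n) (by norm_num)).trans ?_
      exact Real.rpow_le_self_of_one_le h1 (by norm_num)
  convert this using 2 with n
  rw [P319N.tauOf, mul_comm]

theorem PolyS.mul_bd {a f : K → ℂ} (ha : PolyS a jj) {C : ℝ} (hf : ∀ n, ‖f n‖ ≤ C) :
    PolyS (fun n => a n * f n) jj :=
  ha.mul_le (C := C) (k := 0) fun n => by simpa using hf n

theorem PolyS.finsum {I : Type} (s : Finset I) {a : I → K → ℂ} (ha : ∀ i ∈ s, PolyS (a i) jj) :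
    PolyS (fun n => ∑ i ∈ s, a i n) jj := by
  induction s using Finset.induction_on with
  | empty => exact ⟨0, by simpa using summable_zero⟩
  | insert i s hi ih =>
    simp only [Finset.sum_insert hi]
    exact (ha i (Finset.mem_insert_self _ _)).add
      (ih fun j hj => ha j (Finset.mem_insert_of_mem hj))

end

end Vale.Agent.P319N
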