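import Vale.Agent.P319N.CAdm
import Vale.Agent.P319N.CJq

namespace Vale.Agent.P319N

open NumberField Complex MeasureTheory Filter Topology
open scoped Classical ComplexConjugate Real MatrixGroups
open Vale.Agent.P026 (omC kap psi W Hs ht QQ act uu muH hh LL Gs bb kk UU DualW)

noncomputable section

variable {K : Type} [Field K] [NumberField K] [Level K]

theorem cstr_rmul (c d : K) (σ : SLK K) :
    rmul (c, d) σ⁻¹ = (c * σ 1 1 - d * σ 1 0, d * σ 0 0 - c * σ 0 1) := by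
  obtain ⟨h1, h2, h3, h4⟩ := bg_inv σ
  simp only [rmul, h1, h2, h3, h4]
  ext <;> ring

theorem cstr_Nl {l c d c' d' : K} (h : Nl l (c, d)) (h1 : One (ee K) (c' / c))
    (h2 : d' / (c * MK K ^ ee K) ∈ A K) : Nl l (c', d') := by
  have hc : c ≠ 0 := h.ne.2
  have hc' : c' ≠ 0 := fun e => h1.ne_zero cls_he (by rw [e, zero_div])
  refine ⟨?_, ?_⟩
  · have := h1.mul h.1
    rwa [div_mul_div_cancel₀ hc] at this
  · have := (A K).mul_mem h2 (h1.inv cls_he).mem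
    convert this using 1
    have := MK_ne (K := K)
    field_simp

theorem cstr_core {l : K} {al ga de C D c1 d1 : R K} (hga : ga ≠ 0) (hC : C ≠ 0)
    (h1 : One (ee K) ((c1 : K) / l)) (e1 : C = c1 * al + d1 * ga) (e2 : c1 = C * de - D * ga)
    (hcop : IsCoprime ga c1) :
    sym3 d1 c1 = sym3 D C * (sym3 al ga * E l ga * E (ga / l) C) := by
  have hc1 : c1 ≠ 0 := cls_ne h1
  have hl : l ≠ 0 := fun e => h1.ne_zero cls_he (by rw [e, div_zero])
  have hcl := clsK_congr h1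
  have a1 : sym3 C c1 = sym3 d1 c1 * sym3 ga c1 := by
    rw [← sym3_mul_left]
    exact sym3_congr ⟨al, by rw [e1]; ring⟩
  have a2 : sym3 c1 C = sym3 D C * sym3 ga C := by
    rw [← sym3_mul_left, ← one_mul (sym3 (D * ga) C), ← sym3_neg_one C, ← sym3_mul_left]
    exact sym3_congr ⟨de, by rw [e2]; ring⟩
  have a3 : sym3 C ga = sym3 c1 ga * sym3 al ga := by
    rw [← sym3_mul_left]
    exact sym3_congr ⟨d1, by rw [e1]; ring⟩
  have b1 := sym3_flip hC hc1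
  have b2 := sym3_flip hga hC
  have b3 := sym3_flip hc1 hga
  have c1' : E (C : K) c1 = E (C : K) l := by rw [E, E, hcl]
  have c2 : E (c1 : K) ga = E l ga := by rw [E, E, hcl]
  have c3 : E ((ga : K) / l) C = E (ga : K) C * E (C : K) l := by
    rw [div_eq_mul_inv, E_mul_left (coeR_ne hga) (inv_ne_zero hl), E_inv_left, ← E_swap l (C : K)]
  have hn : sym3 ga c1 ≠ 0 := fun e => (sym3_eq_zero_iff hc1).1 e hcop
  refine mul_right_cancel₀ hn ?_
  rw [← a1, b1, a2, b2, a3, b3, c1', c2, c3]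
  ring

theorem cstr_cop {l : K} {j : ℕ} {σ : SLK K} (hσ : Ent j σ) (h10 : σ 1 0 ≠ 0) {C D : R K}
    (hC : C ≠ 0) (hcop : IsCoprime C ⟨σ 1 0, hσ.mem_R 1 0⟩)
    (hN : Nl l (rmul ((C : K), (D : K)) σ⁻¹)) :
    PhiL l (rmul ((C : K), (D : K)) σ⁻¹) = S3 (D : K) C * (kS l σ * E (σ 1 0 / l) C) := by
  obtain ⟨al, hal⟩ : ∃ x : R K, (x : K) = σ 0 0 := ⟨⟨_, hσ.mem_R 0 0⟩, rfl⟩
  obtain ⟨be, hbe⟩ : ∃ x : R K, (x : K) = σ 0 1 := ⟨⟨_, hσ.mem_R 0 1⟩, rfl⟩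
  obtain ⟨de, hde⟩ : ∃ x : R K, (x : K) = σ 1 1 := ⟨⟨_, hσ.mem_R 1 1⟩, rfl⟩
  obtain ⟨ga, hga, hga'⟩ : ∃ x : R K, (x : K) = σ 1 0 ∧ IsCoprime C x := ⟨_, rfl, hcop⟩
  have hd : al * de - be * ga = 1 := Subtype.ext (by
    push_cast
    rw [hal, hbe, hde, hga]
    exact bg_det σ)
  rw [PhiL, if_pos hN]
  rw [cstr_rmul] at hN ⊢
  have hg0 : ga ≠ 0 := fun e => h10 (by rw [← hga, e]; rfl)
  rw [← hal, ← hbe, ← hde, ← hga] at hN
  rw [kS, ← hal, ← hbe, ← hde, ← hga]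
  have h1 : ((C * de - D * ga : R K) : K) = C * de - D * ga := by push_cast; rfl
  have h2 : ((D * al - C * be : R K) : K) = D * al - C * be := by push_cast; rfl
  have hN1 := hN.1
  simp only [← h1, ← h2, S3_coe] at hN1 ⊢
  refine cstr_core (de := de) hg0 hC hN1 (by linear_combination (-C) * hd) rfl ?_
  have : IsCoprime ga (C * de) := hga'.symm.mul_right ⟨-be, al, by linear_combination hd⟩
  have := this.add_mul_left_right (-D)
  rwa [show C * de + ga * -D = C * de - D * ga by ring] at this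

theorem cstr_Lw (k : K) (σ : SLK K) : (Lw k * σ) 0 0 = σ 0 0 ∧ (Lw k * σ) 0 1 = σ 0 1 ∧
    (Lw k * σ) 1 0 = σ 1 0 + k * σ 0 0 ∧ (Lw k * σ) 1 1 = σ 1 1 + k * σ 0 1 := by
  obtain ⟨h1, h2, h3, h4⟩ := Lw_apply k
  simp only [bg_mul, h1, h2, h3, h4]
  refine ⟨?_, ?_, ?_, ?_⟩ <;> ring

theorem cstr_ent {k : K} (hk : IsI k) {j : ℕ} {σ : SLK K} (hσ : Ent j σ) : Ent j (Lw k * σ) := by
  simpa using (ent_of_Gam (Lw_mem (q := 1) hk (by simpa using hk))).mul hσ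

theorem cstr_tw (l : K) {k : K} (hk : IsI k) (σ : SLK K) :
    tw (PhiL l) (Lw k * σ) = tw (PhiL l) σ := by
  rw [tw_mul]
  congr 1
  funext x
  rw [tw, ← PhiL_Lw l hk, ← rmul_mul, inv_mul_cancel, rmul_one]

theorem tw_PhiL {l : K} (hl : l ≠ 0) {j : ℕ} {σ : SLK K} (hσ : Ent j σ) (h10 : σ 1 0 ≠ 0) {c : K}
    (hc : c ≠ 0) (d : K) : tw (PhiL l) σ (c, d) = S3 d c * (kS l σ * phS l σ (c, d)) := by
  have hM := MK_ne (K := K)
  by_cases hN : Nl l (rmul (c, d) σ⁻¹)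
  swap
  · rw [tw, PhiL, phS, if_neg hN, if_neg hN, mul_zero, mul_zero]
  rw [phS, if_pos hN]
  by_cases hR : d ∈ R K ∧ c ∈ R K
  swap
  · have h0 : S3 d c = 0 := by
      by_contra h
      exact hR (S3_ne h)
    rw [h0, zero_mul, tw, PhiL, if_pos hN]
    by_contra h
    obtain ⟨h1, h2⟩ := S3_ne h
    rw [cstr_rmul] at h1 h2
    refine hR ⟨?_, ?_⟩
    · convert (R K).add_mem ((R K).mul_mem h2 (hσ.mem_R 0 1))
        ((R K).mul_mem h1 (hσ.mem_R 1 1)) using 1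
      linear_combination (-d) * bg_det σ
    · convert (R K).add_mem ((R K).mul_mem h2 (hσ.mem_R 0 0))
        ((R K).mul_mem h1 (hσ.mem_R 1 0)) using 1
      linear_combination (-c) * bg_det σ
  lift d to R K using hR.1
  lift c to R K using hR.2
  have hC : c ≠ 0 := fun e => hc (by rw [e]; rfl)
  obtain ⟨al, hal⟩ : ∃ x : R K, (x : K) = σ 0 0 := ⟨⟨_, hσ.mem_R 0 0⟩, rfl⟩
  obtain ⟨ga, hga⟩ : ∃ x : R K, (x : K) = σ 1 0 := ⟨⟨_, hσ.mem_R 1 0⟩, rfl⟩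
  have hcop : IsCoprime ga al := ⟨-⟨_, hσ.mem_R 0 1⟩, ⟨_, hσ.mem_R 1 1⟩, Subtype.ext (by
    push_cast
    rw [hal, hga]
    linear_combination bg_det σ)⟩
  obtain ⟨k0, hk0⟩ := exists_coprime_shift hC hcop
  have hX : σ 1 0 * MK K ^ j * MK K ^ ee K ≠ 0 :=
    mul_ne_zero (mul_ne_zero h10 (pow_ne_zero _ hM)) (pow_ne_zero _ hM)
  obtain ⟨k, hk1, hk2⟩ := approx hc hX (k0 : K) 0
  rw [sub_zero] at hk2
  have hkR : k ∈ R K := by
    convert (R K).add_mem k0.2 ((R K).mul_mem c.2 hk1) using 1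
    field_simp
    ring
  have hkI : IsI k := isI_of_mem hkR (by
    convert (A K).mul_mem hk2 ((A K).mul_mem (mem_A_of_isI (hσ 1 0))
      ((A K).pow_mem MK_mem_A (ee K))) using 1
    field_simp)
  obtain ⟨e0, e1, e2, e3⟩ := cstr_Lw k σ
  have hone : One (ee K) ((Lw k * σ) 1 0 / σ 1 0) := by
    rw [One, e2]
    convert (A K).mul_mem hk2 (mem_A_of_isI (hσ 0 0)) using 1
    field_simp
    ring
  have h10' : (Lw k * σ) 1 0 ≠ 0 := fun e => hone.ne_zero cls_he (by rw [e, zero_div])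
  have hcl := clsK_congr hone
  have hN' : Nl l (rmul ((c : K), (d : K)) (Lw k * σ)⁻¹) := by
    rw [cstr_rmul] at hN
    rw [cstr_rmul, e0, e1, e2, e3]
    have h3 : _ ≠ (0 : K) := hN.ne.2
    refine cstr_Nl hN ?_ hN.2
    rw [One]
    convert (A K).neg_mem ((A K).mul_mem (mem_A_of_isI hkI) hN.2) using 1
    field_simp
    ring
  have hcop' : IsCoprime c ⟨(Lw k * σ) 1 0, (cstr_ent hkI hσ).mem_R 1 0⟩ := by
    have := hk0.add_mul_left_right (⟨_, hk1⟩ * al)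
    have e : ga + k0 * al + c * (⟨_, hk1⟩ * al) =
        ⟨(Lw k * σ) 1 0, (cstr_ent hkI hσ).mem_R 1 0⟩ := Subtype.ext (by
      push_cast
      rw [e2, hal, hga]
      field_simp
      ring)
    rwa [e] at this
  rw [← cstr_tw l hkI, tw, cstr_cop (cstr_ent hkI hσ) h10' hC hcop' hN']
  have a1 : E ((Lw k * σ) 1 0 / l) c = E (σ 1 0 / l) c := by
    rw [div_eq_mul_inv, div_eq_mul_inv, E_mul_left h10' (inv_ne_zero hl),
      E_mul_left h10 (inv_ne_zero hl), E, hcl]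
    rfl
  have a2 : E l ((Lw k * σ) 1 0) = E l (σ 1 0) := by rw [E, hcl]; rfl
  have a3 : S3 ((Lw k * σ) 0 0) ((Lw k * σ) 1 0) = S3 (σ 0 0) (σ 1 0) := by
    by_cases h0 : al = 0
    · rw [e0, e2, ← hal, h0]
      simp
    have f1 : ((ga + ⟨k, hkR⟩ * al : R K) : K) = (Lw k * σ) 1 0 := by
      rw [e2, ← hal, ← hga]
      rfl
    have hg : ga ≠ 0 := fun e => h10 (by rw [← hga, e]; rfl)
    have hg' : ga + ⟨k, hkR⟩ * al ≠ 0 := fun e => h10' (by rw [← f1, e]; rfl)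
    have f2 : sym3 (ga + ⟨k, hkR⟩ * al) al = sym3 ga al := sym3_congr ⟨⟨k, hkR⟩, by ring⟩
    rw [e0, ← f1, ← hal, ← hga, S3_coe, S3_coe, sym3_flip h0 hg, sym3_flip h0 hg', f2, f1, E,
      hcl, hga]
    rfl
  rw [kS, kS, a1, a2, a3]
theorem cstr_scl (l : K) {m : K} (hm : m ≠ 0) (c d : K) :
    Nl (l * m) (c, d) ↔ Nl l (c / m, d / m) := by
  have e1 : c / m / l = c / (l * m) := by rw [div_div, mul_comm]
  have e2 : d / m / (c / m * MK K ^ ee K) = d / (c * MK K ^ ee K) := by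
    rw [div_mul_eq_mul_div, div_div_div_cancel_right₀ hm]
  simp only [Nl, e1, e2]
theorem phS_cube (l : K) (σ : SLK K) {μ : K} (hμ : μ ≠ 0) :
    phS (l * μ ^ 3) σ = scl (μ ^ 3) (phS l σ) := by
  funext ⟨c, d⟩
  have h3 := pow_ne_zero 3 hμ
  have e1 : E (σ 1 0 / (l * μ ^ 3)) c = E (σ 1 0 / l) (c / μ ^ 3) := by
    rw [show σ 1 0 / (l * μ ^ 3) = σ 1 0 / l * μ⁻¹ ^ 3 by rw [inv_pow, ← div_div, div_eq_mul_inv],
      show c / μ ^ 3 = c * μ⁻¹ ^ 3 by rw [inv_pow, div_eq_mul_inv], E_cube_left (inv_ne_zero hμ),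
      E_cube_right (inv_ne_zero hμ)]
  have e2 : c / μ ^ 3 * σ 1 1 - d / μ ^ 3 * σ 1 0 = (c * σ 1 1 - d * σ 1 0) / μ ^ 3 := by ring
  have e3 : d / μ ^ 3 * σ 0 0 - c / μ ^ 3 * σ 0 1 = (d * σ 0 0 - c * σ 0 1) / μ ^ 3 := by ring
  simp only [phS, scl, cstr_rmul, cstr_scl l h3, e1, e2, e3]
theorem kS_cube (l : K) (σ : SLK K) {μ : K} (hμ : μ ≠ 0) : kS (l * μ ^ 3) σ = kS l σ := by
  rw [kS, kS, E_cube_left hμ]
theorem norm_kS_le (l : K) (σ : SLK K) : ‖kS l σ‖ ≤ 1 := by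
  rw [kS, norm_mul, norm_E, mul_one]
  exact norm_S3_le _ _
theorem cstr_per {l : K} {j : ℕ} {σ : SLK K} (hσ : Ent j σ) {i : ℕ} (hi : ee K + 2 * j ≤ i)
    {c d k : K} (hk : k ∈ A K) (h : Nl l (rmul (c, d) σ⁻¹)) :
    Nl l (rmul (c, d + c * MK K ^ i * k) σ⁻¹) := by
  obtain ⟨t, rfl⟩ := Nat.exists_eq_add_of_le hi
  have hM := MK_ne (K := K)
  rw [cstr_rmul] at h ⊢
  have h3 : _ ≠ (0 : K) := h.ne.2
  have h2 := h.2
  dsimp only at h2 h3
  have hA := fun a b => mem_A_of_isI (hσ a b)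
  have hp := fun n => (A K).pow_mem (MK_mem_A (K := K)) n
  have h4 : MK K ^ j * c / (c * σ 1 1 - d * σ 1 0) ∈ A K := by
    convert (A K).add_mem (hA 0 0) ((A K).mul_mem ((A K).mul_mem h2 (hp (ee K))) (hA 1 0)) using 1
    field_simp
    linear_combination (-c) * bg_det σ
  refine cstr_Nl h ?_ ?_
  · rw [One]
    convert (A K).neg_mem ((A K).mul_mem ((A K).mul_mem h4 (hA 1 0))
      ((A K).mul_mem (hp t) hk)) using 1
    field_simp
    ring
  · convert (A K).add_mem h2 ((A K).mul_mem ((A K).mul_mem h4 (hA 0 0))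
      ((A K).mul_mem (hp t) hk)) using 1
    field_simp
    ring

theorem cstr_unit {l : K} {u : Kˣ} (hu : u ∈ H1 K (ee K)) {c d : K} (h : Nl l (c, d)) :
    Nl l ((u : K) * c, (u : K) * d) := by
  have hc : c ≠ 0 := h.ne.2
  refine cstr_Nl h (by rw [mul_div_cancel_right₀ _ hc]; exact hu.1) ?_
  rw [mul_div_assoc]
  exact (A K).mul_mem hu.1.mem h.2

theorem sg_phS (l : K) {j : ℕ} {σ : SLK K} (hσ : Ent j σ) {i : ℕ} (hi : ee K + 2 * j ≤ i) :
    ∃ j', Sg i j' (phS l σ) := by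
  obtain ⟨j0, hj0⟩ := exists_mul_mem_A l
  have hM := MK_ne (K := K)
  have hA := fun a b => mem_A_of_isI (hσ a b)
  refine ⟨j0 + j, fun c d k hk => ?_, fun x hx => ?_, fun x => ?_, fun u hu x => ?_⟩
  · have : Nl l (rmul (c, d + c * MK K ^ i * k) σ⁻¹) ↔ Nl l (rmul (c, d) σ⁻¹) :=
      ⟨fun h => by
        have := cstr_per hσ hi ((A K).neg_mem hk) h
        rwa [mul_neg, add_neg_cancel_right] at this, cstr_per hσ hi hk⟩
    simp only [phS, this]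
  · obtain ⟨c, d⟩ := x
    have h : Nl l (rmul (c, d) σ⁻¹) := by
      by_contra h
      exact hx (if_neg h)
    rw [cstr_rmul] at h
    obtain ⟨hl, h3⟩ := h.ne
    have h1 := (A K).mul_mem hj0 h.1.mem
    have h2 := (A K).mul_mem h1 ((A K).mul_mem h.2 ((A K).pow_mem MK_mem_A (ee K)))
    dsimp only at h1 h2 h3 ⊢
    constructor
    · convert (A K).add_mem ((A K).mul_mem h1 (hA 0 0)) ((A K).mul_mem h2 (hA 1 0)) using 1
      field_simp
      linear_combination (-(MK K ^ (j0 + j) * c)) * bg_det σ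
    · convert (A K).add_mem ((A K).mul_mem h1 (hA 0 1)) ((A K).mul_mem h2 (hA 1 1)) using 1
      field_simp
      linear_combination (-(MK K ^ (j0 + j) * d)) * bg_det σ
  · rw [phS]
    split_ifs
    · rw [norm_E]
    · simp
  · have : Nl l (rmul ((u : K) * x.1, (u : K) * x.2) σ⁻¹) ↔ Nl l (rmul x σ⁻¹) := by
      rw [rmul_smul]
      refine ⟨fun h => ?_, fun h => cstr_unit hu h⟩
      have := cstr_unit ((H1 K (ee K)).inv_mem hu) h
      rwa [Units.inv_mul_cancel_left, Units.inv_mul_cancel_left] at this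
    have e : E (σ 1 0 / l) ((u : K) * x.1) = E (σ 1 0 / l) x.1 := by
      by_cases h0 : x.1 = 0
      · rw [h0, mul_zero]
      · rw [E_mul_right u.ne_zero h0, E_one_right hu.1, one_mul]
    simp only [phS, this, e]
theorem fac_phS {l : K} (hl : l ≠ 0) {j : ℕ} {σ : SLK K} (hσ : Ent j σ) (h10 : σ 1 0 ≠ 0) :
    Fac l σ (fun x => kS l σ * phS l σ x) := by
  intro μ hμ c d hc
  rw [tw_PhiL (mul_ne_zero hl (pow_ne_zero 3 hμ)) hσ h10 hc, kS_cube l σ hμ, phS_cube l σ hμ]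
  rfl
theorem fac_one (l : K) : Fac l 1 (ind l) := by
  intro μ hμ c d _
  simp only [tw_one, PhiL, scl, ind, cstr_scl l (pow_ne_zero 3 hμ)]
  split_ifs <;> simp
theorem exists_Fac {l : K} (hl : l ≠ 0) {j : ℕ} {σ : SLK K} (hσ : Ent j σ) :
    ∃ j' φ, Sg (ee K + 1 + 2 * j) j' φ ∧ Fac l σ φ := by
  have key : ∀ σ : SLK K, Ent j σ → σ 1 0 ≠ 0 →
      ∃ j' φ, Sg (ee K + 1 + 2 * j) j' φ ∧ Fac l σ φ := fun σ hσ h10 => by
    obtain ⟨j', h⟩ := sg_phS l hσ (i := ee K + 1 + 2 * j) (by omega)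
    exact ⟨j', _, h.const_mul (norm_kS_le l σ), fac_phS hl hσ h10⟩
  by_cases h10 : σ 1 0 = 0
  · obtain ⟨j', φ, h1, h2⟩ := key (Lw 1 * σ) (cstr_ent isIntegral_one hσ) (by
      rw [(cstr_Lw 1 σ).2.2.1, h10, zero_add, one_mul]
      intro h
      have := bg_det σ
      rw [h, h10] at this
      simp at this)
    refine ⟨j', φ, h1, fun μ hμ c d hc => ?_⟩
    rw [← h2 μ hμ c d hc, cstr_tw _ isIntegral_one]
  · exact key σ hσ h10

end

end Vale.Agent.P319N
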