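import Vale.Agent.P319N.CSer2
import Vale.Agent.P319N.CHat
import Vale.Agent.P319N.CStr
import Vale.Agent.P319N.CFac

namespace Vale.Agent.P319N

open NumberField Complex MeasureTheory Filter Topology
open scoped Classical ComplexConjugate Real MatrixGroups
open Vale.Agent.P026 (omC kap psi W Hs ht QQ act uu muH hh LL Gs bb kk UU DualW)

noncomputable section

variable {K : Type} [Field K] [NumberField K] [Level K]

theorem cres1_ent : Ent 0 (1 : SLK K) := by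
  intro a b
  fin_cases a <;> fin_cases b <;> simp [isIntegral_zero, isIntegral_one]

theorem cres1_clf : ClF (fun _ : R K => (1 : ℂ)) := ⟨fun _ _ _ => rfl, 1, fun _ => by simp⟩

theorem cres1_fin {l : K} (hl : l ≠ 0) {i : ℕ} (hi : ee K ≤ i) {n : K} (hn : DualF (ee K) n)
    (s : ℂ) (f : GG K → ℂ) :
    ∑ᶠ g : GG K, FF i (ind l) n g s * f g =
      ((sN l : ℝ) : ℂ) ^ (-s) * ((absN (MK K ^ ee K) : ℝ) : ℂ)⁻¹ * f (clsK l) := by
  rw [finsum_eq_single _ (clsK l) fun g hg => by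
    rw [FF_ind hl hi hn, if_neg (Ne.symm hg), zero_mul]]
  rw [FF_ind hl hi hn, if_pos rfl]
theorem exists_hat {l : K} (hl : l ≠ 0) : ∃ ρ, ThetaOut (qL K) (PhiH l) ρ ∧
    ∀ j σ, Ent j σ → ∀ j' φ, Sg (ee K + 1 + 2 * j) j' φ → Fac l σ φ →
      ∀ n : R K, DualF (ee K + 1 + 2 * j) (n : K) →
        IsRes (eta K) (fun s => (L3 K : ℂ) *
          ∑ᶠ g : GG K, FF (ee K + 1 + 2 * j) φ n g s * YY (fun _ => 1) g n s) (ρ σ n) := by
  have : Fintype (Lam K) := Fintype.ofFinite _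
  obtain ⟨ρ, h1, h2⟩ := hat (I := Lam K) (q := qL K) (κ := kub)
    (Φ := fun μ => PhiL (l * lo μ ^ 3)) (fun μ => adm_PhiL _) (b := fun μ => sN (lo μ))
    (fun μ => sN_pos _)
  refine ⟨ρ, ?_, fun j σ hσ j' φ hφ hF n hn => ?_⟩
  · have : PhiH l = fun x => ∑ μ : Lam K, ((sN (lo μ) ^ 4 : ℝ) : ℂ) * PhiL (l * lo μ ^ 3) x :=
      funext fun x => finsum_eq_sum_of_fintype _
    rw [this]; exact h1
  · have hm : (n : K) ∈ dualL (latt (pd (qL K) j)) := by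
      rw [pd_qL, mem_dual_iff]; exact ⟨n.2, hn⟩
    refine (h2 j σ hσ n hm).congr fun s hs => ?_
    rw [← series cres1_clf hφ hn hs, finsum_eq_sum_of_fintype]
    refine Finset.sum_congr rfl fun μ _ => ?_
    obtain ⟨j'', hs'⟩ := hφ.scl (pow_ne_zero 3 (lo_ne μ))
    rw [pd_qL, Dser_fac hs' hn (fun _ => 1) (fun c d hc => ?_)]
    rw [hF _ (lo_ne μ) c d hc]
    by_cases hcR : c ∈ R K
    · simp [extR, hcR]
    · simp [extR, S3, hcR]
/-- removing the explicit factor at the cusp at infinity -/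
theorem isRes_of_ind {χ : R K → ℂ} {l : K} (hl : l ≠ 0) {i : ℕ} (hi : ee K ≤ i) {n : R K}
    (hn : DualF (ee K) (n : K)) {r : ℂ}
    (h : IsRes (eta K) (fun s => (L3 K : ℂ) * ∑ᶠ g : GG K, FF i (ind l) n g s * YY χ g n s) r) :
    IsRes (eta K) (YY χ (clsK l) n)
      (r / ((L3 K : ℂ) * (((sN l : ℝ) : ℂ) ^ (-(4 / 3 : ℂ)) *
        ((absN (MK K ^ ee K) : ℝ) : ℂ)⁻¹))) := by
  have h1 : ((sN l : ℝ) : ℂ) ≠ 0 := by exact_mod_cast (sN_pos l).ne'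
  have h2 : ((absN (MK K ^ ee K) : ℝ) : ℂ) ≠ 0 :=
    Complex.ofReal_ne_zero.2 (absN_pos (pow_ne_zero _ MK_ne)).ne'
  have h3 : (L3 K : ℂ) ≠ 0 := by exact_mod_cast (L3_pos (K := K)).ne'
  refine IsRes.of_mul (f := fun s => (L3 K : ℂ) * (((sN l : ℝ) : ℂ) ^ (-s) *
    ((absN (MK K ^ ee K) : ℝ) : ℂ)⁻¹)) (h.congr fun s _ => ?_) ?_ ?_
  · rw [cres1_fin hl hi hn s (fun g => YY χ g n s)]; ring
  · refine Differentiable.differentiableOn ?_
    exact (((differentiable_id.neg).const_cpow (Or.inl h1)).mul_const _).const_mul _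
  · exact mul_ne_zero h3 (mul_ne_zero (by simp [h1]) (inv_ne_zero h2))
theorem YY_MK6 (χ : R K → ℂ) (g : GG K) (n : R K) :
    ∃ n' : R K, DualF (ee K) (n' : K) ∧ YY χ g n' = YY χ g n := by
  obtain ⟨k, hk⟩ := exists_dualF (ee K) (n : K)
  have hu : IsUnit (((Setup.M K : ℕ) : R K) ^ (6 * k)) :=
    (Nrm_unit Setup.Mne dvd_rfl).pow _
  refine ⟨n * ((Setup.M K : ℕ) : R K) ^ (6 * k), ?_, funext fun s => ?_⟩
  · convert hk using 1
    push_cast; ring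
  · rw [YY_unit_n χ g n hu]
    have : clsK (((((Setup.M K : ℕ) : R K) ^ (6 * k) : R K)) : K) = 1 := by
      push_cast
      rw [clsK_pow MK_ne, pow_mul, GG_pow_six, one_pow]
    rw [this, E3_one_left]; simp
theorem isRes_rr (g : GG K) (n : R K) : IsRes (eta K) (YY (fun _ => 1) g n) (rr g n) := by
  obtain ⟨l, hl, rfl⟩ := exists_clsK g
  obtain ⟨n', hn, he⟩ := YY_MK6 (fun _ => 1) (clsK l) n
  obtain ⟨ρ, -, h⟩ := exists_hat hl
  have hi : ee K ≤ ee K + 1 + 2 * 0 := by omega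
  obtain ⟨j', hj⟩ := sg_ind l hi
  have := isRes_of_ind hl hi hn (h 0 1 cres1_ent j' _ hj (fac_one l) n' (hn.mono hi))
  rw [he] at this
  exact Classical.epsilon_spec ⟨_, this⟩
theorem isRes_RR {χ : R K → ℂ} {i j : ℕ} {φ : K × K → ℂ} (hφ : Sg i j φ) (n : R K) {r : GG K → ℂ}
    (h : ∀ g, IsRes (eta K) (YY χ g n) (r g)) :
    IsRes (eta K) (fun s => (L3 K : ℂ) * ∑ᶠ g : GG K, FF i φ n g s * YY χ g n s)
      ((L3 K : ℂ) * ∑ᶠ g : GG K, FF i φ n g (4 / 3) * r g) := by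
  have : Fintype (GG K) := Fintype.ofFinite _
  refine IsRes.const_mul ?_ _
  simp only [finsum_eq_sum_of_fintype]
  exact IsRes.sum _ fun g _ => (h g).mul (FF_diff hφ _ g)
theorem exists_Hat {l : K} (hl : l ≠ 0) : ∃ ρ, Hat l ρ := by
  obtain ⟨ρ, h1, h2⟩ := exists_hat hl
  exact ⟨ρ, h1, fun j σ hσ j' φ hφ hF n hn =>
    IsRes.unique eta_pos (h2 j σ hσ j' φ hφ hF n hn) (isRes_RR hφ n fun g => isRes_rr g n)⟩
theorem Hat.one {l : K} {ρ : SLK K → K → ℂ} (h : Hat l ρ) (hl : l ≠ 0) {n : R K}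
    (hn : DualF (ee K) (n : K)) :
    ρ 1 n = (L3 K : ℂ) * (((sN l : ℝ) : ℂ) ^ (-(4 / 3 : ℂ)) *
      ((absN (MK K ^ ee K) : ℝ) : ℂ)⁻¹) * rr (clsK l) n := by
  have hi : ee K ≤ ee K + 1 + 2 * 0 := by omega
  obtain ⟨j', hj⟩ := sg_ind l hi
  rw [h.2 0 1 cres1_ent j' _ hj (fac_one l) n (hn.mono hi), RR,
    cres1_fin hl hi hn _ (fun g => rr g n)]
  ring
theorem Hat.supp {l : K} {ρ : SLK K → K → ℂ} (h : Hat l ρ) {j : ℕ} {σ : SLK K} (hσ : Ent j σ)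
    {n : K} (hn : ρ σ n ≠ 0) : n ∈ R K ∧ DualF (ee K + 1 + 2 * j) n := by
  rw [← mem_dual_iff, ← pd_qL]
  by_contra hc
  exact hn (h.1.supp j σ hσ n hc)

end

end Vale.Agent.P319N
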