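import Vale.Agent.P319N.CY2

namespace Vale.Agent.P319N

open NumberField Complex MeasureTheory Filter Topology
open scoped Classical ComplexConjugate Real MatrixGroups
open Vale.Agent.P026 (omC kap psi W Hs ht QQ act uu muH hh LL Gs bb kk UU DualW)

noncomputable section

variable {K : Type} [Field K] [NumberField K] [Level K]

theorem cy3_zero (χ : R K → ℂ) (g : GG K) (p n : R K) (s : ℂ) :
    E3 g (clsK (p : K)) ^ 0 * g3 n (p ^ 0) * (((N p : ℝ) : ℂ) ^ (-s)) ^ 0 *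
      YY χ (g * (clsK (p : K))⁻¹ ^ 0) (n * p ^ 0) s = YY χ g n s := by
  rw [show g * (clsK (p : K))⁻¹ ^ 0 = g by rw [pow_zero]; exact mul_one g]
  simp [g3_one]

theorem cy3_pow {p : R K} (hp : p ≠ 0) (a : ℕ) (s : ℂ) :
    ((N p : ℝ) : ℂ) ^ (a - 3 * s) = ((N p : ℝ) : ℂ) ^ a * (((N p : ℝ) : ℂ) ^ (-s)) ^ 3 := by
  rw [sub_eq_add_neg, cpow_add _ _ (ofReal_ne_zero.2 (N_pos hp).ne'), cpow_natCast,
    ← cpow_nat_mul]
  congr 2; push_cast; ring

theorem YY_G {p n : R K} (hp : Prime p) (hn : ¬ p ∣ n) (g : GG K) {s : ℂ} (hs : 3 < s.re) :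
    YY (fun _ => 1) g n s = YY (chp p) g n s +
      E3 g (clsK (p : K)) * g3 n p * ((N p : ℝ) : ℂ) ^ (-s) *
        YY (chp p) (g * (clsK (p : K))⁻¹) (n * p) s := by
  rw [← (YY_euler hp g n hs).tsum_eq, tsum_eq_sum (s := Finset.range 2) fun k hk => by
    have := g3_high hp hn (j := 0) (k := k) (by simp at hk; omega)
    rw [pow_zero, mul_one] at this
    simp [this], Finset.sum_range_succ, Finset.sum_range_one, cy3_zero,
    show (clsK (p : K))⁻¹ ^ 1 = (clsK (p : K))⁻¹ from pow_one _]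
  simp only [pow_one]

theorem YY_Q {p n : R K} (hp : Prime p) (hn : ¬ p ∣ n) (g : GG K) {s : ℂ} (hs : 3 < s.re) :
    YY (fun _ => 1) g (n * p ^ 2) s =
      (1 - ((N p : ℝ) : ℂ) ^ (2 - 3 * s)) * YY (chp p) g (n * p ^ 2) s := by
  have h1 := g3_dvd hp (n := n * p ^ 2) (k := 0) (((pow_dvd_pow p (by norm_num))).mul_left n)
  have h2 := g3_dvd hp (n := n * p ^ 2) (k := 1) (((pow_dvd_pow p (by norm_num))).mul_left n)
  rw [if_neg (by norm_num)] at h1 h2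
  have h3 := cy3_pow hp.ne_zero 2 s
  rw [Nat.cast_ofNat] at h3
  rw [← (YY_euler hp g _ hs).tsum_eq, tsum_eq_sum (s := Finset.range 4) fun k hk => by
    simp [g3_high hp hn (j := 2) (k := k) (by simpa using hk)], Finset.sum_range_succ,
    Finset.sum_range_succ, Finset.sum_range_succ, Finset.sum_range_one, cy3_zero, h1, h2,
    g3_sq3 hp hn, E3_cube, YY_cube_g, YY_p3 hp, h3]
  ring

theorem YY_C {p : R K} (hp : Prime p) (g : GG K) {s : ℂ} (hs : 3 < s.re) :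
    (1 - ((N p : ℝ) : ℂ) ^ (2 - 3 * s)) * YY (chp p) g 0 s =
      (1 - ((N p : ℝ) : ℂ) ^ (3 - 3 * s)) * YY (fun _ => 1) g 0 s := by
  have p0 := N_pos hp.ne_zero
  have q0 : ((N p : ℝ) : ℂ) ≠ 0 := ofReal_ne_zero.2 p0.ne'
  have h2 := cy3_pow hp.ne_zero 2 s
  have h3 := cy3_pow hp.ne_zero 3 s
  rw [Nat.cast_ofNat] at h2 h3
  have hx : ‖((N p : ℝ) : ℂ) ^ (3 - 3 * s)‖ < 1 := by
    rw [Complex.norm_cpow_eq_rpow_re_of_pos p0]
    refine Real.rpow_lt_one_of_one_lt_of_neg ?_ (by simp; linarith)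
    have : (4 : ℝ) ≤ N p := by rw [N]; exact_mod_cast four_le_Nm hp
    linarith
  have x1 : 1 - ((N p : ℝ) : ℂ) ^ (3 - 3 * s) ≠ 0 := fun h => by
    rw [← sub_eq_zero.1 h] at hx; simp at hx
  have h1 := ((mul_right_injective₀ (by norm_num : (3 : ℕ) ≠ 0)).hasSum_iff fun k hk => by
    obtain _ | k := k
    · exact absurd ⟨0, rfl⟩ hk
    · rw [g3_dvd hp (dvd_zero _), if_neg fun ⟨i, hi⟩ => hk ⟨i, hi.symm⟩]; simp).2
    (YY_euler hp g 0 hs)
  have h4 := (((hasSum_geometric_of_norm_lt_one hx).mul_left (1 - ((N p : ℝ) : ℂ)⁻¹)).add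
    (hasSum_ite_eq 0 ((N p : ℝ) : ℂ)⁻¹)).mul_right (YY (chp p) g 0 s)
  rw [h1.unique (h4.congr_fun fun i => ?_)]
  · rw [h2]
    rw [h3] at x1 ⊢
    field_simp
    ring
  · simp only [Function.comp]
    obtain _ | i := i
    · rw [mul_zero, cy3_zero]; simp
    · rw [show (clsK (p : K))⁻¹ ^ (3 * (i + 1)) = ((clsK (p : K))⁻¹ ^ (i + 1)) ^ 3 from
        pow_mul' _ _ _, YY_cube_g, pow_mul, E3_cube, zero_mul, h3,
        show p ^ (3 * (i + 1)) = p ^ (3 * i + 2 + 1) by ring_nf, g3_dvd hp (dvd_zero _),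
        if_pos ⟨i + 1, by ring⟩, if_neg (Nat.succ_ne_zero i)]
      field_simp
      ring

end

end Vale.Agent.P319N
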