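import Vale.Agent.P319N.CRes1
import Vale.Agent.P319N.CY3
import Vale.Agent.P319N.CLev

namespace Vale.Agent.P319N

open NumberField Complex MeasureTheory Filter Topology
open scoped Classical ComplexConjugate Real MatrixGroups
open Vale.Agent.P026 (omC kap psi W Hs ht QQ act uu muH hh LL Gs bb kk UU DualW)

noncomputable section

variable {K : Type} [Field K] [NumberField K] [Level K]

theorem cres2_q {p : R K} (hp : Prime p) : (4 : ℝ) ≤ N p := by
  rw [N]; exact_mod_cast four_le_Nm hp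

theorem cres2_diff {p : R K} (hp : Prime p) (a : ℂ) :
    DifferentiableOn ℂ (fun s : ℂ => 1 - ((N p : ℝ) : ℂ) ^ (a - 3 * s)) {s | 1 < s.re} :=
  ((differentiable_const _).sub (Differentiable.const_cpow (by fun_prop)
    (Or.inl (ofReal_ne_zero.2 (N_pos hp.ne_zero).ne')))).differentiableOn

theorem isRes_chp_zero {p : R K} (hp : Prime p) (g : GG K) : IsRes (eta K) (YY (chp p) g 0)
    (((N p : ℝ) : ℂ) / (((N p : ℝ) : ℂ) + 1) * rr g 0) := by
  have h4 := cres2_q hp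
  have q0 : ((N p : ℝ) : ℂ) ≠ 0 := ofReal_ne_zero.2 (by linarith)
  have q1 : ((N p : ℝ) : ℂ) + 1 ≠ 0 := by exact_mod_cast (by linarith : N p + 1 ≠ 0)
  have q2 : ((N p : ℝ) : ℂ) - 1 ≠ 0 := by exact_mod_cast (by linarith : N p - 1 ≠ 0)
  have e1 : ((N p : ℝ) : ℂ) ^ (3 - 3 * (4 / 3) : ℂ) = ((N p : ℝ) : ℂ)⁻¹ := by
    rw [← cpow_neg_one]; norm_num
  have e2 : 1 - ((N p : ℝ) : ℂ) ^ (2 - 3 * (4 / 3) : ℂ) =
      (((N p : ℝ) : ℂ) + 1) * (((N p : ℝ) : ℂ) - 1) / ((N p : ℝ) : ℂ) ^ 2 := by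
    rw [show (2 - 3 * (4 / 3) : ℂ) = -((2 : ℕ) : ℂ) by norm_num, cpow_neg, cpow_natCast]
    field_simp; ring
  have := IsRes.of_mul (f := fun s : ℂ => 1 - ((N p : ℝ) : ℂ) ^ (2 - 3 * s))
    (((isRes_rr g 0).mul (cres2_diff hp 3)).congr fun s hs => (YY_C hp g hs).symm)
    (cres2_diff hp 2) (by beta_reduce; rw [e2]; positivity)
  convert this using 1
  rw [e1, e2]
  field_simp

theorem cres2_int {p : R K} (hp : Prime p) (hI : IsI (p : K)) {l : K} (hl : l ≠ 0) {n : R K}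
    (hn : DualF (ee K) (n : K)) : IsRes (eta K) (YY (ch1 p) (clsK l) n) 0 := by
  have h4 := cres2_q hp
  have q0 : ((N p : ℝ) : ℂ) ≠ 0 := ofReal_ne_zero.2 (by linarith)
  have q1 : ((N p : ℝ) : ℂ) + 1 ≠ 0 := by exact_mod_cast (by linarith : N p + 1 ≠ 0)
  have := Fintype.ofFinite (Lam K)
  obtain ⟨ρ, hT, H⟩ := hat (I := Lam K) (fun μ => adm_lev (l * lo μ ^ 3) hp.ne_zero hI)
    (b := fun μ => sN (lo μ)) fun μ => sN_pos _
  have hpd : ∀ j, pd (qL K * p) j = MK K ^ (ee K + 1 + 2 * j) * p := fun j => by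
    rw [← pd_qL, pd, pd]; ring
  have key : ∀ (χ : R K → ℂ), ClF χ → ∀ j σ, Ent j σ → ∀ j' φ, Sg (ee K + 1 + 2 * j) j' φ →
      ∀ m : R K, DualF (ee K + 1 + 2 * j) (m : K) →
      (∀ μ s, Dser (MK K ^ (ee K + 1 + 2 * j) * p) (tw (fun x => PhiL (l * lo μ ^ 3) x * lev p x) σ)
        m s = DJ χ (ee K + 1 + 2 * j) (scl (lo μ ^ 3) φ) m s) →
      IsRes (eta K) (fun s => (L3 K : ℂ) *
        ∑ᶠ g : GG K, FF (ee K + 1 + 2 * j) φ m g s * YY χ g m s) (ρ σ m) := by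
    intro χ hχ j σ hσ j' φ hφ m hm hD
    refine (H j σ hσ m (hpd j ▸ dualL_mul ((mem_dual_iff _ _).2 ⟨m.2, hm⟩) hI
      (coeR_ne hp.ne_zero))).congr fun s hs => ?_
    rw [← series hχ hφ hm hs, finsum_eq_sum_of_fintype, hpd]
    simp only [hD]
  have z1 : ∀ g, IsRes (eta K) (YY (ch1 p) g 0) 0 := fun g => by
    have := (((isRes_rr g 0).sub (isRes_chp_zero hp g)).sub ((isRes_rr g 0).const_mul
      (1 / (((N p : ℝ) : ℂ) + 1)))).congr fun s hs => (YY_ch1 p g 0 hs).symm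
    convert this using 1
    field_simp; ring
  have z2 : ∀ g, IsRes (eta K) (YY (ch2 p) g 0) 0 := fun g => by
    have := (((isRes_chp_zero hp g).const_mul (1 / ((N p : ℝ) : ℂ))).sub ((isRes_rr g 0).const_mul
      (1 / (((N p : ℝ) : ℂ) + 1)))).congr fun s hs => (YY_ch2 p g 0 hs).symm
    convert this using 1
    field_simp; ring
  have van := hT.van (fun j σ hσ => by
    obtain ⟨j', φ, hφ, hF⟩ := exists_Fac hl hσ
    have h0 : DualF (ee K + 1 + 2 * j) ((0 : R K) : K) := dualF_zero _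
    have hs := fun μ : Lam K => (hφ.scl (pow_ne_zero 3 (lo_ne μ))).choose_spec
    by_cases h : σ 1 0 / p ∈ R K
    · simpa using (key _ (clF_ch1 p) j σ hσ j' φ hφ 0 h0 fun μ s =>
        Dser_lev1 hp hI hσ h (hs μ) h0 (hF _ (lo_ne μ)) s).unique eta_pos (isRes_RR hφ 0 z1)
    · simpa using (key _ (clF_ch2 p) j σ hσ j' φ hφ 0 h0 fun μ s =>
        Dser_lev2 hp hI hσ h (hs μ) (hF _ (lo_ne μ)) s).unique eta_pos (isRes_RR hφ 0 z2))
    0 1 ent_one n
  have hi : ee K ≤ ee K + 1 + 2 * 0 := by omega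
  obtain ⟨j', hφ⟩ := sg_ind l hi
  have := isRes_of_ind hl hi hn (key _ (clF_ch1 p) 0 1 ent_one j' _ hφ n (hn.mono hi) fun μ s =>
    Dser_lev1 hp hI ent_one (by simp) (hφ.scl (pow_ne_zero 3 (lo_ne μ))).choose_spec (hn.mono hi)
      (fac_one l _ (lo_ne μ)) s)
  rwa [van, zero_div] at this

theorem isRes_chp {p : R K} (hp : Prime p) (g : GG K) (n : R K) : IsRes (eta K) (YY (chp p) g n)
    (((N p : ℝ) : ℂ) / (((N p : ℝ) : ℂ) + 1) * rr g n) := by
  have h4 := cres2_q hp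
  have q1 : ((N p : ℝ) : ℂ) + 1 ≠ 0 := by exact_mod_cast (by linarith : N p + 1 ≠ 0)
  obtain ⟨l, hl, rfl⟩ := exists_clsK g
  obtain ⟨a, ha⟩ := p.2
  have as : Associated p (((Setup.M K : ℕ) : R K) ^ a * p) :=
    (associated_unit_mul_left p _ (isUnit_MR.pow a)).symm
  have e : ch1 (((Setup.M K : ℕ) : R K) ^ a * p) = ch1 p := by
    funext c
    simp only [ch1, chp, N, ← Nm_assoc as, ← as.dvd_iff_dvd_left]
  obtain ⟨n', hn, e2⟩ := YY_MK6 (ch1 p) (clsK l) n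
  have h1 := cres2_int (as.prime hp) (by simpa using ha) hl hn
  rw [e, e2] at h1
  have := (((isRes_rr (clsK l) n).sub ((isRes_rr (clsK l) n).const_mul
    (1 / (((N p : ℝ) : ℂ) + 1)))).sub h1).congr (D' := YY (chp p) (clsK l) n) fun s hs => by
      rw [YY_ch1 p _ n hs]; ring
  convert this using 1
  field_simp; ring

end

end Vale.Agent.P319N
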