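import Vale.Agent.P319N.CG3
import Vale.Agent.P319N.CSum
import Vale.Agent.P319N.CLev

namespace Vale.Agent.P319N

open NumberField Complex MeasureTheory Filter Topology
open scoped Classical ComplexConjugate Real MatrixGroups
open Vale.Agent.P026 (omC kap psi W Hs ht QQ act uu muH hh LL Gs bb kk UU DualW)

noncomputable section

variable {K : Type} [Field K] [NumberField K] [Level K]

theorem cy1_E3_pow (c d : GG K) (k : ℕ) : E3 c (d ^ k) = E3 c d ^ k := by
  induction k with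
  | zero => rw [pow_zero, pow_zero, E3_swap, E3_one_left, map_one]
  | succ k ih => rw [pow_succ, pow_succ, E3_mul_right, ih]

theorem cy1_E3_pow_left (c d : GG K) (k : ℕ) : E3 (c ^ k) d = E3 c d ^ k := by
  rw [E3_swap, cy1_E3_pow, map_pow, ← E3_swap]

theorem cy1_conj (c d : GG K) : E3 c d * conj (E3 c d) = 1 := by
  rw [Complex.mul_conj, Complex.normSq_eq_norm_sq, norm_E3]; simp

theorem cy1_key {x g : GG K} (h : x * g⁻¹ ∈ QG K) {u : R K} (hu : IsUnit u) :
    E3 (clsK (u : K)) x = E3 (clsK (u : K)) g := by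
  obtain ⟨v, k, e⟩ := mem_QG_iff.1 h
  have h1 : E3 (clsK (u : K)) (clsK ((v : R K) : K)) = 1 := E_units hu v.isUnit
  rw [mul_inv_eq_iff_eq_mul.1 e, E3_mul_right, E3_mul_right, h1, cy1_E3_pow, E3_cube, one_mul,
    one_mul]

theorem cy1_unit_mem {u : R K} (hu : IsUnit u) : clsK (u : K) ∈ QG K :=
  mem_QG_iff.2 ⟨hu.unit, 1, by simp⟩

theorem cy1_cube_mem (k : GG K) : k ^ 3 ∈ QG K :=
  mem_QG_iff.2 ⟨1, k, by
    rw [Units.val_one, Subring.coe_one, clsK_one]; exact (one_mul (k ^ 3)).symm⟩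

theorem cy1_mem {G : Type} [CommGroup G] (H : Subgroup G) (x g : G) {m : G} (hm : m ∈ H) :
    x * (g * m)⁻¹ ∈ H ↔ x * g⁻¹ ∈ H := by
  rw [mul_inv, ← mul_assoc]; exact H.mul_mem_cancel_right (H.inv_mem hm)

theorem trm_assoc (g : GG K) (n : R K) {c c' : R K} (hc : c ≠ 0) (h : Associated c c') (s : ℂ) :
    trm g n c s = trm g n c' s := by
  have hN : N c' = N c := by rw [N, N, Nm_assoc h]
  obtain ⟨u, rfl⟩ := h
  have e : clsK ((c * u : R K) : K) = clsK (c : K) * clsK ((u : R K) : K) := by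
    rw [Subring.coe_mul, clsK_mul (coeR_ne hc) (unit_ne u)]
  have hm := cy1_unit_mem u.isUnit
  rw [trm, trm, hN, e, mul_right_comm (clsK (c : K))]
  by_cases hq : clsK (c : K) * g⁻¹ ∈ QG K
  · rw [if_pos hq, if_pos ((QG K).mul_mem hq hm), mul_comm c, g3_unit_mul u.isUnit hc,
      sym3_unit_left u.isUnit hc, E, cy1_key hq u.isUnit, E3_mul_right, E3_swap g (clsK ((u : R K) : K))]
    linear_combination (-(E3 g (clsK (c : K)) * g3 n c * ((N c : ℝ) : ℂ) ^ (-s))) *
      cy1_conj g (clsK ((u : R K) : K))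
  · rw [if_neg hq, if_neg fun h => hq (((QG K).mul_mem_cancel_right hm).1 h)]

theorem norm_trm_le (g : GG K) (n : R K) {c : R K} (hc : c ≠ 0) (s : ℂ) :
    ‖trm g n c s‖ ≤ N c ^ (1 - s.re) := by
  have h0 := N_pos hc
  rw [trm]
  split_ifs
  · rw [norm_mul, norm_mul, norm_E3, one_mul, Complex.norm_cpow_eq_rpow_re_of_pos h0,
      sub_eq_add_neg, Real.rpow_add h0, Real.rpow_one, neg_re]
    exact mul_le_mul_of_nonneg_right (norm_g3_le n hc) (by positivity)
  · rw [norm_zero]; positivity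

theorem cy1_ne {c : MM K} (h : PrimM c) : lft c ≠ 0 := fun e => h.1 (lft_eq_zero.1 e)

theorem summable_YY {χ : R K → ℂ} (hχ : ClF χ) (g : GG K) (n : R K) {s : ℂ} (hs : 3 < s.re) :
    Summable fun c : MM K => if PrimM c then χ (lft c) * trm g n (lft c) s else 0 := by
  obtain ⟨-, B, hB⟩ := hχ
  have B0 : 0 ≤ B := (norm_nonneg _).trans (hB 0)
  refine Summable.of_norm_bounded ((summable_NM (K := K) (a := s.re - 1) (by linarith)).mul_left B)
    fun c => ?_
  split_ifs with h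
  · rw [norm_mul, neg_sub]
    exact mul_le_mul (hB _) (norm_trm_le g n (cy1_ne h) s) (norm_nonneg _) B0
  · rw [norm_zero]
    exact mul_nonneg B0 (Real.rpow_nonneg (Nat.cast_nonneg _) _)

theorem YY_unit_n (χ : R K → ℂ) (g : GG K) (n : R K) {u : R K} (hu : IsUnit u) (s : ℂ) :
    YY χ g (n * u) s = conj (E3 (clsK (u : K)) g) * YY χ g n s := by
  rw [YY, YY, ← tsum_mul_left]
  refine tsum_congr fun c => ?_
  split_ifs with h
  · rw [trm, trm]
    split_ifs with hq
    · rw [g3_unit_n hu (cy1_ne h), E, cy1_key hq hu]; ring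
    · simp
  · simp

theorem YY_unit_g (χ : R K → ℂ) (g : GG K) (n : R K) {u : R K} (hu : IsUnit u) (s : ℂ) :
    YY χ (g * clsK (u : K)) n s = E3 (clsK (u : K)) g * YY χ g n s := by
  rw [YY, YY, ← tsum_mul_left]
  refine tsum_congr fun c => ?_
  have hm : clsK (lft c : K) * (g * clsK (u : K))⁻¹ ∈ QG K ↔ clsK (lft c : K) * g⁻¹ ∈ QG K :=
    cy1_mem (QG K) _ g (cy1_unit_mem hu)
  split_ifs with h
  · rw [trm, trm]
    by_cases hq : clsK (lft c : K) * g⁻¹ ∈ QG K
    · rw [if_pos hq, if_pos (hm.2 hq), E3_mul_left, cy1_key hq hu]; ring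
    · rw [if_neg hq, if_neg fun h => hq (hm.1 h)]; simp
  · simp

theorem cy1_trm_cube (g k : GG K) (n c : R K) (s : ℂ) : trm (g * k ^ 3) n c s = trm g n c s := by
  rw [trm, trm, E3_mul_left, cy1_E3_pow_left, E3_cube, mul_one]
  exact if_congr (cy1_mem (QG K) _ g (cy1_cube_mem k)) rfl rfl

theorem YY_cube_g (χ : R K → ℂ) (g k : GG K) (n : R K) : YY χ (g * k ^ 3) n = YY χ g n := by
  funext s
  simp only [YY, cy1_trm_cube]

theorem YY_p3 {p : R K} (hp : Prime p) (g : GG K) (n : R K) :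
    YY (chp p) g (n * p ^ 3) = YY (chp p) g n := by
  funext s
  refine tsum_congr fun c => ?_
  split_ifs with h
  · rw [chp]
    split_ifs with h2
    · simp
    · rw [trm, trm, g3_cube_n (cy1_ne h) ((hp.irreducible.coprime_iff_not_dvd).2 h2)]
  · rfl

theorem cy1_one : ClF (fun _ : R K => (1 : ℂ)) := ⟨fun _ _ _ => rfl, 1, fun _ => by simp⟩

theorem cy1_chp (p : R K) : ClF (chp p) :=
  ⟨fun a b h => by simp only [chp, h.dvd_iff_dvd_right], 1, fun a => by
    rw [chp]; split_ifs <;> simp⟩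

theorem YY_ch1 (p : R K) (g : GG K) (n : R K) {s : ℂ} (hs : 3 < s.re) :
    YY (ch1 p) g n s = YY (fun _ => 1) g n s - YY (chp p) g n s -
      1 / (((N p : ℝ) : ℂ) + 1) * YY (fun _ => 1) g n s := by
  have h1 := (summable_YY cy1_one g n hs).hasSum
  have h2 := (summable_YY (cy1_chp p) g n hs).hasSum
  refine Eq.trans (tsum_congr fun c => ?_)
    ((h1.sub h2).sub (h1.mul_left (1 / (((N p : ℝ) : ℂ) + 1)))).tsum_eq
  split_ifs
  · rw [ch1]; ring
  · simp

theorem YY_ch2 (p : R K) (g : GG K) (n : R K) {s : ℂ} (hs : 3 < s.re) :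
    YY (ch2 p) g n s = 1 / ((N p : ℝ) : ℂ) * YY (chp p) g n s -
      1 / (((N p : ℝ) : ℂ) + 1) * YY (fun _ => 1) g n s := by
  have h1 := (summable_YY cy1_one g n hs).hasSum
  have h2 := (summable_YY (cy1_chp p) g n hs).hasSum
  refine Eq.trans (tsum_congr fun c => ?_) ((h2.mul_left (1 / ((N p : ℝ) : ℂ))).sub
    (h1.mul_left (1 / (((N p : ℝ) : ℂ) + 1)))).tsum_eq
  split_ifs
  · rw [ch2]; ring
  · simp

end

end Vale.Agent.P319N
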