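import Vale.Agent.P319N.CFF
import Vale.Agent.P319N.CY1
import Vale.Agent.P319N.BRep

namespace Vale.Agent.P319N

open NumberField Complex MeasureTheory Filter Topology
open scoped Classical ComplexConjugate Real MatrixGroups
open Vale.Agent.P026 (omC kap psi W Hs ht QQ act uu muH hh LL Gs bb kk UU DualW)

noncomputable section

variable {K : Type} [Field K] [NumberField K] [Level K]

theorem ZZ_congr (χ : R K → ℂ) {m m' : K} (h : One (ee K) (m' / m)) (n : R K) (s : ℂ) :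
    ZZ χ m' n s = ZZ χ m n s := by
  have h0 := h.ne_zero Level.he
  have hm : m ≠ 0 := fun e => h0 (by simp [e])
  have hm' : m' ≠ 0 := fun e => h0 (by simp [e])
  have e1 : clam m = clam m' := (clam_eq_iff hm hm').2 ⟨1, by simpa using h⟩
  unfold ZZ E
  rw [e1, clsK_congr h]

theorem cser1_bd {χ : R K → ℂ} {B : ℝ} (hB : ∀ a, ‖χ a‖ ≤ B) (m : K) (n : R K) (s : ℂ) (c : MM K) :
    ‖if PrimM c ∧ clam (lft c : K) = clam m then
      χ (lft c) * (E m (lft c) * g3 n (lft c) * ((N (lft c) : ℝ) : ℂ) ^ (-s)) else 0‖ ≤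
      B * N (lft c) ^ (-(s.re - 1)) := by
  have B0 : 0 ≤ B := (norm_nonneg _).trans (hB 0)
  have N0 : 0 ≤ N (lft c) := Nat.cast_nonneg _
  split_ifs with h
  · have h0 : lft c ≠ 0 := fun e => h.1.1 (lft_eq_zero.1 e)
    have hp := N_pos h0
    rw [norm_mul, norm_mul, norm_mul, norm_E, one_mul, Complex.norm_cpow_eq_rpow_re_of_pos hp,
      show -(s.re - 1) = 1 + (-s).re by simp; ring, Real.rpow_add hp, Real.rpow_one]
    exact mul_le_mul (hB _) (mul_le_mul_of_nonneg_right (norm_g3_le n h0) (by positivity))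
      (by positivity) B0
  · rw [norm_zero]; positivity

theorem summable_ZZ {χ : R K → ℂ} (hχ : ClF χ) (m : K) (n : R K) {s : ℂ} (hs : 3 < s.re) :
    Summable fun c : MM K => if PrimM c ∧ clam (lft c : K) = clam m then
      χ (lft c) * (E m (lft c) * g3 n (lft c) * ((N (lft c) : ℝ) : ℂ) ^ (-s)) else 0 := by
  obtain ⟨B, hB⟩ := hχ.2
  exact ((summable_NM (a := s.re - 1) (by linarith)).mul_left B).of_norm_bounded
    (cser1_bd hB m n s)

theorem norm_ZZ_le {χ : R K → ℂ} (hχ : ClF χ) {s : ℂ} (hs : 3 < s.re) :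
    ∃ C : ℝ, ∀ (m : K) (n : R K), ‖ZZ χ m n s‖ ≤ C := by
  obtain ⟨B, hB⟩ := hχ.2
  exact ⟨_, fun m n => tsum_of_norm_bounded
    ((summable_NM (a := s.re - 1) (by linarith)).mul_left B).hasSum (cser1_bd hB m n s)⟩

/-- the primary associate -/
def cser1_pr (c : R K) : MM K := if h : c ≠ 0 then (exists_primM h).choose else 0

theorem cser1_pr_spec {c : R K} (h : c ≠ 0) :
    PrimM (cser1_pr c) ∧ Associated (lft (cser1_pr c)) c := by
  rw [cser1_pr, dif_pos h]; exact (exists_primM h).choose_spec.1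

theorem cser1_pr_eq {c : R K} (h : c ≠ 0) {ν : MM K} (h1 : PrimM ν) (h2 : Associated (lft ν) c) :
    cser1_pr c = ν := (exists_primM h).unique (cser1_pr_spec h) ⟨h1, h2⟩

theorem DJ_eq {χ : R K → ℂ} (hχ : ClF χ) {i j : ℕ} {φ : K × K → ℂ} (hφ : Sg i j φ) {n : R K}
    (hn : DualF i (n : K)) {s : ℂ} (hs : 3 < s.re) :
    DJ χ i φ n s = ∑' m : Lt K,
      ((sN (lt0 m) : ℝ) : ℂ) ^ (-s) * Jq i φ n (lt0 m) * ZZ χ (lt0 m) n s := by
  obtain ⟨B, hB⟩ := hχ.2
  set F : Lt K × MM K → ℂ := fun p => ((sN (lt0 p.1) : ℝ) : ℂ) ^ (-s) * Jq i φ n (lt0 p.1) *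
    (if PrimM p.2 ∧ clam (lft p.2 : K) = clam (lt0 p.1) then χ (lft p.2) *
      (E (lt0 p.1) (lft p.2) * g3 n (lft p.2) * ((N (lft p.2) : ℝ) : ℂ) ^ (-s)) else 0) with hF
  have s1 := (summable_FF hφ (n : K) (s := s) (by linarith)).norm
  have s2 := (summable_NM (K := K) (a := s.re - 1) (by linarith)).mul_left B
  have B0 : 0 ≤ B := (norm_nonneg _).trans (hB 0)
  have sF : Summable F := by
    refine (s1.mul_of_nonneg s2 (fun _ => norm_nonneg _) fun c => ?_).of_norm_bounded fun p => ?_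
    · have : 0 ≤ N (lft c) := Nat.cast_nonneg _
      positivity
    · rw [hF]; dsimp only
      rw [norm_mul]
      exact mul_le_mul_of_nonneg_left (cser1_bd hB _ n s _) (norm_nonneg _)
  have e1 : ∑' m : Lt K, ((sN (lt0 m) : ℝ) : ℂ) ^ (-s) * Jq i φ n (lt0 m) * ZZ χ (lt0 m) n s =
      ∑' p, F p := by
    rw [sF.tsum_prod]
    refine tsum_congr fun m => ?_
    rw [ZZ, ← tsum_mul_left]
  rw [e1]
  set G : R K → ℂ := fun c => if Rep (c : K) then
    χ c * ((absN (c : K) : ℝ) : ℂ) ^ (-s) * (g3 n c * Jq i φ n c) else 0 with hG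
  have key : ∀ c : R K, Rep (c : K) → F (clt (c : K), cser1_pr c) = G c := by
    intro c hc
    have c0' : (c : K) ≠ 0 := hc.1
    have c0 : c ≠ 0 := by exact_mod_cast c0'
    obtain ⟨p1, u, hu⟩ := cser1_pr_spec c0
    set ν := cser1_pr c
    have l0 : lft ν ≠ 0 := fun e => p1.1 (lft_eq_zero.1 e)
    have l0' : (lft ν : K) ≠ 0 := by exact_mod_cast l0
    have o := one_lt0_clt c0'
    have hc' : (c : K) = ((u : R K) : K) * lft ν := by rw [← hu, Subring.coe_mul, mul_comm]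
    have cl : clam (lft ν : K) = clam (lt0 (clt (c : K))) :=
      (clam_eq_iff l0' (lt0_ne _)).2 ⟨u, by rwa [← hc']⟩
    have eE : E (lt0 (clt (c : K))) (lft ν) = E ((u : R K) : K) (lft ν) := by
      unfold E
      rw [clsK_congr o]
      change E (c : K) (lft ν) = E _ _
      rw [hc', E_mul_left (unit_ne u) l0', E_self, mul_one]
    have eg : g3 n c = E ((u : R K) : K) (lft ν) * g3 n (lft ν) := by
      rw [← hu, mul_comm (lft ν), g3_unit_mul u.isUnit l0, sym3_unit_left u.isUnit l0]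
    have eN : N (lft ν) = N c := by rw [N, N, Nm_assoc ⟨u, hu⟩]
    rw [hF, hG]; dsimp only
    rw [if_pos ⟨p1, cl⟩, if_pos hc, sN_congr Level.he o, Jq_congr hφ hn o, eE, eg, eN,
      hχ.1 _ _ ⟨u, hu⟩, absN_eq c0, Complex.ofReal_mul,
      Complex.mul_cpow_ofReal_nonneg (N_pos c0).le (sN_pos _).le]
    ring
  have hR : ∀ c : Function.support G, Rep ((c : R K) : K) := fun c => by
    by_contra h
    exact c.2 (if_neg h)
  symm
  refine tsum_eq_tsum_of_ne_zero_bij (fun c => (clt ((c : R K) : K), cser1_pr (c : R K))) ?_ ?_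
    fun c => key c (hR c)
  · intro c c' h
    obtain ⟨h1, h2⟩ := Prod.ext_iff.1 h
    dsimp only at h1 h2
    have c0' := (hR c).1
    have d0' := (hR c').1
    have c0 : (c : R K) ≠ 0 := by exact_mod_cast c0'
    have d0 : (c' : R K) ≠ 0 := by exact_mod_cast d0'
    have o := (clt_eq_iff c0' d0').1 h1
    obtain ⟨u, hu⟩ := (cser1_pr_spec c0).2.symm.trans (by rw [h2]; exact (cser1_pr_spec d0).2 : Associated (lft (cser1_pr (c : R K))) (c' : R K))
    have hu' : (((c' : R K)) : K) = ((u : R K) : K) * (c : R K) := by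
      rw [← hu, Subring.coe_mul, mul_comm]
    have hv : Units.mk0 _ (unit_ne u) ∈ U1 K := by
      refine ⟨mem_unitsR.2 ⟨u, rfl⟩, (mem_H1 Level.he).2 ?_⟩
      rw [hu', mul_div_cancel_right₀ _ c0'] at o
      exact o
    have := (exists_rep c0').unique (y₁ := ⟨_, hv⟩) (y₂ := 1)
      (by simpa [← hu'] using hR c') (by simpa using hR c)
    have h3 : ((u : R K) : K) = 1 := congrArg (fun x : U1 K => ((x : Kˣ) : K)) this
    rw [h3, one_mul] at hu'
    exact Subtype.ext (Subtype.ext hu'.symm)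
  · rintro ⟨m, ν⟩ hp
    have h1 : PrimM ν ∧ clam (lft ν : K) = clam (lt0 m) := by
      by_contra h
      exact hp (by rw [hF]; dsimp only; rw [if_neg h, mul_zero])
    have l0 : lft ν ≠ 0 := fun e => h1.1.1 (lft_eq_zero.1 e)
    have l0' : (lft ν : K) ≠ 0 := by exact_mod_cast l0
    obtain ⟨u, hu⟩ := (clam_eq_iff l0' (lt0_ne m)).1 h1.2
    obtain ⟨v, hv, -⟩ := exists_rep (mul_ne_zero (unit_ne u) l0')
    obtain ⟨v', hv'⟩ := mem_unitsR.1 v.2.1
    let c : R K := v' * (u * lft ν)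
    have hc : (c : K) = ((v : Kˣ) : K) * (((u : R K) : K) * lft ν) := by
      simp only [c, Subring.coe_mul, hv']
    have hr : Rep (c : K) := hc ▸ hv
    have c0 : c ≠ 0 := by exact_mod_cast hr.1
    have a1 : clt (c : K) = m := by
      rw [← clt_lt0 m]
      refine (clt_eq_iff hr.1 (lt0_ne m)).2 ?_
      have := hu.mul v.2.2.2
      rw [hc]
      convert this using 1
      rw [Units.val_inv_eq_inv_val]
      field_simp
    have a2 : cser1_pr c = ν := cser1_pr_eq c0 h1.1 ⟨v' * u, by simp only [c, Units.val_mul]; ring⟩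
    have a3 : G c ≠ 0 := by rw [← key c hr, a1, a2]; exact hp
    exact ⟨⟨c, a3⟩, Prod.ext a1 a2⟩

end

end Vale.Agent.P319N
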