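import Vale.Agent.P319N.CSer1

namespace Vale.Agent.P319N

open NumberField Complex MeasureTheory Filter Topology
open scoped Classical ComplexConjugate Real MatrixGroups
open Vale.Agent.P026 (omC kap psi W Hs ht QQ act uu muH hh LL Gs bb kk UU DualW)

noncomputable section

variable {K : Type} [Field K] [NumberField K] [Level K]

theorem cser2_count {G : Type} [CommGroup G] [Fintype G] (x y : G) (z : ℂ)
    [∀ μ : G, Decidable (x = y * μ ^ 3)] :
    ∑ μ : G, (if x = y * μ ^ 3 then z else 0) =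
      if ∃ μ : G, x * y⁻¹ = μ ^ 3 then (Nat.card {μ : G // μ ^ 3 = 1} : ℂ) * z else 0 := by
  split_ifs with h
  · obtain ⟨ν, hν⟩ := h
    have hx : x = y * ν ^ 3 := by rw [← hν]; simp
    rw [← Equiv.sum_comp (Equiv.mulLeft ν)]
    have : ∀ μ : G, (x = y * (Equiv.mulLeft ν μ) ^ 3) ↔ μ ^ 3 = 1 := by
      intro μ
      rw [hx, Equiv.coe_mulLeft, mul_pow, ← mul_assoc]
      constructor
      · intro h
        exact (mul_eq_left.1 h.symm)
      · intro h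
        rw [h, mul_one]
    have e : ∀ μ : G, (if x = y * (Equiv.mulLeft ν μ) ^ 3 then z else 0) =
        if μ ^ 3 = 1 then z else 0 := fun μ => if_congr (this μ) rfl rfl
    rw [Finset.sum_congr rfl fun μ _ => e μ, ← Finset.sum_filter, Finset.sum_const, nsmul_eq_mul,
      Nat.card_eq_fintype_card, Fintype.card_subtype]
  · refine Finset.sum_eq_zero fun μ _ => if_neg fun hμ => h ⟨μ, ?_⟩
    rw [hμ]; simp

theorem cser2_clam_pow {x : K} (hx : x ≠ 0) : clam (x ^ 3) = clam x ^ 3 := by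
  rw [pow_three, pow_three, clam_mul hx (mul_ne_zero hx hx), clam_mul hx hx]

theorem cser2_sN_pow {x : K} (hx : x ≠ 0) : sN (x ^ 3) = sN x ^ 3 := by
  rw [pow_three, pow_three, sN_mul hx (mul_ne_zero hx hx), sN_mul hx hx]

theorem sum_ZZ {χ : R K → ℂ} (hχ : ClF χ) {m : K} (hm : m ≠ 0) (n : R K) {s : ℂ} (hs : 3 < s.re) :
    ∑ᶠ μ : Lam K, ZZ χ (m * lo μ ^ 3) n s = (L3 K : ℂ) * YY χ (clsK m) n s := by
  letI := Fintype.ofFinite (Lam K)
  rw [finsum_eq_sum_of_fintype]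
  unfold ZZ YY
  rw [← Summable.tsum_finsetSum (fun μ _ => summable_ZZ hχ (m * lo μ ^ 3) n hs), ← tsum_mul_left]
  refine tsum_congr fun c => ?_
  by_cases hc : PrimM c
  · have hc0 : (lft c : K) ≠ 0 := by exact_mod_cast cy1_ne hc
    simp only [hc, true_and, if_true]
    have e1 : ∀ μ : Lam K, clam (m * lo μ ^ 3) = clam m * μ ^ 3 := fun μ => by
      rw [clam_mul hm (pow_ne_zero 3 (lo_ne μ)), cser2_clam_pow (lo_ne μ), clam_lo]
    simp only [e1, fun μ : Lam K => E_cube_left (x := m) (lo_ne μ) (lft c : K)]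
    refine (cser2_count (clam (lft c : K)) (clam m) _).trans ?_
    have e2 : clam ((lft c : K) * m⁻¹) = clam (lft c : K) * (clam m)⁻¹ := by
      rw [eq_mul_inv_iff_mul_eq, ← clam_mul (mul_ne_zero hc0 (inv_ne_zero hm)) hm]
      congr 1
      field_simp
    have e3 : (clsK (lft c : K) * (clsK m)⁻¹ ∈ QG K) ↔
        ∃ μ : Lam K, clam (lft c : K) * (clam m)⁻¹ = μ ^ 3 := by
      rw [← clsK_inv, ← clsK_mul hc0 (inv_ne_zero hm), mem_QG (mul_ne_zero hc0 (inv_ne_zero hm)), e2]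
    unfold trm
    by_cases h : ∃ μ : Lam K, clam (lft c : K) * (clam m)⁻¹ = μ ^ 3
    · rw [if_pos h, if_pos (e3.2 h)]; rfl
    · rw [if_neg h, if_neg (fun h' => h (e3.1 h'))]; simp
  · simp [hc]

theorem cser2_one {χ : R K → ℂ} (hχ : ClF χ) {i j : ℕ} {φ : K × K → ℂ} (hφ : Sg i j φ) {n : R K}
    (hn : DualF i (n : K)) {s : ℂ} (hs : 3 < s.re) {a : K} (ha : a ≠ 0) :
    ((sN a : ℝ) : ℂ) ^ s * DJ χ i (scl a φ) n s = ∑' m : Lt K,
      ((sN (lt0 m) : ℝ) : ℂ) ^ (-s) * Jq i φ n (lt0 m) * ZZ χ (lt0 m * a) n s := by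
  obtain ⟨j', hj'⟩ := hφ.scl ha
  rw [DJ_eq hχ hj' hn hs, ← tsum_mul_left, ← (Equiv.mulRight (clt a)).tsum_eq]
  refine tsum_congr fun m => ?_
  rw [Equiv.coe_mulRight]
  have h1 : One (ee K) (lt0 (m * clt a) / (lt0 m * a)) := by
    rw [← clt_eq_iff (mul_ne_zero (lt0_ne m) ha) (lt0_ne _), clt_mul (lt0_ne m) ha, clt_lt0,
      clt_lt0]
  have h2 : One (ee K) (lt0 (m * clt a) / a / lt0 m) := by
    rwa [div_div, mul_comm a]
  rw [Jq_scl hφ.per hn ha (lt0_ne _), Jq_congr hφ hn h2, ZZ_congr χ h1, sN_congr cls_he h1,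
    sN_mul (lt0_ne m) ha, ofReal_mul, mul_cpow_ofReal_nonneg (sN_pos _).le (sN_pos _).le]
  have h3 : ((sN a : ℝ) : ℂ) ^ s * ((sN a : ℝ) : ℂ) ^ (-s) = 1 := by
    rw [← cpow_add _ _ (ofReal_ne_zero.2 (sN_pos a).ne'), add_neg_cancel, cpow_zero]
  linear_combination (((sN (lt0 m) : ℝ) : ℂ) ^ (-s) * Jq i φ n (lt0 m) * ZZ χ (lt0 m * a) n s) * h3

theorem series {χ : R K → ℂ} (hχ : ClF χ) {i j : ℕ} {φ : K × K → ℂ} (hφ : Sg i j φ) {n : R K}
    (hn : DualF i (n : K)) {s : ℂ} (hs : 3 < s.re) :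
    ∑ᶠ μ : Lam K, ((sN (lo μ) ^ 3 : ℝ) : ℂ) ^ s * DJ χ i (scl (lo μ ^ 3) φ) n s =
      (L3 K : ℂ) * ∑ᶠ g : GG K, FF i φ n g s * YY χ g n s := by
  have hF := summable_FF hφ (n : K) (s := s) (by linarith)
  obtain ⟨C, hC⟩ := norm_ZZ_le hχ hs
  have h1 : ∀ μ : Lam K, ((sN (lo μ) ^ 3 : ℝ) : ℂ) ^ s * DJ χ i (scl (lo μ ^ 3) φ) n s =
      ∑' m : Lt K, ((sN (lt0 m) : ℝ) : ℂ) ^ (-s) * Jq i φ n (lt0 m) *
        ZZ χ (lt0 m * lo μ ^ 3) n s := fun μ => by
    rw [← cser2_sN_pow (lo_ne μ), cser2_one hχ hφ hn hs (pow_ne_zero 3 (lo_ne μ))]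
  have h2 : ∀ μ : Lam K, Summable fun m : Lt K => ((sN (lt0 m) : ℝ) : ℂ) ^ (-s) *
      Jq i φ n (lt0 m) * ZZ χ (lt0 m * lo μ ^ 3) n s := fun μ => by
    refine Summable.of_norm_bounded (hF.norm.mul_right C) fun m => ?_
    rw [norm_mul]
    exact mul_le_mul_of_nonneg_left (hC _ _) (norm_nonneg _)
  have h3 : ∀ g : GG K, Summable fun m : Lt K => (if clsK (lt0 m) = g then
      ((sN (lt0 m) : ℝ) : ℂ) ^ (-s) * Jq i φ n (lt0 m) else 0) * YY χ g n s := fun g => by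
    refine Summable.mul_right _ (Summable.of_norm_bounded hF.norm fun m => ?_)
    split_ifs
    · exact le_rfl
    · rw [norm_zero]; exact norm_nonneg _
  letI := Fintype.ofFinite (Lam K)
  letI := Fintype.ofFinite (GG K)
  simp only [h1]
  rw [finsum_eq_sum_of_fintype, finsum_eq_sum_of_fintype,
    ← Summable.tsum_finsetSum (fun μ _ => h2 μ)]
  unfold FF
  simp only [← tsum_mul_right]
  rw [← Summable.tsum_finsetSum (fun g _ => h3 g), ← tsum_mul_left]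
  refine tsum_congr fun m => ?_
  rw [← Finset.mul_sum, ← finsum_eq_sum_of_fintype, sum_ZZ hχ (lt0_ne m) n hs]
  simp only [ite_mul, zero_mul, Finset.sum_ite_eq, Finset.mem_univ, if_true]
  ring

end

end Vale.Agent.P319N
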