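import Vale.Agent.P319N.CRep
import Vale.Agent.P319N.CRel
import Vale.Agent.P319N.BVor
import Vale.Agent.P319N.BVorU

namespace Vale.Agent.P319N

open NumberField Complex MeasureTheory Filter Topology
open scoped Classical ComplexConjugate Real MatrixGroups
open Vale.Agent.P026 (omC kap psi W Hs ht QQ act uu muH hh LL Gs bb kk UU DualW)

noncomputable section

variable {K : Type} [Field K] [NumberField K] [Level K]

theorem cva_perm {U : Subgroup Kˣ} {T : Finset Kˣ} (hT : CosetReps U T) {f : Kˣ → ℂ}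
    (hf : ∀ v ∈ U, ∀ t, f (v * t) = f t) {u : Kˣ} (hu : u ∈ U1 K) :
    ∑ t ∈ T, f (t * u) = ∑ t ∈ T, f t := by
  choose g hg hg' using fun t : T => (hT.2.2 (t * u) (mul_mem (hT.2.1 t t.2) hu)).exists
  have inj : Function.Injective fun t : T => (⟨g t, hg t⟩ : T) := fun s t h => by
    have e : g s = g t := congrArg Subtype.val h
    have h1 := mul_mem (hg' s) (inv_mem (hg' t))
    rw [e, show (s : Kˣ) * u * (g t)⁻¹ * ((t : Kˣ) * u * (g t)⁻¹)⁻¹ = s * (t : Kˣ)⁻¹ by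
      simp only [mul_inv_rev, inv_inv, mul_assoc, inv_mul_cancel_left, mul_inv_cancel_left]] at h1
    exact Subtype.ext ((hT.2.2 s (hT.2.1 s s.2)).unique ⟨s.2, by simp⟩ ⟨t.2, h1⟩)
  rw [← Finset.sum_coe_sort T, ← Finset.sum_coe_sort T f,
    ← (Equiv.ofBijective _ (Finite.injective_iff_bijective.1 inj)).sum_comp fun t : T => f t]
  refine Finset.sum_congr rfl fun t _ => ?_
  rw [Equiv.ofBijective_apply, ← hf _ (hg' t) (g t), inv_mul_cancel_right]

theorem vor_avg {w : ℂ} {Wst : ℝ → ℂ} (hV : VorU K w Wst) {U : Subgroup Kˣ} {T : Finset Kˣ}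
    (hT : CosetReps U T) {a a' : K → ℂ} {η : ℂ} {Cc : Emb K → ℝ} (hC : ∀ σ, 0 < Cc σ)
    (h0 : a 0 = 0) (h0' : a' 0 = 0) (hu : ∀ u ∈ U, ∀ n, a ((u : K) * n) = a n)
    (hu' : ∀ u ∈ U, ∀ n, a' ((u : K) * n) = a' n) (hp : PolyS a jj) (hp' : PolyS a' jj)
    (h : VorId a a' η Cc) {X : ℝ} (hX : 0 < X) :
    ∑' n : K, (if Rep n then (∑ t ∈ T, a ((t : K) * n)) * W w (absN n / X) else 0) =
      η * ((X / ∏ σ, Cc σ : ℝ) : ℂ) * ∑' n : K, (if Rep n then
        (∑ t ∈ T, a' (((t⁻¹ : Kˣ) : K) * n)) * Wst (absN n * X / (∏ σ, Cc σ) ^ 2) else 0) := by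
  have p1 := fun (t : Kˣ) (_ : t ∈ T) => hp.comp_mul t.ne_zero
  have p2 := fun (t : Kˣ) (_ : t ∈ T) => hp'.comp_mul (t⁻¹).ne_zero
  have key := VorId.sum T (fun _ => 1) hC p1 p2 fun t ht => h.unit (hT.2.1 t ht)
  simp only [one_mul] at key
  refine hV _ _ η Cc hC (by simp [h0]) (by simp [h0']) (fun u hu1 n => ?_) (fun u hu1 n => ?_)
    (PolyS.finsum T p1) (PolyS.finsum T p2) key X hX
  · simpa only [Units.val_mul, mul_assoc] using cva_perm hT (f := fun t => a ((t : K) * n))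
      (fun v hv t => by simp only [Units.val_mul, mul_assoc, hu v hv]) hu1
  · have := cva_perm hT (f := fun t => a' (((t⁻¹ : Kˣ) : K) * n))
      (fun v hv t => by
        simp only [mul_inv, Units.val_mul, mul_assoc, hu' _ (inv_mem hv)]) (inv_mem hu1)
    simpa only [mul_inv, inv_inv, Units.val_mul, mul_assoc] using this

theorem cva_ext_le {f : R K → ℂ} (hf : ∀ y, ‖f y‖ ≤ 1) (n : K) : ‖extR f n‖ ≤ 1 := by
  unfold extR
  split_ifs
  · exact hf _
  · simp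

theorem polyS_aa {l : K} {ρ : SLK K → K → ℂ} (hρ : Hat l ρ) (ξ z : K) (h : R K) :
    PolyS (aa (ρ 1) ξ z h) jj :=
  ((((hρ.1.polyS qL_ne ent_one).tauOf.mul_bd norm_angK_le).mul_bd
    fun n => (norm_psiF (n * ξ)).le).mul_bd fun n => (norm_psiS (n * z)).le).mul_bd
      (cva_ext_le fun y => by
        rw [norm_pow]; exact pow_le_one₀ (norm_nonneg _) (norm_chi6_le _ _))

theorem aa_zero (ρ : K → ℂ) (ξ z : K) (h : R K) : aa ρ ξ z h 0 = 0 := by
  simp [aa, angK]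

theorem cva_ext {u : Kˣ} (hu : u ∈ unitsR K) {f : R K → ℂ}
    (hf : ∀ v : R K, IsUnit v → (v : K) = u → ∀ y, f (v * y) = f y) (n : K) :
    extR f ((u : K) * n) = extR f n := by
  by_cases hn : n ∈ R K
  · obtain ⟨v, hv⟩ := mem_unitsR.1 hu
    lift n to R K using hn
    rw [← hv, ← Subring.coe_mul, extR_coe, extR_coe, hf v v.isUnit hv]
  · rw [extR_of_not f hn, extR_of_not f fun c => hn ?_]
    simpa using (R K).mul_mem hu.2 c

theorem aa_unit {l : K} {ρ : SLK K → K → ℂ} (hρ : Hat l ρ) {ξ : K} {j : ℕ}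
    (hξ : MK K ^ j * ξ ∈ A K) {u : Kˣ} (hu : u ∈ Uj K (ee K + 1 + j)) {x q : R K} (hq : q ≠ 0)
    (h1 : ((u : K) - 1) / q ∈ R K) (h : R K) (n : K) :
    aa (ρ 1) ξ ((x : K) / q) h ((u : K) * n) = aa (ρ 1) ξ ((x : K) / q) h n := by
  have o1 : One (ee K) (u : K) := hu.2.1.mono (by omega)
  have hu1 : u ∈ U1 K := ⟨hu.1, (mem_H1 Level.he).2 o1⟩
  have e1 : tauOf (ρ 1) ((u : K) * n) = tauOf (ρ 1) n := by
    rw [tauOf, tauOf, absN_mul, U1_absN hu1, one_mul, hρ.unit hu1]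
  by_cases h0 : ρ 1 n = 0
  · rw [aa, aa, e1, tauOf, h0]
    simp
  obtain ⟨hR, hD⟩ := hρ.supp ent_one h0
  have e2 : psiF ((u : K) * n * ξ) = psiF (n * ξ) := by
    rw [mul_comm (u : K), mul_assoc]
    refine hD.psiF_congr ?_
    have := (A K).mul_mem hu.2.1 hξ
    have hM := MK_ne (K := K)
    convert this using 1
    rw [pow_add _ _ j]
    field_simp
  have e3 : psiS ((u : K) * n * ((x : K) / q)) = psiS (n * ((x : K) / q)) := by
    refine psiS_eq_of_R ?_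
    convert (R K).mul_mem ((R K).mul_mem h1 hR) x.2 using 1
    ring
  rw [aa, aa, e1, e2, e3, angK_mul, angK_U1 hu1, one_mul, cva_ext hu.1 fun v hv e y => by
    rw [chi6_mul_left, chi6_triv hv (e ▸ clsK_one_of o1), one_mul]]

theorem sym2_U1 {u : Kˣ} (hu : u ∈ U1 K) {h : R K} (hh : h ≠ 0) (n : K) :
    extR (fun y => sym2 y h) ((u : K) * n) = extR (fun y => sym2 y h) n :=
  cva_ext hu.1 (fun v hv e y => by
    rw [sym2_mul_left, ← chi6_cube v hh, chi6_triv hv (e ▸ clsK_one_of hu.2.1), one_pow,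
      one_mul]) n

theorem TT_U1 {u : Kˣ} (hu : u ∈ U1 K) (n : K) : extR TT ((u : K) * n) = extR TT n :=
  cva_ext hu.1 (fun v hv e y => by
    by_cases hy : y = 0
    · rw [hy, mul_zero]
    · rw [TT_unit hv hy, e, E_one_left hu.2.1, map_one, one_mul]) n

end

end Vale.Agent.P319N
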