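import Vale.Agent.P319N.CD
import Vale.Agent.P319N.ADualB
import Vale.Agent.P026.VorLS

namespace Vale.Agent.P319N

open NumberField Complex MeasureTheory Filter Topology
open scoped Classical ComplexConjugate Real MatrixGroups
open Vale.Agent.P026 (omC kap psi W Hs ht QQ act uu muH hh LL Gs bb kk UU DualW)

noncomputable section

theorem cvab_dyad {O : Type} [CommMonoidWithZero O] [UniqueFactorizationMonoid O] [Ab.Ar O]
    {g : O → ℝ} (hg : ∀ h, 0 ≤ g h) {D H : ℝ} (hD : 0 ≤ D)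
    (hb : ∀ H', 0 < H' → H' ≤ H → ∑ h ∈ Ab.ballN O H', g h ≤ D * H' ^ 3) (k : ℕ) :
    ∀ H', 0 < H' → H' ≤ H → H' < 2 ^ k →
      ∑ h ∈ Ab.ballN O H', g h / Ab.N h ^ 2 ≤ 8 * D * H' := by
  induction k with
  | zero =>
    intro H' h0 _ h2
    rw [Ab.ballN, Ab.ballO_eq_empty (by simpa using h2)]
    simp only [Finset.filter_empty, Finset.sum_empty]
    positivity
  | succ k ih =>
    intro H' h0 h1 h2
    have a := ih (H' / 2) (by positivity) (by linarith) (by rw [pow_succ] at h2; linarith)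
    rw [← Finset.sum_sdiff (Ab.ballN_mono (show H' / 2 ≤ H' by linarith))]
    have b : ∑ h ∈ Ab.ballN O H' \ Ab.ballN O (H' / 2), g h / Ab.N h ^ 2 ≤
        ∑ h ∈ Ab.ballN O H', g h / (H' / 2) ^ 2 := by
      refine (Finset.sum_le_sum fun h hh => ?_).trans (Finset.sum_le_sum_of_subset_of_nonneg
        Finset.sdiff_subset fun h _ _ => by have := hg h; positivity)
      obtain ⟨c, d⟩ := Finset.mem_sdiff.1 hh
      have e : H' / 2 < Ab.N h := lt_of_not_ge fun e =>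
        d (Ab.mem_ballN.2 ⟨(Ab.mem_ballN.1 c).1, e⟩)
      exact div_le_div_of_nonneg_left (hg h) (by positivity) (pow_le_pow_left₀ (by positivity) e.le 2)
    rw [← Finset.sum_div] at b
    have c : (∑ h ∈ Ab.ballN O H', g h) / (H' / 2) ^ 2 ≤ 4 * D * H' := by
      rw [div_le_iff₀ (by positivity)]
      exact (hb H' h0 h1).trans (le_of_eq (by ring))
    linarith

theorem vorls_abs {O : Type} [CommMonoidWithZero O] [UniqueFactorizationMonoid O] [Ab.Ar O]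
    {ι : Type} {sg : ι → ℝ} (hs : Ab.SIdx ι sg) {K1 K2 Bd : ℝ} (h1 : 0 < K1) (h2 : 0 ≤ K2)
    (hB : 0 ≤ Bd) {ε : ℝ} (hε : 0 < ε) :
    ∃ C : ℝ, 0 ≤ C ∧ ∀ (Z X H c m Mw : ℝ) (τ θ : ι → O → ℂ) (Wst : ℝ → ℂ) (S : Finset O)
      (F : O → ℂ), 1 ≤ X → X ≤ Z → 0 < H → H ≤ Z → 1 ≤ c → c ≤ m → m ≤ Z → Ab.DCoef sg τ Bd →
      (∀ i n, ‖θ i n‖ ≤ 1) → DualW Wst Mw → S ⊆ Ab.ballN O H →
      (∀ h ∈ S, ‖F h‖ ≤ K2 * X / (c * Ab.N h) * ‖∑' p : ι × O, τ p.1 p.2 * θ p.1 p.2 *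
        Ab.sym2 p.2 h * Wst (sg p.1 * Ab.N p.2 / (K1 * c ^ 2 / X * Ab.N h ^ 2))‖) →
      ∑ h ∈ S, ‖F h‖ ^ 2 ≤ C * Mw ^ 2 * Z ^ ε * X * QB H m X := by
  obtain ⟨C1, p1, d1⟩ := Ab.dualB (O := O) hs (ε := ε / 4) (by positivity)
  obtain ⟨K3, k1, k2⟩ : ∃ K3 : ℝ, 1 ≤ K3 ∧ K1 ≤ K3 := ⟨_, le_max_left _ _, le_max_right _ _⟩
  refine ⟨K2 ^ 2 * K1 * (8 * (C1 * Bd * K3 ^ (ε / 4)) * K3 ^ (8 / 5 : ℝ)), by positivity,
    fun Z X H c m Mw τ θ Wst S F X1 XZ H0 HZ c1 c2 MZ hτ hθ hW hS hF => ?_⟩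
  have X0 : 0 < X := by linarith
  have Z1 : 1 ≤ Z := X1.trans XZ
  have m1 : 1 ≤ m := c1.trans c2
  set T := K1 * c ^ 2 / X with hT
  have T0 : 0 < T := by positivity
  have T1 : T * H ^ 2 ≤ K3 * (H ^ 2 * m ^ 2 / X) := by
    rw [hT, div_mul_eq_mul_div, ← mul_div_assoc, mul_assoc, mul_comm (c ^ 2)]
    gcongr
  have T2 : T * H ^ 2 ≤ K3 * Z ^ 4 := by
    refine T1.trans (mul_le_mul_of_nonneg_left ((div_le_self (by positivity) X1).trans ?_)
      (by positivity))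
    rw [show Z ^ 4 = Z ^ 2 * Z ^ 2 by ring]
    gcongr
  have Z4 : Z ≤ K3 * Z ^ 4 :=
    (le_self_pow₀ Z1 (by norm_num)).trans (le_mul_of_one_le_left (by positivity) k1)
  set g : O → ℝ := fun h => ‖∑' p : ι × O, τ p.1 p.2 * θ p.1 p.2 *
    Ab.sym2 p.2 h * Wst (sg p.1 * Ab.N p.2 / (T * Ab.N h ^ 2))‖ ^ 2 with hg
  set L := C1 * Bd * (K3 * Z ^ 4) ^ (ε / 4) * Mw ^ 2 with hL
  set Q' := H ^ (8 / 7 : ℝ) + (T * H ^ 2) ^ (8 / 5 : ℝ) with hQ'
  obtain ⟨k, hk⟩ := pow_unbounded_of_one_lt H (one_lt_two (α := ℝ))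
  have d := cvab_dyad (g := g) (fun _ => by positivity) (D := L * T * Q' / H) (H := H)
    (by positivity) (fun H' a1 a2 => by
      have r1 : H' / H ≤ 1 := (div_le_one H0).2 a2
      have r2 : T * H' ^ 2 ≤ T * H ^ 2 * (H' / H) := by
        rw [show T * H ^ 2 * (H' / H) = T * (H * H') by field_simp]
        gcongr; nlinarith
      have b := d1 _ H' T Bd _ τ θ Wst (Z1.trans Z4) a1 ((a2.trans HZ).trans Z4) T0
        ((r2.trans (mul_le_of_le_one_right (by positivity) r1)).trans T2) hB hτ hθ hW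
      refine b.trans ?_
      have q1 := P026.vorls_rp H0.le (by positivity) r1 (show (1 : ℝ) ≤ 8 / 7 by norm_num)
      have q2 := (Real.rpow_le_rpow (by positivity) r2 (by norm_num)).trans
        (P026.vorls_rp (x := T * H ^ 2) (by positivity) (by positivity) r1
          (show (1 : ℝ) ≤ 8 / 5 by norm_num))
      rw [mul_div_cancel₀ _ H0.ne'] at q1
      refine (mul_le_mul_of_nonneg_left (add_le_add q1 q2) (by positivity)).trans (le_of_eq ?_)
      rw [hQ', ← hL]; field_simp) k H H0 le_rfl hk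
  have e : ∀ h ∈ S, ‖F h‖ ^ 2 ≤ K2 ^ 2 * K1 * (X / T) * (g h / Ab.N h ^ 2) := fun h hh => by
    have := Ab.N_pos (Ab.mem_ballN.1 (hS hh)).1.ne_zero
    refine (pow_le_pow_left₀ (norm_nonneg _) (hF h hh) 2).trans (le_of_eq ?_)
    rw [mul_pow]
    change _ * g h = _
    rw [hT]
    field_simp
  refine (Finset.sum_le_sum e).trans ?_
  rw [← Finset.mul_sum]
  refine (mul_le_mul_of_nonneg_left ((Finset.sum_le_sum_of_subset_of_nonneg
    hS fun _ _ _ => by positivity).trans d) (by positivity)).trans ?_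
  have q : Q' ≤ K3 ^ (8 / 5 : ℝ) * QB H m X := by
    rw [QB, hQ', mul_add, ← Real.mul_rpow (by positivity) (by positivity)]
    exact add_le_add (le_mul_of_one_le_left (by positivity)
      (Real.one_le_rpow k1 (by norm_num)))
      (Real.rpow_le_rpow (by positivity) T1 (by norm_num))
  have eL : L = C1 * Bd * K3 ^ (ε / 4) * Mw ^ 2 * Z ^ ε := by
    rw [hL, Real.mul_rpow (by positivity) (by positivity), ← Real.rpow_natCast Z,
      ← Real.rpow_mul (by positivity)]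
    push_cast
    ring_nf
  calc K2 ^ 2 * K1 * (X / T) * (8 * (L * T * Q' / H) * H) = K2 ^ 2 * K1 * (8 * L * X * Q') := by
        field_simp
    _ ≤ K2 ^ 2 * K1 * (8 * L * X * (K3 ^ (8 / 5 : ℝ) * QB H m X)) := by gcongr
    _ = _ := by rw [eL]; ring

end

end Vale.Agent.P319N
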