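import Vale.Agent.P319N.CRel

namespace Vale.Agent.P319N

open NumberField Complex MeasureTheory Filter Topology
open scoped Classical ComplexConjugate Real MatrixGroups
open Vale.Agent.P026 (omC kap psi W Hs ht QQ act uu muH hh LL Gs bb kk UU DualW)

noncomputable section

variable {K : Type} [Field K] [NumberField K] [Level K]

theorem cvb_one {u z : K} (hu : One (ee K) u) : One (ee K) (u * z) ↔ One (ee K) z := by
  refine ⟨fun h => ?_, fun h => hu.mul h⟩
  have := (hu.inv cls_he).mul h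
  rwa [inv_mul_cancel_left₀ (hu.ne_zero cls_he)] at this

theorem cvb_mul {ξ v y : K} {j : ℕ} (hξ : MK K ^ j * ξ ∈ A K) (hv : One (ee K + j) v)
    (h : (y + ξ) / MK K ^ ee K ∈ A K) : (v * y + ξ) / MK K ^ ee K ∈ A K := by
  have hM := MK_ne (K := K)
  have : (v * y + ξ) / MK K ^ ee K =
      v * ((y + ξ) / MK K ^ ee K) - (v - 1) / MK K ^ (ee K + j) * (MK K ^ j * ξ) := by
    field_simp; ring
  rw [this]
  exact (A K).sub_mem ((A K).mul_mem hv.mem h) ((A K).mul_mem hv hξ)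

theorem cvb_iff {ξ v y : K} {j : ℕ} (hξ : MK K ^ j * ξ ∈ A K) (hv : One (ee K + j) v) :
    (v * y + ξ) / MK K ^ ee K ∈ A K ↔ (y + ξ) / MK K ^ ee K ∈ A K := by
  have h1 : 1 ≤ ee K + j := le_add_right cls_he
  refine ⟨fun h => ?_, cvb_mul hξ hv⟩
  have := cvb_mul hξ (hv.inv h1) h
  rwa [inv_mul_cancel_left₀ (hv.ne_zero h1)] at this

theorem cvb_up {i j : ℕ} (h : i ≤ j) {x : K} (hx : MK K ^ i * x ∈ A K) : MK K ^ j * x ∈ A K := by
  obtain ⟨k, rfl⟩ := Nat.exists_eq_add_of_le h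
  have : MK K ^ (i + k) * x = MK K ^ k * (MK K ^ i * x) := by ring
  rw [this]
  exact (A K).mul_mem ((A K).pow_mem MK_mem_A k) hx

theorem phS_eq {l : K} {γ : SLK K} (hc : γ 1 0 ≠ 0) : phS l γ =
    fun x => ph0 l (γ 1 0) (γ 0 0 / γ 1 0) (x.1, x.2 - x.1 * (γ 1 1 / γ 1 0)) := by
  funext x
  obtain ⟨i1, i2, i3, i4⟩ := bg_inv γ
  have hdet := bg_det γ
  have e1 : (rmul x γ⁻¹).1 = -(γ 1 0 * (x.2 - x.1 * (γ 1 1 / γ 1 0))) := by
    simp only [rmul, i1, i3]; field_simp; ring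
  have e2 : (rmul x γ⁻¹).2 = x.1 / γ 1 0 + γ 0 0 * (x.2 - x.1 * (γ 1 1 / γ 1 0)) := by
    simp only [rmul, i2, i4]; field_simp; linear_combination x.1 * hdet
  unfold phS ph0
  refine if_congr ?_ rfl rfl
  unfold Nl
  rw [e1, e2]
  generalize x.2 - x.1 * (γ 1 1 / γ 1 0) = D
  refine and_congr_right fun h => ?_
  have hD : D ≠ 0 := by
    rintro rfl
    exact h.ne_zero cls_he (by simp)
  have hM := MK_ne (K := K)
  have : (x.1 / γ 1 0 + γ 0 0 * D) / (-(γ 1 0 * D) * MK K ^ ee K) =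
      -((x.1 / (γ 1 0 ^ 2 * D) + γ 0 0 / γ 1 0) / MK K ^ ee K) := by field_simp
  rw [this]
  exact neg_mem_iff

theorem ph0_congr (l : K) {c c' ξ ξ' : K} {j : ℕ} (hξ : MK K ^ j * ξ ∈ A K)
    (hc : One (ee K + j) (c' / c)) (h : (ξ' - ξ) / MK K ^ ee K ∈ A K) :
    ph0 l c' ξ' = ph0 l c ξ := by
  have h1 : 1 ≤ ee K + j := le_add_right cls_he
  have hu := hc.ne_zero h1
  have hc0 : c ≠ 0 := by
    rintro rfl
    exact hu (by simp)
  obtain ⟨u, rfl⟩ : ∃ u, c' = u * c := ⟨c' / c, by field_simp⟩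
  rw [mul_div_cancel_right₀ _ hc0] at hc hu
  have he : One (ee K) u := hc.mono (Nat.le_add_right _ _)
  funext x
  unfold ph0
  have e1 : -(u * c * x.2) / l = u * (-(c * x.2) / l) := by ring
  have e2 : (x.1 / ((u * c) ^ 2 * x.2) + ξ') / MK K ^ ee K =
      ((u ^ 2)⁻¹ * (x.1 / (c ^ 2 * x.2)) + ξ) / MK K ^ ee K + (ξ' - ξ) / MK K ^ ee K := by ring
  refine if_ctx_congr ?_ (fun hx => ?_) fun _ => rfl
  · rw [e1, e2, cvb_one he, add_mem_cancel_right h, cvb_iff hξ ((hc.pow 2).inv h1)]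
  have hl : l ≠ 0 := by
    rintro rfl
    exact hx.1.ne_zero cls_he (by simp)
  rw [mul_div_assoc, E_mul_left hu (div_ne_zero hc0 hl), E_one_left he, one_mul]

theorem ph0_dil (l c : K) {ξ : K} {j : ℕ} (hξ : MK K ^ j * ξ ∈ A K) {u : K}
    (hu : One (ee K + j) u) (x : K × K) : ph0 l c ξ (x.1, u * x.2) = ph0 l c ξ x := by
  have h1 : 1 ≤ ee K + j := le_add_right cls_he
  unfold ph0
  have e1 : -(c * (u * x.2)) / l = u * (-(c * x.2) / l) := by ring
  have e2 : x.1 / (c ^ 2 * (u * x.2)) = u⁻¹ * (x.1 / (c ^ 2 * x.2)) := by ring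
  simp only [e1, e2, cvb_one (hu.mono (Nat.le_add_right _ _)), cvb_iff hξ (hu.inv h1)]

theorem cvb_ne {l c ξ : K} {x : K × K} (h : ph0 l c ξ x ≠ 0) :
    One (ee K) (-(c * x.2) / l) ∧ (x.1 / (c ^ 2 * x.2) + ξ) / MK K ^ ee K ∈ A K := by
  by_contra h'
  exact h (if_neg h')

theorem sg_ph0 (l : K) {c : K} (hc : c ≠ 0) (ξ : K) :
    ∃ i0 j', ∀ i, i0 ≤ i → Sg i j' (ph0 l c ξ) := by
  obtain ⟨j0, h0⟩ := exists_mul_mem_A ξ
  obtain ⟨j1, h1⟩ := exists_mul_mem_A (c ^ 2)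
  obtain ⟨j2, h2⟩ := exists_mul_mem_A (l / c)
  have hM := MK_ne (K := K)
  have k0 : ∀ x : K × K, ph0 l c ξ x ≠ 0 →
      x.2 ≠ 0 ∧ MK K ^ j2 * x.2 ∈ A K ∧ MK K ^ (j0 + j1) * (x.1 / x.2) ∈ A K := by
    intro x hx
    obtain ⟨a1, a2⟩ := cvb_ne hx
    have b := a1.ne_zero cls_he
    have hl : l ≠ 0 := by
      rintro rfl
      exact b (by simp)
    have hD : x.2 ≠ 0 := fun h => b (by simp [h])
    refine ⟨hD, ?_, ?_⟩
    · have : MK K ^ j2 * x.2 = -(MK K ^ j2 * (l / c) * (-(c * x.2) / l)) := by field_simp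
      rw [this]
      exact (A K).neg_mem ((A K).mul_mem h2 a1.mem)
    · have : MK K ^ (j0 + j1) * (x.1 / x.2) = MK K ^ j1 * c ^ 2 *
          (MK K ^ (j0 + ee K) * ((x.1 / (c ^ 2 * x.2) + ξ) / MK K ^ ee K) - MK K ^ j0 * ξ) := by
        field_simp; ring
      rw [this]
      exact (A K).mul_mem h1 ((A K).sub_mem ((A K).mul_mem ((A K).pow_mem MK_mem_A _) a2) h0)
  refine ⟨ee K + j0 + (j0 + j1), j0 + j1 + j2, fun i hi => ⟨?_, ?_, ?_, ?_⟩⟩
  · have key : ∀ C D k : K, k ∈ A K → ph0 l c ξ (C, D) ≠ 0 →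
        ph0 l c ξ (C, D + C * MK K ^ i * k) = ph0 l c ξ (C, D) := by
      intro C D k hk hx
      obtain ⟨hD, -, b⟩ := k0 _ hx
      obtain ⟨m, rfl⟩ := Nat.exists_eq_add_of_le hi
      simp only at hD b
      have hu : One (ee K + j0) (1 + C / D * MK K ^ (ee K + j0 + (j0 + j1) + m) * k) := by
        have : (1 + C / D * MK K ^ (ee K + j0 + (j0 + j1) + m) * k - 1) / MK K ^ (ee K + j0) =
            MK K ^ (j0 + j1) * (C / D) * (MK K ^ m * k) := by field_simp; ring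
        unfold One
        rw [this]
        exact (A K).mul_mem b ((A K).mul_mem ((A K).pow_mem MK_mem_A _) hk)
      rw [← ph0_dil l c h0 hu (C, D)]
      congr 2
      field_simp
    intro C D k hk
    by_cases hx : ph0 l c ξ (C, D) = 0
    · by_contra hy
      have := key C (D + C * MK K ^ i * k) (-k) ((A K).neg_mem hk) (by rwa [hx] at hy)
      rw [show D + C * MK K ^ i * k + C * MK K ^ i * -k = D by ring] at this
      exact hy this.symm
    · exact key C D k hk hx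
  · intro x hx
    obtain ⟨hD, a, b⟩ := k0 x hx
    refine ⟨?_, cvb_up (by omega) a⟩
    have : MK K ^ (j0 + j1 + j2) * x.1 = MK K ^ (j0 + j1) * (x.1 / x.2) * (MK K ^ j2 * x.2) := by
      field_simp; ring
    rw [this]
    exact (A K).mul_mem b a
  · intro x
    unfold ph0
    split_ifs
    · exact (norm_E _ _).le
    · simp
  · intro u hu x
    have e1 : -(c * (u * x.2)) / l = u * (-(c * x.2) / l) := by ring
    have e2 : u * x.1 / (c ^ 2 * (u * x.2)) = x.1 / (c ^ 2 * x.2) := by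
      rw [mul_left_comm, mul_div_mul_left _ _ u.ne_zero]
    have e3 : E (c / l) (u * x.1) = E (c / l) x.1 := by
      by_cases h : x.1 = 0
      · rw [h, mul_zero]
      · rw [E_mul_right u.ne_zero h, E_one_right hu.1, one_mul]
    unfold ph0
    simp only [e1, e2, e3, cvb_one hu.1]

theorem cvb_RR {i : ℕ} {φ ψ : K × K → ℂ} {n m : R K} {z : ℂ}
    (h : ∀ g, FF i φ n g (4 / 3) * rr g n = z * (FF i ψ m g (4 / 3) * rr g m)) :
    RR i φ n = z * RR i ψ m := by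
  have := Fintype.ofFinite (GG K)
  unfold RR
  rw [finsum_eq_sum_of_fintype, finsum_eq_sum_of_fintype, Finset.sum_congr rfl fun g _ => h g,
    ← Finset.mul_sum]
  ring

theorem Hat.cusp {l : K} {ρ : SLK K → K → ℂ} (h : Hat l ρ) (hl : l ≠ 0) {j : ℕ} {γ : SLK K}
    (hγ : Ent j γ) (hc : γ 1 0 ≠ 0) (n : K) :
    ρ γ n * psiK (-(n * γ 1 1 / γ 1 0)) = kS l γ *
      extR (Bf (ee K + 1 + 2 * j) l (γ 1 0) (γ 0 0 / γ 1 0)) n * psiS (-(n * γ 1 1 / γ 1 0)) := by
  by_cases hn : n ∈ R K ∧ DualF (ee K + 1 + 2 * j) n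
  · obtain ⟨h1, h2⟩ := hn
    lift n to R K using h1
    obtain ⟨j', hs⟩ := sg_phS l hγ (i := ee K + 1 + 2 * j) (by omega)
    have hP : PerS (ee K + 1 + 2 * j) (ph0 l (γ 1 0) (γ 0 0 / γ 1 0)) := by
      intro C D k hk
      have := hs.per C (D + C * (γ 1 1 / γ 1 0)) k hk
      rw [phS_eq hc] at this
      simp only [add_sub_cancel_right] at this
      rw [← this]
      congr 2
      ring
    rw [h.2 j γ hγ j' _ (hs.const_mul (norm_kS_le l γ)) (fac_phS hl hγ hc) n h2, extR_coe, Bf,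
      if_pos h2, cvb_RR (ψ := ph0 l (γ 1 0) (γ 0 0 / γ 1 0)) (m := n)
        (z := kS l γ * psiF (n * (γ 1 1 / γ 1 0))) fun g => by
          rw [FF_const_mul, phS_eq hc, FF_shift hP h2]; ring, psiK_eq_mul, ← mul_div_assoc]
    have e : psiF ((n : K) * γ 1 1 / γ 1 0) * psiF (-((n : K) * γ 1 1 / γ 1 0)) = 1 := by
      rw [← psiF_add, add_neg_cancel, psiF_zero]
    linear_combination kS l γ * RR (ee K + 1 + 2 * j) (ph0 l (γ 1 0) (γ 0 0 / γ 1 0)) n *
      psiS (-((n : K) * γ 1 1 / γ 1 0)) * e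
  · have e1 : ρ γ n = 0 := by
      by_contra h0
      exact hn (h.supp hγ h0)
    have e2 : extR (Bf (ee K + 1 + 2 * j) l (γ 1 0) (γ 0 0 / γ 1 0)) n = 0 := by
      by_cases h1 : n ∈ R K
      · lift n to R K using h1
        rw [extR_coe, Bf, if_neg fun h2 => hn ⟨n.2, h2⟩]
      · exact extR_of_not _ h1
    rw [e1, e2]
    simp

theorem ad_unit {i j' j : ℕ} {l c ξ : K} (h : Sg i j' (ph0 l c ξ)) (hξ : MK K ^ j * ξ ∈ A K)
    {u : Kˣ} (hu : u ∈ Uj K (ee K + j)) {d q : R K} (hq : q ≠ 0) (h1 : ((u : K) - 1) / q ∈ R K)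
    (n : K) : ad i l c ξ ((d : K) / q) ((u : K) * n) = ad i l c ξ ((d : K) / q) n := by
  have hU : u ∈ U1 K := ⟨hu.1, hu.2.1.mono (Nat.le_add_right _ _), hu.2.2.mono (Nat.le_add_right _ _)⟩
  have hA : u ∈ unitsA K := (Uj_le _ hu).2
  unfold ad
  rw [absN_mul, U1_absN hU, one_mul, angK_mul, angK_U1 hU, one_mul]
  by_cases hn : n ∈ R K
  · lift n to R K using hn
    obtain ⟨v, hv⟩ := mem_unitsR.1 hu.1
    have e0 : (u : K) * n = ((n * v : R K) : K) := by rw [← hv]; push_cast; ring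
    have e1 : psiS (-((u : K) * n * (d / q))) = psiS (-((n : K) * (d / q))) := by
      apply psiS_eq_of_R
      have : -((u : K) * n * (d / q)) - -((n : K) * (d / q)) = -((u - 1) / q * (n * d)) := by ring
      rw [this]
      exact (R K).neg_mem ((R K).mul_mem h1 ((R K).mul_mem n.2 d.2))
    have e2 : Bf i l c ξ (n * v) = Bf i l c ξ n := by
      unfold Bf
      rw [← e0]
      by_cases hD : DualF i (n : K)
      · rw [if_pos hD, if_pos (hD.mul_A hA.1), cvb_RR (ψ := ph0 l c ξ) (m := n) (z := 1), one_mul]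
        intro g
        rw [← e0, FF_dil h.per hD hA (ph0_dil l c hξ hu.2.1), rr_unit_n g n v.isUnit, hv,
          clsK_one_of hU.2.1, E3_one_left]
        simp
      · rw [if_neg hD, if_neg fun h2 => hD ?_]
        simpa using h2.mul_A hA.2
    rw [e1, e0, extR_coe, extR_coe, e2]
  · have hn' : (u : K) * n ∉ R K := fun h2 => hn (by simpa using (R K).mul_mem hu.1.2 h2)
    rw [extR_of_not _ hn, extR_of_not _ hn']
    simp

theorem ad_bound (i j' : ℕ) : ∃ (k : ℕ) (C : ℝ), 0 ≤ C ∧ ∀ l c ξ z : K, Sg i j' (ph0 l c ξ) →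
    (∀ n, ad i l c ξ z n ≠ 0 → n ∈ R K ∧ MK K ^ k * n ∈ A K) ∧
    ∀ n : R K, n ≠ 0 →
      ‖ad i l c ξ z n‖ ≤ C * sN (MK K ^ k * n) ^ (1 / 6 : ℝ) * ‖TT n‖ := by
  obtain ⟨k, hk⟩ := DualF.exists_mem (K := K) i
  obtain ⟨C, hC, hb⟩ := norm_RR_le (K := K) j'
  refine ⟨k, C, hC, fun l c ξ z h => ⟨fun n hn => ?_, fun n hn => ?_⟩⟩
  · have h1 : extR (Bf i l c ξ) n ≠ 0 := fun h0 => hn (by simp [ad, h0])
    have h2 : n ∈ R K := by
      by_contra h2
      exact h1 (extR_of_not _ h2)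
    lift n to R K using h2
    refine ⟨n.2, hk _ ?_⟩
    by_contra h3
    exact h1 (by rw [extR_coe, Bf, if_neg h3])
  · have hK := coeR_ne hn
    have hM : MK K ^ k ≠ 0 := pow_ne_zero _ MK_ne
    have p1 := sN_pos (MK K ^ k * n)
    have p2 := sN_pos (n : K)
    have p3 := N_pos hn
    unfold ad
    rw [extR_coe, Bf]
    split_ifs
    · have e1 : sN (n : K) ^ (1 / 6 : ℝ) ≤ sN (MK K ^ k * n) ^ (1 / 6 : ℝ) := by
        apply Real.rpow_le_rpow p2.le _ (by norm_num)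
        rw [sN_mul hM hK]
        exact le_mul_of_one_le_left p2.le (one_le_sN hM ((A K).pow_mem MK_mem_A _))
      rw [norm_mul, norm_mul, norm_mul, norm_psiS, RCLike.norm_conj, norm_angK hK, mul_one, mul_one,
        Complex.norm_real, absN_eq hn, Real.mul_rpow p3.le p2.le,
        Real.norm_of_nonneg (by positivity)]
      calc _ = sN (n : K) ^ (1 / 6 : ℝ) * (N n ^ (1 / 6 : ℝ) * ‖RR i (ph0 l c ξ) n‖) := by ring
        _ ≤ sN (MK K ^ k * n) ^ (1 / 6 : ℝ) * (C * ‖TT n‖) :=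
          mul_le_mul e1 (hb i _ n h hn) (by positivity) (by positivity)
        _ = _ := by ring
    · simp only [mul_zero, zero_mul, norm_zero]
      positivity

theorem cvb_TT {n : R K} (hn : n ≠ 0) : ‖TT n‖ ≤ N n := by
  by_cases h : TT n = 0
  · rw [h, norm_zero]
    exact (N_pos hn).le
  · obtain ⟨y, d, hy, hd, rfl⟩ := TT_ne h
    have h1 := one_le_N hd
    have h2 := one_le_N hy.ne_zero
    rw [TT_eq hy hd, norm_mul, RCLike.norm_conj, norm_gt3 hy, one_mul, Complex.norm_real,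
      Real.norm_of_nonneg (Real.sqrt_nonneg _), pow_succ, pow_two, N_mul, N_mul, N_mul]
    calc √(N d) ≤ N d := Real.sqrt_le_iff.2 ⟨by linarith, by nlinarith⟩
      _ ≤ N y * (N d * N d * N d) := by
        have h3 : 1 ≤ N y * (N d * N d) := one_le_mul_of_one_le_of_one_le h2
          (one_le_mul_of_one_le_of_one_le h1 h1)
        nlinarith

theorem polyS_ad {i j' : ℕ} {l c ξ : K} (h : Sg i j' (ph0 l c ξ)) (z : K) :
    PolyS (ad i l c ξ z) jj := by
  obtain ⟨k, C, hC, hb⟩ := ad_bound (K := K) i j'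
  obtain ⟨h1, h2⟩ := hb l c ξ z h
  have hM : MK K ^ k ≠ 0 := pow_ne_zero _ MK_ne
  have p0 := sN_pos (MK K ^ k)
  refine polyS_of_le hM (fun n hn => isI_of_mem
    ((R K).mul_mem (mem_R_of_isI (bg_MK k)) (h1 n hn).1) (h1 n hn).2)
    (C := C * sN (MK K ^ k)) (k := 2 * rk K) fun n => ?_
  by_cases hn : ad i l c ξ z n = 0
  · rw [hn, norm_zero]
    positivity
  · obtain ⟨a, b⟩ := h1 n hn
    lift n to R K using a
    have h0 : n ≠ 0 := by
      rintro rfl
      exact hn (by simp [ad, absN])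
    have hK := coeR_ne h0
    have p1 := one_le_sN (mul_ne_zero hM hK) b
    have p2 := N_pos h0
    calc _ ≤ C * sN (MK K ^ k * n) ^ (1 / 6 : ℝ) * ‖TT n‖ := h2 n h0
      _ ≤ C * sN (MK K ^ k * n) * N n := by
        gcongr
        · exact Real.rpow_le_self_of_one_le p1 (by norm_num)
        · exact cvb_TT h0
      _ = C * sN (MK K ^ k) * absN (n : K) := by rw [sN_mul hM hK, absN_eq h0]; ring
      _ ≤ _ := by
        gcongr
        exact absN_le_poly _

end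

end Vale.Agent.P319N
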