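import Vale.Agent.P319N.CAdm

namespace Vale.Agent.P319N

open NumberField Complex MeasureTheory Filter Topology
open scoped Classical ComplexConjugate Real MatrixGroups
open Vale.Agent.P026 (omC kap psi W Hs ht QQ act uu muH hh LL Gs bb kk UU DualW)

noncomputable section

variable {K : Type} [Field K] [NumberField K] [Level K]

theorem cvc_up {i j : ℕ} (h : i ≤ j) {x : K} (hx : MK K ^ i * x ∈ A K) : MK K ^ j * x ∈ A K := by
  obtain ⟨k, rfl⟩ := Nat.exists_eq_add_of_le h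
  have : MK K ^ (i + k) * x = MK K ^ k * (MK K ^ i * x) := by ring
  rw [this]
  exact (A K).mul_mem ((A K).pow_mem MK_mem_A k) hx

theorem cvc_isI {j : ℕ} {x : K} (h1 : x ∈ R K) (h2 : MK K ^ j * x ∈ A K) : IsI (MK K ^ j * x) :=
  isI_of_mem ((R K).mul_mem (mem_R_of_isI (bg_MK j)) h1) h2

theorem exists_cusp {lc : K} (hlc : lc ≠ 0) (ξ : K) : ∃ j : ℕ, ∀ a c : R K, IsCoprime a c →
    One (ee K) ((c : K) / lc) → ∃ (γ : SLK K) (a' d : R K), Ent j γ ∧ γ 1 0 = c ∧ γ 0 0 = a' ∧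
      γ 1 1 = d ∧ c ∣ a' - a ∧ c ∣ a' * d - 1 ∧
      ((a' : K) / c - ξ) / MK K ^ (ee K + 1) ∈ A K := by
  obtain ⟨j0, h0⟩ := exists_mul_mem_A ξ
  obtain ⟨j1, h1⟩ := exists_mul_mem_A lc
  obtain ⟨j2, h2⟩ := exists_mul_mem_A lc⁻¹
  refine ⟨j0 + j1 + j2, fun a c hac hc => ?_⟩
  have hc0 : c ≠ 0 := cls_ne hc
  have hcK : (c : K) ≠ 0 := coeR_ne hc0
  have hM : MK K ^ (ee K + 1) ≠ 0 := pow_ne_zero _ MK_ne
  obtain ⟨z, hz1, hz2⟩ := approx (one_ne_zero (α := K)) hM ((a : K) / c) ξ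
  rw [div_one] at hz1
  set r : R K := ⟨_, hz1⟩ with hr
  have hrK : (r : K) = z - a / c := rfl
  have ha' : ((a + c * r : R K) : K) = c * z := by
    push_cast; rw [hrK]; field_simp; ring
  obtain ⟨u, v, huv⟩ := hac.add_mul_left_left r
  obtain ⟨d, hd1, hd2⟩ := approx hcK (one_ne_zero (α := K)) (u : K) 0
  rw [sub_zero, div_one] at hd2
  set t : R K := ⟨_, hd1⟩ with ht
  have htK : (t : K) = (d - u) / c := rfl
  have hd' : ((u + c * t : R K) : K) = d := by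
    push_cast; rw [htK]; field_simp; ring
  have hdet : (a + c * r) * (u + c * t) - ((a + c * r) * t - v) * c = 1 := by
    linear_combination huv
  have hdetK : ((a + c * r : R K) : K) * (u + c * t : R K) -
      (((a + c * r) * t - v : R K) : K) * c = 1 := by exact_mod_cast congrArg Subtype.val hdet
  have hzA : MK K ^ j0 * z ∈ A K := by
    have : MK K ^ j0 * z = MK K ^ j0 * ξ +
        MK K ^ j0 * (MK K ^ (ee K + 1) * ((z - ξ) / MK K ^ (ee K + 1))) := by field_simp; ring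
    rw [this]
    exact (A K).add_mem h0 ((A K).mul_mem ((A K).pow_mem MK_mem_A _)
      ((A K).mul_mem ((A K).pow_mem MK_mem_A _) hz2))
  have hcA : MK K ^ j1 * c ∈ A K := by
    have : MK K ^ j1 * c = MK K ^ j1 * lc * (c / lc) := by field_simp
    rw [this]
    exact (A K).mul_mem h1 hc.mem
  have hcA' : MK K ^ j2 * (c : K)⁻¹ ∈ A K := by
    have : MK K ^ j2 * (c : K)⁻¹ = MK K ^ j2 * lc⁻¹ * (c / lc)⁻¹ := by field_simp
    rw [this]
    exact (A K).mul_mem h2 (hc.inv cls_he).mem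
  refine ⟨⟨!![((a + c * r : R K) : K), (((a + c * r) * t - v : R K) : K);
      (c : K), ((u + c * t : R K) : K)], by rw [Matrix.det_fin_two_of]; exact hdetK⟩,
    a + c * r, u + c * t, ?_, rfl, rfl, rfl, ⟨r, by ring⟩,
    ⟨(a + c * r) * t - v, by linear_combination hdet⟩, ?_⟩
  · intro i k
    fin_cases i <;> fin_cases k
    · refine cvc_isI (a + c * r).2 (cvc_up (i := j0 + j1) (by omega) ?_)
      show MK K ^ (j0 + j1) * ((a + c * r : R K) : K) ∈ A K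
      have : MK K ^ (j0 + j1) * ((a + c * r : R K) : K) = (MK K ^ j0 * z) * (MK K ^ j1 * c) := by
        rw [ha']; ring
      rw [this]
      exact (A K).mul_mem hzA hcA
    · refine cvc_isI ((a + c * r) * t - v).2 (cvc_up (i := j0 + j2) (by omega) ?_)
      show MK K ^ (j0 + j2) * (((a + c * r) * t - v : R K) : K) ∈ A K
      have e : (((a + c * r) * t - v : R K) : K) = z * d - (c : K)⁻¹ := by
        rw [ha', hd'] at hdetK
        field_simp
        linear_combination -hdetK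
      have : MK K ^ (j0 + j2) * (z * d - (c : K)⁻¹) =
          MK K ^ j2 * (MK K ^ j0 * z) * d - MK K ^ j0 * (MK K ^ j2 * (c : K)⁻¹) := by ring
      rw [e, this]
      exact (A K).sub_mem ((A K).mul_mem ((A K).mul_mem ((A K).pow_mem MK_mem_A _) hzA) hd2)
        ((A K).mul_mem ((A K).pow_mem MK_mem_A _) hcA')
    · exact cvc_isI c.2 (cvc_up (i := j1) (by omega) hcA)
    · refine cvc_isI (u + c * t).2 (cvc_up (i := 0) (by omega) ?_)
      show MK K ^ 0 * ((u + c * t : R K) : K) ∈ A K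
      rw [hd', pow_zero, one_mul]
      exact hd2
  · rw [ha', mul_div_cancel_left₀ _ hcK]
    exact hz2

theorem exists_frac {j : ℕ} {Λ : Finset K}
    (hΛ : ∀ y : R K, y ≠ 0 → ∃ y' : R K, Associated y' y ∧ ∃ la ∈ Λ, One j ((y' : K) / la))
    {M0 : R K} (hM : M0 ≠ 0) (x : R K) : ∃ x' c : R K, c ≠ 0 ∧ c ∣ M0 ∧ IsCoprime x' c ∧
      (x : K) / M0 = x' / c ∧ ∃ la ∈ Λ, One j ((c : K) / la) := by
  obtain ⟨x1, hx1⟩ := IsBezout.gcd_dvd_left x M0
  obtain ⟨c1, hc1⟩ := IsBezout.gcd_dvd_right x M0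
  obtain ⟨a, b, hab⟩ := IsBezout.gcd_eq_sum x M0
  generalize IsBezout.gcd x M0 = g at hx1 hc1 hab
  have hg : g ≠ 0 := by
    rintro rfl
    exact hM (by simpa using hc1)
  have hc0 : c1 ≠ 0 := by
    rintro rfl
    exact hM (by simpa using hc1)
  have h1 : a * x1 + b * c1 = 1 := by
    apply mul_left_cancel₀ hg
    rw [hx1, hc1] at hab
    linear_combination hab
  obtain ⟨y, ⟨u, hu⟩, hla⟩ := hΛ c1 hc0
  have hy : y ≠ 0 := by
    rintro rfl
    exact hc0 (by simpa using hu.symm)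
  have hu1 : ((u⁻¹ : (R K)ˣ) : R K) * u = 1 := u.inv_mul
  refine ⟨x1 * (u⁻¹ : (R K)ˣ), y, hy, ⟨g * u, by rw [hc1, ← hu]; ring⟩,
    ⟨a * u, b * u, ?_⟩, ?_, hla⟩
  · rw [← hu] at h1
    linear_combination h1 + a * x1 * hu1
  · have e1 := coeR_ne hg
    have e2 := coeR_ne hy
    have e3 := unit_ne u
    have e4 : (((u⁻¹ : (R K)ˣ) : R K) : K) * ((u : R K) : K) = 1 := by
      exact_mod_cast congrArg Subtype.val hu1
    rw [hx1, hc1, ← hu]
    push_cast
    rw [eq_inv_of_mul_eq_one_left e4]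
    field_simp

theorem cvc_rad (x y s : R K) : s ≠ 0 → (∀ p, Prime p → p ∣ s → p ∣ x - y) →
    chi6 x s = chi6 y s := by
  refine UniqueFactorizationMonoid.induction_on_prime s (fun h => absurd rfl h)
    (fun u hu _ _ => by rw [chi6_unit_right _ hu, chi6_unit_right _ hu]) ?_
  intro a p ha hp ih _ h
  rw [chi6_mul_right _ hp.ne_zero ha, chi6_mul_right _ hp.ne_zero ha,
    chi6_congr (h p hp (dvd_mul_right _ _)), ih ha fun q hq hqa => h q hq (hqa.mul_left _)]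

theorem chi6_per_rad {s M0 : R K} (hs : ∃ j : ℕ, s ∣ M0 ^ j) (hM : M0 ≠ 0) :
    Per M0 (fun x => chi6 x s ^ 5) := by
  obtain ⟨j, hj⟩ := hs
  intro x y hxy
  have hs0 : s ≠ 0 := by
    rintro rfl
    exact pow_ne_zero j hM (zero_dvd_iff.1 hj)
  show chi6 x s ^ 5 = chi6 y s ^ 5
  rw [cvc_rad x y s hs0 fun p hp hps => (hp.dvd_of_dvd_pow (hps.trans hj)).trans hxy]

theorem cvc_reps {G : Type} [CommGroup G] {U H : Subgroup G} (h : U.relIndex H ≠ 0) :
    ∃ T : Finset G, (∀ t ∈ T, t ∈ H) ∧ ∀ u ∈ H, ∃! t, t ∈ T ∧ u * t⁻¹ ∈ U := by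
  haveI : Finite (H ⧸ U.subgroupOf H) := Nat.finite_of_card_ne_zero h
  haveI := Fintype.ofFinite (H ⧸ U.subgroupOf H)
  refine ⟨Finset.univ.image fun q : H ⧸ U.subgroupOf H => (q.out : G), ?_, ?_⟩
  · intro t ht
    obtain ⟨q, -, rfl⟩ := Finset.mem_image.1 ht
    exact q.out.2
  · intro u hu
    have key : ∀ q : H ⧸ U.subgroupOf H, u * (q.out : G)⁻¹ ∈ U ↔
        q = QuotientGroup.mk (⟨u, hu⟩ : H) := fun q => by
      conv_rhs => rw [← QuotientGroup.out_eq' q]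
      rw [QuotientGroup.eq, Subgroup.mem_subgroupOf, mul_comm]
      rfl
    refine ⟨((QuotientGroup.mk (⟨u, hu⟩ : H) : H ⧸ U.subgroupOf H).out : G),
      ⟨Finset.mem_image.2 ⟨_, Finset.mem_univ _, rfl⟩, (key _).2 rfl⟩, ?_⟩
    rintro t ⟨ht, h2⟩
    obtain ⟨q, -, rfl⟩ := Finset.mem_image.1 ht
    rw [(key q).1 h2]

theorem exists_cosetReps {M0 : R K} (hM : M0 ≠ 0) {j : ℕ} (hj : ee K ≤ j) :
    ∃ (U : Subgroup Kˣ) (T : Finset Kˣ), CosetReps U T ∧ T.Nonempty ∧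
      ∀ u ∈ U, u ∈ Uj K j ∧ ((u : K) - 1) / M0 ∈ R K := by
  haveI := finite_quot hM
  let ψ : (R K)ˣ →* Kˣ := Units.map (R K).subtype.toMonoidHom
  let φ : (R K)ˣ →* (R K ⧸ Ideal.span {M0})ˣ :=
    Units.map (Ideal.Quotient.mk (Ideal.span {M0})).toMonoidHom
  have hψ : Function.Injective ψ := Units.map_injective Subtype.val_injective
  have hV : (φ.ker.map ψ).relIndex ((⊤ : Subgroup (R K)ˣ).map ψ) ≠ 0 := by
    rw [Subgroup.relIndex_map_map_of_injective _ _ hψ, Subgroup.relIndex_top_right]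
    exact Subgroup.FiniteIndex.index_ne_zero
  have hle : U1 K ≤ (⊤ : Subgroup (R K)ˣ).map ψ := fun u hu => by
    obtain ⟨v, hv⟩ := mem_unitsR.1 hu.1
    exact ⟨v, trivial, Units.ext hv⟩
  have hI : (Uj K j ⊓ φ.ker.map ψ).relIndex (U1 K) ≠ 0 :=
    Subgroup.relIndex_inf_ne_zero
      (fun h => Uj_index j (Subgroup.relIndex_eq_zero_of_le_right (Uj_le _) h))
      (fun h => hV (Subgroup.relIndex_eq_zero_of_le_right hle h))
  obtain ⟨T, hT1, hT2⟩ := cvc_reps hI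
  refine ⟨Uj K j ⊓ φ.ker.map ψ, T, ⟨fun u hu => ⟨hu.1.1, hu.1.2.1.mono hj, hu.1.2.2.mono hj⟩,
    hT1, hT2⟩, ?_, ?_⟩
  · obtain ⟨t, ht, -⟩ := hT2 1 (U1 K).one_mem
    exact ⟨t, ht.1⟩
  · rintro u ⟨h1, v, hv, rfl⟩
    refine ⟨h1, ?_⟩
    have h2 : Ideal.Quotient.mk (Ideal.span {M0}) (v : R K) = Ideal.Quotient.mk _ 1 :=
      congrArg Units.val (MonoidHom.mem_ker.1 hv)
    exact (dvd_iff_div_mem hM).1 (rs_mk_eq.1 h2)

end

end Vale.Agent.P319N
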