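import Vale.Agent.P319N.CJq0

namespace Vale.Agent.P319N

open NumberField Complex MeasureTheory Filter Topology
open scoped Classical ComplexConjugate Real MatrixGroups
open Vale.Agent.P026 (omC kap psi W Hs ht QQ act uu muH hh LL Gs bb kk UU DualW)

noncomputable section

variable {K : Type} [Field K] [NumberField K] [Level K]

theorem cvf_orth {x y : K} (hx : x ≠ 0) (hy : y ≠ 0) (h : y / x ∈ A K) :
    ∃ Ξ : Finset K, Ξ.card ≠ 0 ∧ ∀ t, t / x ∈ A K →
      ∑ ξ ∈ Ξ, psiF (t * ξ) = if t / y ∈ A K then (Ξ.card : ℂ) else 0 := by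
  have hd := (del_spec (K := K)).1
  have hfin := finite_clsA (div_ne_zero hd hy) (div_ne_zero hd hx)
  have hsub : ∀ k, k ∈ lattA (del K / x) → k ∈ lattA (del K / y) := fun k hk => by
    change k / (del K / y) ∈ A K
    have : k / (del K / y) = k / (del K / x) * (y / x) := by field_simp
    rw [this]
    exact (A K).mul_mem hk h
  refine ⟨hfin.toFinset.image Quotient.out, ?_, fun t ht => ?_⟩
  · rw [Finset.card_ne_zero, Finset.image_nonempty]
    refine ⟨QuotientAddGroup.mk 0, ?_⟩
    rw [Set.Finite.mem_toFinset]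
    obtain ⟨k, hk⟩ := QuotientAddGroup.mk_out_eq_add (lattA (del K / x)) (0 : K)
    change (QuotientAddGroup.mk 0 : K ⧸ lattA (del K / x)).out ∈ lattA (del K / y)
    rw [hk, zero_add]
    exact hsub _ k.2
  split_ifs with h1
  · rw [← nsmul_one, ← Finset.sum_const]
    refine Finset.sum_congr rfl fun ξ hξ => psiF_del ?_
    obtain ⟨d, hd1, rfl⟩ := Finset.mem_image.1 hξ
    rw [Set.Finite.mem_toFinset] at hd1
    have : t * d.out / del K = t / y * (d.out / (del K / y)) := by field_simp
    rw [this]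
    exact (A K).mul_mem h1 hd1
  · let F : K → ℂ := fun D => if D ∈ lattA (del K / y) then psiF (t * D) else 0
    have hF : ∀ D, ∀ k ∈ lattA (del K / x), F (D + k) = F D := fun D k hk => by
      have e : psiF (t * k) = 1 := by
        refine psiF_del ?_
        have : t * k / del K = t / x * (k / (del K / x)) := by field_simp
        rw [this]
        exact (A K).mul_mem ht hk
      simp only [F, add_mem_cancel_right (hsub _ hk), mul_add, psiF_add, e, mul_one]
    have hS : ∑ ξ ∈ hfin.toFinset.image Quotient.out, psiF (t * ξ) =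
        ∑' d : K ⧸ lattA (del K / x), F d.out := by
      rw [Finset.sum_image (fun a _ b _ hab => Quotient.out_injective hab),
        tsum_eq_sum (s := hfin.toFinset)]
      · refine Finset.sum_congr rfl fun d hd1 => ?_
        rw [Set.Finite.mem_toFinset] at hd1
        exact (if_pos hd1).symm
      · intro d hd1
        rw [Set.Finite.mem_toFinset] at hd1
        exact if_neg hd1
    have h2 : ¬ ∀ a ∈ A K, psiF (t * (del K / y) * a) = 1 := by
      rw [del_spec.2]
      have : t * (del K / y) / del K = t / y := by field_simp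
      rwa [this]
    push Not at h2
    obtain ⟨a, ha, h2⟩ := h2
    have hz : del K / y * a ∈ lattA (del K / y) := by
      change del K / y * a / (del K / y) ∈ A K
      rwa [mul_div_cancel_left₀ _ (div_ne_zero hd hy)]
    have h3 := tsum_quot_affine (L := lattA (del K / x)) (L' := lattA (del K / x)) one_ne_zero
      (del K / y * a) (by simp) hF
    have h4 : ∀ D, F (1 * D + del K / y * a) = psiF (t * (del K / y) * a) * F D := fun D => by
      simp only [F, one_mul, add_mem_cancel_right hz]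
      split_ifs
      · rw [mul_add, psiF_add, mul_comm, mul_assoc]
      · rw [mul_zero]
    simp only [h4] at h3
    rw [tsum_mul_left] at h3
    rw [hS]
    by_contra h5
    exact h2 (mul_right_cancel₀ h5 (by rw [← h3, one_mul]))

theorem fourier_S {x y : K} (hx : x ≠ 0) (hy : y ≠ 0) {f : K → ℂ}
    (hf : ∀ n k, k / y ∈ A K → f (n + k) = f n) :
    ∃ (Ξ : Finset K) (c : K → ℂ), ∀ n, n / x ∈ A K → f n = ∑ ξ ∈ Ξ, c ξ * psiF (n * ξ) := by
  obtain ⟨j, hj⟩ := exists_mul_mem_A (y / x)
  have hM := pow_ne_zero j (MK_ne (K := K))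
  have hy' : MK K ^ j * y ≠ 0 := mul_ne_zero hM hy
  obtain ⟨Ξ, hc, hΞ⟩ := cvf_orth hx hy' (by rwa [mul_div_assoc])
  have hfin := finite_clsA hx hy'
  have hc' : (Ξ.card : ℂ) ≠ 0 := Nat.cast_ne_zero.2 hc
  refine ⟨Ξ, fun ξ => (Ξ.card : ℂ)⁻¹ * ∑ d ∈ hfin.toFinset, f d.out * psiF (-d.out * ξ),
    fun n hn => ?_⟩
  have e1 : ∑ ξ ∈ Ξ, ((Ξ.card : ℂ)⁻¹ * ∑ d ∈ hfin.toFinset, f d.out * psiF (-d.out * ξ)) *
      psiF (n * ξ) = ∑ d ∈ hfin.toFinset, f d.out * ((Ξ.card : ℂ)⁻¹ *
        ∑ ξ ∈ Ξ, psiF ((n - d.out) * ξ)) := by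
    simp only [Finset.mul_sum, Finset.sum_mul]
    rw [Finset.sum_comm]
    refine Finset.sum_congr rfl fun d _ => Finset.sum_congr rfl fun ξ _ => ?_
    have : (n - d.out) * ξ = -d.out * ξ + n * ξ := by ring
    rw [this, psiF_add]
    ring
  obtain ⟨k, hk⟩ := QuotientAddGroup.mk_out_eq_add (lattA (MK K ^ j * y)) n
  have hk1 : (k : K) / (MK K ^ j * y) ∈ A K := k.2
  have hk2 : (k : K) / y ∈ A K := by
    have : (k : K) / y = MK K ^ j * ((k : K) / (MK K ^ j * y)) := by field_simp
    rw [this]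
    exact (A K).mul_mem ((A K).pow_mem MK_mem_A j) hk1
  have hk3 : (k : K) / x ∈ A K := by
    have : (k : K) / x = MK K ^ j * (y / x) * ((k : K) / (MK K ^ j * y)) := by field_simp
    rw [this]
    exact (A K).mul_mem hj hk1
  rw [e1, Finset.sum_eq_single (QuotientAddGroup.mk n)]
  · have e2 : (n - (n + k)) / x = -(k / x) := by ring
    have e3 : (n - (n + k)) / (MK K ^ j * y) = -(k / (MK K ^ j * y)) := by ring
    rw [hk, hΞ _ (by rw [e2]; exact (A K).neg_mem hk3), e3, if_pos ((A K).neg_mem hk1),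
      inv_mul_cancel₀ hc', mul_one, hf _ _ hk2]
  · intro d hd hne
    rw [Set.Finite.mem_toFinset] at hd
    have hd' : d.out / x ∈ A K := hd
    rw [hΞ _ (by rw [sub_div]; exact (A K).sub_mem hn hd'), if_neg, mul_zero, mul_zero]
    intro h1
    apply hne
    rw [← QuotientAddGroup.out_eq' d]
    refine QuotientAddGroup.eq.2 ?_
    rwa [neg_add_eq_sub]
  · intro h1
    refine (h1 ?_).elim
    rw [Set.Finite.mem_toFinset]
    change (QuotientAddGroup.mk n : K ⧸ lattA (MK K ^ j * y)).out / x ∈ A K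
    rw [hk, add_div]
    exact (A K).add_mem hn hk3
theorem fourier_one {z : K} (hz : z ≠ 0) (i : ℕ) : ∃ (Ξ : Finset K) (c : K → ℂ), ∀ n, DualF i n →
    (if One (ee K) (n / z) then (1 : ℂ) else 0) = ∑ ξ ∈ Ξ, c ξ * psiF (n * ξ) := by
  have hd := (del_spec (K := K)).1
  have hM := MK_ne (K := K)
  obtain ⟨Ξ, c, h⟩ := fourier_S (div_ne_zero hd (pow_ne_zero i hM))
    (mul_ne_zero hz (pow_ne_zero (ee K) hM))
    (f := fun n => if One (ee K) (n / z) then (1 : ℂ) else 0) fun n k hk => by
      have e : ((n + k) / z - 1) / MK K ^ ee K =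
          (n / z - 1) / MK K ^ ee K + k / (z * MK K ^ ee K) := by field_simp; ring
      have : One (ee K) ((n + k) / z) ↔ One (ee K) (n / z) := by
        simp only [One, e, add_mem_cancel_right hk]
      simp only [this]
  refine ⟨Ξ, c, fun n hn => h n ?_⟩
  rw [div_div_eq_mul_div]
  exact (DualF_iff _ _).1 hn

end

end Vale.Agent.P319N
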