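import Vale.Agent.P319N.CVl1
import Vale.Agent.P319N.CVf
import Vale.Agent.P319N.CVc

namespace Vale.Agent.P319N

open NumberField Complex MeasureTheory Filter Topology
open scoped Classical ComplexConjugate Real MatrixGroups
open Vale.Agent.P026 (omC kap psi W Hs ht QQ act uu muH hh LL Gs bb kk UU DualW)

noncomputable section

variable {K : Type} [Field K] [NumberField K] [Level K]

theorem a0_expand {l : K} {ρ : SLK K → K → ℂ} (hρ : Hat l ρ) {z : K} (hz : z ≠ 0) :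
    ∃ (Ξ : Finset K) (cξ : K → ℂ), ∀ M0 s : R K, M0 ≠ 0 → (∃ j : ℕ, s ∣ M0 ^ j) →
      ∀ t : R K, IsCoprime t M0 → ∃ cx : R K → ℂ, ∑ x ∈ rs M0, ‖cx x‖ ^ 2 ≤ 1 ∧ ∀ (h : R K) (n : K),
        a0 (ρ 1) z s h n =
          ∑ ξ ∈ Ξ, ∑ x ∈ rs M0, cξ ξ * cx x * aa (ρ 1) ξ (((x * t : R K) : K) / M0) h n := by
  obtain ⟨Ξ, cξ, hΞ⟩ := fourier_one hz (ee K + 1 + 2 * 0)
  refine ⟨Ξ, cξ, fun M0 s hM hs t ht => ?_⟩
  obtain ⟨c, c1, c2, c3⟩ := fourier_rs hM (chi6_per_rad hs hM) fun x => by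
    rw [norm_pow]
    exact pow_le_one₀ (norm_nonneg _) (norm_chi6_le x s)
  refine ⟨fun x => c (t * x), ?_, fun h n => ?_⟩
  · have := sum_rs_mul hM ht (f := fun x => ((‖c x‖ ^ 2 : ℝ) : ℂ)) fun x y hxy => by
      simp only [c1 x y hxy]
    rw [← ofReal_sum, ← ofReal_sum, ofReal_inj] at this
    rwa [this]
  · by_cases h0 : ρ 1 n = 0
    · simp [a0, aa, tauOf, h0]
    obtain ⟨h1, h2⟩ := hρ.supp (bg_ent_of_Gam (Gam (1 : K)).one_mem) h0
    lift n to R K using h1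
    have e : chi6 n s ^ 5 =
        ∑ x ∈ rs M0, c (t * x) * psiS ((n : K) * (((x * t : R K) : K) / M0)) := by
      rw [c3, ← sum_rs_mul hM ht (f := fun x => c x * psiS ((n : K) * x / M0)) fun x y hxy => by
        simp only [c1 x y hxy, rs_per_psi hM n x y hxy]]
      simp only [mul_comm t, mul_div_assoc]
    have e1 : a0 (ρ 1) z s h n = (if One (ee K) ((n : K) / z) then (1 : ℂ) else 0) * chi6 n s ^ 5 *
        (tauOf (ρ 1) n * angK (n : K) * chi6 n h ^ 5) := by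
      unfold a0
      rw [extR_coe]
      split_ifs <;> ring
    rw [e1, hΞ _ h2, e, Finset.sum_mul_sum, Finset.sum_mul]
    refine Finset.sum_congr rfl fun ξ _ => ?_
    rw [Finset.sum_mul]
    refine Finset.sum_congr rfl fun x _ => ?_
    unfold aa
    rw [extR_coe]
    ring

/-- Cauchy-Schwarz after averaging over the units -/
theorem a0_cs {l : K} {ρ : SLK K → K → ℂ} (hρ : Hat l ρ) {z : K} (hz : z ≠ 0) :
    ∃ (Ξ : Finset K) (C : ℝ), 0 ≤ C ∧ ∀ M0 s : R K, M0 ≠ 0 → (∃ j : ℕ, s ∣ M0 ^ j) →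
      ∀ t : R K, IsCoprime t M0 → ∀ (h : R K) (T : Finset Kˣ) (w : ℂ) (X : ℝ), 0 < X →
      T.Nonempty → (∀ t ∈ T, t ∈ U1 K) →
      ‖∑' n : K, if Rep n then a0 (ρ 1) z s h n * W w (absN n / X) else 0‖ ^ 2 ≤
        C * ∑ ξ ∈ Ξ, ∑ x ∈ rs M0, ‖(T.card : ℂ)⁻¹ * ∑' n : K, (if Rep n then
          (∑ u ∈ T, aa (ρ 1) ξ (((x * t : R K) : K) / M0) h ((u : K) * n)) *
            W w (absN n / X) else 0)‖ ^ 2 := by
  obtain ⟨Ξ, cξ, H⟩ := a0_expand hρ hz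
  refine ⟨Ξ, ∑ ξ ∈ Ξ, ‖cξ ξ‖ ^ 2, by positivity, fun M0 s hM hs t ht h T w X hX hT hU => ?_⟩
  obtain ⟨cx, c1, c2⟩ := H M0 s hM hs t ht
  have hc : (T.card : ℂ) ≠ 0 := Nat.cast_ne_zero.2 hT.card_pos.ne'
  set F : K × R K → K → ℂ := fun p n => if Rep n then
    (∑ u ∈ T, aa (ρ 1) p.1 (((p.2 * t : R K) : K) / M0) h ((u : K) * n)) * W w (absN n / X) else 0
    with hF
  have sm : ∀ p, Summable (F p) := fun p => summable_rep_W
    (PolyS.finsum T fun u _ => (polyS_aa hρ _ _ h).comp_mul u.ne_zero) w hX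
  have e : ∑' n : K, (if Rep n then a0 (ρ 1) z s h n * W w (absN n / X) else 0) =
      ∑ p ∈ Ξ ×ˢ rs M0, cξ p.1 * cx p.2 * ((T.card : ℂ)⁻¹ * ∑' n, F p n) := by
    simp only [← tsum_mul_left]
    rw [← Summable.tsum_finsetSum fun p _ => ((sm p).mul_left _).mul_left _]
    refine tsum_congr fun n => ?_
    by_cases hn : Rep n
    · have e1 : ∑ u ∈ T, a0 (ρ 1) z s h ((u : K) * n) = T.card * a0 (ρ 1) z s h n := by
        rw [Finset.sum_congr rfl fun u hu => a0_unit hρ z s h (hU u hu) n, Finset.sum_const,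
          nsmul_eq_mul]
      simp only [hF, if_pos hn]
      rw [← inv_mul_cancel_left₀ hc (a0 (ρ 1) z s h n), ← e1]
      have c3 : ∀ m, a0 (ρ 1) z s h m = ∑ p ∈ Ξ ×ˢ rs M0,
          cξ p.1 * cx p.2 * aa (ρ 1) p.1 (((p.2 * t : R K) : K) / M0) h m := fun m => by
        rw [c2, Finset.sum_product]
      simp only [c3]
      rw [Finset.sum_comm, Finset.mul_sum, Finset.sum_mul]
      refine Finset.sum_congr rfl fun p _ => ?_
      rw [← Finset.mul_sum]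
      ring
    · simp [hF, hn]
  have e2 : ∑ p ∈ Ξ ×ˢ rs M0, ‖cξ p.1 * cx p.2‖ ^ 2 ≤ ∑ ξ ∈ Ξ, ‖cξ ξ‖ ^ 2 := by
    simp only [norm_mul, mul_pow]
    rw [Finset.sum_product' (f := fun ξ x => ‖cξ ξ‖ ^ 2 * ‖cx x‖ ^ 2), ← Finset.sum_mul_sum]
    exact mul_le_of_le_one_right (by positivity) c1
  rw [e, ← Finset.sum_product' (f := fun ξ x => ‖(T.card : ℂ)⁻¹ * ∑' n, F (ξ, x) n‖ ^ 2)]
  refine (pow_le_pow_left₀ (norm_nonneg _) (norm_sum_le _ _) 2).trans ?_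
  simp only [norm_mul (cξ _ * cx _)]
  exact (Finset.sum_mul_sq_le_sq_mul_sq _ _ _).trans
    (mul_le_mul_of_nonneg_right e2 (by positivity))

end

end Vale.Agent.P319N
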