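import Vale.Agent.P319N.CKub

namespace Vale.Agent.P319N

open NumberField Complex MeasureTheory Filter Topology
open scoped Classical ComplexConjugate Real MatrixGroups
open Vale.Agent.P026 (omC kap psi W Hs ht QQ act uu muH hh LL Gs bb kk UU DualW)

noncomputable section

variable {K : Type} [Field K] [NumberField K] [Level K]

theorem cvg_inv {h u : R K} (hh : h ≠ 0) (β : R K → R K)
    (hβ : ∀ r, IsCoprime r h → h ∣ r * u * β r - 1) {G : R K → ℂ} (hG : Per h G)
    (h0 : ∀ r, ¬ IsCoprime r h → G r = 0) :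
    ∑ r ∈ (rs h).filter (fun r => IsCoprime r h), G (β r) = ∑ r ∈ rs h, G r := by
  choose i hi hi' using fun r => rs_exists hh (β r)
  have h1 : ∀ r, IsCoprime r h → h ∣ r * u * i r - 1 := fun r hr => by
    have h5 := (hβ r hr).sub ((hi' r).mul_left (r * u))
    have h6 : r * u * β r - 1 - r * u * (β r - i r) = r * u * i r - 1 := by ring
    rwa [h6] at h5
  have h2 : ∀ r, IsCoprime r h → IsCoprime (i r) h := fun r hr => by
    obtain ⟨k, hk⟩ := h1 r hr
    exact ⟨r * u, -k, by linear_combination hk⟩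
  have h3 : ∀ r ∈ (rs h).filter (IsCoprime · h), i (i r) = r := fun r hr => by
    obtain ⟨m, hr⟩ := Finset.mem_filter.1 hr
    obtain ⟨k, hk⟩ := h1 r hr
    obtain ⟨k', hk'⟩ := h1 _ (h2 r hr)
    exact rs_inj (hi _) m ⟨r * k' - i (i r) * k, by linear_combination r * hk' - i (i r) * hk⟩
  have h4 : ∀ r ∈ (rs h).filter (IsCoprime · h), i r ∈ (rs h).filter (IsCoprime · h) := fun r hr =>
    Finset.mem_filter.2 ⟨hi r, h2 r (Finset.mem_filter.1 hr).2⟩
  rw [← Finset.sum_filter_of_ne (s := rs h) (p := (IsCoprime · h)) (f := G)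
    fun r _ hr => by_contra fun hc => hr (h0 r hc)]
  exact Finset.sum_nbij' i i h4 h4 h3 h3 fun r _ => hG _ _ (hi' r)

theorem cvg_norm {h : R K} (hh : Squarefree h) {k : ℕ} (h1 : 1 ≤ k) (h5 : k ≤ 5) :
    ‖gs k 1 h‖ = ‖((√(N h) : ℝ) : ℂ)‖ := by
  have h2 := norm_gt hh h1 h5
  rw [gt, norm_div, div_eq_one_iff_eq (norm_ne_zero_iff.2 (sqrtN_ne hh.ne_zero))] at h2
  exact h2

theorem cvg_ne {h : R K} (hh : Squarefree h) : gs 1 1 h ≠ 0 := by
  rw [← norm_ne_zero_iff, cvg_norm hh le_rfl (by norm_num)]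
  exact norm_ne_zero_iff.2 (sqrtN_ne hh.ne_zero)

theorem cusp_gauss {c h x d t : R K} (hc : c ≠ 0) (hh : Squarefree h) (hhc : IsCoprime h c)
    (hd : c ∣ x * d - 1) (ht : c ∣ t * h ^ 2 - 1) (a b : R K → R K)
    (hab : ∀ r, IsCoprime r h → c * h ∣ a r - (x * t * h + r * c) ∧ c * h ∣ a r * b r - 1) :
    ∃ ω : ℂ, ‖ω‖ = 1 ∧ ∀ n : R K,
      ∑ r ∈ (rs h).filter (fun r => IsCoprime r h), chi6 r h / gs 1 1 h *
        (sym3 (a r) (c * h) * psiS (-((n : K) * b r / (c * h)))) =
      ω * (sym2 n h * psiS (-((n : K) * ((d : K) / c)))) := by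
  have h0 := hh.ne_zero
  have hcK := coeR_ne hc
  have hhK := coeR_ne h0
  obtain ⟨u, v, huv⟩ := hhc
  obtain ⟨k1, hk1⟩ := hd
  obtain ⟨k2, hk2⟩ := ht
  have hco : IsCoprime (x * t * h) c :=
    ⟨d * h, -(k1 * t * h ^ 2 + k2), by linear_combination t * h ^ 2 * hk1 + hk2⟩
  have hch : IsCoprime c h := ⟨v, u, by linear_combination huv⟩
  refine ⟨sym3 (x * t * h) c * sym3 c h * gs 3 1 h / gs 1 1 h, ?_, fun n => ?_⟩
  · rw [norm_div, norm_mul, norm_mul, norm_sym3 hco, norm_sym3 hch,
      cvg_norm hh (k := 3) (by norm_num) (by norm_num), cvg_norm hh le_rfl (by norm_num)]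
    have := norm_ne_zero_iff.2 (sqrtN_ne h0)
    field_simp
  · have hβ : ∀ r, IsCoprime r h → h ∣ r * c ^ 2 * (b r * v) - 1 := fun r hr => by
      obtain ⟨⟨m1, hm1⟩, ⟨m2, hm2⟩⟩ := hab r hr
      exact ⟨c * m2 * c * v - u - b r * c * v * (c * m1 + x * t), by
        linear_combination c * v * hm2 - b r * c * v * hm1 + huv⟩
    have hG : Per h fun y => chi6 y h ^ 3 * psiS (((-n : R K) : K) * y / h) :=
      gau_per h0 (gau_per6 h 3) (-n)
    have key := cvg_inv h0 (fun r => b r * v) hβ hG fun r hr => by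
      rw [(chi6_eq_zero_iff h0).2 hr]; simp
    have e1 : ∑ r ∈ rs h, chi6 r h ^ 3 * psiS (((-n : R K) : K) * r / h) =
        sym2 n h * gs 3 1 h := by
      have e2 := gs_twist hh (k := 3) (by norm_num) (by norm_num) n
      rw [← gau_gs_neg h0, show 6 - 3 = 3 from rfl, chi6_cube _ h0] at e2
      exact e2
    rw [e1] at key
    have e3 : ∀ r ∈ (rs h).filter (fun r => IsCoprime r h), chi6 r h / gs 1 1 h *
        (sym3 (a r) (c * h) * psiS (-((n : K) * b r / (c * h)))) =
        sym3 (x * t * h) c * sym3 c h / gs 1 1 h * psiS (-((n : K) * ((d : K) / c))) *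
          (chi6 (b r * v) h ^ 3 * psiS (((-n : R K) : K) * (b r * v : R K) / h)) := by
      intro r hr
      have hr := (Finset.mem_filter.1 hr).2
      obtain ⟨⟨m1, hm1⟩, ⟨m2, hm2⟩⟩ := hab r hr
      have s1 : sym3 (a r) c = sym3 (x * t * h) c :=
        sym3_congr ⟨h * m1 + r, by linear_combination hm1⟩
      have s2 : sym3 (a r) h = sym3 r h * sym3 c h := by
        rw [← sym3_mul_left]
        exact sym3_congr ⟨c * m1 + x * t, by linear_combination hm1⟩
      have s3 : sym2 (b r * v) h = sym2 r h := by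
        have t1 : sym2 (r * c ^ 2 * (b r * v)) h = 1 := by
          rw [sym2_congr (hβ r hr), sym2_one_left]
        rw [sym2_mul_left, sym2_mul_left, sym2_pow_left, sym2_sq hch] at t1
        have t2 := sym2_sq hr
        linear_combination sym2 r h * t1 - sym2 (b r * v) h * t2
      have s4 : psiS (((-(n * (b r * u)) : R K) : K) / c) = psiS (((-(n * d) : R K) : K) / c) := by
        refine psiS_congr hc ?_
        have t3 : c ∣ b r * u - d := by
          refine ⟨-(b r * u * (k1 + x * d * k2)) - d * v + d * u * h * (h * m2) +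
            -(d * u * h * b r * (h * m1 + r)) + 2 * (b r * u * x * d * k2)
            - 2 * (b r * u * x * d * k2), ?_⟩
          linear_combination (-(b r * u)) * hk1 - b r * u * x * d * hk2 + d * huv +
            d * u * h * hm2 - d * u * h * b r * hm1
        have t4 : -(n * (b r * u)) - -(n * d) = -n * (b r * u - d) := by ring
        rw [t4]
        exact t3.mul_left _
      have huvK : (u : K) * h + v * c = 1 := by exact_mod_cast congrArg Subtype.val huv
      have s5 : -((n : K) * b r / (c * h)) = ((-(n * (b r * u)) : R K) : K) / c +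
          ((-n : R K) : K) * (b r * v : R K) / h := by
        push_cast
        field_simp
        linear_combination (n : K) * b r * huvK
      have s6 : ((-(n * d) : R K) : K) / c = -((n : K) * ((d : K) / c)) := by
        push_cast
        ring
      rw [s5, psiS_add, s4, s6, sym3_mul_right _ hc h0, s1, s2, chi6_cube _ h0, s3,
        ← chi6_mul_sym3 r h0]
      ring
    rw [Finset.sum_congr rfl e3, ← Finset.mul_sum, key]
    ring

theorem prim_gauss {h : R K} (hh : Squarefree h) (n : R K) :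
    ∑ r ∈ (rs h).filter (fun r => IsCoprime r h), chi6 r h / gs 1 1 h *
      psiS ((n : K) * r / h) = chi6 n h ^ 5 := by
  have h0 := hh.ne_zero
  rw [Finset.sum_filter_of_ne fun r _ hr => by_contra fun hc => hr (by
    rw [(chi6_eq_zero_iff h0).2 hc]; simp)]
  have e1 := gs_twist hh (k := 1) le_rfl (by norm_num) n
  have e2 : ∑ r ∈ rs h, chi6 r h / gs 1 1 h * psiS ((n : K) * r / h) = gs 1 n h / gs 1 1 h := by
    generalize gs 1 1 h = g
    rw [gs, Finset.sum_div]
    exact Finset.sum_congr rfl fun r _ => by ring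
  rw [e2, e1, mul_div_assoc, div_self (cvg_ne hh), mul_one]

end

end Vale.Agent.P319N
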