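import Vale.Agent.P319N.CVb
import Vale.Agent.P319N.CVc
import Vale.Agent.P319N.CVg
import Vale.Agent.P319N.BVor

namespace Vale.Agent.P319N

open NumberField Complex MeasureTheory Filter Topology
open scoped Classical ComplexConjugate Real MatrixGroups
open Vale.Agent.P026 (omC kap psi W Hs ht QQ act uu muH hh LL Gs bb kk UU DualW)

noncomputable section

variable {K : Type} [Field K] [NumberField K] [Level K]

theorem cvh_cop {c x d t h r : R K} (hhc : IsCoprime h c) (hd : c ∣ x * d - 1)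
    (ht : c ∣ t * h ^ 2 - 1) (hr : IsCoprime r h) : IsCoprime (x * t * h + r * c) (c * h) := by
  obtain ⟨u, hu⟩ := hd
  obtain ⟨v, hv⟩ := ht
  have h1 : IsCoprime x c := ⟨d, -u, by linear_combination hu⟩
  have h2 : IsCoprime t c := ⟨h ^ 2, -v, by linear_combination hv⟩
  refine IsCoprime.mul_right (((h1.mul_left h2).mul_left hhc).add_mul_right_left r) ?_
  rw [add_comm]
  exact (hr.mul_left hhc.symm).add_mul_right_left _

theorem vor_h {l : K} {ρ : SLK K → K → ℂ} (hl : l ≠ 0) (hρ : Hat l ρ) {ξ lc : K} {j1 : ℕ}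
    (hξ : MK K ^ j1 * ξ ∈ A K) (hlc : lc ≠ 0) :
    ∃ i j', Sg i j' (ph0 l lc ξ) ∧ ∀ c x d t h : R K, c ≠ 0 → Squarefree h → IsCoprime h c →
      c ∣ x * d - 1 → c ∣ t * h ^ 2 - 1 → One (ee K + j1) ((c : K) * h / lc) →
      ∃ ω : ℂ, ‖ω‖ = 1 ∧ VorId (aa (ρ 1) ξ ((x : K) * t / c) h)
        (fun n => ω * (ad i l lc ξ ((d : K) / c) n * extR (fun y => sym2 y h) n))
        (angK ((c : K) * h) ^ 2) (fun σ => 3 * normSq (σ.1 ((c : K) * h))) := by
  obtain ⟨j, hj⟩ := exists_cusp hlc ξ
  obtain ⟨i1, j', hs⟩ := sg_ph0 l hlc ξ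
  refine ⟨ee K + 1 + 2 * max j i1, j', hs _ (by omega), fun c x d t h hc hh hhc hd ht h1 => ?_⟩
  have c0 : (c : K) ≠ 0 := by exact_mod_cast hc
  have h0 : (h : K) ≠ 0 := by exact_mod_cast hh.ne_zero
  have ch0 := mul_ne_zero c0 h0
  have hM := MK_ne (K := K)
  choose! γ a b g1 g2 g3 g4 g5 g6 g7 using fun (r : R K) (hr : IsCoprime r h) =>
    hj _ _ (cvh_cop hhc hd ht hr) (h1.mono (Nat.le_add_right _ _))
  simp only [Subring.coe_mul] at g2 g7
  obtain ⟨ω, w1, w2⟩ := cusp_gauss hc hh hhc hd ht a b fun r hr => ⟨g5 r hr, g6 r hr⟩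
  refine ⟨E l ((c : K) * h) * ω, by rw [norm_mul, norm_E, w1, one_mul], ?_⟩
  have hS : ∀ r ∈ (rs h).filter (fun r => IsCoprime r h), IsCoprime r h :=
    fun r hr => (Finset.mem_filter.1 hr).2
  have key := VorId.sum ((rs h).filter fun r => IsCoprime r h) (fun r => chi6 r h / gs 1 1 h)
    (a := fun r n => tauOf (ρ 1) n * angK n * psiK (n * a r / (c * h)))
    (a' := fun r n => tauOf (ρ (γ r)) n * conj (angK n) * psiK (-(n * b r / (c * h))))
    (η := angK ((c : K) * h) ^ 2) (Cc := fun σ => 3 * normSq (σ.1 ((c : K) * h)))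
    (fun σ => mul_pos three_pos (blat_normSq_pos ch0 σ))
    (fun r _ => ((hρ.1.polyS qL_ne ent_one).tauOf.mul_bd norm_angK_le).mul_bd
      fun n => (norm_psiK _).le)
    (fun r hr => ((hρ.1.polyS qL_ne (g1 r (hS r hr))).tauOf.mul_bd fun n =>
      (Complex.norm_conj _).trans_le (norm_angK_le n)).mul_bd fun n => (norm_psiK _).le)
    fun r hr => by
      have := vor_theta qL_ne hρ.1 (g1 r (hS r hr)) (by rw [g2 r (hS r hr)]; exact ch0)
      rwa [g2 r (hS r hr), g3 r (hS r hr), g4 r (hS r hr)] at this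
  convert key using 2 with n n
  · by_cases hn : ρ 1 n = 0
    · simp [aa, tauOf, hn]
    obtain ⟨hR, hD⟩ := hρ.supp ent_one hn
    lift n to R K using hR
    rw [aa, extR_coe, ← prim_gauss hh, Finset.mul_sum]
    refine Finset.sum_congr rfl fun r hr => ?_
    obtain ⟨k, hk⟩ := g5 r (hS r hr)
    have e1 : psiF ((n : K) * a r / (c * h)) = psiF (n * ξ) := by
      rw [mul_div_assoc]
      exact hD.psiF_congr (g7 r (hS r hr))
    have e2 : psiS ((n : K) * a r / (c * h)) =
        psiS (n * ((x : K) * t / c)) * psiS ((n : K) * r / h) := by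
      rw [← psiS_add]
      refine psiS_eq_of_R ?_
      have hk' : (a r : K) - (x * t * h + r * c) = c * h * k := by exact_mod_cast hk
      convert (n * k).2 using 1
      rw [Subring.coe_mul]
      field_simp
      linear_combination (n : K) * hk'
    rw [psiK_eq_mul, e1, e2]
    ring
  · have e : ∀ r ∈ (rs h).filter (fun r => IsCoprime r h), chi6 r h / gs 1 1 h *
        (tauOf (ρ (γ r)) n * conj (angK n) * psiK (-(n * b r / (c * h)))) =
        E l ((c : K) * h) * ((absN n ^ (1 / 6 : ℝ) : ℝ) : ℂ) *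
          extR (Bf (ee K + 1 + 2 * max j i1) l lc ξ) n * conj (angK n) *
          (chi6 r h / gs 1 1 h * (sym3 (a r) (c * h) * psiS (-(n * b r / (c * h))))) := by
      intro r hr
      have hr := hS r hr
      have k1 := hρ.cusp hl ((g1 r hr).mono (le_max_left j i1)) (by rw [g2 r hr]; exact ch0) n
      have k2 : ph0 l ((c : K) * h) (a r / (c * h)) = ph0 l lc ξ := ph0_congr l hξ h1 (by
        convert (A K).mul_mem MK_mem_A (g7 r hr) using 1
        rw [pow_succ]
        field_simp)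
      have k3 : Bf (ee K + 1 + 2 * max j i1) l ((c : K) * h) (a r / (c * h)) =
          Bf (ee K + 1 + 2 * max j i1) l lc ξ := by
        funext y
        rw [Bf, Bf, k2]
      rw [kS, g2 r hr, g3 r hr, g4 r hr, k3, ← Subring.coe_mul, S3_coe, Subring.coe_mul] at k1
      rw [tauOf]
      linear_combination chi6 r h / gs 1 1 h * ((absN n ^ (1 / 6 : ℝ) : ℝ) : ℂ) *
        conj (angK n) * k1
    rw [Finset.sum_congr rfl e, ← Finset.mul_sum, ad]
    by_cases hn : n ∈ R K
    · lift n to R K using hn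
      rw [w2, extR_coe, extR_coe]
      ring
    · simp [extR_of_not _ hn]

end

end Vale.Agent.P319N
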