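import Vale.Agent.P319N.CCoef
import Vale.Agent.P319N.BRep
import Vale.Agent.P319N.CJq0

namespace Vale.Agent.P319N

open NumberField Complex MeasureTheory Filter Topology
open scoped Classical ComplexConjugate Real MatrixGroups
open Vale.Agent.P026 (omC kap psi W Hs ht QQ act uu muH hh LL Gs bb kk UU DualW)

noncomputable section

variable {K : Type} [Field K] [NumberField K] [Level K]

/-- the reindexing map -/
def cvrJ (k : ℕ) (s : {n : R K // Rep (n : K) ∧ MK K ^ k * n ∈ A K}) : II K k × MM K :=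
  (⟨clt (s.1 : K), by
    have := (A K).mul_mem s.2.2 (one_lt0_clt s.2.1.1).mem
    rwa [mul_assoc, mul_div_cancel₀ _ s.2.1.1] at this⟩, mkM s.1)

theorem cvr_inj (k : ℕ) : Function.Injective (cvrJ (K := K) k) := by
  rintro ⟨n, hn, hn'⟩ ⟨m, hm, hm'⟩ h
  have h1 : One (ee K) ((m : K) / n) :=
    (clt_eq_iff hn.1 hm.1).1 (congrArg (fun p : II K k × MM K => p.1.1) h)
  obtain ⟨u, -, hu⟩ := mkM_eq_iff.1 (show mkM n = mkM m from congrArg Prod.snd h)
  have e : (m : K) = ((u : R K) : K) * n := by rw [hu, Subring.coe_mul]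
  rw [e, mul_div_cancel_right₀ _ hn.1] at h1
  have hU : Units.mk0 _ (unit_ne u) ∈ U1 K :=
    ⟨mem_unitsR.2 ⟨u, rfl⟩, (mem_H1 Level.he).2 h1⟩
  have h2 := (exists_rep hn.1).unique (y₁ := ⟨_, hU⟩) (y₂ := 1) (by rwa [e] at hm) (by simpa using hn)
  have h3 : ((u : R K) : K) = 1 := congrArg (fun v : U1 K => ((v : Kˣ) : K)) h2
  rw [h3, one_mul] at e
  exact Subtype.ext (Subtype.ext e.symm)

theorem cvr_sg (k : ℕ) (s : {n : R K // Rep (n : K) ∧ MK K ^ k * n ∈ A K}) :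
    sgI (cvrJ k s).1 = sN (MK K ^ k * s.1) :=
  sN_congr Level.he (by
    rw [mul_div_mul_left _ _ (pow_ne_zero k MK_ne)]; exact one_lt0_clt s.2.1.1)

theorem reindex (k : ℕ) {C0 : ℝ} (hC : 0 ≤ C0) {b : K → ℂ}
    (hb : ∀ n, b n ≠ 0 → n ∈ R K ∧ MK K ^ k * n ∈ A K)
    (hT : ∀ n : R K, n ≠ 0 → ‖b n‖ ≤ C0 * sN (MK K ^ k * n) ^ (1 / 6 : ℝ) * ‖TT n‖) :
    ∃ θ : II K k → MM K → ℂ, (∀ i n, ‖θ i n‖ ≤ 1) ∧ ∀ (h : MM K) (G : ℝ → ℂ), h ≠ 0 →
      ∑' n : K, (if Rep n then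
        b n * extR (fun y => sym2 y (lft h)) n * G (absN n * sN (MK K ^ k)) else 0) =
      ∑' p : II K k × MM K, tauI k C0 p.1 p.2 * θ p.1 p.2 * Ab.sym2 p.2 h *
        G (sgI p.1 * Ab.N p.2) := by
  have ne : ∀ s : {n : R K // Rep (n : K) ∧ MK K ^ k * n ∈ A K}, s.1 ≠ 0 := fun s c =>
    s.2.1.1 (by rw [c]; rfl)
  have le : ∀ s : {n : R K // Rep (n : K) ∧ MK K ^ k * n ∈ A K},
      ‖b s.1‖ ≤ ‖tauI k C0 (cvrJ k s).1 (cvrJ k s).2‖ := fun s => by
    have := (sN_pos (MK K ^ k * s.1)).le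
    rw [tauI, cvr_sg, norm_mul, Complex.norm_real, Real.norm_of_nonneg (by positivity),
      show (cvrJ k s).2 = mkM s.1 from rfl, tM_mk, norm_mul, norm_lamA, mul_one]
    exact hT _ (ne s)
  let θ : II K k × MM K → ℂ := Function.extend (cvrJ k)
    (fun s => b s.1 / tauI k C0 (cvrJ k s).1 (cvrJ k s).2) 0
  have t1 : ∀ s, θ (cvrJ k s) = b s.1 / tauI k C0 (cvrJ k s).1 (cvrJ k s).2 := fun s =>
    (cvr_inj k).extend_apply _ _ s
  have t2 : ∀ p, p ∉ Set.range (cvrJ (K := K) k) → θ p = 0 := fun p hp =>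
    Function.extend_apply' _ _ _ hp
  refine ⟨fun i n => θ (i, n), fun i n => ?_, fun h G hh => ?_⟩
  · beta_reduce
    by_cases hp : (i, n) ∈ Set.range (cvrJ (K := K) k)
    · obtain ⟨s, hs⟩ := hp
      rw [← hs, t1, norm_div]
      exact div_le_one_of_le₀ (le s) (norm_nonneg _)
    · rw [t2 _ hp, norm_zero]; exact zero_le_one
  simp only [Prod.mk.eta]
  have inj : Function.Injective
      fun s : {n : R K // Rep (n : K) ∧ MK K ^ k * n ∈ A K} => (s.1 : K) :=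
    Subtype.val_injective.comp Subtype.val_injective
  rw [← inj.tsum_eq fun n hn => ?_, ← (cvr_inj k).tsum_eq fun p hp => ?_]
  · refine tsum_congr fun s => ?_
    have e1 : tauI k C0 (cvrJ k s).1 (cvrJ k s).2 * θ (cvrJ k s) = b s.1 := by
      rw [t1]
      by_cases h0 : tauI k C0 (cvrJ k s).1 (cvrJ k s).2 = 0
      · have := le s
        rw [h0, norm_zero, norm_le_zero_iff] at this
        rw [h0, this, zero_mul]
      · exact mul_div_cancel₀ _ h0
    have e2 : Ab.sym2 (cvrJ k s).2 h = sym2 s.1 (lft h) := by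
      rw [← chi6_cube _ fun c => hh (lft_eq_zero.1 c), ← chi6_lft, mkM_lft]
      rfl
    have e3 : sgI (cvrJ k s).1 * Ab.N (cvrJ k s).2 = absN (s.1 : K) * sN (MK K ^ k) := by
      rw [cvr_sg, absN_eq (ne s), sN_mul (pow_ne_zero k MK_ne) s.2.1.1,
        show Ab.N (cvrJ k s).2 = (Nm (lft (mkM s.1)) : ℝ) from rfl, Nm_lft, N]
      ring
    rw [if_pos s.2.1, extR_coe, e1, e2, e3]
  · by_contra c
    exact hp (by simp only [t2 p c, mul_zero, zero_mul])
  · by_cases h1 : Rep n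
    · rw [Function.mem_support, if_pos h1] at hn
      obtain ⟨a1, a2⟩ := hb n (left_ne_zero_of_mul (left_ne_zero_of_mul hn))
      exact ⟨⟨⟨n, a1⟩, h1, a2⟩, rfl⟩
    · exact absurd (if_neg h1) hn

end

end Vale.Agent.P319N
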