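import Vale.Agent.P319N.CVh
import Vale.Agent.P319N.CVa
import Vale.Agent.P319N.CVr
import Vale.Agent.P319N.CVab

namespace Vale.Agent.P319N

open NumberField Complex MeasureTheory Filter Topology
open scoped Classical ComplexConjugate Real MatrixGroups
open Vale.Agent.P026 (omC kap psi W Hs ht QQ act uu muH hh LL Gs bb kk UU DualW)

noncomputable section

variable {K : Type} [Field K] [NumberField K] [Level K]

theorem cvx_coe_U1 {u : Kˣ} (hu : u ∈ U1 K) : (u : K) ∈ R K ∧ (u : K) ∈ A K :=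
  ⟨mem_R_of_isI (U1_isI hu), mem_A_of_isI (U1_isI hu)⟩

theorem cvx_Uj_le {i j : ℕ} (h : i ≤ j) : Uj K j ≤ Uj K i := fun _ hu =>
  ⟨hu.1, hu.2.1.mono h, hu.2.2.mono h⟩

theorem cvx_b {i k : ℕ} {C : ℝ} {l c ξ z : K}
    (h1 : ∀ n, ad i l c ξ z n ≠ 0 → n ∈ R K ∧ MK K ^ k * n ∈ A K)
    (h2 : ∀ n : R K, n ≠ 0 →
      ‖ad i l c ξ z n‖ ≤ C * sN (MK K ^ k * n) ^ (1 / 6 : ℝ) * ‖TT n‖)
    {T : Finset Kˣ} (hT : ∀ t ∈ T, t ∈ U1 K) (hne : T.Nonempty) :
    (∀ n, (T.card : ℂ)⁻¹ * ∑ t ∈ T, ad i l c ξ z (((t⁻¹ : Kˣ) : K) * n) ≠ 0 →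
      n ∈ R K ∧ MK K ^ k * n ∈ A K) ∧
    ∀ n : R K, n ≠ 0 → ‖(T.card : ℂ)⁻¹ * ∑ t ∈ T, ad i l c ξ z (((t⁻¹ : Kˣ) : K) * n)‖ ≤
      C * sN (MK K ^ k * n) ^ (1 / 6 : ℝ) * ‖TT n‖ := by
  constructor
  · intro n hn
    obtain ⟨t, ht, h⟩ := Finset.exists_ne_zero_of_sum_ne_zero (right_ne_zero_of_mul hn)
    obtain ⟨a, b⟩ := h1 _ h
    obtain ⟨c1, c2⟩ := cvx_coe_U1 (hT t ht)
    constructor
    · have := (R K).mul_mem c1 a
      rwa [← mul_assoc, Units.mul_inv, one_mul] at this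
    · have := (A K).mul_mem c2 b
      rwa [mul_left_comm, ← mul_assoc (t : K), Units.mul_inv, one_mul] at this
  · intro n hn
    have hc : (0 : ℝ) < T.card := by exact_mod_cast hne.card_pos
    have hn' : (n : K) ≠ 0 := by exact_mod_cast hn
    have key : ∀ t ∈ T, ‖ad i l c ξ z (((t⁻¹ : Kˣ) : K) * n)‖ ≤
        C * sN (MK K ^ k * n) ^ (1 / 6 : ℝ) * ‖TT n‖ := by
      intro t ht
      have hi : t⁻¹ ∈ U1 K := (U1 K).inv_mem (hT t ht)
      obtain ⟨c1, c2⟩ := cvx_coe_U1 hi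
      let m : R K := ⟨((t⁻¹ : Kˣ) : K) * n, (R K).mul_mem c1 n.2⟩
      have hm : m ≠ 0 := fun e => mul_ne_zero (Units.ne_zero _) hn' (congrArg Subtype.val e)
      have e1 := h2 m hm
      have e2 : TT m = TT n := by
        have := TT_U1 hi (n : K)
        rwa [extR_coe, show ((t⁻¹ : Kˣ) : K) * n = (m : K) from rfl, extR_coe] at this
      have e3 : sN (MK K ^ k * m) = sN (MK K ^ k * n) := by
        have hM := pow_ne_zero k (MK_ne (K := K))
        rw [show MK K ^ k * (m : K) = ((t⁻¹ : Kˣ) : K) * (MK K ^ k * n) by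
          simp only [m]; ring, sN_mul (Units.ne_zero _) (mul_ne_zero hM hn'),
          sN_unit (H1_le_unitsA _ hi.2), one_mul]
      rwa [e2, e3] at e1
    rw [norm_mul, norm_inv, Complex.norm_natCast, inv_mul_le_iff₀ hc]
    refine (norm_sum_le _ _).trans ((Finset.sum_le_card_nsmul _ _ _ key).trans ?_)
    rw [nsmul_eq_mul]

theorem vx {l : K} {ρ : SLK K → K → ℂ} (hl : l ≠ 0) (hρ : Hat l ρ) {ξ lc : K} {j1 : ℕ}
    (hξ : MK K ^ j1 * ξ ∈ A K) (hlc : lc ≠ 0) {κ : ℝ} (hκ : 0 < κ) {ε : ℝ} (hε : 0 < ε) (R0 : ℝ) :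
    ∃ C : ℝ, 0 ≤ C ∧ ∀ (Z X H m : ℝ) (w : ℂ) (x c : R K) (U : Subgroup Kˣ) (T : Finset Kˣ)
      (S : Finset (MM K)) (hh tt : MM K → R K), 1 ≤ X → X ≤ Z → 0 < H → H ≤ Z → |w.re| ≤ R0 →
      c ≠ 0 → N c ≤ m → m ≤ Z → IsCoprime x c → CosetReps U T → T.Nonempty →
      (∀ u ∈ U, u ∈ Uj K (ee K + 1 + j1) ∧ ((u : K) - 1) / c ∈ R K) → S ⊆ Ab.ballN (MM K) H →
      (∀ h ∈ S, Associated (hh h) (lft h) ∧ IsCoprime (hh h) c ∧ c ∣ tt h * hh h ^ 2 - 1 ∧
        One (ee K + j1) ((c : K) * hh h / lc)) →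
      ∑ h ∈ S, ‖(T.card : ℂ)⁻¹ * ∑' n : K, (if Rep n then
          (∑ t ∈ T, aa (ρ 1) ξ (((x * tt h : R K) : K) / c) (hh h) ((t : K) * n)) *
            W w (absN n / (κ * X)) else 0)‖ ^ 2 ≤
        C * Real.exp (C * |w.im|) * Z ^ ε * X * QB H m X := by
  obtain ⟨i, j', hsg, hv⟩ := vor_h hl hρ hξ hlc
  obtain ⟨k, C0, hC0, hbd⟩ := ad_bound (K := K) i j'
  obtain ⟨Bd, hBd, hdc⟩ := dcoef_tauI (K := K) k C0
  obtain ⟨C2, p2, h2⟩ := exists_vorU (K := K) R0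
  have hs0 := sN_pos lc
  have hsk := sN_pos (MK K ^ k)
  set Q : ℝ := 3 ^ rk K * sN lc with hQ
  have hQ0 : 0 < Q := by positivity
  obtain ⟨C1, p1, h1⟩ := vorls_abs (O := MM K) (sidx_II (K := K) k)
    (K1 := sN (MK K ^ k) * Q ^ 2 / κ) (K2 := κ / Q) (by positivity) (by positivity) hBd hε
  refine ⟨C1 * C2 ^ 2 + 2 * C2, by positivity,
    fun Z X H m w x c U T S hh tt X1 XZ H0 HZ hw c0 cm mZ hxc hT hne hU hS hh1 => ?_⟩
  obtain ⟨Wst, hW, hV⟩ := h2 w hw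
  obtain ⟨d, d', hd⟩ := hxc
  have hcd : c ∣ x * d - 1 := ⟨-d', by linear_combination hd⟩
  have X0 : 0 < X := by linarith
  have c0' : (c : K) ≠ 0 := by exact_mod_cast c0
  obtain ⟨b1, b2⟩ := hbd l lc ξ ((d : K) / c) hsg
  obtain ⟨b3, b4⟩ := cvx_b b1 b2 hT.2.1 hne
  obtain ⟨θ, hθ, hre⟩ := reindex k hC0 b3 b4
  have key := h1 Z X H (N c) m (C2 * Real.exp (C2 * |w.im|)) (tauI k C0) θ Wst S
    (fun h => (T.card : ℂ)⁻¹ * ∑' n : K, (if Rep n then
      (∑ t ∈ T, aa (ρ 1) ξ (((x * tt h : R K) : K) / c) (hh h) ((t : K) * n)) *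
        W w (absN n / (κ * X)) else 0)) X1 XZ H0 HZ (one_le_N c0) cm mZ hdc hθ hW hS ?_
  · refine key.trans ?_
    have q0 : 0 ≤ Z ^ ε * X * QB H m X := by
      have : 0 < Z := by linarith
      have : 0 ≤ m := (N_pos c0).le.trans cm
      unfold QB; positivity
    have e : C1 * (C2 * Real.exp (C2 * |w.im|)) ^ 2 = C1 * C2 ^ 2 * Real.exp (2 * C2 * |w.im|) := by
      rw [mul_pow, ← Real.exp_nat_mul]; push_cast; ring_nf
    have : C1 * C2 ^ 2 * Real.exp (2 * C2 * |w.im|) ≤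
        (C1 * C2 ^ 2 + 2 * C2) * Real.exp ((C1 * C2 ^ 2 + 2 * C2) * |w.im|) := by
      have : 0 ≤ C1 * C2 ^ 2 := by positivity
      gcongr <;> linarith
    calc _ = C1 * (C2 * Real.exp (C2 * |w.im|)) ^ 2 * (Z ^ ε * X * QB H m X) := by ring
      _ ≤ (C1 * C2 ^ 2 + 2 * C2) * Real.exp ((C1 * C2 ^ 2 + 2 * C2) * |w.im|) *
          (Z ^ ε * X * QB H m X) := by rw [e]; exact mul_le_mul_of_nonneg_right this q0
      _ = _ := by ring
  intro h hS'
  obtain ⟨a1, a2, a3, a4⟩ := hh1 h hS'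
  have hNN := (Ab.mem_ballN.1 (hS hS')).1
  have h0 : h ≠ 0 := hNN.1.1
  have hl0 : lft h ≠ 0 := fun e => h0 (lft_eq_zero.1 e)
  have hsq : Squarefree (hh h) := a1.squarefree_iff.2 (squarefree_mkM.1 (by rw [mkM_lft]; exact hNN.2))
  have hh0 : hh h ≠ 0 := hsq.ne_zero
  have hh0' : (hh h : K) ≠ 0 := by exact_mod_cast hh0
  obtain ⟨ω, hω, hid⟩ := hv c x d (tt h) (hh h) c0 hsq a2 hcd a3 a4
  have hC : ∀ σ : Emb K, 0 < 3 * normSq (σ.1 ((c : K) * hh h)) := fun σ => by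
    have : σ.1 ((c : K) * hh h) ≠ 0 := (map_ne_zero _).2 (mul_ne_zero c0' hh0')
    have := normSq_pos.2 this
    positivity
  have hP : ∏ σ : Emb K, 3 * normSq (σ.1 ((c : K) * hh h)) = Q * (N c * Ab.N h) := by
    rw [Finset.prod_mul_distrib, Finset.prod_const, ← bl_absN, Finset.card_univ,
      ← Subring.coe_mul, absN_eq (mul_ne_zero c0 hh0), N_mul, Subring.coe_mul,
      sN_congr (le_trans Level.he (Nat.le_add_right _ _)) a4, ab_N, N, N, N, Nm_assoc a1, hQ]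
    simp only [rk]; ring
  have hUle : ∀ u ∈ U, u ∈ U1 K := fun u hu => hT.1 hu
  have av := vor_avg hV hT hC (aa_zero _ _ _ _)
    (by simp [ad, absN])
    (fun u hu n => by
      have := aa_unit hρ hξ (hU u hu).1 (x := x * tt h) c0 (hU u hu).2 (hh h) n
      simpa only [Subring.coe_mul] using this)
    (fun u hu n => by
      rw [ad_unit hsg hξ (cvx_Uj_le (by omega) (hU u hu).1) c0 (hU u hu).2, sym2_U1 (hUle u hu) hh0])
    (polyS_aa hρ _ _ _)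
    (by
      have := (polyS_ad hsg ((d : K) / c)).mul_bd
        (f := fun n => ω * extR (fun y => sym2 y (hh h)) n) (C := 1) fun n => by
          rw [norm_mul, hω, one_mul]
          by_cases hn : n ∈ R K
          · rw [show n = ((⟨n, hn⟩ : R K) : K) from rfl, extR_coe]; exact norm_sym2_le _ _
          · rw [extR_of_not _ hn]; simp
      convert this using 2
      ring)
    hid (X := κ * X) (by positivity)
  simp only [Subring.coe_mul]
  rw [av, hP]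
  have hN := Ab.N_pos h0
  have hNc := N_pos c0
  have r := hre h (fun y => Wst (y / (sN (MK K ^ k) * Q ^ 2 / κ * N c ^ 2 / X * Ab.N h ^ 2))) h0
  rw [← r]
  have e : ∀ n : K, (if Rep n then (∑ t ∈ T, ω * (ad i l lc ξ ((d : K) / c) (((t⁻¹ : Kˣ) : K) * n) *
      extR (fun y => sym2 y (hh h)) (((t⁻¹ : Kˣ) : K) * n))) *
        Wst (absN n * (κ * X) / (Q * (N c * Ab.N h)) ^ 2) else 0) =
      (ω * T.card) * (if Rep n then
        ((T.card : ℂ)⁻¹ * ∑ t ∈ T, ad i l lc ξ ((d : K) / c) (((t⁻¹ : Kˣ) : K) * n)) *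
          extR (fun y => sym2 y (lft h)) n * Wst (absN n * sN (MK K ^ k) /
            (sN (MK K ^ k) * Q ^ 2 / κ * N c ^ 2 / X * Ab.N h ^ 2)) else 0) := by
    intro n
    split_ifs
    · have hc : (T.card : ℂ) ≠ 0 := by exact_mod_cast hne.card_pos.ne'
      have e1 : absN n * (κ * X) / (Q * (N c * Ab.N h)) ^ 2 = absN n * sN (MK K ^ k) /
          (sN (MK K ^ k) * Q ^ 2 / κ * N c ^ 2 / X * Ab.N h ^ 2) := by field_simp
      have e2 : (fun y => sym2 y (hh h)) = fun y => sym2 y (lft h) :=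
        funext fun y => sym2_assoc y a1
      rw [e1, Finset.sum_congr rfl fun t ht => by
        rw [sym2_U1 ((U1 K).inv_mem (hT.2.1 t ht)) hh0], e2, ← Finset.mul_sum, ← Finset.sum_mul]
      generalize ∑ t ∈ T, ad i l lc ξ ((d : K) / c) (((t⁻¹ : Kˣ) : K) * n) = S0
      field_simp
    · simp
  rw [tsum_congr e, tsum_mul_left]
  have hc : (0 : ℝ) < T.card := by exact_mod_cast hne.card_pos
  simp only [norm_mul, norm_inv, norm_pow, hω, norm_angK (mul_ne_zero c0' hh0'), Complex.norm_natCast,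
    Complex.norm_real, Real.norm_eq_abs]
  rw [abs_of_pos (by positivity)]
  apply le_of_eq
  field_simp

end

end Vale.Agent.P319N
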