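import Vale.Agent.P319N.CVe
import Vale.Agent.P319N.CVx

namespace Vale.Agent.P319N

open NumberField Complex MeasureTheory Filter Topology
open scoped Classical ComplexConjugate Real MatrixGroups
open Vale.Agent.P026 (omC kap psi W Hs ht QQ act uu muH hh LL Gs bb kk UU DualW)

noncomputable section

variable {K : Type} [Field K] [NumberField K] [Level K]

theorem cvl_One_mul {j : ℕ} {a b x y : K} (h1 : One j (x / a)) (h2 : One j (y / b)) :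
    One j (x * y / (a * b)) := by
  have := h1.mul h2
  rwa [div_mul_div_comm] at this

theorem cvl_j (Ξ : Finset K) : ∃ j : ℕ, ∀ ξ ∈ Ξ, MK K ^ j * ξ ∈ A K := by
  choose f hf using fun ξ : K => exists_mul_mem_A ξ
  refine ⟨Ξ.sup f, fun ξ hξ => ?_⟩
  obtain ⟨k, hk⟩ := Nat.exists_eq_add_of_le (Finset.le_sup (f := f) hξ)
  rw [hk, pow_add, mul_comm (MK K ^ f ξ), mul_assoc]
  exact (A K).mul_mem ((A K).pow_mem MK_mem_A k) (hf ξ)

theorem cvl_exp {C D B t : ℝ} (h0 : 0 ≤ C) (h : C ≤ D) (ht : 0 ≤ t) (hB : 0 ≤ B) :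
    C * Real.exp (C * t) * B ≤ D * Real.exp (D * t) * B := by
  have : 0 ≤ D := h0.trans h
  gcongr

theorem vl {la : K} (hla : la ≠ 0) {ε : ℝ} (hε : 0 < ε) (R0 : ℝ) :
    ∃ C : ℝ, 0 ≤ C ∧ ∀ (Z X H : ℝ) (w : ℂ) (M0 s : R K) (S : Finset (MM K)), 1 ≤ X → X ≤ Z →
      0 < H → H ≤ Z → M0 ≠ 0 → N M0 ≤ Z → (∃ j : ℕ, s ∣ M0 ^ j) → |w.re| ≤ R0 →
      S ⊆ Ab.ballN (MM K) H → (∀ h ∈ S, IsCoprime (lft h) M0) →
      ∑ h ∈ S, ‖SL1 la (fun y => TT y * lamA y * (chi6 y s ^ 5 * chi6 y (lft h) ^ 5) *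
          W w (N y / X))‖ ^ 2 ≤
        C * Real.exp (C * |w.im|) * Z ^ ε * N M0 * X * QB H (N M0) X := by
  obtain ⟨l, ρ, z, κ, C1, hl, hρ, hz, hκ, hC1, h1⟩ := sl_eq hla
  obtain ⟨Ξ, C2, hC2, h2⟩ := a0_cs hρ hz
  obtain ⟨j1, hj1⟩ := cvl_j Ξ
  have he : 1 ≤ ee K + j1 := le_trans Level.he (Nat.le_add_right _ _)
  obtain ⟨Λ, hΛ0, hΛ⟩ := exists_norm (K := K) he
  have hx : ∀ ξ a b : K, ξ ∈ Ξ → a ∈ Λ → b ∈ Λ → _ := fun ξ a b hξ ha hb =>
    vx hl hρ (hj1 ξ hξ) (mul_ne_zero (hΛ0 a ha) (hΛ0 b hb)) hκ hε R0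
  choose! Cx hCx0 hCx using hx
  set D : ℝ := ∑ ξ ∈ Ξ, ∑ a ∈ Λ, ∑ b ∈ Λ, Cx ξ a b with hD
  have hle : ∀ ξ ∈ Ξ, ∀ a ∈ Λ, ∀ b ∈ Λ, Cx ξ a b ≤ D := fun ξ hξ a ha b hb => by
    have s1 : Cx ξ a b ≤ ∑ b ∈ Λ, Cx ξ a b :=
      Finset.single_le_sum (f := fun b => Cx ξ a b) (fun b hb => hCx0 ξ a b hξ ha hb) hb
    have s2 : ∑ b ∈ Λ, Cx ξ a b ≤ ∑ a ∈ Λ, ∑ b ∈ Λ, Cx ξ a b :=
      Finset.single_le_sum (f := fun a => ∑ b ∈ Λ, Cx ξ a b)
        (fun a ha => Finset.sum_nonneg fun b hb => hCx0 ξ a b hξ ha hb) ha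
    exact s1.trans (s2.trans (Finset.single_le_sum (f := fun ξ => ∑ a ∈ Λ, ∑ b ∈ Λ, Cx ξ a b)
      (fun ξ hξ => Finset.sum_nonneg fun a ha => Finset.sum_nonneg fun b hb =>
        hCx0 ξ a b hξ ha hb) hξ))
  have D0 : 0 ≤ D := Finset.sum_nonneg fun ξ hξ => Finset.sum_nonneg fun a ha =>
    Finset.sum_nonneg fun b hb => hCx0 ξ a b hξ ha hb
  set E0 : ℝ := C1 ^ 2 * C2 * (Ξ.card * Λ.card) * D with hE0
  have E00 : 0 ≤ E0 := by positivity
  refine ⟨E0 + D, by positivity,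
    fun Z X H w M0 s S X1 XZ H0 HZ M00 MZ hs hw hS hcop => ?_⟩
  have X0 : 0 < X := by linarith
  have Z0 : 0 < Z := by linarith
  have hs0 : s ≠ 0 := by
    obtain ⟨j, hj⟩ := hs
    exact ne_zero_of_dvd_ne_zero (pow_ne_zero j M00) hj
  have hl0 : ∀ h ∈ S, lft h ≠ 0 := fun h hh e =>
    (Ab.mem_ballN.1 (hS hh)).1.1.1 (lft_eq_zero.1 e)
  have ex : ∀ h ∈ S, ∃ (y t : R K) (b : K), Associated y (lft h) ∧ b ∈ Λ ∧
      One (ee K + j1) ((y : K) / b) ∧ IsCoprime y M0 ∧ M0 ∣ t * y ^ 2 - 1 := fun h hh => by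
    obtain ⟨y, a1, b, a2, a3⟩ := hΛ (lft h) (hl0 h hh)
    have a4 : IsCoprime y M0 := (hcop h hh).of_isCoprime_of_dvd_left a1.dvd
    obtain ⟨u, v, e⟩ := a4.pow_left (m := 2)
    exact ⟨y, u, b, a1, a2, a3, a4, -v, by linear_combination e⟩
  choose! hh tt lb e1 e2 e3 e4 e5 using ex
  obtain ⟨U, T, hT, hne, hU⟩ := exists_cosetReps M00 (j := ee K + 1 + j1) (by omega)
  set F : K → R K → MM K → ℝ := fun ξ x h => ‖(T.card : ℂ)⁻¹ * ∑' n : K, (if Rep n then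
    (∑ u ∈ T, aa (ρ 1) ξ (((x * tt h : R K) : K) / M0) (hh h) ((u : K) * n)) *
      W w (absN n / (κ * X)) else 0)‖ ^ 2 with hF
  set B : ℝ := Z ^ ε * X * QB H (N M0) X with hB
  have B0 : 0 ≤ B := by
    have := N_pos M00
    rw [hB]; unfold QB; positivity
  have step1 : ∀ h ∈ S, ‖SL1 la (fun y => TT y * lamA y * (chi6 y s ^ 5 * chi6 y (lft h) ^ 5) *
      W w (N y / X))‖ ^ 2 ≤ C1 ^ 2 * C2 * ∑ ξ ∈ Ξ, ∑ x ∈ rs M0, F ξ x h := fun h hh' => by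
    have a := h1 s (hh h) w X hs0 (fun e => hl0 h hh' ((e1 h hh').eq_zero_iff.1 e))
    simp only [chi6_assoc _ (e1 h hh')] at a
    have ht : IsCoprime (tt h) M0 := by
      obtain ⟨v, hv⟩ := e5 h hh'
      exact ⟨hh h ^ 2, -v, by linear_combination hv⟩
    have b := h2 M0 s M00 hs (tt h) ht (hh h) T w (κ * X) (by positivity) hne hT.2.1
    refine (pow_le_pow_left₀ (norm_nonneg _) a 2).trans ?_
    rw [mul_pow, mul_assoc]
    exact mul_le_mul_of_nonneg_left b (by positivity)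
  have step2 : ∀ ξ ∈ Ξ, ∀ x : R K, ∑ h ∈ S, F ξ x h ≤ Λ.card * (D * Real.exp (D * |w.im|) * B) := by
    intro ξ hξ x
    obtain ⟨x', c, c0, cd, hxc, hq, a, ha, hca⟩ := exists_frac hΛ M00 x
    have c0' : (c : K) ≠ 0 := by exact_mod_cast c0
    have M0' : (M0 : K) ≠ 0 := by exact_mod_cast M00
    rw [← Finset.sum_fiberwise_of_maps_to (s := S) (t := Λ) (g := lb) e2]
    refine (Finset.sum_le_card_nsmul _ _ _ fun b hb => ?_).trans (le_of_eq (nsmul_eq_mul _ _))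
    have hN : N c ≤ N M0 := by
      obtain ⟨k, rfl⟩ := cd
      rw [N_mul]
      exact le_mul_of_one_le_right (N_pos c0).le (one_le_N (right_ne_zero_of_mul M00))
    have key := hCx ξ a b hξ ha hb Z X H (N M0) w x' c U T (S.filter fun h => lb h = b) hh tt X1 XZ
      H0 HZ hw c0 hN MZ hxc hT hne
      (fun u hu => ⟨(hU u hu).1, by
        obtain ⟨k, rfl⟩ := cd
        have := (R K).mul_mem (hU u hu).2 k.2
        have k0 : (k : K) ≠ 0 := by exact_mod_cast right_ne_zero_of_mul M00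
        convert this using 1
        rw [Subring.coe_mul]; field_simp⟩)
      ((Finset.filter_subset _ _).trans hS)
      (fun h hh' => by
        obtain ⟨m1, m2⟩ := Finset.mem_filter.1 hh'
        exact ⟨e1 h m1, (e4 h m1).of_isCoprime_of_dvd_right cd, cd.trans (e5 h m1),
          cvl_One_mul hca (m2 ▸ e3 h m1)⟩)
    have e : ∀ h : MM K, ((x * tt h : R K) : K) / M0 = ((x' * tt h : R K) : K) / c := fun h => by
      rw [Subring.coe_mul, Subring.coe_mul, mul_div_right_comm, hq, mul_div_right_comm]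
    simp only [hF, e]
    refine key.trans ?_
    have := cvl_exp (hCx0 ξ a b hξ ha hb) (hle ξ hξ a ha b hb) (abs_nonneg w.im) B0
    refine le_trans (le_of_eq ?_) this
    rw [hB]; ring
  refine (Finset.sum_le_sum step1).trans ?_
  rw [← Finset.mul_sum, Finset.sum_comm]
  have step3 : ∑ ξ ∈ Ξ, ∑ h ∈ S, ∑ x ∈ rs M0, F ξ x h ≤
      Ξ.card * (N M0 * (Λ.card * (D * Real.exp (D * |w.im|) * B))) := by
    refine (Finset.sum_le_card_nsmul _ _ _ fun ξ hξ => ?_).trans (le_of_eq (nsmul_eq_mul _ _))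
    rw [Finset.sum_comm]
    refine (Finset.sum_le_card_nsmul _ _ _ fun x _ => step2 ξ hξ x).trans (le_of_eq ?_)
    rw [nsmul_eq_mul, card_rs M00, N]
  refine (mul_le_mul_of_nonneg_left step3 (by positivity)).trans ?_
  have hN := N_pos M00
  have f : E0 * Real.exp (D * |w.im|) ≤ (E0 + D) * Real.exp ((E0 + D) * |w.im|) := by
    gcongr <;> linarith
  calc _ = E0 * Real.exp (D * |w.im|) * (N M0 * B) := by rw [hE0]; ring
    _ ≤ (E0 + D) * Real.exp ((E0 + D) * |w.im|) * (N M0 * B) :=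
      mul_le_mul_of_nonneg_right f (by positivity)
    _ = _ := by rw [hB]; ring

end

end Vale.Agent.P319N
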