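import Vale.Agent.P319N.CNz
import Vale.Agent.P319N.CRep
import Vale.Agent.P319N.CVa

namespace Vale.Agent.P319N

open NumberField Complex MeasureTheory Filter Topology
open scoped Classical ComplexConjugate Real MatrixGroups
open Vale.Agent.P026 (omC kap psi W Hs ht QQ act uu muH hh LL Gs bb kk UU DualW)

noncomputable section

variable {K : Type} [Field K] [NumberField K] [Level K]

theorem cvl1_one {u z : K} (hu : One (ee K) u) : One (ee K) (u * z) ↔ One (ee K) z := by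
  refine ⟨fun h => ?_, fun h => hu.mul h⟩
  have := (hu.inv cls_he).mul h
  rwa [inv_mul_cancel_left₀ (hu.ne_zero cls_he)] at this

theorem cvl1_ext {v : R K} (hv : IsUnit v) (hc : clsK (v : K) = 1) (s h : R K) (n : K) :
    extR (fun y => chi6 y s ^ 5 * chi6 y h ^ 5) ((v : K) * n) =
      extR (fun y => chi6 y s ^ 5 * chi6 y h ^ 5) n := by
  by_cases hn : n ∈ R K
  · lift n to R K using hn
    rw [← Subring.coe_mul, extR_coe, extR_coe, chi6_mul_left, chi6_mul_left, chi6_triv hv hc,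
      chi6_triv hv hc, one_mul, one_mul]
  · rw [extR_of_not _ hn, extR_of_not]
    intro h2
    obtain ⟨w, hw⟩ := hv.exists_left_inv
    have e : (w : K) * v = 1 := by exact_mod_cast congrArg Subtype.val hw
    have := (R K).mul_mem w.2 h2
    rw [← mul_assoc, e, one_mul] at this
    exact hn this

theorem a0_unit {l : K} {ρ : SLK K → K → ℂ} (hρ : Hat l ρ) (z : K) (s h : R K) {u : Kˣ}
    (hu : u ∈ U1 K) (n : K) : a0 (ρ 1) z s h ((u : K) * n) = a0 (ρ 1) z s h n := by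
  obtain ⟨v, hv⟩ := mem_unitsR.1 hu.1
  have e := cvl1_ext v.isUnit (by rw [hv]; exact clsK_one_of hu.2.1) s h n
  rw [hv] at e
  unfold a0 tauOf
  rw [hρ.unit hu, absN_mul, U1_absN hu, one_mul, angK_mul, angK_U1 hu, one_mul, e, mul_div_assoc]
  exact if_congr (cvl1_one hu.2.1) rfl rfl

theorem sl_eq {la : K} (hla : la ≠ 0) : ∃ (l : K) (ρ : SLK K → K → ℂ) (z : K) (κ C : ℝ),
    l ≠ 0 ∧ Hat l ρ ∧ z ≠ 0 ∧ 0 < κ ∧ 0 ≤ C ∧ ∀ (s h : R K) (w : ℂ) (X : ℝ), s ≠ 0 → h ≠ 0 →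
      ‖SL1 la (fun y => TT y * lamA y * (chi6 y s ^ 5 * chi6 y h ^ 5) * W w (N y / X))‖ ≤
        C * ‖∑' n : K, if Rep n then a0 (ρ 1) z s h n * W w (absN n / (κ * X)) else 0‖ := by
  obtain ⟨g0, hg0⟩ := exists_rr_ne (K := K)
  obtain ⟨l, hl, hlg⟩ := exists_clsK (g0 / clsK la)
  obtain ⟨ρ, hρ⟩ := exists_Hat hl
  obtain ⟨k, hk⟩ := exists_dualF (ee K) la
  obtain ⟨y0, -, hy0⟩ := approx_one hla (ee K) (one_ne_zero (α := R K)) 0
  have h0 : y0 ≠ 0 := cls_ne hy0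
  have hM : MK K ^ (6 * k) ≠ 0 := pow_ne_zero _ MK_ne
  set m : R K := ((Setup.M K : ℕ) : R K) ^ (2 * k) with hm
  have hmu : IsUnit m := isUnit_MR.pow _
  have hm3 : ((m ^ 3 : R K) : K) = MK K ^ (6 * k) := by
    rw [hm]; push_cast; rw [← pow_mul]; congr 1; ring
  set κ := sN (MK K ^ (6 * k) * la) with hκ
  have hκ0 : 0 < κ := sN_pos _
  set c0 : ℂ := (L3 K : ℂ) * (((sN l : ℝ) : ℂ) ^ (-(4 / 3 : ℂ)) *
    ((absN (MK K ^ ee K) : ℝ) : ℂ)⁻¹) with hc0
  have hc0' : c0 ≠ 0 := by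
    refine mul_ne_zero (Nat.cast_ne_zero.2 L3_pos.ne') (mul_ne_zero ?_ (inv_ne_zero ?_))
    · exact Complex.cpow_ne_zero_iff.2 (Or.inl (Complex.ofReal_ne_zero.2 (sN_pos l).ne'))
    · exact Complex.ofReal_ne_zero.2 (absN_pos (pow_ne_zero _ MK_ne)).ne'
  have hang : ∀ x : K, x ≠ 0 → angK x ≠ 0 := fun x hx h => by
    simpa [h] using norm_angK hx
  set β : ℂ := ((κ ^ (1 / 6 : ℝ) : ℝ) : ℂ) * c0 * conj (E3 (clsK l) (clsK la)) * rr g0 1 *
    angK (MK K ^ (6 * k)) with hβ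
  have hβ0 : β ≠ 0 := by
    refine mul_ne_zero (mul_ne_zero (mul_ne_zero (mul_ne_zero ?_ hc0') ?_) hg0) (hang _ hM)
    · exact Complex.ofReal_ne_zero.2 (Real.rpow_pos_of_pos hκ0 _).ne'
    · intro h
      simpa [(map_eq_zero _).1 h] using norm_E3 (clsK l) (clsK la)
  have ha0 := hang _ (coeR_ne h0)
  refine ⟨l, ρ, MK K ^ (6 * k) * la, κ, ‖lamA y0 / (angK (y0 : K) * β)‖, hl, hρ,
    mul_ne_zero hM hla, hκ0, norm_nonneg _, fun s h w X _ _ => le_of_eq ?_⟩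
  rw [← norm_mul, ← (Equiv.mulLeft₀ _ hM).tsum_eq, ← tsum_mul_left]
  congr 1
  refine tsum_congr fun y => ?_
  simp only [Equiv.mulLeft₀_apply, rep_MK, a0, mul_div_mul_left _ _ hM]
  by_cases h1 : Rep y
  swap
  · simp [h1]
  by_cases h2 : One (ee K) (y / la)
  swap
  · simp [h2]
  have e0 := cvl1_ext (hmu.pow 3) (by rw [hm3]; exact clsK_MK6 k) s h y
  rw [hm3] at e0
  rw [if_pos ⟨h1, h2⟩, if_pos h1, if_pos h2, e0]
  by_cases h3 : y ∈ R K
  swap
  · rw [extR_of_not _ h3, extR_of_not _ h3]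
    simp
  lift y to R K using h3
  have hy : y ≠ 0 := cls_ne h2
  have hyK := coeR_ne hy
  have e1 : MK K ^ (6 * k) * y = ((y * m ^ 3 : R K) : K) := by rw [← hm3]; push_cast; ring
  have e2 : absN (MK K ^ (6 * k) * y) = N y * κ := by
    rw [e1, absN_eq (mul_ne_zero hy (hmu.pow 3).ne_zero), N_mul, gau_N_unit (hmu.pow 3), mul_one,
      ← e1, sN_congr cls_he (x := MK K ^ (6 * k) * la) (by rwa [mul_div_mul_left _ _ hM])]
  have e3 : ρ 1 (MK K ^ (6 * k) * y) = c0 * rr (clsK l) y := by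
    rw [e1, hρ.one hl, rr_cube hmu.ne_zero]
    have := hk.mul_A h2.mem
    rwa [show (y : K) / la * (MK K ^ (6 * k) * la) = MK K ^ (6 * k) * y by field_simp, e1] at this
  have e4 := rr_formula hy (clsK l)
  rw [clsK_congr h2, hlg, div_mul_cancel, ← hlg] at e4
  have e5 : lamA y * angK (y0 : K) = lamA y0 * angK (y : K) := by
    apply lamA_ratio (cls_he (K := K)) h0
    have := h2.mul (hy0.inv cls_he)
    rwa [show (y : K) / la * ((y0 : K) / la)⁻¹ = y / y0 by field_simp] at this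
  have e6 : N y * κ / (κ * X) = N y / X := by rw [mul_comm κ, mul_div_mul_right _ _ hκ0.ne']
  rw [extR_coe, extR_coe, tauOf, e2, e3, e6, angK_mul, Real.mul_rpow (N_pos hy).le hκ0.le,
    Complex.ofReal_mul, div_mul_eq_mul_div, eq_div_iff (mul_ne_zero ha0 hβ0), hβ]
  generalize W w (N y / X) = V
  generalize chi6 y s ^ 5 * chi6 y h ^ 5 = χ
  linear_combination (TT y * χ * V * ((κ ^ (1 / 6 : ℝ) : ℝ) : ℂ) * c0 *
      conj (E3 (clsK l) (clsK la)) * rr g0 1 * angK (MK K ^ (6 * k))) * e5 -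
    (lamA y0 * ((κ ^ (1 / 6 : ℝ) : ℝ) : ℂ) * c0 * angK (MK K ^ (6 * k)) * angK (y : K) * χ * V) * e4

end

end Vale.Agent.P319N
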