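import Vale.Agent.P319N.CSum
import Vale.Agent.P319N.BRep

namespace Vale.Agent.P319N

open NumberField Complex MeasureTheory Filter Topology
open scoped Classical ComplexConjugate Real MatrixGroups
open Vale.Agent.P026 (omC kap psi W Hs ht QQ act uu muH hh LL Gs bb kk UU DualW)

noncomputable section

variable {K : Type} [Field K] [NumberField K] [Level K]

theorem cvs_div {la x y : K} (hx : One (ee K) (x / la)) (hy : One (ee K) (y / la)) :
    One (ee K) (y / x) := by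
  have h0 := hx.ne_zero cls_he
  have hl : la ≠ 0 := fun h => h0 (by simp [h])
  have := hy.mul (hx.inv cls_he)
  rwa [← div_eq_mul_inv, div_div_div_cancel_right₀ hl] at this

theorem cvs_one (la : K) {G : R K → ℂ}
    (hG : ∀ u : (R K)ˣ, clsK ((u : R K) : K) = 1 → ∀ y, G (u * y) = G y) :
    ∑' n : MM K, (if ∃ y : R K, One (ee K) ((y : K) / la) ∧ mkM y = n then G (lft n) else 0) =
      SL1 la G := by
  have key : ∀ y : Function.support fun y : K =>
      if Rep y ∧ One (ee K) (y / la) then extR G y else 0,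
      (Rep y.1 ∧ One (ee K) (y.1 / la)) ∧ y.1 ∈ R K := by
    rintro ⟨y, hy⟩
    rw [Function.mem_support] at hy
    constructor
    · by_contra h
      exact hy (if_neg h)
    · by_contra h
      exact hy (by simp [show extR G y = 0 from dif_neg h])
  refine tsum_eq_tsum_of_ne_zero_bij (fun y => mkM ⟨y.1, (key y).2⟩) ?_ ?_ ?_
  · intro y y' h
    obtain ⟨u, -, hu⟩ := mkM_eq_iff.1 h
    have e : y'.1 = ((u : R K) : K) * y.1 := congrArg Subtype.val hu
    have h0 := (key y).1.1.1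
    have h1 := cvs_div (key y).1.2 (key y').1.2
    rw [e, mul_div_cancel_right₀ _ h0] at h1
    have hU : Units.mk0 _ (unit_ne u) ∈ U1 K := ⟨mem_unitsR.2 ⟨u, rfl⟩, (mem_H1 cls_he).2 h1⟩
    have := (exists_rep h0).unique (y₁ := 1) (y₂ := ⟨_, hU⟩) (by simpa using (key y).1.1)
      (by simpa [← e] using (key y').1.1)
    have e2 : (1 : K) = ((u : R K) : K) := congrArg (fun v : U1 K => ((v : Kˣ) : K)) this
    exact Subtype.ext (by rw [e, ← e2, one_mul])
  · intro n hn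
    rw [Function.mem_support] at hn
    have h1 : ∃ y : R K, One (ee K) ((y : K) / la) ∧ mkM y = n := by
      by_contra h
      exact hn (if_neg h)
    rw [if_pos h1] at hn
    obtain ⟨y, hy, rfl⟩ := h1
    obtain ⟨⟨u, hu⟩, hr, -⟩ := exists_rep (coeR_ne (cls_ne hy))
    obtain ⟨v, hv⟩ := mem_unitsR.1 hu.1
    have hc : clsK ((v : R K) : K) = 1 := by rw [hv]; exact clsK_one_of hu.2.1
    have e : (u : K) * y = ((v * y : R K) : K) := by rw [← hv]; rfl
    obtain ⟨v', hv', e'⟩ := lft_mkM y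
    rw [e', hG _ hv'] at hn
    refine ⟨⟨((v * y : R K) : K), ?_⟩, (mkM_eq_iff.2 ⟨v, hc, rfl⟩).symm⟩
    rw [Function.mem_support, if_pos ⟨e ▸ hr, by
      rw [← e, mul_div_assoc]
      exact hu.2.1.mul hy⟩]
    rwa [show extR G ((v * y : R K) : K) = G (v * y) from dif_pos (v * y : R K).2, hG _ hc]
  · intro y
    obtain ⟨v, hv, e⟩ := lft_mkM (⟨y.1, (key y).2⟩ : R K)
    rw [if_pos ⟨_, (key y).1.2, rfl⟩, if_pos (key y).1, e, hG _ hv]
    exact (show extR G y.1 = G ⟨y.1, (key y).2⟩ from dif_pos (key y).2).symm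

theorem cvs_fin : (U0 K ⊔ H1 K (ee K)).FiniteIndex := by
  have h1 : (H1 K (ee K) ⊔ unitsR K).FiniteIndex :=
    @Subgroup.finiteIndex_of_finite_quotient _ _ _ finite_Lam
  have h2 : (H6 K).FiniteIndex := @Subgroup.finiteIndex_of_finite_quotient _ _ _ finite_GG
  refine Subgroup.finiteIndex_of_le (H := (H1 K (ee K) ⊔ unitsR K) ⊓ H6 K) ?_
  rintro x ⟨hx, h6⟩
  obtain ⟨h, hh, u, hu, rfl⟩ := Subgroup.mem_sup.1 hx
  refine Subgroup.mem_sup.2 ⟨u, ⟨hu, ?_⟩, h, hh, mul_comm _ _⟩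
  exact ((H6 K).mul_mem_cancel_left (Subgroup.mem_sup_left hh)).1 h6

theorem split_MM : ∃ Λ : Finset K, (∀ la ∈ Λ, la ≠ 0) ∧ ∀ (f : GG K → ℂ) (G : R K → ℂ),
    (∀ g, ‖f g‖ ≤ 1) → (∀ u : (R K)ˣ, clsK ((u : R K) : K) = 1 → ∀ y, G (u * y) = G y) →
    (Summable fun n : MM K => G (lft n)) →
    ‖∑' n : MM K, if n ≠ 0 then f (clsK (lft n : K)) * G (lft n) else 0‖ ≤
      ∑ la ∈ Λ, ‖SL1 la G‖ := by
  have := cvs_fin (K := K)
  obtain ⟨Λ, hΛ⟩ : ∃ Λ : Finset Kˣ, ∀ x : Kˣ, ∃! t, t ∈ Λ ∧ t⁻¹ * x ∈ U0 K ⊔ H1 K (ee K) := by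
    have := Fintype.ofFinite (Kˣ ⧸ (U0 K ⊔ H1 K (ee K)))
    refine ⟨Finset.univ.image fun q : Kˣ ⧸ (U0 K ⊔ H1 K (ee K)) => q.out, fun x =>
      ⟨(QuotientGroup.mk x : Kˣ ⧸ (U0 K ⊔ H1 K (ee K))).out, ⟨Finset.mem_image.2
        ⟨_, Finset.mem_univ _, rfl⟩, QuotientGroup.eq.1 (QuotientGroup.out_eq' _)⟩, ?_⟩⟩
    rintro t ⟨ht, h⟩
    obtain ⟨q, -, rfl⟩ := Finset.mem_image.1 ht
    rw [← QuotientGroup.eq.2 h, QuotientGroup.out_eq']
  refine ⟨Λ.image Units.val, fun la hla => ?_, fun f G hf hG hs => ?_⟩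
  · obtain ⟨t, -, rfl⟩ := Finset.mem_image.1 hla
    exact t.ne_zero
  rw [Finset.sum_image Units.val_injective.injOn]
  have key : ∀ (n : MM K) (h : (lft n : K) ≠ 0) (t : Kˣ),
      (∃ y : R K, One (ee K) ((y : K) / t) ∧ mkM y = n) ↔
        t⁻¹ * Units.mk0 _ h ∈ U0 K ⊔ H1 K (ee K) := by
    intro n h t
    constructor
    · rintro ⟨y, hy, rfl⟩
      obtain ⟨v, hv, e⟩ := lft_mkM y
      refine Subgroup.mem_sup.2 ⟨Units.mk0 _ (unit_ne v), mem_U0.2 ⟨v, hv, rfl⟩,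
        Units.mk0 _ (hy.ne_zero cls_he), (mem_H1 cls_he).2 hy, Units.ext ?_⟩
      simp only [Units.val_mul, Units.val_mk0, Units.val_inv_eq_inv_val, e, Subring.coe_mul]
      ring
    · intro hx
      obtain ⟨u, hu, a, ha, e⟩ := Subgroup.mem_sup.1 hx
      obtain ⟨v, hv, e2⟩ := mem_U0.1 ((U0 K).inv_mem hu)
      refine ⟨v * lft n, ?_, by rw [← mkM_eq_iff.2 ⟨v, hv, rfl⟩, mkM_lft]⟩
      have e3 : (u : K) * a = (t : K)⁻¹ * lft n := by simpa using congrArg Units.val e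
      have e4 : ((v * lft n : R K) : K) / t = a := by
        rw [Subring.coe_mul, e2, mul_div_assoc, div_eq_inv_mul, ← e3]
        simp
      rw [e4]
      exact ha.1
  have e : ∀ n : MM K, (if n ≠ 0 then f (clsK (lft n : K)) * G (lft n) else 0) =
      ∑ t ∈ Λ, f (clsK (t : K)) *
        if ∃ y : R K, One (ee K) ((y : K) / t) ∧ mkM y = n then G (lft n) else 0 := by
    intro n
    by_cases hn : n = 0
    · rw [if_neg (not_not.2 hn)]
      refine (Finset.sum_eq_zero fun t _ => ?_).symm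
      rw [if_neg, mul_zero]
      rintro ⟨y, hy, h⟩
      exact cls_ne hy (mkM_eq_zero.1 (h.trans hn))
    · have h0 : (lft n : K) ≠ 0 := coeR_ne fun h => hn (lft_eq_zero.1 h)
      obtain ⟨t, ⟨h1, h2⟩, h3⟩ := hΛ (Units.mk0 _ h0)
      rw [if_pos hn, Finset.sum_eq_single_of_mem t h1 fun b hb hne => by
        rw [if_neg fun h => hne (h3 b ⟨hb, (key n h0 b).1 h⟩), mul_zero], if_pos ((key n h0 t).2 h2)]
      obtain ⟨y, hy, rfl⟩ := (key n h0 t).2 h2
      have c := clsK_mul (hy.ne_zero cls_he) t.ne_zero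
      rw [div_mul_cancel₀ _ t.ne_zero, clsK_one_of hy] at c
      rw [clsK_lft, c.trans (one_mul (clsK (t : K)))]
  rw [tsum_congr e, Summable.tsum_finsetSum fun t _ => Summable.mul_left _ ?_]
  · refine (norm_sum_le _ _).trans (Finset.sum_le_sum fun t _ => ?_)
    rw [tsum_mul_left, cvs_one _ hG, norm_mul]
    exact mul_le_of_le_one_left (norm_nonneg _) (hf _)
  · exact hs.indicator {n | ∃ y : R K, One (ee K) ((y : K) / t) ∧ mkM y = n}

end

end Vale.Agent.P319N
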