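import Vale.Agent.P319N.CVl
import Vale.Agent.P319N.CVs

namespace Vale.Agent.P319N

open NumberField Complex MeasureTheory Filter Topology
open scoped Classical ComplexConjugate Real MatrixGroups
open Vale.Agent.P026 (omC kap psi W Hs ht QQ act uu muH hh LL Gs bb kk UU DualW)

noncomputable section

variable {K : Type} [Field K] [NumberField K] [Level K]

theorem cvm_inv (s h : R K) (w : ℂ) (X : ℝ) (u : (R K)ˣ) (hu : clsK ((u : R K) : K) = 1) (y : R K) :
    TT ((u : R K) * y) * lamA ((u : R K) * y) *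
        (chi6 ((u : R K) * y) s ^ 5 * chi6 ((u : R K) * y) h ^ 5) * W w (N ((u : R K) * y) / X) =
      TT y * lamA y * (chi6 y s ^ 5 * chi6 y h ^ 5) * W w (N y / X) := by
  have e : mkM y = mkM ((u : R K) * y) := mkM_eq_iff.2 ⟨u, hu, rfl⟩
  have e2 : N ((u : R K) * y) = N y := by
    unfold N
    rw [Nm_mul, Nm_eq_one.2 u.isUnit, one_mul]
  rw [← tM_mk, ← tM_mk, ← e, chi6_mul_left, chi6_mul_left, chi6_triv u.isUnit hu,
    chi6_triv u.isUnit hu, one_mul, one_mul, e2]

theorem cvm_summable (s h : R K) (w : ℂ) {X : ℝ} (hX : 0 < X) :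
    Summable fun n : MM K => TT (lft n) * lamA (lft n) *
      (chi6 (lft n) s ^ 5 * chi6 (lft n) h ^ 5) * W w (N (lft n) / X) := by
  obtain ⟨B, -, hB⟩ := tM_bound (K := K)
  obtain ⟨C, hC, hW⟩ := P026.W_le (-2) |w.re|
  have hS := Ab.summable_of_sq_bound (a := tM (K := K)) (fun R hR => hB R (by linarith))
    (s := 2) (by norm_num)
  refine Summable.of_norm_bounded (hS.mul_left (C * X ^ (2 : ℝ))) fun n => ?_
  have e : TT (lft n) * lamA (lft n) = tM n := rfl
  have e2 : Ab.N n = N (lft n) := rfl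
  rw [e, e2]
  by_cases hn : n = 0
  · have : tM n = 0 := by
      rw [← e, lft_eq_zero.2 hn, TT_zero, zero_mul]
    simp [this]
  have h0 : 0 < N (lft n) := N_pos fun h => hn (lft_eq_zero.1 h)
  have h1 := hW w (N (lft n) / X) le_rfl (div_pos h0 hX)
  rw [P026.wb_div h0.le hX] at h1
  have h2 : ‖chi6 (lft n) s ^ 5 * chi6 (lft n) h ^ 5‖ ≤ 1 := by
    rw [norm_mul, norm_pow, norm_pow]
    exact mul_le_one₀ (pow_le_one₀ (norm_nonneg _) (norm_chi6_le _ _)) (by positivity)
      (pow_le_one₀ (norm_nonneg _) (norm_chi6_le _ _))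
  rw [norm_mul, norm_mul]
  calc _ ≤ ‖tM n‖ * 1 * (C * (X ^ (2 : ℝ) * N (lft n) ^ (-2 : ℝ))) := by gcongr
    _ = _ := by ring

theorem vorls_tM : Ab.VORLS (tM (K := K)) := by
  intro ε hε R0
  obtain ⟨Λ, hΛ, hsp⟩ := split_MM (K := K)
  choose! C hC0 hC using fun (la : K) (hla : la ≠ 0) => vl hla hε R0
  have hS0 : 0 ≤ ∑ la ∈ Λ, C la := Finset.sum_nonneg fun la h => hC0 la (hΛ la h)
  refine ⟨(Λ.card + 1) * ∑ la ∈ Λ, C la, by positivity, ?_⟩
  intro Z X H w M0 s f hX hXZ hH hHZ hM hMZ hs hw hf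
  have hM' : lft M0 ≠ 0 := fun h => hM (lft_eq_zero.1 h)
  have hs' : ∃ j : ℕ, lft s ∣ lft M0 ^ j := by
    obtain ⟨j, hj⟩ := hs
    exact ⟨j, mkM_dvd.1 (by rwa [map_pow, mkM_lft, mkM_lft])⟩
  have hs0 : lft s ≠ 0 := by
    obtain ⟨j, hj⟩ := hs'
    exact ne_zero_of_dvd_ne_zero (pow_ne_zero j hM') hj
  set S := (Ab.ballN (MM K) H).filter (fun h => IsRelPrime h M0) with hS
  let G : MM K → R K → ℂ := fun h y =>
    TT y * lamA y * (chi6 y (lft s) ^ 5 * chi6 y (lft h) ^ 5) * W w (N y / X)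
  choose rp hrp0 _ hrp using fun g : GG K => exists_cls g (one_ne_zero (α := R K))
  have key : ∀ h : MM K, ‖∑' n : MM K, if Ab.Prim n then tM n * f h n * Ab.chi6 s n ^ 5 *
      Ab.chi6 n h ^ 5 * W w (Ab.N n / X) else 0‖ ≤ ∑ la ∈ Λ, ‖SL1 la (G h)‖ := by
    intro h
    refine le_of_eq_of_le ?_ (hsp (fun g => if g ∈ OmG K then
      f h (mkM (rp g)) * E6 (clsK (lft s : K)) g ^ 5 else 0) (G h) (fun g => ?_)
      (fun u hu y => cvm_inv _ _ w X u hu y) (cvm_summable _ _ w (by linarith)))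
    · congr 1
      refine tsum_congr fun n => ?_
      by_cases hn : n = 0
      · rw [if_neg (fun hp => hp.1 hn), if_neg (fun hp => hp hn)]
      have hn' : lft n ≠ 0 := fun h => hn (lft_eq_zero.1 h)
      rw [if_pos hn]
      by_cases hp : clsK (lft n : K) ∈ OmG K
      · rw [if_pos (show Ab.Prim n from ⟨hn, hp⟩), if_pos hp]
        have e1 : f h (mkM (rp (clsK (lft n : K)))) = f h n := by
          refine (hf h).1 _ _ (fun h0 => hrp0 _ (mkM_eq_zero.1 h0)) hn ?_
          show clsK (lft (mkM (rp (clsK (lft n : K)))) : K) = clsK (lft n : K)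
          rw [clsK_lft, hrp]
        have e2 : Ab.chi6 s n = E6 (clsK (lft s : K)) (clsK (lft n : K)) * chi6 (lft n) (lft s) :=
          chi6_flip hs0 hn'
        have e3 : Ab.chi6 n h = chi6 (lft n) (lft h) := rfl
        have e4 : Ab.N n = N (lft n) := rfl
        rw [e1, e2, e3, e4]
        simp only [G, tM]
        ring
      · rw [if_neg (fun h' : Ab.Prim n => hp h'.2), if_neg hp, zero_mul]
    · split_ifs
      · rw [norm_mul, norm_pow, norm_E6, one_pow, mul_one]
        exact (hf h).2 _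
      · simp
  have hQ : 0 ≤ Z ^ ε * N (lft M0) * X * QB H (N (lft M0)) X := by
    have : 0 ≤ Z := by linarith
    have := (N_pos hM').le
    have : 0 ≤ X := by linarith
    unfold QB
    positivity
  calc _ ≤ ∑ h ∈ S, (Λ.card : ℝ) * ∑ la ∈ Λ, ‖SL1 la (G h)‖ ^ 2 := by
        refine Finset.sum_le_sum fun h _ => ?_
        exact (pow_le_pow_left₀ (norm_nonneg _) (key h) 2).trans sq_sum_le_card_mul_sum_sq
    _ = (Λ.card : ℝ) * ∑ la ∈ Λ, ∑ h ∈ S, ‖SL1 la (G h)‖ ^ 2 := by
        rw [← Finset.mul_sum, Finset.sum_comm]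
    _ ≤ (Λ.card : ℝ) * ∑ la ∈ Λ, C la * (Real.exp (((Λ.card + 1) * ∑ la ∈ Λ, C la) * |w.im|) *
          (Z ^ ε * N (lft M0) * X * QB H (N (lft M0)) X)) := by
        refine mul_le_mul_of_nonneg_left (Finset.sum_le_sum fun la hla => ?_) (Nat.cast_nonneg _)
        refine (hC la (hΛ la hla) Z X H w (lft M0) (lft s) S hX hXZ hH hHZ hM' hMZ hs' hw
          (Finset.filter_subset _ _) fun h hh => ?_).trans ?_
        · rw [← isRelPrime_mkM, mkM_lft, mkM_lft]
          exact (Finset.mem_filter.1 hh).2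
        · have h1 : C la ≤ (Λ.card + 1) * ∑ la ∈ Λ, C la := by
            have := Finset.single_le_sum (fun la h => hC0 la (hΛ la h)) hla
            nlinarith [Nat.cast_nonneg (α := ℝ) Λ.card]
          have h2 := hC0 la (hΛ la hla)
          calc _ = C la * (Real.exp (C la * |w.im|) *
                (Z ^ ε * N (lft M0) * X * QB H (N (lft M0)) X)) := by ring
            _ ≤ _ := by gcongr
    _ ≤ _ := by
        rw [← Finset.sum_mul, ← mul_assoc]
        have e4 : Ab.N M0 = N (lft M0) := rfl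
        rw [e4]
        calc _ ≤ ((Λ.card : ℝ) + 1) * (∑ la ∈ Λ, C la) *
              (Real.exp (((Λ.card + 1) * ∑ la ∈ Λ, C la) * |w.im|) *
                (Z ^ ε * N (lft M0) * X * QB H (N (lft M0)) X)) := by
              gcongr
              linarith
          _ = _ := by unfold QB; ring

end

end Vale.Agent.P319N
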