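import Vale.Agent.P319N.CY1
import Vale.Agent.P319N.ABas

namespace Vale.Agent.P319N

open NumberField Complex MeasureTheory Filter Topology
open scoped Classical ComplexConjugate Real MatrixGroups
open Vale.Agent.P026 (omC kap psi W Hs ht QQ act uu muH hh LL Gs bb kk UU DualW)

noncomputable section

variable {K : Type} [Field K] [NumberField K] [Level K]

theorem cy2_Npow (p : R K) (k : ℕ) : N (p ^ k) = N p ^ k := by
  induction k with
  | zero => rw [pow_zero, pow_zero]; exact gau_N_unit isUnit_one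
  | succ k ih => rw [pow_succ, pow_succ, N_mul, ih]

theorem cy2_grp {G : Type} [CommGroup G] (a c g : G) (k : ℕ) :
    c * a ^ k * g⁻¹ = c * (g * a⁻¹ ^ k)⁻¹ := by
  rw [mul_inv, inv_pow, inv_inv, mul_assoc, mul_comm g⁻¹]

theorem cy2_inv (c d : GG K) : E3 c⁻¹ d = E3 d c := by
  have h : E3 (c⁻¹ * c) d = 1 := by
    rw [show c⁻¹ * c = 1 from inv_mul_cancel c, E3_one_left]
  rw [E3_mul_left] at h
  rw [E3_swap c d]
  linear_combination (conj (E3 c d)) * h - E3 c⁻¹ d * cy1_conj c d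

theorem trm_pow_mul {p c : R K} (hp : Prime p) (hc : ¬ p ∣ c) (g : GG K) (n : R K) (k : ℕ) (s : ℂ) :
    trm g n (p ^ k * c) s =
      E3 g (clsK (p : K)) ^ k * g3 n (p ^ k) * (((N p : ℝ) : ℂ) ^ (-s)) ^ k *
        trm (g * (clsK (p : K))⁻¹ ^ k) (n * p ^ k) c s := by
  have c0 : c ≠ 0 := fun h => hc (h ▸ dvd_zero p)
  have pk := pow_ne_zero k hp.ne_zero
  have e0 : clsK ((p ^ k : R K) : K) = clsK (p : K) ^ k := by
    rw [Subring.coe_pow, clsK_pow (coeR_ne hp.ne_zero)]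
  have e : clsK ((c * p ^ k : R K) : K) = clsK (c : K) * clsK (p : K) ^ k := by
    rw [Subring.coe_mul, clsK_mul (coeR_ne c0) (coeR_ne pk), e0]
  have e2 : clsK (c : K) * clsK (p : K) ^ k * g⁻¹ =
      clsK (c : K) * (g * (clsK (p : K))⁻¹ ^ k)⁻¹ :=
    cy2_grp (G := GG K) (clsK (p : K)) (clsK (c : K)) g k
  rw [mul_comm (p ^ k) c, trm, trm, e, e2]
  split_ifs
  · rw [g3_split c0 pk ((hp.irreducible.coprime_iff_not_dvd.2 hc).symm.pow_right), E, e0,
      E3_mul_right, E3_mul_left, cy1_E3_pow, cy1_E3_pow, cy1_E3_pow_left, cy2_inv, N_mul,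
      ofReal_mul, mul_cpow_ofReal_nonneg (N_pos c0).le (N_pos pk).le, cy2_Npow, ofReal_pow, N, N,
      ofReal_natCast, ofReal_natCast, ← natCast_cpow_natCast_mul, cpow_nat_mul]
    ring
  · simp

theorem YY_euler {p : R K} (hp : Prime p) (g : GG K) (n : R K) {s : ℂ} (hs : 3 < s.re) :
    HasSum (fun k : ℕ => E3 g (clsK (p : K)) ^ k * g3 n (p ^ k) * (((N p : ℝ) : ℂ) ^ (-s)) ^ k *
      YY (chp p) (g * (clsK (p : K))⁻¹ ^ k) (n * p ^ k) s) (YY (fun _ => 1) g n s) := by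
  obtain ⟨ν, ⟨hν, ha⟩, -⟩ := exists_primM hp.ne_zero
  have dv : ∀ c : MM K, p ∣ lft c ↔ ν ∣ c := fun c => by
    rw [← ha.dvd_iff_dvd_left, ← mkM_dvd, mkM_lft, mkM_lft]
  have pν : Prime ν := by rw [← mkM_lft ν, prime_mkM]; exact ha.symm.prime hp
  have as : ∀ (k : ℕ) (c : MM K), Associated (p ^ k * lft c) (lft (ν ^ k * c)) := fun k c => by
    have := mon_assoc (lft ν ^ k * lft c)
    rw [map_mul, map_pow, mkM_lft, mkM_lft] at this
    exact ((ha.symm.pow_pow).mul_right _).trans this.symm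
  have hi : Function.Injective
      fun x : ℕ × {c : MM K // PrimM c ∧ ¬ ν ∣ c} => ν ^ x.1 * x.2.1 := by
    rintro ⟨i, a, ha⟩ ⟨j, b, hb⟩ e
    have key : ∀ {i j : ℕ} {a b : MM K}, ¬ ν ∣ a → ν ^ i * a = ν ^ j * b → j ≤ i := by
      intro i j a b ha e
      by_contra h
      obtain ⟨m, rfl⟩ := Nat.exists_eq_add_of_lt (not_le.1 h)
      rw [add_assoc, pow_add, mul_assoc] at e
      exact ha (mul_left_cancel₀ (pow_ne_zero i pν.ne_zero) e ▸
        ((dvd_pow_self ν (Nat.succ_ne_zero m)).mul_right b))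
    obtain rfl : i = j := le_antisymm (key hb.2 e.symm) (key ha.2 e)
    obtain rfl : a = b := mul_left_cancel₀ (pow_ne_zero i pν.ne_zero) e
    rfl
  have h1 := (hi.hasSum_iff (f := fun c : MM K => if PrimM c then (1 : ℂ) * trm g n (lft c) s else 0)
    fun c hc => if_neg fun h => by
      obtain ⟨k, a, h2, rfl⟩ := WfDvdMonoid.max_power_factor h.1 pν.irreducible
      exact hc ⟨(k, ⟨a, (primM_iff a).2 (Ab.Prim.of_mul ((primM_iff _).1 h)
        (((primM_iff _).1 hν).pow k)), h2⟩), rfl⟩).2 (summable_YY cy1_one g n hs).hasSum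
  refine h1.prod_fiberwise fun k => ?_
  have h2 := ((Subtype.val_injective (p := fun c : MM K => PrimM c ∧ ¬ ν ∣ c)).hasSum_iff
    (f := fun c : MM K => if PrimM c then chp p (lft c) *
      trm (g * (clsK (p : K))⁻¹ ^ k) (n * p ^ k) (lft c) s else 0) fun c hc => by
        split_ifs with h
        · rw [chp, if_pos, zero_mul]
          by_contra h3
          exact hc ⟨⟨c, h, fun h4 => h3 ((dv c).2 h4)⟩, rfl⟩
        · rfl).2 (summable_YY (cy1_chp p) _ _ hs).hasSum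
  refine (h2.mul_left _).congr_fun ?_
  rintro ⟨c, h3, h4⟩
  have h5 : ¬ p ∣ lft c := fun h => h4 ((dv c).1 h)
  have h6 : PrimM (ν ^ k * c) :=
    (primM_iff _).2 ((((primM_iff _).1 hν).pow k).mul ((primM_iff _).1 h3))
  simp only [Function.comp, if_pos h3, if_pos h6, chp, if_neg h5, one_mul]
  rw [← trm_assoc g n (mul_ne_zero (pow_ne_zero k hp.ne_zero) (cy1_ne h3)) (as k c),
    trm_pow_mul hp h5]

end

end Vale.Agent.P319N
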