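import Vale.Agent.P319N.Ar

namespace Vale.Agent.P319N

open NumberField Complex MeasureTheory Filter Topology
open scoped Classical ComplexConjugate Real MatrixGroups
open Vale.Agent.P026 (omC kap psi W Hs ht QQ act uu muH hh LL Gs bb kk UU DualW)

noncomputable section

/-! ### the rings `R = O_K[1/M]` and `A = O_K` localized at the primes over `M` -/

section rings
variable (K : Type) [Field K] [NumberField K]

/-- algebraic integers of `K` -/
abbrev IsI {K : Type} [Field K] (x : K) : Prop := IsIntegral ℤ x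

theorem isI_nat {K : Type} [Field K] (n : ℕ) : IsI (n : K) := by
  have : IsIntegral ℤ (algebraMap ℤ K (n : ℤ)) := isIntegral_algebraMap
  simpa using this

def RM (M : ℕ) : Subring K where
  carrier := {x | ∃ j : ℕ, IsI ((M : K) ^ j * x)}
  zero_mem' := ⟨0, by simpa using isIntegral_zero⟩
  one_mem' := ⟨0, by simpa using isIntegral_one⟩
  add_mem' := by
    rintro x y ⟨i, hi⟩ ⟨j, hj⟩
    refine ⟨i + j, ?_⟩
    have : (M : K) ^ (i + j) * (x + y) = (M : K) ^ j * ((M : K) ^ i * x) +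
      (M : K) ^ i * ((M : K) ^ j * y) := by ring
    rw [this]
    exact (((isI_nat M).pow j).mul hi).add (((isI_nat M).pow i).mul hj)
  mul_mem' := by
    rintro x y ⟨i, hi⟩ ⟨j, hj⟩
    refine ⟨i + j, ?_⟩
    have : (M : K) ^ (i + j) * (x * y) = ((M : K) ^ i * x) * ((M : K) ^ j * y) := by ring
    rw [this]
    exact hi.mul hj
  neg_mem' := by
    rintro x ⟨i, hi⟩
    exact ⟨i, by simpa using hi.neg⟩

def AM (M : ℕ) : Subring K where
  carrier := {x | ∃ b : ℕ, b.Coprime M ∧ b ≠ 0 ∧ IsI ((b : K) * x)}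
  zero_mem' := ⟨1, by simp, one_ne_zero, by simpa using isIntegral_zero⟩
  one_mem' := ⟨1, by simp, one_ne_zero, by simpa using isIntegral_one⟩
  add_mem' := by
    rintro x y ⟨a, ha, ha0, hx⟩ ⟨b, hb, hb0, hy⟩
    refine ⟨a * b, Nat.Coprime.mul_left ha hb, mul_ne_zero ha0 hb0, ?_⟩
    have : ((a * b : ℕ) : K) * (x + y) = (b : K) * ((a : K) * x) + (a : K) * ((b : K) * y) := by
      push_cast; ring
    rw [this]
    exact ((isI_nat b).mul hx).add ((isI_nat a).mul hy)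
  mul_mem' := by
    rintro x y ⟨a, ha, ha0, hx⟩ ⟨b, hb, hb0, hy⟩
    refine ⟨a * b, Nat.Coprime.mul_left ha hb, mul_ne_zero ha0 hb0, ?_⟩
    have : ((a * b : ℕ) : K) * (x * y) = ((a : K) * x) * ((b : K) * y) := by
      push_cast; ring
    rw [this]
    exact hx.mul hy
  neg_mem' := by
    rintro x ⟨a, ha, ha0, hx⟩
    exact ⟨a, ha, ha0, by simpa using hx.neg⟩

class Setup (K : Type) [Field K] [NumberField K] where
  zeta : K
  hzeta : IsPrimitiveRoot zeta 12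
  M : ℕ
  six : 6 ∣ M
  Mne : M ≠ 0
  pid : IsPrincipalIdealRing (RM K M)
  diff : ∀ x : K, (∀ y : K, IsI y → ∃ k : ℤ, Algebra.trace ℚ K (x * y) = k) → IsI ((M : K) * x)

end rings

section setup
variable {K : Type} [Field K] [NumberField K] [Setup K]

abbrev R (K : Type) [Field K] [NumberField K] [Setup K] : Subring K := RM K (Setup.M K)
abbrev A (K : Type) [Field K] [NumberField K] [Setup K] : Subring K := AM K (Setup.M K)
/-- the integer `M` as an element of `K` -/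
abbrev MK (K : Type) [Field K] [NumberField K] [Setup K] : K := (Setup.M K : K)

instance : IsPrincipalIdealRing (R K) := Setup.pid

def omK (K : Type) [Field K] [NumberField K] [Setup K] : K := Setup.zeta ^ 4
def lamK (K : Type) [Field K] [NumberField K] [Setup K] : K := 1 + 2 * omK K
def om (K : Type) [Field K] [NumberField K] [Setup K] : R K :=
  ⟨omK K, 0, by
    simpa [omK] using ((Setup.hzeta (K := K)).isIntegral (by norm_num)).pow 4⟩

/-- norm of the ideal of `R` generated by `x` -/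
def Nm (x : R K) : ℕ := Nat.card (R K ⧸ Ideal.span {x})
def N (x : R K) : ℝ := (Nm x : ℝ)
/-- absolute value of the field norm -/
def absN (x : K) : ℝ := |((Algebra.norm ℚ x : ℚ) : ℝ)|
/-- the part of `absN` supported on the primes dividing `M` -/
def sN (x : K) : ℝ :=
  ∏ l ∈ (Setup.M K).primeFactors, (l : ℝ) ^ (padicValRat l (Algebra.norm ℚ x))

def trK (x : K) : ℚ := Algebra.trace ℚ K (x / lamK K)
def psiQ (M : ℕ) (y : ℚ) : ℂ :=
  Complex.exp (2 * π * Complex.I * ((y * (M : ℚ) ^ (y.den.factorial) : ℚ) : ℂ))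
/-- archimedean additive character -/
def psiK (x : K) : ℂ := Complex.exp (2 * π * Complex.I * ((trK x : ℚ) : ℂ))
/-- additive character trivial on `R` -/
def psiS (x : K) : ℂ := psiQ (Setup.M K) (trK x)
/-- additive character of the finite places over `M` -/
def psiF (x : K) : ℂ := psiK x * conj (psiS x)

def rs (q : R K) : Finset (R K) :=
  if h : (Set.range (fun x : R K ⧸ Ideal.span {q} => x.out)).Finite then h.toFinset else ∅
def Per (q : R K) (f : R K → ℂ) : Prop := ∀ x y, q ∣ x - y → f x = f y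

def sym3p (x p : R K) : ℂ :=
  if p ∣ x then 0 else if p ∣ x ^ ((Nm p - 1) / 3) - 1 then 1
  else if p ∣ x ^ ((Nm p - 1) / 3) - om K then omC else omC ^ 2
def sym2p (x p : R K) : ℂ :=
  if p ∣ x then 0 else if p ∣ x ^ ((Nm p - 1) / 2) - 1 then 1 else -1
def sym3 (x n : R K) : ℂ := ((UniqueFactorizationMonoid.factors n).map (sym3p x)).prod
def sym2 (x n : R K) : ℂ := ((UniqueFactorizationMonoid.factors n).map (sym2p x)).prod
def chi6 (x n : R K) : ℂ := sym3 x n ^ 2 * sym2 x n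

def gs (k : ℕ) (h n : R K) : ℂ := ∑ x ∈ rs n, chi6 x n ^ k * psiS ((h : K) * x / n)
def gt (k : ℕ) (n : R K) : ℂ := gs k 1 n / ((√(N n) : ℝ) : ℂ)
def g3 (h n : R K) : ℂ := ∑ x ∈ rs n, sym3 x n * psiS ((h : K) * x / n)
def gt3 (n : R K) : ℂ := g3 1 n / ((√(N n) : ℝ) : ℂ)
def g2 (h n : R K) : ℂ := ∑ x ∈ rs n, sym2 x n * psiS ((h : K) * x / n)
def Gq (t n : R K) : ℂ := ∑ x ∈ rs n, psiS ((t : K) * x ^ 2 / n)
def F1 (n : R K) : ℂ := Gq 1 n / ((√(N n) : ℝ) : ℂ)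
def mu (n : R K) : ℂ :=
  if Squarefree n then (-1) ^ (UniqueFactorizationMonoid.factors n).card else 0
/-- cubic Jacobi sum -/
def Jp (p : R K) : ℂ := ∑ x ∈ rs p, sym3 x p * sym3 (1 - x) p
/-- the unitary Hecke character attached to the cubic Jacobi sums -/
def lamA (n : R K) : ℂ :=
  ((UniqueFactorizationMonoid.factors n).map (fun p => -Jp p / ((√(N p) : ℝ) : ℂ))).prod

/-- `z = 1` modulo `M^j A` -/
def One (j : ℕ) (z : K) : Prop := (z - 1) / MK K ^ j ∈ A K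

theorem MK_ne : MK K ≠ 0 := Nat.cast_ne_zero.2 Setup.Mne

theorem MK_mem_A : MK K ∈ A K := natCast_mem _ _

theorem One.mem {j : ℕ} {z : K} (h : One j z) : z ∈ A K := by
  have : z = 1 + MK K ^ j * ((z - 1) / MK K ^ j) := by
    have := pow_ne_zero j (MK_ne (K := K))
    field_simp; ring
  rw [this]
  exact (A K).add_mem (A K).one_mem ((A K).mul_mem ((A K).pow_mem MK_mem_A j) h)

theorem One.mul {j : ℕ} {z w : K} (h : One j z) (h' : One j w) : One j (z * w) := by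
  have : (z * w - 1) / MK K ^ j = (z - 1) / MK K ^ j * w + (w - 1) / MK K ^ j := by ring
  unfold One
  rw [this]
  exact (A K).add_mem ((A K).mul_mem h h'.mem) h'

theorem one_one (j : ℕ) : One j (1 : K) := by simp [One]

def H1 (K : Type) [Field K] [NumberField K] [Setup K] (j : ℕ) : Subgroup Kˣ where
  carrier := {z | One j (z : K) ∧ One j ((z⁻¹ : Kˣ) : K)}
  one_mem' := ⟨by simpa using one_one j, by simpa using one_one j⟩
  mul_mem' := by
    rintro a b ⟨h1, h2⟩ ⟨h3, h4⟩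
    exact ⟨by simpa using h1.mul h3, by simpa [mul_comm] using h2.mul h4⟩
  inv_mem' := by
    rintro a ⟨h1, h2⟩
    exact ⟨h2, by simpa using h1⟩

/-- units of `R` inside `Kˣ` -/
def unitsR (K : Type) [Field K] [NumberField K] [Setup K] : Subgroup Kˣ where
  carrier := {u | (u : K) ∈ R K ∧ ((u⁻¹ : Kˣ) : K) ∈ R K}
  one_mem' := ⟨by simpa using (R K).one_mem, by simpa using (R K).one_mem⟩
  mul_mem' := by
    rintro a b ⟨h1, h2⟩ ⟨h3, h4⟩
    exact ⟨by simpa using (R K).mul_mem h1 h3, by simpa using (R K).mul_mem h4 h2⟩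
  inv_mem' := by
    rintro a ⟨h1, h2⟩
    exact ⟨h2, by simpa using h1⟩

/-- the lattice `y O_K` -/
def latt (y : K) : AddSubgroup K where
  carrier := {x | IsI (x / y)}
  zero_mem' := by simpa using isIntegral_zero
  add_mem' := by
    intro a b ha hb
    simpa [add_div] using IsIntegral.add ha hb
  neg_mem' := by
    intro a ha
    simpa [neg_div] using IsIntegral.neg ha

/-- the module `y A` -/
def lattA (y : K) : AddSubgroup K where
  carrier := {x | x / y ∈ A K}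
  zero_mem' := by simpa using (A K).zero_mem
  add_mem' := by
    intro a b ha hb
    simpa [add_div] using (A K).add_mem ha hb
  neg_mem' := by
    intro a ha
    simpa [neg_div] using (A K).neg_mem ha

/-- the fractional ideal `y R ∩ x A` -/
def LL2 (y x : K) : AddSubgroup K where
  carrier := {z | z / y ∈ R K ∧ z / x ∈ A K}
  zero_mem' := ⟨by simpa using (R K).zero_mem, by simpa using (A K).zero_mem⟩
  add_mem' := by
    intro a b ha hb
    exact ⟨by simpa [add_div] using (R K).add_mem ha.1 hb.1,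
      by simpa [add_div] using (A K).add_mem ha.2 hb.2⟩
  neg_mem' := by
    intro a ha
    exact ⟨by simpa [neg_div] using (R K).neg_mem ha.1,
      by simpa [neg_div] using (A K).neg_mem ha.2⟩

/-- dual of an additive subgroup with respect to `psiK` -/
def dualL (L : AddSubgroup K) : Set K := {n | ∀ x ∈ L, psiK (n * x) = 1}

/-! ### embeddings -/

def Emb (K : Type) [Field K] [NumberField K] [Setup K] : Type :=
  {σ : K →+* ℂ // σ (omK K) = omC}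

instance : Fintype (Emb K) := by unfold Emb; infer_instance

/-- number of complex places -/
def rk (K : Type) [Field K] [NumberField K] [Setup K] : ℕ := Fintype.card (Emb K)
def jj (x : K) : Emb K → ℂ := fun σ => σ.1 x
def psiV (z : Emb K → ℂ) : ℂ := ∏ σ, psi (z σ)
def Lg (x : K) : Emb K → ℝ := fun σ => Real.log (normSq (σ.1 x))
def angK (x : K) : ℂ := ∏ σ : Emb K, σ.1 x / (‖σ.1 x‖ : ℂ)

/-- `D` is a fundamental domain for the logarithms of the units in `U` -/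
def IsFD (U : Subgroup Kˣ) (D : Set (Emb K → ℝ)) : Prop :=
  MeasurableSet D ∧ (∀ y, ∃! u : U, y + Lg ((u : Kˣ) : K) ∈ D) ∧
    (∀ y ∈ D, ∀ c : ℝ, (fun σ => y σ + c) ∈ D) ∧ ∃ B : ℝ, ∀ y ∈ D, ∀ σ τ, |y σ - y τ| ≤ B

/-- square mean bound on boxes -/
def BoxB (a : K → ℂ) (Bd : ℝ) : Prop :=
  ∀ Y : ℝ, 1 ≤ Y → ∀ s : Finset K, (∀ n ∈ s, ∀ σ : Emb K, normSq (σ.1 n) ≤ Y) →
    ∑ n ∈ s, ‖a n‖ ^ 2 ≤ Bd * Y ^ rk K

/-- the smoothed Gaussian weight attached to `g` -/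
def Vg (K : Type) [Field K] [NumberField K] [Setup K] (g : ℝ → ℂ) (x : ℝ) : ℂ :=
  ∫ y : Emb K → ℝ, ((Real.exp (-(kap * ∑ σ, Real.exp (y σ))) : ℝ) : ℂ) * g (∑ σ, y σ - Real.log x)
def g0 (u : ℝ) : ℂ := ((Real.exp (-u ^ 2 + u / 2) : ℝ) : ℂ)
/-- generator of the dual of `A` for `psiF` -/
def del (K : Type) [Field K] [NumberField K] [Setup K] : K :=
  Classical.epsilon (fun d : K => d ≠ 0 ∧ ∀ z : K, (∀ a ∈ A K, psiF (z * a) = 1) ↔ z / d ∈ A K)
/-- the weight summed over the integral ideals supported over `M` -/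
def VS (K : Type) [Field K] [NumberField K] [Setup K] (g : ℝ → ℂ) (x : ℝ) : ℂ :=
  ∑' a : Associates (A K), if a ≠ 0 then
    Vg K g (x * sN ((Quot.out a : A K) : K) * √(sN (del K))) else 0
def Vw (K : Type) [Field K] [NumberField K] [Setup K] (x : ℝ) : ℝ := (VS K g0 x).re

/-! ### matrices -/

abbrev SLK (K : Type) [Field K] : Type := SL(2, K)
def rmul (x : K × K) (γ : SLK K) : K × K :=
  (x.1 * γ 0 0 + x.2 * γ 1 0, x.1 * γ 0 1 + x.2 * γ 1 1)
def row (γ : SLK K) : K × K := (γ 1 0, γ 1 1)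
def Tm (x : K) : SLK K := ⟨!![1, x; 0, 1], by simp [Matrix.det_fin_two]⟩
/-- principal congruence subgroup of level `q` of `SL(2, O_K)` -/
def Gam (q : K) : Subgroup (SLK K) where
  carrier := {γ | (∀ i j, IsI (γ i j)) ∧ IsI ((γ 0 0 - 1) / q) ∧ IsI (γ 0 1 / q) ∧
    IsI (γ 1 0 / q) ∧ IsI ((γ 1 1 - 1) / q)}
  one_mem' := by
    refine ⟨fun i j => ?_, ?_, ?_, ?_, ?_⟩
    · fin_cases i <;> fin_cases j <;> simp [isIntegral_zero, isIntegral_one]
    all_goals simp [isIntegral_zero]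
  mul_mem' := by
    rintro a b ⟨h, h1, h2, h3, h4⟩ ⟨k, k1, k2, k3, k4⟩
    have e : ∀ i j, (a * b) i j = a i 0 * b 0 j + a i 1 * b 1 j := fun i j => by
      simp [Matrix.mul_apply, Fin.sum_univ_two]
    refine ⟨fun i j => ?_, ?_, ?_, ?_, ?_⟩
    · rw [e]; exact ((h _ _).mul (k _ _)).add ((h _ _).mul (k _ _))
    · have : ((a * b) 0 0 - 1) / q = (a 0 0 - 1) / q * b 0 0 + (b 0 0 - 1) / q +
        a 0 1 / q * b 1 0 := by rw [e]; ring
      rw [this]; exact ((h1.mul (k _ _)).add k1).add (h2.mul (k _ _))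
    · have : (a * b) 0 1 / q = a 0 0 * (b 0 1 / q) + a 0 1 / q * b 1 1 := by rw [e]; ring
      rw [this]; exact ((h _ _).mul k2).add (h2.mul (k _ _))
    · have : (a * b) 1 0 / q = a 1 0 / q * b 0 0 + a 1 1 * (b 1 0 / q) := by rw [e]; ring
      rw [this]; exact (h3.mul (k _ _)).add ((h _ _).mul k3)
    · have : ((a * b) 1 1 - 1) / q = a 1 0 / q * b 0 1 + (a 1 1 - 1) / q * b 1 1 +
        (b 1 1 - 1) / q := by rw [e]; ring
      rw [this]; exact ((h3.mul (k _ _)).add (h4.mul (k _ _))).add k4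
  inv_mem' := by
    rintro a ⟨h, h1, h2, h3, h4⟩
    have e := Matrix.SpecialLinearGroup.SL2_inv_expl a
    have e00 : a⁻¹ 0 0 = a 1 1 := by rw [e]; rfl
    have e01 : a⁻¹ 0 1 = -a 0 1 := by rw [e]; rfl
    have e10 : a⁻¹ 1 0 = -a 1 0 := by rw [e]; rfl
    have e11 : a⁻¹ 1 1 = a 0 0 := by rw [e]; rfl
    refine ⟨fun i j => ?_, ?_, ?_, ?_, ?_⟩
    · fin_cases i <;> fin_cases j
      · exact e00 ▸ h 1 1
      · exact e01 ▸ (h 0 1).neg
      · exact e10 ▸ (h 1 0).neg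
      · exact e11 ▸ h 0 0
    · rw [e00]; exact h4
    · rw [e01, neg_div]; exact h2.neg
    · rw [e10, neg_div]; exact h3.neg
    · rw [e11]; exact h1

/-- denominators of `σ` divide `M^j` -/
def Ent (j : ℕ) (σ : SLK K) : Prop := ∀ a b, IsI (MK K ^ j * σ a b)
/-- pairs that are coprime in `R` with bounded denominators and content -/
def Supp (j : ℕ) (x : K × K) : Prop :=
  IsI (MK K ^ j * x.1) ∧ IsI (MK K ^ j * x.2) ∧
    ∃ a b : K, IsI a ∧ IsI b ∧ a * x.1 + b * x.2 = MK K ^ j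
def tw (Φ : K × K → ℂ) (σ : SLK K) (x : K × K) : ℂ := Φ (rmul x σ⁻¹)

abbrev HH (K : Type) [Field K] [NumberField K] [Setup K] : Type := Emb K → Hs
def actK (γ : SLK K) (w : HH K) : HH K :=
  fun σ => act (Matrix.SpecialLinearGroup.map σ.1 γ) (w σ)
def QK (w : HH K) (x : K × K) : ℝ := ∏ σ : Emb K, QQ (w σ) (σ.1 x.1) (σ.1 x.2)
def lq (w : HH K) (x : K × K) : Emb K → ℝ := fun σ => Real.log (QQ (w σ) (σ.1 x.1) (σ.1 x.2))

def Om (η : ℝ) : Set ℂ := {s | 1 < s.re ∧ 0 < s.im ∧ s.im < η}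
/-- generalized residue at `4/3` of a function known on `re s > 3` -/
def IsRes (η : ℝ) (D : ℂ → ℂ) (r : ℂ) : Prop :=
  ∃ I β : ℂ → ℂ, DifferentiableOn ℂ I (Om η) ∧ DifferentiableOn ℂ β {s | 1 < s.re} ∧
    β (4 / 3) ≠ 0 ∧ (∀ s ∈ Om η, 3 < s.re → I s = D s * β s) ∧
    Tendsto (fun ε : ℝ => (ε : ℂ) * I (4 / 3 + ε * Complex.I)) (UU : Filter ℝ) (𝓝 (r * β (4 / 3)))
def eta (K : Type) [Field K] [NumberField K] [Setup K] : ℝ := (rk K : ℝ)⁻¹

def thetaF (ρ : K → ℂ) (w : HH K) : ℂ :=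
  ∑' n : K, ρ n * ∏ σ : Emb K, (((ht (w σ) ^ (2 / 3 : ℝ) : ℝ) : ℂ) *
    bb (normSq (σ.1 n) * ht (w σ) ^ 2 / 3) (4 / 3) * psi (σ.1 n * (w σ).1))

end setup

/-! ### the level -/

class Level (K : Type) [Field K] [NumberField K] extends Setup K where
  e : ℕ
  he : 1 ≤ e
  rec3 : ∀ a b : R K, b ≠ 0 → IsCoprime a b → One e (a : K) → sym3 a b = sym3 b a
  quad : ∀ n n' : R K, n ≠ 0 → One e ((n' : K) / n) → F1 n' = F1 n

section level
variable {K : Type} [Field K] [NumberField K] [Level K]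

abbrev ee (K : Type) [Field K] [NumberField K] [Level K] : ℕ := Level.e K
def H6 (K : Type) [Field K] [NumberField K] [Level K] : Subgroup Kˣ :=
  H1 K (ee K) ⊔ (powMonoidHom 6 : Kˣ →* Kˣ).range
abbrev GG (K : Type) [Field K] [NumberField K] [Level K] : Type := Kˣ ⧸ H6 K
def clsK (x : K) : GG K := if h : x ≠ 0 then QuotientGroup.mk (Units.mk0 x h) else 1

theorem clsK_mul {x y : K} (hx : x ≠ 0) (hy : y ≠ 0) : clsK (x * y) = clsK x * clsK y := by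
  simp only [clsK, dif_pos hx, dif_pos hy, dif_pos (mul_ne_zero hx hy)]
  rw [← QuotientGroup.mk_mul]
  congr 1
  ext; simp

theorem clsK_one : clsK (1 : K) = 1 := by
  simp only [clsK, dif_pos (one_ne_zero (α := K))]
  rw [← QuotientGroup.mk_one]
  congr 1
  ext; simp

def BB (K : Type) [Field K] [NumberField K] [Level K] : Subgroup (GG K) :=
  (unitsR K).map (QuotientGroup.mk' (H6 K))
def OmG (K : Type) [Field K] [NumberField K] [Level K] : Subgroup (GG K) :=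
  Classical.epsilon (fun Ω : Subgroup (GG K) => IsCompl (BB K) Ω)

def E3 (c d : GG K) : ℂ :=
  if h : ∃ p : R K × R K, p.1 ≠ 0 ∧ p.2 ≠ 0 ∧ IsCoprime p.1 p.2 ∧ clsK (p.1 : K) = c ∧
      clsK (p.2 : K) = d then
    sym3 h.choose.1 h.choose.2 * conj (sym3 h.choose.2 h.choose.1) else 1
def E6 (c d : GG K) : ℂ :=
  if h : ∃ p : R K × R K, p.1 ≠ 0 ∧ p.2 ≠ 0 ∧ IsCoprime p.1 p.2 ∧ clsK (p.1 : K) = c ∧
      clsK (p.2 : K) = d then
    chi6 h.choose.1 h.choose.2 * conj (chi6 h.choose.2 h.choose.1) else 1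
/-- the cubic Hilbert symbol of the places over `M` -/
def E (x y : K) : ℂ := E3 (clsK x) (clsK y)

theorem unit_ne (u : (R K)ˣ) : (((u : R K) : K)) ≠ 0 := by
  have := u.ne_zero
  exact_mod_cast this

def conU (K : Type) [Field K] [NumberField K] [Level K] : Con (R K) where
  r x y := ∃ u : (R K)ˣ, clsK ((u : R K) : K) = 1 ∧ y = u * x
  iseqv := by
    refine ⟨fun x => ⟨1, by simpa using clsK_one, by simp⟩, ?_, ?_⟩
    · rintro x y ⟨u, hu, rfl⟩
      refine ⟨u⁻¹, ?_, by simp⟩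
      have h := clsK_mul (unit_ne u) (unit_ne u⁻¹)
      rw [← Subring.coe_mul, Units.mul_inv, hu] at h
      have h2 : clsK (((u⁻¹ : (R K)ˣ) : R K) : K) = clsK (((1 : R K)) : K) :=
        ((one_mul (clsK (((u⁻¹ : (R K)ˣ) : R K) : K))).symm.trans h.symm)
      rw [h2]; simpa using clsK_one
    · rintro x y z ⟨u, hu, rfl⟩ ⟨v, hv, rfl⟩
      refine ⟨v * u, ?_, by simp [mul_assoc]⟩
      rw [Units.val_mul, Subring.coe_mul, clsK_mul (unit_ne v) (unit_ne u), hu, hv]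
      exact one_mul (1 : GG K)
  mul' := by
    rintro w x y z ⟨u, hu, rfl⟩ ⟨v, hv, rfl⟩
    refine ⟨u * v, ?_, by simp only [Units.val_mul]; ring⟩
    rw [Units.val_mul, Subring.coe_mul, clsK_mul (unit_ne u) (unit_ne v), hu, hv]
    exact one_mul (1 : GG K)

/-- elements of `R` modulo the units of trivial class -/
def MM (K : Type) [Field K] [NumberField K] [Level K] : Type := (conU K).Quotient

instance : CommMonoid (MM K) := inferInstanceAs (CommMonoid (conU K).Quotient)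
def mkM : R K →* MM K := (conU K).mk'
theorem mkM_surj : Function.Surjective (mkM (K := K)) := (conU K).mk'_surjective
instance : CommMonoidWithZero (MM K) :=
  { (inferInstance : CommMonoid (MM K)) with
    zero := mkM 0
    zero_mul := fun x => by
      obtain ⟨y, rfl⟩ := mkM_surj x
      show mkM 0 * mkM y = mkM 0
      rw [← map_mul, zero_mul]
    mul_zero := fun x => by
      obtain ⟨y, rfl⟩ := mkM_surj x
      show mkM y * mkM 0 = mkM 0
      rw [← map_mul, mul_zero] }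
/-- a chosen lift -/
def lft (n : MM K) : R K := (mkM_surj n).choose

/-- units of `O_K` congruent to `1` modulo `M^j` -/
def Uj (K : Type) [Field K] [NumberField K] [Setup K] (j : ℕ) : Subgroup Kˣ := unitsR K ⊓ H1 K j
abbrev U1 (K : Type) [Field K] [NumberField K] [Level K] : Subgroup Kˣ := Uj K (ee K)
def DD (K : Type) [Field K] [NumberField K] [Level K] : Set (Emb K → ℝ) :=
  Classical.epsilon (IsFD (U1 K))
/-- representatives of `Kˣ` modulo `U1` -/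
def Rep (x : K) : Prop := x ≠ 0 ∧ Lg x ∈ DD K

def CosetReps (U : Subgroup Kˣ) (T : Finset Kˣ) : Prop :=
  U ≤ U1 K ∧ (∀ t ∈ T, t ∈ U1 K) ∧ ∀ u ∈ U1 K, ∃! t, t ∈ T ∧ u * t⁻¹ ∈ U

/-! ### the theta machine -/

structure Adm (q : K) (κ : SLK K → ℂ) (Φ : K × K → ℂ) : Prop where
  qne : q ≠ 0
  qint : IsI q
  bd : ∃ B : ℝ, ∀ x, ‖Φ x‖ ≤ B
  supp : ∃ j, ∀ x, Φ x ≠ 0 → Supp j x
  unit : ∀ u ∈ U1 K, ∀ x : K × K, Φ ((u : K) * x.1, (u : K) * x.2) = Φ x
  norm : ∀ γ ∈ Gam q, ‖κ γ‖ = 1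
  mul : ∀ γ ∈ Gam q, ∀ γ' ∈ Gam q, κ (γ * γ') = κ γ * κ γ'
  eqv : ∀ γ ∈ Gam q, ∀ x, Φ (rmul x γ) = κ γ * Φ x
  unip : ∀ j σ, Ent j σ → ∀ k : K, IsI k → κ (σ * Tm (q * MK K ^ (2 * j) * k) * σ⁻¹) = 1

def Inc (Φ : K × K → ℂ) (G : ℝ → ℂ) (w : HH K) : ℂ :=
  ∑' x : K × K, if lq w x ∈ DD K then Φ x * G (QK w x) else 0

def Ssum (q : K) (Φ : K × K → ℂ) (n c : K) : ℂ :=
  ((absN q : ℝ) : ℂ)⁻¹ * ∑' d : K ⧸ latt (c * q), Φ (c, d.out) * psiK (n * d.out / c)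
def Dser (q : K) (Φ : K × K → ℂ) (n : K) (s : ℂ) : ℂ :=
  ∑' c : K, if Rep c then ((absN c : ℝ) : ℂ) ^ (-s) * Ssum q Φ n c else 0

structure ThetaOut (q : K) (Φ : K × K → ℂ) (ρ : SLK K → K → ℂ) : Prop where
  res : ∀ j σ, Ent j σ → ∀ n ∈ dualL (latt (q * MK K ^ (2 * j))),
    IsRes (eta K) (Dser (q * MK K ^ (2 * j)) (tw Φ σ) n) (ρ σ n)
  supp : ∀ j σ, Ent j σ → ∀ n, n ∉ dualL (latt (q * MK K ^ (2 * j))) → ρ σ n = 0
  bound : ∀ j, ∃ C : ℝ, ∀ σ, Ent j σ → ∀ Y : ℝ, 1 ≤ Y → ∀ s : Finset K,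
    (∀ n ∈ s, ∀ τ : Emb K, normSq (τ.1 n) ≤ Y) →
    ∑ n ∈ s, ‖ρ σ n‖ ^ 2 ≤ C * Y ^ ((2 / 3 : ℝ) * rk K)
  aut : ∀ j σ, Ent j σ → ∀ w, thetaF (ρ 1) (actK σ w) = thetaF (ρ σ) w
  van : (∀ j σ, Ent j σ → ρ σ 0 = 0) → ∀ j σ, Ent j σ → ∀ n, ρ σ n = 0

def tauOf (ρ : K → ℂ) (n : K) : ℂ := ((absN n ^ (1 / 6 : ℝ) : ℝ) : ℂ) * ρ n

/-- the Voronoi identity with one length for each place -/
def VorId (a a' : K → ℂ) (η : ℂ) (Cc : Emb K → ℝ) : Prop :=
  ∀ X : Emb K → ℝ, (∀ σ, 0 < X σ) →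
    ∑' n : K, a n * ∏ σ : Emb K, kk (normSq (σ.1 n) / X σ) =
      η * ((∏ σ, X σ / Cc σ : ℝ) : ℂ) *
        ∑' n : K, a' n * ∏ σ : Emb K, kk (normSq (σ.1 n) * X σ / Cc σ ^ 2)

/-- passage to weights depending on the norm only -/
def VorT (K : Type) [Field K] [NumberField K] [Level K] (w : ℂ) (Wst : ℝ → ℂ) : Prop :=
  ∀ (a a' : K → ℂ) (η : ℂ) (Cc : Emb K → ℝ) (Bd : ℝ) (j : ℕ) (U : Subgroup Kˣ) (T : Finset Kˣ),
    CosetReps U T → (∀ σ, 0 < Cc σ) → a 0 = 0 → a' 0 = 0 →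
    (∀ u ∈ U, ∀ n, a ((u : K) * n) = a n ∧ a' ((u : K) * n) = a' n) → BoxB a Bd → BoxB a' Bd →
    (∀ n, a n ≠ 0 ∨ a' n ≠ 0 → IsI (MK K ^ j * n)) → VorId a a' η Cc →
    ∀ X : ℝ, 0 < X →
      ∑ t ∈ T, ∑' n : K, (if Rep n then a ((t : K) * n) * W w (absN n / X) else 0) =
        η * ((X / ∏ σ, Cc σ : ℝ) : ℂ) * ∑ t ∈ T, ∑' n : K,
          (if Rep n then a' ((t : K) * n) * Wst (absN n * X / (∏ σ, Cc σ) ^ 2) else 0)

/-! ### the cubic data -/

def kap0 (γ : SLK K) : ℂ :=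
  if h : γ 1 0 ∈ R K ∧ γ 1 1 ∈ R K then sym3 ⟨γ 1 0, h.1⟩ ⟨γ 1 1, h.2⟩ else 0
/-- the support condition -/
def Nb (a b : K) (x : K × K) : Prop := a * x.1 / MK K ^ ee K ∈ A K ∧ One (ee K) (b * x.2)
def Phi0 (a b : K) (x : K × K) : ℂ :=
  if h : x.1 ∈ R K ∧ x.2 ∈ R K then (if Nb a b x then sym3 ⟨x.1, h.1⟩ ⟨x.2, h.2⟩ else 0) else 0
def phiS (a b : K) (σ : SLK K) (x : K × K) : ℂ :=
  if Nb a b (rmul x σ⁻¹) then E (b * σ 0 0) x.1 else 0
def kc (b : K) (σ : SLK K) : ℂ :=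
  if h : σ 1 0 ∈ R K ∧ σ 0 0 ∈ R K then E (σ 0 0) b * sym3 ⟨σ 1 0, h.1⟩ ⟨σ 0 0, h.2⟩ else 0
def Fam (a b : K) (j : ℕ) (φ : K × K → ℂ) : Prop :=
  ∃ (σ : SLK K) (η : ℂ), Ent j σ ∧ σ 0 0 ≠ 0 ∧ ‖η‖ = 1 ∧ φ = fun x => η * phiS a b σ x

def PerS (i : ℕ) (φ : K × K → ℂ) : Prop :=
  ∀ c d k : K, k ∈ A K → φ (c, d + c * MK K ^ i * k) = φ (c, d)
def DualF (i : ℕ) (n : K) : Prop := ∀ k ∈ A K, psiF (n * MK K ^ i * k) = 1
/-- good functions of the places over `M` -/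
structure Sf (j : ℕ) (φ : K × K → ℂ) : Prop where
  supp : ∀ x, φ x ≠ 0 → MK K ^ j * x.1 ∈ A K ∧ MK K ^ j * x.2 ∈ A K
  per : PerS j φ
  bd : ∀ x, ‖φ x‖ ≤ 1
  unit : ∀ u ∈ H1 K (ee K), ∀ x : K × K, φ ((u : K) * x.1, (u : K) * x.2) = φ x

def ISq (i : ℕ) (φ : K × K → ℂ) (n c : K) : ℂ :=
  ((sN (c * MK K ^ i) : ℝ) : ℂ)⁻¹ *
    ∑' d : K ⧸ lattA (c * MK K ^ i), φ (c, d.out) * psiF (n * d.out / c)
def IS (φ : K × K → ℂ) (n c : K) : ℂ :=
  ISq (Classical.epsilon (fun i => PerS i φ ∧ DualF i n)) φ n c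

def Tp (l : K) (φ : K × K → ℂ) (x : K × K) : ℂ := φ (l * x.1, l * x.2)
def Dl (m : K) (φ : K × K → ℂ) (x : K × K) : ℂ := φ (x.1, x.2 / m)
def Hp (p : K) (φ : K × K → ℂ) (x : K × K) : ℂ := E x.1 p * φ (p * x.1, p ^ 2 * x.2)

def Dterm (φ : K × K → ℂ) (n c : R K) (s : ℂ) : ℂ :=
  ((absN (c : K) : ℝ) : ℂ) ^ (-s) * ((sN (c : K) : ℝ) : ℂ) * g3 n c * IS φ n c
def Dp (φ : K × K → ℂ) (n : R K) (s : ℂ) : ℂ :=
  ∑' c : R K, if Rep (c : K) then Dterm φ n c s else 0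
def Dsub (φ : K × K → ℂ) (n p : R K) (s : ℂ) : ℂ :=
  ∑' c : R K, if Rep (c : K) ∧ ¬ p ∣ c then Dterm φ n c s else 0

abbrev Lam (K : Type) [Field K] [NumberField K] [Level K] : Type :=
  Kˣ ⧸ (H1 K (ee K) ⊔ unitsR K)
def lo (l : Lam K) : K := ((l.out : Kˣ) : K)
def Dhat (φ : K × K → ℂ) (n : R K) (s : ℂ) : ℂ :=
  ∑ᶠ l : Lam K, ((sN (lo l) : ℝ) : ℂ) ^ (-(3 * s)) * Dp (Tp (lo l ^ 3) φ) n s
def Dhsub (φ : K × K → ℂ) (n p : R K) (s : ℂ) : ℂ :=
  ∑ᶠ l : Lam K, ((sN (lo l) : ℝ) : ℂ) ^ (-(3 * s)) * Dsub (Tp (lo l ^ 3) φ) n p s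
def Phih (a b : K) (x : K × K) : ℂ :=
  ∑ᶠ l : Lam K, ((sN (lo l) ^ (-4 : ℝ) : ℝ) : ℂ) * Phi0 (a * lo l ^ 3) (b * lo l ^ 3) x
/-- the factor of level `p` -/
def lev (p : R K) (x : K × K) : ℂ :=
  (if x.1 / p ∈ R K then 1 else 0) - 1 / (((N p : ℝ) : ℂ) + 1)

def rhoS (φ : K × K → ℂ) (n : K) : ℂ :=
  if h : n ∈ R K then Classical.epsilon (IsRes (eta K) (Dhat φ ⟨n, h⟩)) else 0
def tauS (φ : K × K → ℂ) (n : K) : ℂ := tauOf (rhoS φ) n

/-- normalized theta coefficient of `y` for the base point `(a, b, n)` -/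
def tt (a b n : K) (y : R K) : ℂ :=
  ((sN (y : K) ^ (-(5 / 2) : ℝ) : ℝ) : ℂ) * E b y *
    tauS (phiS (a * y) (b * y ^ 2) 1) (n * y) / tauS (phiS a b 1) n

end level

end

end Vale.Agent.P319N
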