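import Vale.Agent.P319N.LP3
import Vale.Agent.P026.GErr

namespace Vale.Agent.P319N

open NumberField Complex MeasureTheory Filter Topology
open scoped Classical ComplexConjugate Real
open Vale.Agent.P026 (omC kap psi W kap_pos gerr_rho gerr_int gerr_rep)

noncomputable section

variable {K : Type} [Field K] [NumberField K] [Setup K]

theorem ge1_mom (r : ℕ) : Integrable fun τ : ℝ => ‖gerr_rho τ‖ * (1 + τ ^ 2) ^ r := by
  have h1 := (integrable_exp_neg_mul_sq (b := 1 / 8) (by norm_num)).const_mul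
    (‖(1 / (2 * π) : ℂ)‖ * (√π * Real.exp (1 / 4)) * (8 ^ r * r.factorial * Real.exp (1 / 8)))
  refine h1.mono' (gerr_int.norm.aestronglyMeasurable.mul (by fun_prop))
    (Eventually.of_forall fun τ => ?_)
  have e : ((((1 : ℝ) : ℂ) + τ * Complex.I + 0) ^ 2 / 4).re = 1 / 4 + -(1 / 4) * τ ^ 2 := by
    simp [pow_two]; ring
  have h2 : ‖gerr_rho τ‖ = ‖(1 / (2 * π) : ℂ)‖ * (√π * Real.exp (1 / 4)) *
      Real.exp (-(1 / 4) * τ ^ 2) := by
    unfold gerr_rho
    rw [norm_mul, norm_mul, Complex.norm_exp, e, Real.exp_add, Complex.norm_real,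
      Real.norm_of_nonneg (Real.sqrt_nonneg _)]
    ring
  have h3 := Real.pow_div_factorial_le_exp ((1 + τ ^ 2) / 8) (by positivity) r
  rw [div_pow, div_div, div_le_iff₀ (by positivity)] at h3
  rw [Real.norm_of_nonneg (by positivity), h2, mul_assoc, mul_assoc _ (_ * _ * _)]
  refine mul_le_mul_of_nonneg_left ((mul_le_mul_of_nonneg_left h3 (Real.exp_pos _).le).trans_eq
    ?_) (by positivity)
  rw [mul_assoc _ (Real.exp _), ← Real.exp_add, ← mul_assoc, ← Real.exp_add, mul_comm]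
  congr 2
  ring

theorem ge1_norm (t : Emb K → ℂ) (m : K) :
    ‖Ga t m‖ = Real.exp (-(kap * ∑ σ : Emb K, (t σ).re * normSq (σ.1 m))) := by
  simp [Ga, Complex.norm_exp]

theorem gerr_lat {x : K} (hx : x ≠ 0) (B : ℝ) : ∃ (c : ℂ) (C : ℝ), ∀ y : Emb K → ℝ,
    (∀ σ τ, |y σ - y τ| ≤ B) →
    ‖∑' m : K, (if m ∈ LL2 1 x ∧ m ≠ 0 then
        ((Real.exp (-(kap * ∑ σ : Emb K, (Real.exp (y σ) * normSq (σ.1 m)) ^ 2)) : ℝ) : ℂ) else 0) -
      c * ((Real.exp (-∑ σ, y σ) : ℝ) : ℂ)‖ ≤ C := by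
  have hd := (del_spec (K := K)).1
  have hi : (1 : K)⁻¹ ≠ 0 := inv_ne_zero one_ne_zero
  obtain ⟨C, hC, hs⟩ := gsum_le hi (div_ne_zero hd hx)
  have k0 := kap_pos
  set a := √kap with ha
  have a0 : 0 < a := Real.sqrt_pos.2 k0
  have a2 : kap = a * a := (Real.mul_self_sqrt k0.le).symm
  have c0 := CL_pos (x := x) (one_ne_zero (α := K))
  let ρ : (Emb K → ℝ) → ℂ := fun τ => ∏ σ, gerr_rho (τ σ)
  have hρ : Integrable ρ := Integrable.fintype_prod fun _ => gerr_int
  let u : (Emb K → ℝ) → ℂ := fun τ => ∏ σ, (a : ℂ) / (1 + τ σ * Complex.I)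
  have n1 : ∀ s : ℝ, normSq (1 + s * Complex.I) = 1 + s ^ 2 := fun s => by
    simp [normSq_apply]; ring
  have n0 : ∀ s : ℝ, (1 + s * Complex.I : ℂ) ≠ 0 := fun s =>
    normSq_pos.1 (by rw [n1]; positivity)
  have hu : ∀ τ, ‖u τ‖ ≤ a ^ rk K := fun τ => by
    simp only [u]
    rw [norm_prod, rk, ← Finset.card_univ, ← Finset.prod_const]
    refine Finset.prod_le_prod (fun _ _ => norm_nonneg _) fun σ _ => ?_
    rw [norm_div, Complex.norm_real, Real.norm_of_nonneg a0.le]
    refine div_le_self a0.le ?_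
    simpa using Complex.re_le_norm (1 + τ σ * Complex.I)
  have cu : Continuous u := continuous_finsetProd _ fun σ _ =>
    continuous_const.div (by fun_prop) fun τ => n0 _
  let M : (Emb K → ℝ) → ℝ := fun τ => ∏ σ, ‖gerr_rho (τ σ)‖ * (1 + τ σ ^ 2) ^ rk K
  have hM : Integrable M := Integrable.fintype_prod (f := fun _ (s : ℝ) =>
    ‖gerr_rho s‖ * (1 + s ^ 2) ^ rk K) fun _ => ge1_mom _
  refine ⟨(CL 1 x : ℝ) * ∫ τ, ρ τ * u τ,
    (∫ τ, CL 1 x * C * Real.exp (2 * rk K * B) * M τ) + 1, fun y hy => ?_⟩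
  let t : (Emb K → ℝ) → Emb K → ℂ := fun τ σ =>
    (1 + τ σ * Complex.I) * ((Real.exp (y σ) / a : ℝ) : ℂ)
  have tre : ∀ τ σ, (t τ σ).re = Real.exp (y σ) / a := fun τ σ => by
    simp only [t]; rw [Complex.re_mul_ofReal]; simp
  have t0 : ∀ τ σ, 0 < (t τ σ).re := fun τ σ => by rw [tre]; positivity
  let F : K → (Emb K → ℝ) → ℂ := fun m τ => if m ∈ LL2 1 x then Ga (t τ) m else 0
  let b : K → ℝ := fun m => if m ∈ LL2 1 x then ‖Ga (t 0) (m + 0)‖ else 0
  have hb : Summable b := summable_Ga one_ne_zero hx (t0 0) 0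
  have nF : ∀ m τ, ‖F m τ‖ = b m := fun m τ => by
    simp only [F, b]
    split_ifs
    · simp only [ge1_norm, tre, add_zero]
    · simp
  have cF : ∀ m, Continuous (F m) := fun m => by
    simp only [F, Ga, t]
    split_ifs <;> fun_prop
  have iF : ∀ m, Integrable fun τ => ρ τ * F m τ := fun m =>
    hρ.mul_bdd (cF m).aestronglyMeasurable (Eventually.of_forall fun τ => (nF m τ).le)
  have e1 : ∀ m, ∫ τ, ρ τ * F m τ = if m ∈ LL2 1 x then
      ((Real.exp (-(kap * ∑ σ : Emb K, (Real.exp (y σ) * normSq (σ.1 m)) ^ 2)) : ℝ) : ℂ)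
      else 0 := fun m => by
    simp only [F]
    split_ifs
    · have : ∀ τ, ρ τ * Ga (t τ) m = ∏ σ, gerr_rho (τ σ) * Complex.exp (-((1 + τ σ * Complex.I) *
          ((a * (Real.exp (y σ) * normSq (σ.1 m)) : ℝ) : ℂ))) := fun τ => by
        rw [Finset.prod_mul_distrib, ← Complex.exp_sum, Ga, Finset.mul_sum,
          ← Finset.sum_neg_distrib]
        congr 2
        refine Finset.sum_congr rfl fun σ _ => ?_
        have : (a : ℂ) ≠ 0 := by exact_mod_cast a0.ne'
        simp only [t]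
        rw [a2]
        push_cast
        field_simp
      simp only [this]
      rw [integral_fintype_prod_volume_eq_prod (fun (σ : Emb K) (s : ℝ) => gerr_rho s *
        Complex.exp (-((1 + s * Complex.I) *
          ((a * (Real.exp (y σ) * normSq (σ.1 m)) : ℝ) : ℂ))))]
      simp only [← gerr_rep]
      rw [← Complex.ofReal_prod, ← Real.exp_sum, Finset.mul_sum, ← Finset.sum_neg_distrib]
      congr 2
      exact Finset.sum_congr rfl fun σ _ => by rw [a2]; ring
    · simp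
  have H := hasSum_integral_of_summable_integral_norm iF (by
    simp only [norm_mul, nF, integral_mul_const]
    exact hb.mul_left _)
  simp only [e1, tsum_mul_left] at H
  have e2 := H.summable.tsum_eq_add_tsum_ite 0
  rw [H.tsum_eq] at e2
  have e3 : ∑' m : K, (if m ∈ LL2 1 x ∧ m ≠ 0 then
      ((Real.exp (-(kap * ∑ σ : Emb K, (Real.exp (y σ) * normSq (σ.1 m)) ^ 2)) : ℝ) : ℂ) else 0) =
      (∫ τ, ρ τ * ∑' m, F m τ) - 1 := by
    rw [e2, if_pos (zero_mem _)]
    simp only [map_zero, mul_zero, ne_eq, OfNat.ofNat_ne_zero, not_false_eq_true, zero_pow,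
      Finset.sum_const_zero, neg_zero, Real.exp_zero, ofReal_one, add_sub_cancel_left]
    exact tsum_congr fun m => by by_cases h : m = 0 <;> simp [h]
  have i1 : Integrable fun τ => ρ τ * ∑' m, F m τ :=
    hρ.mul_bdd (continuous_tsum cF hb fun m τ => (nF m τ).le).aestronglyMeasurable
      (Eventually.of_forall fun τ => tsum_of_norm_bounded hb.hasSum fun m => (nF m τ).le)
  have i2 : Integrable fun τ => ρ τ * u τ :=
    hρ.mul_bdd cu.aestronglyMeasurable (Eventually.of_forall hu)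
  rw [e3, sub_right_comm, ← integral_const_mul, ← integral_mul_const,
    ← integral_sub i1 ((i2.const_mul _).mul_const _)]
  refine (norm_sub_le _ _).trans (add_le_add (norm_integral_le_of_norm_le (hM.const_mul _)
    (Eventually.of_forall fun τ => ?_)) (by simp))
  obtain ⟨σ0⟩ : Nonempty (Emb K) := inferInstance
  set P := ∏ σ, (1 + τ σ ^ 2) with hP
  have P1 : ∀ σ, 1 + τ σ ^ 2 ≤ P := fun σ => by
    rw [hP, ← Finset.mul_prod_erase _ _ (Finset.mem_univ σ)]
    exact le_mul_of_one_le_right (by positivity)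
      (Finset.one_le_prod fun σ _ => by nlinarith [sq_nonneg (τ σ)])
  have P0 : 0 < P := Finset.prod_pos fun σ _ => by positivity
  set d := a * Real.exp (-(y σ0 + B)) / P with hd'
  have d0 : 0 < d := by positivity
  have ti : ∀ σ, d ≤ ((t τ σ)⁻¹).re := fun σ => by
    rw [Complex.inv_re, tre]
    simp only [t]
    rw [map_mul, n1, normSq_ofReal]
    have h1 : Real.exp (-(y σ0 + B)) ≤ (Real.exp (y σ))⁻¹ := by
      rw [← Real.exp_neg, Real.exp_le_exp]
      linarith [(abs_le.1 (hy σ σ0)).2]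
    calc d ≤ a * (Real.exp (y σ))⁻¹ / (1 + τ σ ^ 2) := by
          rw [hd']; gcongr; exact P1 σ
      _ = _ := by field_simp
  have ti0 : ∀ σ, 0 < ((t τ σ)⁻¹).re := fun σ => d0.trans_le (ti σ)
  have lp := lpois one_ne_zero hx (t0 τ) 0
  simp only [add_zero, mul_zero, psiK_zero, one_mul] at lp
  have sm : Summable fun h : K =>
      if h ∈ LL2 1⁻¹ (del K / x) then Ga (fun σ => (t τ σ)⁻¹) h else 0 := by
    refine Summable.of_norm ((summable_Ga hi (div_ne_zero hd hx) ti0 0).congr fun h => ?_)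
    split_ifs <;> simp
  have sm2 : Summable fun m : K =>
      if m ∈ LL2 1⁻¹ (del K / x) ∧ m ≠ 0 then Real.exp (-(kap * d * len m)) else 0 := by
    refine Summable.of_nonneg_of_le (fun m => by split_ifs <;> positivity) (fun m => ?_)
      (summable_len hi (div_ne_zero hd hx) (mul_pos k0 d0) 0)
    rw [add_zero]
    split_ifs with h1 h2
    · rfl
    · exact absurd h1.1 h2
    · positivity
    · rfl
  have b1 := (tsum_of_norm_bounded (f := fun h : K => if h = 0 then (0 : ℂ) else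
      if h ∈ LL2 1⁻¹ (del K / x) then Ga (fun σ => (t τ σ)⁻¹) h else 0) sm2.hasSum fun h => by
    by_cases h0 : h = 0
    · simp [h0]
    by_cases hL : h ∈ LL2 1⁻¹ (del K / x)
    · rw [if_neg h0, if_pos hL, if_pos ⟨hL, h0⟩, ge1_norm, Real.exp_le_exp, neg_le_neg_iff,
        mul_assoc, len, Finset.mul_sum]
      exact mul_le_mul_of_nonneg_left (Finset.sum_le_sum fun σ _ =>
        mul_le_mul_of_nonneg_right (ti σ) (normSq_nonneg _)) k0.le
    · rw [if_neg h0, if_neg hL, if_neg fun e => hL e.1, norm_zero]).trans (hs d d0)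
  have e4 : (∏ σ, t τ σ)⁻¹ = u τ * ((Real.exp (-∑ σ, y σ) : ℝ) : ℂ) := by
    rw [← Finset.sum_neg_distrib, Real.exp_sum, Complex.ofReal_prod, ← Finset.prod_mul_distrib,
      ← Finset.prod_inv_distrib]
    refine Finset.prod_congr rfl fun σ _ => ?_
    simp only [t, Real.exp_neg]
    push_cast
    field_simp
  rw [sm.tsum_eq_add_tsum_ite 0, if_pos (zero_mem _), e4] at lp
  have g0 : Ga (fun σ => (t τ σ)⁻¹) (0 : K) = 1 := by simp [Ga]
  simp only [F]
  rw [lp, g0]
  generalize (∑' h : K, if h = 0 then (0 : ℂ) else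
      if h ∈ LL2 1⁻¹ (del K / x) then Ga (fun σ => (t τ σ)⁻¹) h else 0) = S at b1 ⊢
  have e5 : ρ τ * ((CL 1 x : ℝ) * (u τ * ((Real.exp (-∑ σ, y σ) : ℝ) : ℂ)) * (1 + S)) -
      (CL 1 x : ℝ) * (ρ τ * u τ) * ((Real.exp (-∑ σ, y σ) : ℝ) : ℂ) =
      (CL 1 x : ℝ) * ρ τ * (u τ * ((Real.exp (-∑ σ, y σ) : ℝ) : ℂ) * S) := by ring
  have i3 : Real.exp (-∑ σ, y σ) ≤ Real.exp (-(y σ0 - B)) ^ rk K := by
    rw [← Finset.sum_neg_distrib, Real.exp_sum, rk, ← Finset.card_univ, ← Finset.prod_const]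
    refine Finset.prod_le_prod (fun _ _ => (Real.exp_pos _).le) fun σ _ => ?_
    rw [Real.exp_le_exp]
    linarith [(abs_le.1 (hy σ σ0)).1]
  have e6 : M τ = ‖ρ τ‖ * P ^ rk K := by
    simp only [M, ρ, hP, norm_prod, Finset.prod_mul_distrib, Finset.prod_pow]
  rw [e5, e6, norm_mul, norm_mul, norm_mul, norm_mul, Complex.norm_real, Complex.norm_real,
    Real.norm_of_nonneg c0.le, Real.norm_of_nonneg (Real.exp_pos _).le]
  calc _ ≤ CL 1 x * ‖ρ τ‖ * (a ^ rk K * Real.exp (-(y σ0 - B)) ^ rk K * (C * (d ^ rk K)⁻¹)) := by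
        have := hu τ
        gcongr
    _ = _ := by
        have e7 : Real.exp (2 * rk K * B) =
            Real.exp (-(y σ0 - B)) ^ rk K / Real.exp (-(y σ0 + B)) ^ rk K := by
          rw [← div_pow, ← Real.exp_sub, ← Real.exp_nat_mul]; congr 1; ring
        rw [e7, hd', div_pow, mul_pow]
        field_simp

end

end Vale.Agent.P319N
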