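import Vale.Agent.P319N.FD

namespace Vale.Agent.P319N

open NumberField Complex MeasureTheory Filter Topology
open scoped Classical ComplexConjugate Real
open Vale.Agent.P026 (omC kap psi W)

noncomputable section

variable {K : Type} [Field K] [NumberField K] [Setup K]

theorem unf_cU (U : Subgroup Kˣ) : Countable U :=
  (Units.val_injective.comp Subtype.val_injective).countable

theorem unf_sets {U : Subgroup Kˣ} {D : Set (Emb K → ℝ)} (hD : IsFD U D) :
    (∀ u : U, MeasurableSet {x | x - Lg ((u : Kˣ) : K) ∈ D}) ∧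
    Pairwise (Function.onFun Disjoint fun u : U => {x | x - Lg ((u : Kˣ) : K) ∈ D}) ∧
    ⋃ u : U, {x | x - Lg ((u : Kˣ) : K) ∈ D} = Set.univ := by
  have key : ∀ x, ∃! u : U, x - Lg ((u : Kˣ) : K) ∈ D := fun x =>
    ((Equiv.inv U).existsUnique_congr fun u => by
      simp only [Equiv.inv_apply, Subgroup.coe_inv, Units.val_inv_eq_inv_val, Lg_inv,
        sub_neg_eq_add]).1 (hD.2.1 x)
  refine ⟨fun u => measurable_sub_const _ hD.1, fun u v huv => Set.disjoint_left.2
    fun x hu hv => huv ((key x).unique hu hv), Set.eq_univ_of_forall fun x => ?_⟩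
  obtain ⟨u, hu, -⟩ := key x
  exact Set.mem_iUnion.2 ⟨u, hu⟩

theorem unf_l {U : Subgroup Kˣ} {D : Set (Emb K → ℝ)} (hD : IsFD U D)
    (φ : (Emb K → ℝ) → ENNReal) :
    ∑' u : U, ∫⁻ y in D, φ (y + Lg ((u : Kˣ) : K)) = ∫⁻ y, φ y := by
  have := unf_cU U
  obtain ⟨h1, h2, h3⟩ := unf_sets hD
  rw [← setLIntegral_univ, ← h3, lintegral_iUnion h1 h2]
  refine tsum_congr fun u => ?_
  rw [← lintegral_indicator hD.1, ← lintegral_indicator (h1 u),
    ← lintegral_add_right_eq_self (Set.indicator _ φ) (Lg ((u : Kˣ) : K))]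
  exact lintegral_congr fun y => by simp [Set.indicator]

theorem unf_h {U : Subgroup Kˣ} {D : Set (Emb K → ℝ)} (hD : IsFD U D)
    {φ : (Emb K → ℝ) → ℂ} (hφ : Integrable φ) :
    HasSum (fun u : U => ∫ y in D, φ (y + Lg ((u : Kˣ) : K))) (∫ y, φ y) := by
  have := unf_cU U
  obtain ⟨h1, h2, h3⟩ := unf_sets hD
  have := hasSum_integral_iUnion h1 h2 hφ.integrableOn
  rw [h3, Measure.restrict_univ] at this
  refine cast (congrArg (fun F => HasSum F _) (funext fun u => ?_)) this
  rw [← integral_indicator hD.1, ← integral_indicator (h1 u),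
    ← integral_add_right_eq_self (Set.indicator _ φ) (Lg ((u : Kˣ) : K))]
  exact integral_congr_ae (ae_of_all _ fun y => by simp [Set.indicator])

/-- unfolding of the unit group -/
theorem unfold {U : Subgroup Kˣ} (hU : ∀ u ∈ U, absN ((u : Kˣ) : K) = 1) {D D' : Set (Emb K → ℝ)}
    (hD : IsFD U D) (hD' : IsFD U D') {F : K → ℂ} (hF : ∀ u ∈ U, ∀ m, F ((u : K) * m) = F m)
    (h0 : F 0 = 0) {P : (Emb K → ℝ) → ℂ} {g : ℝ → ℂ} (hP : Measurable P) (hg : Measurable g)
    (hi : ∀ a : ℝ, Integrable fun y : Emb K → ℝ => P y * g (∑ σ, y σ - a))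
    (hs : Summable fun m : K => if Lg m ∈ D' then
      ‖F m‖ * ∫ y : Emb K → ℝ, ‖P y * g (∑ σ, y σ - Real.log (absN m))‖ else 0) :
    (∀ᵐ y ∂(volume.restrict D), Summable fun m : K => ‖F m * P (y + Lg m) * g (∑ σ, y σ)‖) ∧
    IntegrableOn (fun y : Emb K → ℝ => ∑' m : K, F m * P (y + Lg m) * g (∑ σ, y σ)) D ∧
    ∫ y in D, ∑' m : K, F m * P (y + Lg m) * g (∑ σ, y σ) =
      ∑' m : K, if Lg m ∈ D' then
        F m * ∫ y : Emb K → ℝ, P y * g (∑ σ, y σ - Real.log (absN m)) else 0 := by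
  have := unf_cU U
  set S := {m : K // m ≠ 0 ∧ Lg m ∈ D'}
  set e : S × U → K := fun p => ((p.2 : Kˣ) : K) * p.1.1 with he
  have inj : Function.Injective e := by
    rintro ⟨m, u⟩ ⟨n, v⟩ h
    replace h : ((u : Kˣ) : K) * m.1 = ((v : Kˣ) : K) * n.1 := h
    have h0 : ((u : Kˣ) : K) * m.1 ≠ 0 := mul_ne_zero (Units.ne_zero _) m.2.1
    have : u⁻¹ = v⁻¹ := (hD'.exists_rep h0).unique (by simpa using m.2.2)
      (by rw [h]; simpa using n.2.2)
    obtain rfl := inv_injective this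
    exact Prod.ext (Subtype.ext (mul_left_cancel₀ (Units.ne_zero _) h)) rfl
  have rg : ∀ m, m ∉ Set.range e → m = 0 := fun m hm => by_contra fun h => by
    obtain ⟨u, hu, -⟩ := hD'.exists_rep h
    exact hm ⟨⟨⟨_, mul_ne_zero (Units.ne_zero _) h, hu⟩, u⁻¹⟩, by simp [he]⟩
  set φ : S → (Emb K → ℝ) → ℂ := fun m x => F m.1 * (P (x + Lg m.1) * g (∑ σ, x σ)) with hφ
  have e1 : ∀ (p : S × U) y, F (e p) * P (y + Lg (e p)) * g (∑ σ, y σ) =
      φ p.1 (y + Lg ((p.2 : Kˣ) : K)) := fun p y => by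
    simp only [he, hφ, hF _ p.2.2, Lg_mul (Units.ne_zero _) p.1.2.1, Pi.add_apply,
      Finset.sum_add_distrib, sum_Lg (p.2 : Kˣ).ne_zero, hU _ p.2.2, Real.log_one, add_zero,
      add_assoc, mul_assoc]
  have e2 : ∀ (m : S) y, φ m y = (fun x => F m.1 * (P x * g (∑ σ, x σ - Real.log (absN m.1))))
      (y + Lg m.1) := fun m y => by
    simp only [hφ, Pi.add_apply, Finset.sum_add_distrib, sum_Lg m.2.1, add_sub_cancel_right]
  have i1 : ∀ m : S, Integrable (φ m) := fun m => by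
    rw [funext (e2 m)]
    exact ((hi _).const_mul _).comp_add_right _
  have mT : ∀ m : K, Measurable fun y : Emb K → ℝ => F m * P (y + Lg m) * g (∑ σ, y σ) :=
    fun m => by fun_prop
  have fin : ∑' m : K, ∫⁻ y in D, ‖F m * P (y + Lg m) * g (∑ σ, y σ)‖ₑ ≠ ⊤ := by
    rw [← inj.tsum_eq (Function.support_subset_iff'.2 fun m hm => by simp [rg m hm, h0]),
      ENNReal.tsum_prod']
    simp only [e1]
    have s1 := hs.comp_injective (Subtype.val_injective (p := fun m => m ≠ 0 ∧ Lg m ∈ D'))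
    refine ne_of_eq_of_ne (tsum_congr fun m => ?_)
      (tsum_enorm_ne_top_iff_summable_norm.2 s1.norm)
    rw [unf_l hD fun y => ‖φ m y‖ₑ, ← ofReal_integral_norm_eq_lintegral_enorm (i1 m),
      Function.comp_apply, if_pos m.2.2, Real.enorm_eq_ofReal (by positivity), funext (e2 m),
      integral_add_right_eq_self
        fun x => ‖F m.1 * (P x * g (∑ σ, x σ - Real.log (absN m.1)))‖, ← integral_const_mul]
    simp only [norm_mul]
  have fin2 := fin
  rw [← lintegral_tsum fun m => (mT m).enorm.aemeasurable] at fin2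
  refine ⟨(ae_lt_top (Measurable.tsum fun m => (mT m).enorm) fin2).mono fun y hy =>
    tsum_enorm_ne_top_iff_summable_norm.1 hy.ne, ⟨(Measurable.tsum mT).aestronglyMeasurable,
    (lintegral_mono fun y => enorm_tsum_le_tsum_enorm).trans_lt fin2.lt_top⟩, ?_⟩
  have s2 : Summable fun m : K => ∫ y in D, F m * P (y + Lg m) * g (∑ σ, y σ) :=
    Summable.of_enorm (ne_top_of_le_ne_top fin
      (ENNReal.tsum_le_tsum fun m => enorm_integral_le_lintegral_enorm _))
  rw [integral_tsum (fun m => (mT m).aestronglyMeasurable) fin,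
    ← inj.tsum_eq (Function.support_subset_iff'.2 fun m hm => by simp [rg m hm, h0]),
    ← (Subtype.val_injective
      (p := fun m => m ≠ 0 ∧ Lg m ∈ D')).tsum_eq (Function.support_subset_iff'.2 fun m hm => ?_)]
  · refine (s2.comp_injective inj).tsum_prod.trans (tsum_congr fun m => ?_)
    simp only [Function.comp_apply, e1]
    rw [(unf_h hD (i1 m)).tsum_eq, if_pos m.2.2, funext (e2 m), integral_add_right_eq_self
      fun x => F m.1 * (P x * g (∑ σ, x σ - Real.log (absN m.1))), integral_const_mul]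
  · split_ifs with h
    · have : m = 0 := by_contra fun h' => hm ⟨⟨m, h', h⟩, rfl⟩
      rw [this, h0, zero_mul]
    · rfl

end

end Vale.Agent.P319N
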