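import Vale.Agent.P319N.SumA
import Vale.Agent.P319N.Emb
import Vale.Agent.P026.Psi

namespace Vale.Agent.P319N

open NumberField Complex MeasureTheory Filter Topology
open scoped Classical ComplexConjugate Real
open Vale.Agent.P026 (omC kap psi W)

noncomputable section

variable {K : Type} [Field K] [NumberField K] [Setup K]

open Vale.Agent.P026 (kap_pos wb_cpow W_le W_inv_mellin wb_gauss norm_Gamma_le)

/-- one-place factor -/
def vpE (s : ℂ) (y : ℝ) : ℂ := ((Real.exp (-(kap * Real.exp y)) : ℝ) : ℂ) * cexp (s * y)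

theorem vp_E {s : ℂ} (hs : 0 < s.re) : ∫ y, vpE s y = (1 / kap) ^ s * Complex.Gamma s := by
  rw [← Complex.integral_cpow_mul_exp_neg_mul_Ioi hs kap_pos, ← Real.range_exp, ← Set.image_univ,
    integral_image_eq_integral_abs_deriv_smul MeasurableSet.univ
    (fun x _ => (Real.hasDerivAt_exp x).hasDerivWithinAt) Real.exp_injective.injOn,
    Measure.restrict_univ]
  refine integral_congr_ae (ae_of_all _ fun u => ?_)
  simp only [vpE]
  rw [abs_of_pos (Real.exp_pos u), wb_cpow (Real.exp_pos u), Real.log_exp, real_smul, ← mul_assoc,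
    ofReal_exp u, ← Complex.exp_add, mul_comm, ofReal_exp]
  congr 2
  · ring
  · push_cast
    rfl

theorem vp_Ei {s : ℂ} (hs : 0 < s.re) : Integrable (vpE s) := by
  refine Integrable.of_integral_ne_zero ?_
  rw [vp_E hs]
  exact mul_ne_zero (cpow_ne_zero_iff.2 (Or.inl (one_div_ne_zero (ofReal_ne_zero.2 kap_pos.ne'))))
    (Complex.Gamma_ne_zero_of_re_pos hs)

theorem vp_prod (s : ℂ) (y : Emb K → ℝ) : ∏ σ, vpE s (y σ) =
    ((Real.exp (-(kap * ∑ σ, Real.exp (y σ))) : ℝ) : ℂ) * cexp (s * (∑ σ, y σ : ℝ)) := by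
  simp only [vpE]
  rw [Finset.prod_mul_distrib, ← ofReal_prod, ← Real.exp_sum, ← Complex.exp_sum, ← Finset.mul_sum,
    Finset.sum_neg_distrib, ← Finset.mul_sum, ofReal_sum]

theorem vp_Pi {s : ℂ} (hs : 0 < s.re) : Integrable fun y : Emb K → ℝ =>
    ((Real.exp (-(kap * ∑ σ, Real.exp (y σ))) : ℝ) : ℂ) * cexp (s * (∑ σ, y σ : ℝ)) := by
  simp only [← vp_prod]
  exact Integrable.fintype_prod (μ := fun _ : Emb K => volume) fun _ => vp_Ei hs

theorem vp_P {s : ℂ} (hs : 0 < s.re) : ∫ y : Emb K → ℝ,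
    ((Real.exp (-(kap * ∑ σ, Real.exp (y σ))) : ℝ) : ℂ) * cexp (s * (∑ σ, y σ : ℝ)) =
      ((1 / kap) ^ s * Complex.Gamma s) ^ rk K := by
  simp only [← vp_prod]
  rw [integral_fintype_prod_volume_eq_pow, vp_E hs, rk]

theorem vp_g0 (u : ℝ) : g0 u = W (-1 / 2) (Real.exp (-u)) := by
  rw [g0, W, Real.log_exp, ofReal_exp]
  congr 1
  push_cast
  ring

/-- the real integrand -/
def vpF (a : ℝ) (y : Emb K → ℝ) : ℝ :=
  Real.exp (-(kap * ∑ σ, Real.exp (y σ))) * Real.exp (-(∑ σ, y σ - a) ^ 2 + (∑ σ, y σ - a) / 2)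

theorem vp_F (a : ℝ) (y : Emb K → ℝ) :
    ((Real.exp (-(kap * ∑ σ, Real.exp (y σ))) : ℝ) : ℂ) * g0 (∑ σ, y σ - a) = (vpF a y : ℝ) := by
  rw [vpF, g0, ofReal_mul]

theorem vp_pos (a : ℝ) (y : Emb K → ℝ) : 0 < vpF a y := mul_pos (Real.exp_pos _) (Real.exp_pos _)

theorem vp_cont (a : ℝ) : Continuous (vpF (K := K) a) := by
  unfold vpF
  fun_prop

theorem vp_V (x : ℝ) : Vg K g0 x = ((∫ y : Emb K → ℝ, vpF (Real.log x) y : ℝ) : ℂ) := by
  simp only [Vg, vp_F]
  exact integral_complex_ofReal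

theorem vp_le {V : ℝ → ℂ} {σ C : ℝ} {m : ℝ → ℂ} (hC : 0 < C)
    (hm : ∀ τ, ‖m τ‖ ≤ C * Real.exp (-τ ^ 2 / 4))
    (h : ∀ x : ℝ, 0 < x → V x = ∫ τ : ℝ, m τ * (x : ℂ) ^ (-(σ + τ * Complex.I))) :
    ∃ C : ℝ, 0 < C ∧ ∀ x : ℝ, 0 < x → ‖V x‖ ≤ C * x ^ (-σ) := by
  have hi : Integrable fun τ : ℝ => Real.exp (-τ ^ 2 / 4) :=
    (integrable_exp_neg_mul_sq (b := 1 / 4) (by norm_num)).congr
      (ae_of_all _ fun τ => congrArg Real.exp (by ring))
  have h0 : 0 ≤ ∫ τ : ℝ, Real.exp (-τ ^ 2 / 4) := integral_nonneg fun _ => (Real.exp_pos _).le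
  refine ⟨C * ((∫ τ : ℝ, Real.exp (-τ ^ 2 / 4)) + 1), by positivity, fun x hx => ?_⟩
  rw [h x hx]
  refine (norm_integral_le_of_norm_le ((hi.const_mul C).mul_const (x ^ (-σ)))
    (ae_of_all _ fun τ => ?_)).trans ?_
  · rw [norm_mul, norm_cpow_eq_rpow_re_of_pos hx, show (-(σ + τ * Complex.I)).re = -σ by simp]
    gcongr
    exact hm τ
  · rw [integral_mul_const, integral_const_mul]
    gcongr
    linarith
theorem Vg_integrable (a : ℝ) : Integrable fun y : Emb K → ℝ =>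
    ((Real.exp (-(kap * ∑ σ, Real.exp (y σ))) : ℝ) : ℂ) * g0 (∑ σ, y σ - a) := by
  refine ((vp_Pi (K := K) (s := 1) (by simp)).norm.const_mul (Real.exp (1 - a))).mono'
    (by simp only [vp_F]; exact (continuous_ofReal.comp (vp_cont a)).aestronglyMeasurable)
    (ae_of_all _ fun y => ?_)
  rw [vp_F, norm_real, Real.norm_of_nonneg (vp_pos a y).le, norm_mul, norm_real,
    Real.norm_of_nonneg (Real.exp_pos _).le, norm_exp, one_mul, ofReal_re, vpF, mul_left_comm,
    ← Real.exp_add (1 - a)]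
  exact mul_le_mul_of_nonneg_left (Real.exp_le_exp.2
    (by nlinarith [sq_nonneg (∑ σ, y σ - a + 1 / 4)])) (Real.exp_pos _).le

theorem Vg_eq_re (x : ℝ) : Vg K g0 x = (((Vg K g0 x).re : ℝ) : ℂ) := by
  rw [vp_V, ofReal_re]

theorem Vg_nonneg (x : ℝ) : 0 ≤ (Vg K g0 x).re := by
  rw [vp_V, ofReal_re]
  exact integral_nonneg fun y => (vp_pos _ y).le

theorem Vg_norm (a : ℝ) : ∫ y : Emb K → ℝ,
    ‖((Real.exp (-(kap * ∑ σ, Real.exp (y σ))) : ℝ) : ℂ) * g0 (∑ σ, y σ - a)‖ =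
      (Vg K g0 (Real.exp a)).re := by
  rw [vp_V, ofReal_re, Real.log_exp]
  refine integral_congr_ae (ae_of_all _ fun y => ?_)
  simp only [vp_F]
  rw [norm_real, Real.norm_of_nonneg (vp_pos a y).le]

theorem Vg_mellin {σ : ℝ} (hσ : 0 < σ) : ∃ (C : ℝ) (m : ℝ → ℂ), 0 < C ∧ Continuous m ∧
    (∀ τ, ‖m τ‖ ≤ C * Real.exp (-τ ^ 2 / 4)) ∧
    ∀ x : ℝ, 0 < x → Vg K g0 x = ∫ τ : ℝ, m τ * (x : ℂ) ^ (-(σ + τ * Complex.I)) := by
  have hk := kap_pos
  have hre : ∀ τ : ℝ, (σ + τ * Complex.I).re = σ := fun τ => by simp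
  have hG : Continuous fun τ : ℝ => Complex.Gamma (σ + τ * Complex.I) :=
    continuous_iff_continuousAt.2 fun τ => ContinuousAt.comp (g := Complex.Gamma)
      (Complex.differentiableAt_Gamma _ fun n h => by
        have := congrArg Complex.re h
        simp at this
        linarith [Nat.cast_nonneg (α := ℝ) n]).continuousAt (by fun_prop)
  have hΓ := Real.Gamma_pos_of_pos hσ
  refine ⟨1 / (2 * π) * (√π * Real.exp ((σ - 1 / 2) ^ 2 / 4)) *
      ((1 / kap) ^ σ * Real.Gamma σ) ^ rk K,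
    fun τ => 1 / (2 * π) * ((√π : ℝ) * cexp ((σ + τ * Complex.I + -1 / 2) ^ 2 / 4)) *
      ((1 / kap) ^ (σ + τ * Complex.I) * Complex.Gamma (σ + τ * Complex.I)) ^ rk K,
    by positivity, ?_, fun τ => ?_, fun x hx => ?_⟩
  · exact Continuous.mul (by fun_prop) (((Continuous.const_cpow (by fun_prop)
      (Or.inl (one_div_ne_zero (ofReal_ne_zero.2 hk.ne')))).mul hG).pow _)
  · have h1 := norm_Gamma_le (s := σ + τ * Complex.I) (by rwa [hre])
    have h2 : ((σ + τ * Complex.I + -1 / 2) ^ 2 / 4 : ℂ).re = (σ - 1 / 2) ^ 2 / 4 + -τ ^ 2 / 4 := by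
      simp [pow_two]
      ring
    have h3 : ‖(1 / (2 * π) : ℂ)‖ = 1 / (2 * π) := by simp [abs_of_pos Real.pi_pos]
    rw [norm_mul, norm_mul, norm_mul, norm_pow, norm_mul, ← ofReal_one, ← ofReal_div 1 kap,
      norm_cpow_eq_rpow_re_of_pos (by positivity), norm_exp, ofReal_one, h2, Real.exp_add,
      norm_real, Real.norm_of_nonneg (Real.sqrt_nonneg _), h3, hre] at *
    calc _ ≤ 1 / (2 * π) * (√π * (Real.exp ((σ - 1 / 2) ^ 2 / 4) * Real.exp (-τ ^ 2 / 4))) *
          ((1 / kap) ^ σ * Real.Gamma σ) ^ rk K := by gcongr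
      _ = _ := by ring
  · have hi : Integrable (Function.uncurry fun (y : Emb K → ℝ) (τ : ℝ) =>
        ((Real.exp (-(kap * ∑ σ, Real.exp (y σ))) : ℝ) : ℂ) *
          cexp ((σ + τ * Complex.I) * (∑ σ, y σ : ℝ)) *
          ((√π : ℝ) * cexp ((σ + τ * Complex.I + -1 / 2) ^ 2 / 4) *
            (x : ℂ) ^ (-(σ + τ * Complex.I)))) (volume.prod volume) := by
      refine Integrable.mono' ((vp_Pi (K := K) (s := σ) hσ).norm.mul_prod
        (((wb_gauss (-1 / 2) σ).const_mul (√π : ℝ)).norm.mul_const (x ^ (-σ))))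
        (Continuous.aestronglyMeasurable ?_) (ae_of_all _ fun p => le_of_eq ?_)
      · simp only [wb_cpow hx]
        unfold Function.uncurry
        fun_prop
      · simp only [Function.uncurry, norm_mul, norm_exp, re_mul_ofReal, hre, ofReal_re,
          norm_cpow_eq_rpow_re_of_pos hx, neg_re]
    have e1 : Vg K g0 x = 1 / (2 * π) * ∫ y : Emb K → ℝ, ∫ τ : ℝ,
        ((Real.exp (-(kap * ∑ σ, Real.exp (y σ))) : ℝ) : ℂ) *
          cexp ((σ + τ * Complex.I) * (∑ σ, y σ : ℝ)) *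
          ((√π : ℝ) * cexp ((σ + τ * Complex.I + -1 / 2) ^ 2 / 4) *
            (x : ℂ) ^ (-(σ + τ * Complex.I))) := by
      rw [Vg, ← integral_const_mul]
      refine integral_congr_ae (ae_of_all _ fun y => ?_)
      simp only [mul_assoc, integral_const_mul]
      rw [vp_g0, W_inv_mellin _ σ (Real.exp_pos _), mul_left_comm]
      congr 3
      funext τ
      rw [wb_cpow hx, wb_cpow (Real.exp_pos _), Real.log_exp, mul_left_comm (cexp _),
        mul_left_comm (cexp _), ← Complex.exp_add _ (_ * _), mul_assoc]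
      congr 3
      push_cast
      ring
    rw [e1, integral_integral_swap hi, ← integral_const_mul]
    refine integral_congr_ae (ae_of_all _ fun τ => ?_)
    simp only
    rw [integral_mul_const, vp_P (by rwa [hre])]
    ring

theorem Vg_le {a : ℝ} (ha : 0 < a) :
    ∃ C : ℝ, 0 < C ∧ ∀ x : ℝ, 0 < x → ‖Vg K g0 x‖ ≤ C * x ^ (-a) := by
  obtain ⟨C, m, hC, -, hm, h⟩ := Vg_mellin (K := K) ha
  exact vp_le hC hm h

theorem vp_S (x : ℝ) : VS K g0 x = ((∑' a : Associates (A K),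
    if a ≠ 0 then (Vg K g0 (x * sA a * √(sN (del K)))).re else 0 : ℝ) : ℂ) := by
  rw [VS, ofReal_tsum]
  refine tsum_congr fun a => ?_
  split_ifs
  exacts [Vg_eq_re _, rfl]

theorem vp_W (x : ℝ) : Vw K x = ∑' a : Associates (A K),
    if a ≠ 0 then (Vg K g0 (x * sA a * √(sN (del K)))).re else 0 := by
  rw [Vw, vp_S, ofReal_re]
theorem VS_eq (x : ℝ) : VS K g0 x = ((Vw K x : ℝ) : ℂ) := by
  rw [vp_W, vp_S]

theorem Vw_eq {x : ℝ} (hx : 0 < x) :
    (Summable fun a : Associates (A K) =>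
      if a ≠ 0 then (Vg K g0 (x * sA a * √(sN (del K)))).re else 0) ∧
    Vw K x = ∑' a : Associates (A K),
      if a ≠ 0 then (Vg K g0 (x * sA a * √(sN (del K)))).re else 0 := by
  refine ⟨?_, vp_W x⟩
  obtain ⟨C, hC, h⟩ := Vg_le (K := K) one_pos
  have hd := Real.sqrt_pos.2 (sN_pos (del K))
  refine ((summable_sA one_pos).mul_left (C * (x * √(sN (del K))) ^ (-1 : ℝ))).of_nonneg_of_le
    (fun a => ite_nonneg (Vg_nonneg _) le_rfl) fun a => ?_
  split_ifs with ha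
  · have h1 : 0 < sA a := sN_pos _
    refine (re_le_norm _).trans ((h _ (by positivity)).trans_eq ?_)
    rw [mul_right_comm x, Real.mul_rpow (by positivity) h1.le, mul_assoc]
  · rw [mul_zero]

theorem Vw_nonneg (x : ℝ) : 0 ≤ Vw K x := by
  rw [vp_W]
  exact tsum_nonneg fun a => ite_nonneg (Vg_nonneg _) le_rfl

theorem Vw_ge : ∃ c : ℝ, 0 < c ∧ ∀ x, 0 < x → x ≤ 1 → c ≤ Vw K x := by
  have hi : ∀ a : ℝ, Integrable (vpF (K := K) a) := fun a =>
    (Vg_integrable a).re.congr (ae_of_all _ fun y => by simp only [vp_F]; rfl)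
  have hd := Real.sqrt_pos.2 (sN_pos (del K))
  refine ⟨_, integral_pos_of_integrable_nonneg_nonzero (x := 0) (vp_cont _)
    (hi (Real.log √(sN (del K)))) (fun y => (vp_pos _ y).le) (vp_pos _ _).ne', fun x hx h1 => ?_⟩
  obtain ⟨h2, h3⟩ := Vw_eq (K := K) hx
  rw [h3]
  refine le_trans ?_ (h2.le_tsum 1 fun a _ => ite_nonneg (Vg_nonneg _) le_rfl)
  rw [if_pos one_ne_zero, sA_one, mul_one, vp_V, ofReal_re, Real.log_mul hx.ne' hd.ne',
    ← integral_add_right_eq_self _ fun _ : Emb K => -Real.log x / rk K]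
  refine integral_mono_of_nonneg (ae_of_all _ fun y => (vp_pos _ _).le) (hi _)
    (ae_of_all _ fun y => ?_)
  have hr : (0 : ℝ) < rk K := Nat.cast_pos.2 rk_pos
  have h4 : 0 ≤ -Real.log x / rk K := div_nonneg (neg_nonneg.2 (Real.log_nonpos hx.le h1)) hr.le
  have e : ∑ σ, (y σ + -Real.log x / rk K) - Real.log √(sN (del K)) =
      ∑ σ, y σ - (Real.log x + Real.log √(sN (del K))) := by
    rw [Finset.sum_add_distrib, Finset.sum_const, nsmul_eq_mul, Finset.card_univ,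
      show (Fintype.card (Emb K) : ℝ) = rk K from rfl, mul_div_cancel₀ _ hr.ne']
    ring
  have := kap_pos
  simp only [vpF, Pi.add_apply, e]
  gcongr with σ
  linarith

theorem Vw_le {a : ℝ} (ha : 0 < a) : ∃ C : ℝ, 0 < C ∧ ∀ x : ℝ, 0 < x → Vw K x ≤ C * x ^ (-a) := by
  obtain ⟨C, hC, h⟩ := Vg_le (K := K) ha
  have hd := Real.sqrt_pos.2 (sN_pos (del K))
  have h0 : 0 ≤ ∑' b : Associates (A K), if b ≠ 0 then sA b ^ (-a) else 0 :=
    tsum_nonneg fun b => ite_nonneg (Real.rpow_nonneg (sN_pos _).le _) le_rfl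
  refine ⟨C * √(sN (del K)) ^ (-a) * ((∑' b : Associates (A K),
    if b ≠ 0 then sA b ^ (-a) else 0) + 1), by positivity, fun x hx => ?_⟩
  rw [vp_W]
  refine ((Vw_eq hx).1.tsum_le_tsum (fun b => ?_) ((summable_sA ha).mul_left
    (C * √(sN (del K)) ^ (-a) * x ^ (-a)))).trans ?_
  · split_ifs with hb
    · have h1 : 0 < sA b := sN_pos _
      refine (re_le_norm _).trans ((h _ (by positivity)).trans_eq ?_)
      rw [Real.mul_rpow (by positivity) hd.le, Real.mul_rpow hx.le h1.le]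
      ring
    · rw [mul_zero]
  · rw [tsum_mul_left, mul_right_comm]
    gcongr
    linarith

theorem Vw_mellin {σ : ℝ} (hσ : 0 < σ) : ∃ (C : ℝ) (m : ℝ → ℂ), 0 < C ∧ Continuous m ∧
    (∀ τ, ‖m τ‖ ≤ C * Real.exp (-τ ^ 2 / 4)) ∧
    ∀ x : ℝ, 0 < x → ((Vw K x : ℝ) : ℂ) = ∫ τ : ℝ, m τ * (x : ℂ) ^ (-(σ + τ * Complex.I)) := by
  obtain ⟨C, m, hC, hc, hm, h⟩ := Vg_mellin (K := K) hσ
  have hd := Real.sqrt_pos.2 (sN_pos (del K))
  have hp : ∀ a : Associates (A K), 0 < sA a * √(sN (del K)) := fun a => mul_pos (sN_pos _) hd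
  have hs := (summable_sA (K := K) hσ).mul_right (√(sN (del K)) ^ (-σ))
  have hn : ∀ (a : Associates (A K)) (τ : ℝ), ‖if a ≠ 0 then
      ((sA a * √(sN (del K)) : ℝ) : ℂ) ^ (-(σ + τ * Complex.I)) else 0‖ =
      (if a ≠ 0 then sA a ^ (-σ) else 0) * √(sN (del K)) ^ (-σ) := fun a τ => by
    split_ifs
    · rw [norm_cpow_eq_rpow_re_of_pos (hp a), ← Real.mul_rpow (x := sA a) (sN_pos _).le hd.le]
      simp
    · simp
  have hc' : ∀ a : Associates (A K), Continuous fun τ : ℝ => if a ≠ 0 then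
      ((sA a * √(sN (del K)) : ℝ) : ℂ) ^ (-(σ + τ * Complex.I)) else 0 := fun a => by
    split_ifs
    · exact Continuous.const_cpow (by fun_prop) (Or.inl (ofReal_ne_zero.2 (hp a).ne'))
    · exact continuous_const
  have h0 : 0 ≤ ∑' a : Associates (A K),
      (if a ≠ 0 then sA a ^ (-σ) else 0) * √(sN (del K)) ^ (-σ) :=
    tsum_nonneg fun a => hn a 0 ▸ norm_nonneg _
  refine ⟨C * ((∑' a : Associates (A K),
    (if a ≠ 0 then sA a ^ (-σ) else 0) * √(sN (del K)) ^ (-σ)) + 1), fun τ => m τ *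
      ∑' a : Associates (A K), if a ≠ 0 then
        ((sA a * √(sN (del K)) : ℝ) : ℂ) ^ (-(σ + τ * Complex.I)) else 0, by positivity,
    hc.mul (continuous_tsum hc' hs fun a τ => (hn a τ).le), fun τ => ?_, fun x hx => ?_⟩
  · rw [norm_mul, mul_right_comm]
    refine mul_le_mul (hm τ) ((tsum_of_norm_bounded hs.hasSum fun a => (hn a τ).le).trans ?_)
      (norm_nonneg _) (by positivity)
    linarith
  · have : Countable (Associates (A K)) := Associates.mk_surjective.countable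
    have hi : Integrable fun τ : ℝ => m τ * (x : ℂ) ^ (-(σ + τ * Complex.I)) := by
      refine (((integrable_exp_neg_mul_sq (b := 1 / 4) (by norm_num)).const_mul C).mul_const
        (x ^ (-σ))).mono' (hc.mul (Continuous.const_cpow (by fun_prop)
          (Or.inl (ofReal_ne_zero.2 hx.ne')))).aestronglyMeasurable (ae_of_all _ fun τ => ?_)
      rw [norm_mul, norm_cpow_eq_rpow_re_of_pos hx, show (-(σ + τ * Complex.I)).re = -σ by simp]
      gcongr
      exact (hm τ).trans_eq (by congr 2; ring)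
    have key := integral_tsum_of_summable_integral_norm (μ := volume)
      (F := fun (a : Associates (A K)) (τ : ℝ) => m τ * (x : ℂ) ^ (-(σ + τ * Complex.I)) *
        if a ≠ 0 then ((sA a * √(sN (del K)) : ℝ) : ℂ) ^ (-(σ + τ * Complex.I)) else 0)
      (fun a => hi.mul_bdd (hc' a).aestronglyMeasurable (ae_of_all _ fun τ => (hn a τ).le)) (by
        simp only [norm_mul (m _ * _), hn, integral_mul_const]
        exact hs.mul_left _)
    rw [← VS_eq, VS]
    refine (tsum_congr fun a => ?_).trans (key.trans (integral_congr_ae (ae_of_all _ fun τ => ?_)))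
    · split_ifs
      · rw [mul_assoc]
        refine (h _ (mul_pos hx (hp a))).trans (integral_congr_ae (ae_of_all _ fun τ => ?_))
        simp only
        rw [ofReal_mul x, mul_cpow_ofReal_nonneg hx.le (hp a).le, mul_assoc]
      · simp
    · simp only [tsum_mul_left]
      ring

end

end Vale.Agent.P319N
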