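import Vale.Agent.P319N.Reg
import Vale.Agent.P319N.Unf
import Vale.Agent.P319N.VP

namespace Vale.Agent.P319N

open NumberField Complex MeasureTheory Filter Topology
open scoped Classical ComplexConjugate Real
open Vale.Agent.P026 (omC kap psi W)

noncomputable section

variable {K : Type} [Field K] [NumberField K] [Level K]

theorem tat_mem {u : Kˣ} (hu : u ∈ U1 K) {x m : K} : (u : K) * m ∈ LL2 1 x ↔ m ∈ LL2 1 x := by
  have key : ∀ v ∈ U1 K, ∀ m ∈ LL2 1 x, (v : K) * m ∈ LL2 1 x := fun v hv m hm => by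
    rw [mem_LL2_one] at hm ⊢
    rw [mul_div_assoc]
    exact ⟨(R K).mul_mem hv.1.1 hm.1, (A K).mul_mem (U1_le hv).2.1 hm.2⟩
  refine ⟨fun h => ?_, key u hu m⟩
  simpa using key u⁻¹ ((U1 K).inv_mem hu) _ h

theorem tat_unf {x : K} (hx : x ≠ 0) {f : K → ℂ} {B : ℝ} (hb : ∀ m ∈ R K, ‖f m‖ ≤ B)
    (hf : ∀ u ∈ U1 K, ∀ m ∈ R K, f ((u : K) * m) = f m) (h0 : f 0 = 0) {c : ℝ} (hc : 0 < c)
    {D : Set (Emb K → ℝ)} (hD : IsFD (U1 K) D) :
    ∫ y in D, (∑' m : K, if m ∈ LL2 1 x then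
        f m * Ga (fun σ => ((Real.exp (y σ) : ℝ) : ℂ)) m else 0) * g0 (∑ σ, y σ - Real.log c) =
      ∑' m : K, if Rep m ∧ m ∈ LL2 1 x then f m * Vg K g0 (absN m * c) else 0 := by
  have hB : 0 ≤ B := (norm_nonneg _).trans (hb 0 (R K).zero_mem)
  have el : ∀ m : K, m ≠ 0 → ∀ s : ℝ, s - Real.log (absN m) - Real.log c =
      s - Real.log (absN m * c) := fun m hm s => by
    rw [Real.log_mul (absN_pos hm).ne' hc.ne']; ring
  obtain ⟨C, hC, hV⟩ := Vg_le (K := K) (a := 2) (by norm_num)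
  have key := (unfold (U := U1 K) (fun u hu => absN_unit (Uj_le _ hu)) hD DD_spec
    (F := fun m => if m ∈ LL2 1 x then f m else 0)
    (fun u hu m => by
      by_cases h : m ∈ LL2 1 x
      · simp only [if_pos h, if_pos ((tat_mem hu).2 h), hf u hu m (mem_LL2_one.1 h).1]
      · simp only [if_neg h, if_neg (fun e => h ((tat_mem hu).1 e))])
    (by simp [h0])
    (P := fun y => ((Real.exp (-(kap * ∑ σ, Real.exp (y σ))) : ℝ) : ℂ))
    (g := fun u => g0 (u - Real.log c)) (by fun_prop) (by unfold g0; fun_prop)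
    (fun a => by simpa only [sub_sub] using Vg_integrable (K := K) (a + Real.log c))
    (by
      refine Summable.of_nonneg_of_le (fun m => by split_ifs <;> positivity) (fun m => ?_)
        ((fd_summable one_ne_zero hx DD_spec (s := 2) (by norm_num)).mul_left
          (B * (C * c ^ (-2 : ℝ))))
      by_cases h : m ∈ LL2 1 x ∧ m ≠ 0 ∧ Lg m ∈ DD K
      · have p1 := absN_pos h.2.1
        simp only [if_pos h, if_pos h.1, if_pos h.2.2, el m h.2.1]
        rw [Vg_norm, Real.exp_log (mul_pos p1 hc), mul_assoc]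
        refine mul_le_mul (hb _ (mem_LL2_one.1 h.1).1) ((Complex.re_le_norm _).trans
          ((hV _ (mul_pos p1 hc)).trans_eq ?_)) (Vg_nonneg _) hB
        rw [Real.mul_rpow p1.le hc.le]; ring
      · rw [if_neg h, mul_zero]
        split_ifs with h1 h2
        · have : m = 0 := by
            by_contra h3
            exact h ⟨h2, h3, h1⟩
          simp [this, h0]
        · simp
        · rfl)).2.2
  convert key using 2
  · ext y
    rw [← tsum_mul_right]
    refine tsum_congr fun m => ?_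
    by_cases hm : m = 0
    · simp [hm, h0]
    · split_ifs
      · simp only [Ga, Pi.add_apply, Real.exp_add, exp_Lg hm]
        push_cast
        rfl
      · simp
  · ext m
    by_cases hm : m = 0
    · simp [hm, h0]
    · simp only [Rep, ne_eq, hm, not_false_eq_true, true_and, el m hm, Vg]
      split_ifs <;> simp_all

theorem tat_bd {q : R K} (hq : q ≠ 0) {f : K → ℂ}
    (hp : ∀ a b : K, a ∈ R K → (b - a) / q ∈ R K → f b = f a) :
    ∀ m ∈ R K, ‖f m‖ ≤ ∑ a ∈ rs q, ‖f (a : K)‖ := fun m hm => by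
  obtain ⟨a, ha, h⟩ := rs_exists hq ⟨m, hm⟩
  rw [hp a m a.2 ((dvd_iff_div_mem hq).1 h)]
  exact Finset.single_le_sum (f := fun a : R K => ‖f (a : K)‖) (fun _ _ => norm_nonneg _) ha

theorem tat_pois {q : R K} (hq : q ≠ 0) {x : K} (hx : x ≠ 0) {f : K → ℂ}
    (hp : ∀ a b : K, a ∈ R K → (b - a) / q ∈ R K → f b = f a) {t : Emb K → ℂ}
    (ht : ∀ σ, 0 < (t σ).re) :
    ∑' m : K, (if m ∈ LL2 1 x then f m * Ga t m else 0) =
      ((CL (q : K) x : ℝ) : ℂ) * (∏ σ, t σ)⁻¹ * ∑' h : K, if h ∈ LL2 1 (q * del K / x) then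
        (∑ a ∈ rs q, f (a : K) * psiS (h * (a : K) / q)) *
          Ga (fun σ => (t σ)⁻¹ / (normSq (σ.1 (q : K)) : ℝ)) h else 0 := by
  have hq0 : (q : K) ≠ 0 := by exact_mod_cast hq
  have hd := (del_spec (K := K)).1
  obtain ⟨T, hT⟩ := exists_repsL one_ne_zero hx hq0 hx
  have hle : LL2 (q : K) x ≤ LL2 1 x := fun m hm => mem_LL2_one.2 ⟨by
    have := (R K).mul_mem hm.1 q.2
    rwa [div_mul_cancel₀ _ hq0] at this, hm.2⟩
  have ht' : ∀ σ, 0 < ((t σ)⁻¹).re := fun σ => by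
    rw [Complex.inv_re]
    exact div_pos (ht σ) (normSq_pos.2 fun e => by simpa [e] using ht σ)
  rw [tsum_repsL hle hT (by
    refine Summable.of_norm_bounded ((summable_Ga one_ne_zero hx ht 0).mul_left
      (∑ a ∈ rs q, ‖f (a : K)‖)) fun m => ?_
    split_ifs with h
    · rw [norm_mul, add_zero]
      exact mul_le_mul_of_nonneg_right (tat_bd hq hp m (mem_LL2_one.1 h).1) (norm_nonneg _)
    · simp)]
  have e1 : ∀ ρ ∈ T, ∑' m : K, (if m ∈ LL2 (q : K) x then f (m + ρ) * Ga t (m + ρ) else 0) =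
      ((CL (q : K) x : ℝ) : ℂ) * (∏ σ, t σ)⁻¹ * ∑' h : K, if h ∈ LL2 (q : K)⁻¹ (del K / x) then
        f ρ * psiK (h * ρ) * Ga (fun σ => (t σ)⁻¹) h else 0 := fun ρ hρ => by
    have := congrArg (f ρ * ·) (lpois hq0 hx ht ρ)
    rw [← tsum_mul_left, mul_left_comm, ← tsum_mul_left] at this
    refine (tsum_congr fun m => ?_).trans (this.trans (congrArg _ (tsum_congr fun h => ?_)))
    · split_ifs with h
      · rw [hp ρ (m + ρ) (mem_LL2_one.1 (hT.1 ρ hρ)).1 (by simpa using h.1)]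
      · simp
    · split_ifs
      · ring
      · simp
  rw [Finset.sum_congr rfl e1, ← Finset.mul_sum, ← Summable.tsum_finsetSum (fun ρ _ => by
    refine Summable.of_norm_bounded ((summable_Ga (inv_ne_zero hq0) (div_ne_zero hd hx) ht'
      0).mul_left ‖f ρ‖) fun m => ?_
    split_ifs with h
    · simp [norm_psiK]
    · simp), ← (Equiv.divRight₀ (q : K) hq0).tsum_eq]
  congr 1
  refine tsum_congr fun h => ?_
  have em : h / q ∈ LL2 (q : K)⁻¹ (del K / x) ↔ h ∈ LL2 1 (q * del K / x) := by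
    have a1 : h / q / (q : K)⁻¹ = h / 1 := by field_simp
    have a2 : h / q / (del K / x) = h / (q * del K / x) := by field_simp
    show _ ∈ R K ∧ _ ∈ A K ↔ _ ∈ R K ∧ _ ∈ A K
    rw [a1, a2]
  simp only [Equiv.divRight₀_apply, em]
  split_ifs with hh
  · rw [← Finset.sum_mul]
    congr 1
    · obtain ⟨h1, h2⟩ := mem_LL2_one.1 hh
      rw [← sum_repsL hq hx hT (f := fun a => f a * psiS (h * a / q)) fun a b ha hab => by
        have : h * b / q = h * a / q + h * ((b - a) / q) := by ring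
        rw [hp a b ha hab, this, psiS_add, psiS_R ((R K).mul_mem h1 hab), mul_one]]
      refine Finset.sum_congr rfl fun ρ hρ => ?_
      have : h / q * ρ / del K = h / (q * del K / x) * (ρ / x) := by field_simp
      rw [psiK_eq_mul, psiF_del (this ▸ (A K).mul_mem h2 (mem_LL2_one.1 (hT.1 ρ hρ)).2), one_mul,
        div_mul_eq_mul_div]
    · simp only [Ga, map_div₀]
      congr 3
      refine Finset.sum_congr rfl fun σ _ => ?_
      push_cast
      ring
  · simp

theorem tat_hat {q : R K} (hq : q ≠ 0) {f : K → ℂ}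
    (hp : ∀ a b : K, a ∈ R K → (b - a) / q ∈ R K → f b = f a) {u : Kˣ} (hu : u ∈ unitsR K)
    (hf : ∀ m ∈ R K, f ((u : K) * m) = f m) {h : K} (hh : h ∈ R K) :
    ∑ a ∈ rs q, f (a : K) * psiS ((u : K) * h * (a : K) / q) =
      ∑ a ∈ rs q, f (a : K) * psiS (h * (a : K) / q) := by
  obtain ⟨v, hv⟩ := mem_unitsR.1 hu
  rw [← sum_rs_mul hq (t := v) ⟨↑v⁻¹, 0, by simp⟩ (f := fun a : R K =>
    f (a : K) * psiS (h * (a : K) / q)) fun a b hab => by
      have e := rs_per_psi hq ⟨h, hh⟩ a b hab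
      simp only at e ⊢
      rw [e, hp b a b.2 ((dvd_iff_div_mem hq).1 hab)]]
  refine Finset.sum_congr rfl fun a _ => ?_
  rw [Subring.coe_mul, hv, hf a a.2]
  congr 2
  ring

theorem tat_hat_bd (q : R K) (f : K → ℂ) (h : K) :
    ‖∑ a ∈ rs q, f (a : K) * psiS (h * (a : K) / q)‖ ≤ ∑ a ∈ rs q, ‖f (a : K)‖ :=
  (norm_sum_le _ _).trans_eq (Finset.sum_congr rfl fun a _ => by simp [norm_psiS])

/-- the identity for one lattice -/
theorem tate_lat {q : R K} (hq : q ≠ 0) {x : K} (hx : x ≠ 0) {f : K → ℂ}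
    (hp : ∀ a b : K, a ∈ R K → (b - a) / q ∈ R K → f b = f a)
    (hf : ∀ u ∈ U1 K, ∀ m ∈ R K, f ((u : K) * m) = f m) (h0 : f 0 = 0)
    (h0' : ∑ a ∈ rs q, f (a : K) = 0) {c : ℝ} (hc : 0 < c) :
    ∑' m : K, (if Rep m ∧ m ∈ LL2 1 x then f m * Vg K g0 (absN m * c) else 0) =
      ((CL (q : K) x / c : ℝ) : ℂ) * ∑' h : K, if Rep h ∧ h ∈ LL2 1 (q * del K / x) then
        (∑ a ∈ rs q, f (a : K) * psiS (h * (a : K) / q)) *
          Vg K g0 (absN h / (c * absN (q : K))) else 0 := by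
  have hq0 : (q : K) ≠ 0 := by exact_mod_cast hq
  have hd := (del_spec (K := K)).1
  have hN := absN_pos hq0
  have hc' : 0 < (c * absN (q : K))⁻¹ := inv_pos.2 (mul_pos hc hN)
  rw [← tat_unf hx (tat_bd hq hp) hf h0 hc DD_spec]
  simp only [div_eq_mul_inv (absN _)]
  rw [← tat_unf (div_ne_zero (mul_ne_zero hq0 hd) hx)
    (f := fun h => ∑ a ∈ rs q, f (a : K) * psiS (h * (a : K) / q))
    (fun m _ => tat_hat_bd q f m) (fun u hu m hm => tat_hat hq hp hu.1 (hf u hu) hm)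
    (by simpa [psiS_zero] using h0') hc' (DD_spec.neg_sub (Lg (q : K)))]
  have mp : MeasurePreserving (fun y : Emb K → ℝ => -y - Lg (q : K)) :=
    (measurePreserving_sub_right volume _).comp (Measure.measurePreserving_neg volume)
  have me : MeasurableEmbedding (fun y : Emb K → ℝ => -y - Lg (q : K)) :=
    ((MeasurableEquiv.neg _).trans (MeasurableEquiv.subRight (Lg (q : K)))).measurableEmbedding
  rw [← mp.setIntegral_preimage_emb me, ← integral_const_mul]
  refine integral_congr_ae (Eventually.of_forall fun y => ?_)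
  simp only
  rw [tat_pois hq hx hp (fun σ => by simpa only [Complex.ofReal_re] using Real.exp_pos _)]
  have e1 : (fun σ : Emb K => (((Real.exp ((-y - Lg (q : K)) σ) : ℝ) : ℂ))⁻¹ /
      (normSq (σ.1 (q : K)) : ℝ)) = fun σ => ((Real.exp (y σ) : ℝ) : ℂ) := by
    ext σ
    rw [← exp_Lg hq0, ← Complex.ofReal_inv, ← Complex.ofReal_div, ← Real.exp_neg, ← Real.exp_sub]
    simp
  have e2 : ∑ σ, (-y - Lg (q : K)) σ = -∑ σ, y σ - Real.log (absN (q : K)) := by
    simp [Finset.sum_sub_distrib, sum_Lg hq0]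
  rw [e1, ← Complex.ofReal_prod, ← Real.exp_sum, e2, Real.log_inv, Real.log_mul hc.ne' hN.ne']
  have e3 : (Real.exp (-∑ σ, y σ - Real.log (absN (q : K))))⁻¹ *
      Real.exp (-(-∑ σ, y σ - Real.log (absN (q : K)) - Real.log c) ^ 2 +
        (-∑ σ, y σ - Real.log (absN (q : K)) - Real.log c) / 2) =
      c⁻¹ * Real.exp (-(∑ σ, y σ - -(Real.log c + Real.log (absN (q : K)))) ^ 2 +
        (∑ σ, y σ - -(Real.log c + Real.log (absN (q : K)))) / 2) := by
    conv_rhs => rw [← Real.exp_log (inv_pos.2 hc), Real.log_inv]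
    rw [← Real.exp_neg, ← Real.exp_add, ← Real.exp_add]
    congr 1
    ring
  have e4 := congrArg (fun r : ℝ => (r : ℂ)) e3
  simp only [Complex.ofReal_mul, Complex.ofReal_inv] at e4
  simp only [g0, Complex.ofReal_div]
  linear_combination ((CL (q : K) x : ℝ) : ℂ) * (∑' h : K, if h ∈ LL2 1 (q * del K / x) then
    (∑ a ∈ rs q, f (a : K) * psiS (h * (a : K) / q)) *
      Ga (fun σ => ((Real.exp (y σ) : ℝ) : ℂ)) h else 0) * e4

theorem tat_reg {X : Finset Kˣ} (hX : RepsX X) {f : K → ℂ} {B : ℝ}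
    (hf : ∀ u ∈ U0 K, ∀ m ∈ R K, f ((u : K) * m) = f m) (hb : ∀ m ∈ R K, ‖f m‖ ≤ B)
    (h0 : f 0 = 0) {T : ℝ} (hT : 0 < T) :
    (i0 K : ℂ) * ∑' n : MM K, f (lft n) * ((Vw K (N (lft n) * T) : ℝ) : ℂ) =
      ∑ x ∈ X, ∑' m : K, if Rep m ∧ m ∈ LL2 1 (x : K) then
        f m * Vg K g0 (absN m * (T * √(sN (del K)) / sN (x : K))) else 0 := by
  obtain ⟨C, hC, hV⟩ := Vg_le (K := K) (a := 2) (by norm_num)
  have hd : 0 < T * √(sN (del K)) := mul_pos hT (Real.sqrt_pos.2 (sN_pos _))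
  have := (regroup hX hf hb (Φ := fun t => Vg K g0 (t * (T * √(sN (del K)))))
    (C := C * (T * √(sN (del K))) ^ (-2 : ℝ)) fun t ht => (hV _ (mul_pos ht hd)).trans_eq (by
      rw [Real.mul_rpow ht.le hd.le]; ring)).2
  convert this using 3
  · ext n
    split_ifs with h
    · rw [← VS_eq, VS]
      congr 1
      refine tsum_congr fun a => ?_
      simp only [sA]
      congr 2
      ring
    · have : lft n = 0 := lft_eq_zero.2 (not_not.1 h)
      simp [this, h0]
  · ext m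
    congr 3
    ring

theorem tate {q : R K} (hq : q ≠ 0) {f : R K → ℂ} (hp : Per q f)
    (hf : ∀ u : (R K)ˣ, clsK ((u : R K) : K) = 1 → ∀ m, f (u * m) = f m) (h0 : f 0 = 0)
    (h0' : ∑ a ∈ rs q, f a = 0) {Y : ℝ} (hY : 0 < Y) :
    ∑' m : MM K, f (lft m) * ((Vw K (N (lft m) / Y) : ℝ) : ℂ) =
      ((Y / N q : ℝ) : ℂ) * ∑' h : MM K, (∑ a ∈ rs q, f a * psiS ((lft h : K) * a / q)) *
        ((Vw K (N (lft h) * (Y / N q)) : ℝ) : ℂ) := by
  have hq0 : (q : K) ≠ 0 := by exact_mod_cast hq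
  have hd := (del_spec (K := K)).1
  have tR : ∀ a : R K, toR (a : K) = a := fun a => Subtype.ext (toR_coe a.2)
  have hp' : ∀ a b : K, a ∈ R K → (b - a) / q ∈ R K → f (toR b) = f (toR a) := by
    intro a b ha hab
    have hb : b ∈ R K := by
      have : b = a + q * ((b - a) / q) := by field_simp; ring
      rw [this]; exact (R K).add_mem ha ((R K).mul_mem q.2 hab)
    refine hp _ _ ((dvd_iff_div_mem hq).2 ?_)
    rwa [AddSubgroupClass.coe_sub, toR_coe ha, toR_coe hb]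
  have hf' : ∀ u ∈ U0 K, ∀ m ∈ R K, f (toR ((u : K) * m)) = f (toR m) := by
    intro u hu m hm
    obtain ⟨v, hv, e⟩ := mem_U0.1 hu
    rw [← hf v hv (toR m), ← tR (v * toR m), Subring.coe_mul, toR_coe hm, e]
  have h1 : f (toR (0 : K)) = 0 := by rw [← h0, ← tR 0]; rfl
  have h1' : ∑ a ∈ rs q, f (toR (a : K)) = 0 := by simpa only [tR] using h0'
  obtain ⟨X, hX⟩ := exists_repsX (K := K)
  have hi : (i0 K : ℂ) ≠ 0 := by exact_mod_cast i0_pos.ne'
  have pq := N_pos hq
  have e1 := tat_reg hX (f := fun m => f (toR m)) hf' (tat_bd hq hp') h1 (inv_pos.2 hY)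
  have e2 := tat_reg (hX.div (Units.mk0 _ (mul_ne_zero hq0 hd)))
    (f := fun h => ∑ a ∈ rs q, f (toR (a : K)) * psiS (h * (a : K) / q))
    (fun u hu m hm => tat_hat hq hp' hu.1 (hf' u hu) hm)
    (fun m _ => tat_hat_bd q (fun m => f (toR m)) m)
    (by simpa [psiS_zero] using h1') (div_pos hY pq)
  rw [Finset.sum_image (fun a _ b _ h => div_right_injective h)] at e2
  simp only [tR] at e1 e2
  apply mul_left_cancel₀ hi
  simp only [div_eq_mul_inv (N (lft _))]
  rw [e1, mul_left_comm, e2, Finset.mul_sum]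
  refine Finset.sum_congr rfl fun x _ => ?_
  have p1 := sN_pos (x : K)
  have p2 := sN_pos (q : K)
  have p3 := Real.sqrt_pos.2 (sN_pos (del K))
  have p4 := Real.mul_self_sqrt (sN_pos (del K)).le
  rw [tate_lat hq x.ne_zero hp' (fun u hu => hf' u (U1_le hu).1) h1 h1' (by positivity)]
  simp only [tR, Units.val_div_eq_div_val, Units.val_mk0]
  congr 2
  · rw [CL, absN_eq hq]; field_simp
  · ext h
    congr 3
    rw [sN_div (mul_ne_zero hq0 hd) x.ne_zero, sN_mul hq0 hd, absN_eq hq]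
    field_simp
    rw [Real.sq_sqrt (sN_pos _).le, mul_div_assoc, div_self (sN_pos _).ne', mul_one]

end

end Vale.Agent.P319N
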