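import Vale.Agent.P319N.GE1
import Vale.Agent.P319N.Tat

namespace Vale.Agent.P319N

open NumberField Complex MeasureTheory Filter Topology
open scoped Classical ComplexConjugate Real
open Vale.Agent.P026 (omC kap psi W)

noncomputable section

variable {K : Type} [Field K] [NumberField K] [Level K]


def ge2h (α v : ℝ) : ℂ := ((Real.exp (-4 * v ^ 2 + α * v) : ℝ) : ℂ)

theorem ge2_int {U : Subgroup Kˣ} {D : Set (Emb K → ℝ)} (hD : IsFD U D) (α a : ℝ) :
    IntegrableOn (fun y : Emb K → ℝ => ge2h α (∑ σ, y σ - a)) D := by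
  refine hD.integrable (h := fun u => ge2h α (u - a)) (by unfold ge2h; fun_prop)
    (C := Real.exp (|a| + (|α| + 1) ^ 2)) fun u => ?_
  rw [ge2h, Complex.norm_real, Real.norm_of_nonneg (Real.exp_pos _).le, ← Real.exp_add,
    Real.exp_le_exp]
  have h1 : |u| ≤ |u - a| + |a| := by simpa using abs_add_le (u - a) a
  have h2 : α * (u - a) ≤ |α| * |u - a| := by rw [← abs_mul]; exact le_abs_self _
  nlinarith [sq_abs (u - a), sq_nonneg (|u - a| - (|α| + 1)), sq_nonneg (u - a), abs_nonneg α,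
    abs_nonneg (u - a)]

/-- the squared Gaussian -/
def ge2P (y : Emb K → ℝ) : ℂ := ((Real.exp (-(kap * ∑ σ, Real.exp (2 * y σ))) : ℝ) : ℂ)

theorem ge2_smul (a : ℝ) (y : Emb K → ℝ) :
    ((Real.exp (-(kap * ∑ σ, Real.exp (((2 : ℝ) • y) σ))) : ℝ) : ℂ) *
      g0 (∑ σ, ((2 : ℝ) • y) σ - 2 * a) = ge2P y * ge2h 1 (∑ σ, y σ - a) := by
  simp only [Pi.smul_apply, smul_eq_mul, ge2P, ge2h, g0, ← Finset.mul_sum]
  congr 3; ring

theorem ge2_integrable (a : ℝ) :
    Integrable fun y : Emb K → ℝ => ge2P y * ge2h 1 (∑ σ, y σ - a) := by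
  simpa only [ge2_smul] using (Vg_integrable (K := K) (2 * a)).comp_smul (R := (2 : ℝ)) two_ne_zero

theorem ge2_Vg (a : ℝ) : ∫ y : Emb K → ℝ, ge2P y * ge2h 1 (∑ σ, y σ - a) =
    ((((2 : ℝ) ^ rk K)⁻¹ : ℝ) : ℂ) * Vg K g0 (Real.exp (2 * a)) := by
  have := Measure.integral_comp_smul (volume : Measure (Emb K → ℝ)) (fun y : Emb K → ℝ =>
    ((Real.exp (-(kap * ∑ σ, Real.exp (y σ))) : ℝ) : ℂ) * g0 (∑ σ, y σ - 2 * a)) (2 : ℝ)
  simp only [ge2_smul] at this
  rw [this, Vg, Real.log_exp, Module.finrank_fintype_fun_eq_card, abs_of_pos (by positivity),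
    real_smul, rk]

theorem ge2_norm (a : ℝ) : ∫ y : Emb K → ℝ, ‖ge2P y * ge2h 1 (∑ σ, y σ - a)‖ ≤
    ‖Vg K g0 (Real.exp (2 * a))‖ := by
  have e : ((∫ y : Emb K → ℝ, ‖ge2P y * ge2h 1 (∑ σ, y σ - a)‖ : ℝ) : ℂ) =
      ∫ y : Emb K → ℝ, ge2P y * ge2h 1 (∑ σ, y σ - a) := by
    rw [← integral_complex_ofReal]
    refine integral_congr_ae (ae_of_all _ fun y => ?_)
    simp only [ge2P, ge2h, ← ofReal_mul, Complex.norm_real]
    rw [Real.norm_of_nonneg (by positivity)]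
  refine (le_abs_self _).trans ?_
  rw [← Real.norm_eq_abs, ← Complex.norm_real, e, ge2_Vg, norm_mul, Complex.norm_real,
    Real.norm_of_nonneg (by positivity)]
  exact mul_le_of_le_one_left (norm_nonneg _) (inv_le_one_of_one_le₀ (one_le_pow₀ one_le_two))

theorem ge2_mem {x : K} {u : Kˣ} (hu : u ∈ U1 K) {m : K} (hm : m ∈ LL2 1 x) :
    (u : K) * m ∈ LL2 1 x := by
  obtain ⟨h1, h2⟩ := Uj_le _ hu
  exact ⟨by rw [mul_div_assoc]; exact (R K).mul_mem h1.1 hm.1,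
    by rw [mul_div_assoc]; exact (A K).mul_mem h2.1 hm.2⟩

theorem gerr_fd {x : K} (hx : x ≠ 0) : ∃ (c : ℂ) (C : ℝ), ∀ T : ℝ, 0 < T →
    ‖∑' m : K, (if Rep m ∧ m ∈ LL2 1 x then Vg K g0 (T * absN m ^ 2) else 0) -
      c / ((√T : ℝ) : ℂ)‖ ≤ C := by

  have hD := DD_spec (K := K)
  obtain ⟨B, hB⟩ := hD.2.2.2
  obtain ⟨c, C, hc⟩ := gerr_lat hx B
  obtain ⟨Cv, hCv, hv⟩ := Vg_le (K := K) one_pos
  set r : ℝ := (2 : ℝ) ^ rk K with hr
  have r0 : 0 < r := by positivity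
  refine ⟨r * (c * ∫ y in DD K, ge2h 0 (∑ σ, y σ)),
    r * (C * ‖∫ y in DD K, ge2h 1 (∑ σ, y σ)‖), fun T hT => ?_⟩
  set a := Real.log T / 2 with ha
  set F : K → ℂ := fun m => if m ∈ LL2 1 x ∧ m ≠ 0 then 1 else 0 with hF
  have eT : ∀ m : K, m ≠ 0 → Real.exp (2 * (Real.log (absN m) + a)) = T * absN m ^ 2 := by
    intro m hm
    rw [mul_add, Real.exp_add, ha, mul_div_cancel₀ _ two_ne_zero, Real.exp_log hT, two_mul,
      Real.exp_add, Real.exp_log (absN_pos hm)]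
    ring
  obtain ⟨-, u1, u2⟩ := unfold (fun u hu => absN_unit (Uj_le _ hu)) hD hD (F := F)
    (fun u hu m => if_congr (and_congr ⟨fun h => by
      simpa using ge2_mem ((U1 K).inv_mem hu) h, ge2_mem hu⟩ (by simp)) rfl rfl)
    (by simp [hF]) (P := ge2P) (g := fun u => ge2h 1 (u - a)) (by unfold ge2P; fun_prop)
    (by unfold ge2h; fun_prop) (fun b => by simpa only [sub_sub] using ge2_integrable (b + a))
    (Summable.of_nonneg_of_le (fun m => by
      split_ifs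
      · exact mul_nonneg (norm_nonneg _) (integral_nonneg fun _ => norm_nonneg _)
      · exact le_rfl) (fun m => by
      by_cases h : m ∈ LL2 1 x ∧ m ≠ 0 ∧ Lg m ∈ DD K
      · have m0 := absN_pos h.2.1
        simp only [hF, if_pos h.2.2, if_pos h, if_pos (And.intro h.1 h.2.1), norm_one, one_mul,
          sub_sub]
        refine (ge2_norm _).trans ((hv _ (Real.exp_pos _)).trans_eq ?_)
        rw [eT m h.2.1, Real.rpow_neg_one, Real.rpow_neg m0.le, Real.rpow_two]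
        field_simp
      · rw [if_neg h, mul_zero]
        split_ifs with h1
        · simp only [hF]; rw [if_neg fun h2 => h ⟨h2.1, h2.2, h1⟩]; simp
        · exact le_rfl)
      ((fd_summable one_ne_zero hx hD (s := 2) one_lt_two).mul_left (Cv / T)))
  have e1 : ∑' m : K, (if Rep m ∧ m ∈ LL2 1 x then Vg K g0 (T * absN m ^ 2) else 0) =
      r * ∫ y in DD K, ∑' m : K, F m * ge2P (y + Lg m) * ge2h 1 (∑ σ, y σ - a) := by
    rw [u2, ← tsum_mul_left]
    refine tsum_congr fun m => ?_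
    by_cases h : Rep m ∧ m ∈ LL2 1 x
    · simp only [hF, if_pos h, if_pos h.1.2, if_pos (And.intro h.2 h.1.1), one_mul, sub_sub, ge2_Vg,
        eT m h.1.1]
      rw [← mul_assoc, ← ofReal_mul, mul_inv_cancel₀ r0.ne', ofReal_one, one_mul]
    · rw [if_neg h]
      split_ifs with h1
      · simp only [hF]; rw [if_neg fun h2 => h ⟨⟨h2.2, h1⟩, h2.1⟩]; simp
      · simp
  have e2 : ∀ u : ℝ, ((Real.exp (-u) : ℝ) : ℂ) * ge2h 1 (u - a) =
      ge2h 0 (u - a) / ((√T : ℝ) : ℂ) := fun u => by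
    have : √T = Real.exp a := by
      rw [Real.sqrt_eq_rpow, Real.rpow_def_of_pos hT, ha]; congr 1; ring
    rw [this, ge2h, ge2h, ← ofReal_mul, ← ofReal_div, ← Real.exp_add, ← Real.exp_sub]
    congr 2; ring
  have i0 := ((ge2_int hD 0 a).div_const ((√T : ℝ) : ℂ)).const_mul c
  have e3 : (c * ∫ y in DD K, ge2h 0 (∑ σ, y σ)) / ((√T : ℝ) : ℂ) =
      ∫ y in DD K, c * (ge2h 0 (∑ σ, y σ - a) / ((√T : ℝ) : ℂ)) := by
    rw [integral_const_mul, integral_div, hD.shift (ge2h 0), mul_div_assoc]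
  have e4 : ∫ y in DD K, ‖ge2h 1 (∑ σ, y σ - a)‖ = ‖∫ y in DD K, ge2h 1 (∑ σ, y σ)‖ := by
    rw [← hD.shift (ge2h 1) a]
    simp only [ge2h, integral_complex_ofReal, Complex.norm_real, Real.norm_eq_abs, Real.abs_exp]
    rw [abs_of_nonneg (integral_nonneg fun _ => (Real.exp_pos _).le)]
  rw [e1, mul_div_assoc, e3, ← mul_sub, ← integral_sub u1 i0, norm_mul, Complex.norm_real,
    Real.norm_of_nonneg r0.le, ← e4, ← integral_const_mul]
  refine mul_le_mul_of_nonneg_left (norm_integral_le_of_norm_le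
    ((ge2_int hD 1 a).norm.const_mul C) ((ae_restrict_iff' hD.1).2 (ae_of_all _ fun y hy => ?_)))
    r0.le
  rw [← e2, tsum_mul_right, ← mul_assoc, ← sub_mul, norm_mul]
  refine mul_le_mul_of_nonneg_right (le_of_eq_of_le ?_ (hc y (hB y hy))) (norm_nonneg _)
  congr 2
  refine tsum_congr fun m => ?_
  simp only [hF]
  split_ifs with h
  · simp only [one_mul, ge2P, Pi.add_apply, two_mul, Real.exp_add, exp_Lg h.2, sq]
  · rw [zero_mul]


theorem ge2_main : ∃ (c : ℂ) (C : ℝ), ∀ T : ℝ, 0 < T →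
    (Summable fun a : MM K => if a ≠ 0 then Vw K (T * (Nm (lft a) : ℝ) ^ 2) else 0) ∧
    ‖(i0 K : ℂ) * ((∑' a : MM K, (if a ≠ 0 then Vw K (T * (Nm (lft a) : ℝ) ^ 2) else 0) : ℝ) : ℂ) -
      c / ((√T : ℝ) : ℂ)‖ ≤ C := by
  obtain ⟨S, hS, hs⟩ := tsum_sA_sq (K := K)
  obtain ⟨X, hX⟩ := exists_repsX (K := K)
  obtain ⟨Cv, hCv, hv⟩ := Vg_le (K := K) one_pos
  choose c C hc using fun x : Kˣ => gerr_fd x.ne_zero
  set δ := √(sN (del K)) with hδ
  have δ0 : 0 < δ := Real.sqrt_pos.2 (sN_pos _)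
  refine ⟨∑ b ∈ S, ∑ x ∈ X, c x / ((√(sA b * δ / sN (x : K) ^ 2) : ℝ) : ℂ), ∑ b ∈ S, ∑ x ∈ X, C x,
    fun T hT => ?_⟩
  set Φ : Associates (A K) → ℝ → ℂ := fun b t => Vg K g0 (T * (sA b * δ) * t ^ 2) with hΦ
  have b0 : ∀ b : Associates (A K), 0 < sA b := fun b => sN_pos _
  have rg := fun b => regroup hX (f := fun _ => 1) (B := 1) (fun _ _ _ _ => rfl)
    (fun _ _ => by simp) (Φ := Φ b) (C := Cv / (T * (sA b * δ))) fun t ht => by
      have := b0 b
      refine (hv _ (by positivity)).trans_eq ?_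
      rw [Real.rpow_neg_one, Real.rpow_neg ht.le, Real.rpow_two]
      field_simp
  have e : ∀ n : MM K, ((if n ≠ 0 then Vw K (T * (Nm (lft n) : ℝ) ^ 2) else 0 : ℝ) : ℂ) =
      ∑ b ∈ S, if n ≠ 0 then 1 * ∑' a : Associates (A K),
        (if a ≠ 0 then Φ b (N (lft n) * sA a) else 0) else 0 := fun n => by
    split_ifs with hn
    · have n0 : 0 < N (lft n) := N_pos (_root_.mt lft_eq_zero.1 hn)
      obtain ⟨v1, v2⟩ := Vw_eq (K := K) (x := T * N (lft n) ^ 2) (by positivity)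
      rw [show Vw K (T * (Nm (lft n) : ℝ) ^ 2) = _ from v2,
        hs (fun s => (Vg K g0 (T * N (lft n) ^ 2 * s * δ)).re) v1, ofReal_sum]
      refine Finset.sum_congr rfl fun b _ => ?_
      rw [one_mul, ofReal_tsum]
      refine tsum_congr fun a => ?_
      split_ifs
      · rw [← Vg_eq_re]; exact congrArg (Vg K g0) (by ring)
      · rfl
    · simp
  refine ⟨Complex.summable_ofReal.1 ?_, ?_⟩
  · simp only [e]
    exact summable_sum fun b _ => (rg b).1
  rw [ofReal_tsum]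
  simp only [e]
  rw [Summable.tsum_finsetSum fun b _ => (rg b).1, Finset.mul_sum, Finset.sum_div,
    ← Finset.sum_sub_distrib]
  refine (norm_sum_le _ _).trans (Finset.sum_le_sum fun b _ => ?_)
  rw [(rg b).2, Finset.sum_div, ← Finset.sum_sub_distrib]
  refine (norm_sum_le _ _).trans (Finset.sum_le_sum fun x _ => le_of_eq_of_le ?_
    (hc x (T * (sA b * δ / sN (x : K) ^ 2)) (by have := b0 b; have := sN_pos (x : K); positivity)))
  rw [Real.sqrt_mul hT.le, ofReal_mul, div_div, mul_comm ((√T : ℝ) : ℂ)]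
  refine congrArg (fun z : ℂ => ‖z - _‖) (tsum_congr fun m => ?_)
  split_ifs
  · rw [one_mul]; exact congrArg (Vg K g0) (by ring)
  · rfl

theorem gerr_MM : ∃ c C : ℝ, 0 < c ∧ ∀ T : ℝ, 0 < T →
    |∑' a : MM K, (if a ≠ 0 then Vw K (T * (Nm (lft a) : ℝ) ^ 2) else 0) - c / √T| ≤ C := by

  obtain ⟨c, C, h⟩ := ge2_main (K := K)
  have i1 : (0 : ℝ) < i0 K := Nat.cast_pos.2 i0_pos
  have key : ∀ T : ℝ, 0 < T → |∑' a : MM K, (if a ≠ 0 then Vw K (T * (Nm (lft a) : ℝ) ^ 2) else 0) -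
      c.re / i0 K / √T| ≤ C / i0 K := fun T hT => by
    have := (abs_re_le_norm _).trans (h T hT).2
    rw [sub_re, div_ofReal_re, ← ofReal_natCast, ← ofReal_mul, ofReal_re] at this
    rw [le_div_iff₀ i1, ← abs_of_pos i1, ← abs_mul, abs_of_pos i1]
    refine le_of_eq_of_le (congrArg _ ?_) this
    field_simp
  refine ⟨c.re / i0 K, C / i0 K, lt_of_not_ge fun hc => ?_, key⟩
  obtain ⟨c0, hc0, hge⟩ := Vw_ge (K := K)
  obtain ⟨k, hk⟩ := exists_nat_gt (C / i0 K / c0)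
  set n := Module.finrank ℚ K with hn
  have hN : ∀ i : ℕ, Nm (lft (mkM ((Setup.M K * i + 1 : ℕ) : R K))) = (Setup.M K * i + 1) ^ n :=
    fun i => by rw [Nm_lft, Nm_nat (by simp)]
  set L : ℝ := (((Setup.M K * k + 1) ^ n : ℕ) : ℝ) with hL
  have L1 : 1 ≤ L := Nat.one_le_cast.2 (Nat.one_le_pow _ _ (Nat.succ_pos _))
  have T0 : 0 < (L ^ 2)⁻¹ := by positivity
  have inj : Function.Injective fun i : ℕ => mkM ((Setup.M K * i + 1 : ℕ) : R K) := by
    intro i j hij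
    have := congrArg (fun a => Nm (lft a)) hij
    simp only [hN] at this
    exact Nat.eq_of_mul_eq_mul_left (Nat.pos_of_ne_zero Setup.Mne) (Nat.succ_injective
      (Nat.pow_left_injective (Module.finrank_pos (R := ℚ) (M := K)).ne' this))
  have a1 := (h _ T0).1.sum_le_tsum ((Finset.range k).map ⟨_, inj⟩) fun a _ => by
    split_ifs
    · exact Vw_nonneg _
    · exact le_rfl
  have a2 := Finset.card_nsmul_le_sum ((Finset.range k).map ⟨_, inj⟩) (fun a : MM K =>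
    if a ≠ 0 then Vw K ((L ^ 2)⁻¹ * (Nm (lft a) : ℝ) ^ 2) else 0) c0 fun a ha => by
      obtain ⟨i, hi, rfl⟩ := Finset.mem_map.1 ha
      have p : 0 < (Setup.M K * i + 1) ^ n := by positivity
      simp only [Function.Embedding.coeFn_mk]
      rw [if_pos fun h0 => p.ne' (by rw [← hN, h0, lft_eq_zero.2 rfl, Nm_eq_zero]), hN]
      refine hge _ (by positivity) ?_
      rw [inv_mul_le_one₀ (by positivity), hL]
      have := (Finset.mem_range.1 hi).le
      gcongr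
  rw [Finset.card_map, Finset.card_range, nsmul_eq_mul] at a2
  have a3 := (abs_le.1 (key _ T0)).2
  have a4 : c.re / i0 K / √(L ^ 2)⁻¹ ≤ 0 := div_nonpos_of_nonpos_of_nonneg hc (Real.sqrt_nonneg _)
  rw [div_lt_iff₀ hc0] at hk
  linarith

end

end Vale.Agent.P319N
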