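import Vale.Agent.P319N.Sym

namespace Vale.Agent.P319N

open NumberField Complex MeasureTheory Filter Topology
open scoped Classical ComplexConjugate Real
open Vale.Agent.P026 (omC kap psi W)

noncomputable section

variable {K : Type} [Field K] [NumberField K] [Setup K]

/-- generic Gauss sum -/
def gauG (χ : R K → ℂ) (h n : R K) : ℂ := ∑ x ∈ rs n, χ x * psiS ((h : K) * x / n)

theorem gau_per {χ : R K → ℂ} {q : R K} (hq : q ≠ 0) (hχ : Per q χ) (h : R K) :
    Per q fun x => χ x * psiS ((h : K) * x / q) := fun x y hxy => by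
  have := rs_per_psi hq h x y hxy
  simp only at this
  simp only [hχ x y hxy, this]

theorem gau_mul {χ : R K → ℂ} {q t : R K} (hq : q ≠ 0) (hχ : Per q χ)
    (hm : ∀ x y, χ (x * y) = χ x * χ y) (ht : IsCoprime t q) (h : R K) :
    gauG χ h q = χ t * gauG χ (h * t) q := by
  rw [gauG, ← sum_rs_mul hq ht (gau_per hq hχ h), gauG, Finset.mul_sum]
  refine Finset.sum_congr rfl fun x _ => ?_
  simp only [hm, Subring.coe_mul, mul_assoc]

theorem gau_twist_prime {χ : R K → ℂ} {p : R K} (hp : Prime p) (hχ : Per p χ)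
    (hm : ∀ x y, χ (x * y) = χ x * χ y) (h0 : ∀ x, p ∣ x → χ x = 0)
    (h1 : ∀ x, IsCoprime x p → ‖χ x‖ = 1) (hne : ∃ x, ¬ p ∣ x ∧ χ x ≠ 1) (h : R K) :
    gauG χ h p = conj (χ h) * gauG χ 1 p := by
  have hc : ∀ x, ¬ p ∣ x → IsCoprime x p := fun x hx =>
    ((hp.irreducible.coprime_iff_not_dvd).2 hx).symm
  by_cases hh : p ∣ h
  · obtain ⟨t, ht, ht1⟩ := hne
    have e : ∀ h, p ∣ h → gauG χ h p = ∑ x ∈ rs p, χ x := fun h hh =>
      Finset.sum_congr rfl fun x _ => by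
        rw [(psiS_div_eq_one_iff hp.ne_zero h).2 hh x, mul_one]
    have a := gau_mul hp.ne_zero hχ hm (hc t ht) h
    rw [e _ (hh.mul_right t), ← e h hh] at a
    rw [h0 h hh, map_zero, zero_mul]
    have : (1 - χ t) * gauG χ h p = 0 := by linear_combination a
    exact (mul_eq_zero.1 this).resolve_left (sub_ne_zero.2 ht1.symm)
  · have a := gau_mul hp.ne_zero hχ hm (hc h hh) 1
    have b := Complex.mul_conj' (χ h)
    rw [h1 h (hc h hh)] at b
    push_cast at b
    rw [a, one_mul]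
    linear_combination (-gauG χ h p) * b

theorem gau_conj (χ : R K → ℂ) (h q : R K) :
    conj (gauG χ h q) = gauG (fun x => conj (χ x)) (-h) q := by
  simp only [gauG, map_sum, map_mul, ← psiS_neg, Subring.coe_neg, neg_mul, neg_div]

theorem gau_norm {χ : R K → ℂ} {q : R K} (hq : q ≠ 0) (hχ : Per q χ) (h1 : χ 1 = 1)
    (ht : ∀ h, gauG χ h q = conj (χ h) * gauG χ 1 q) :
    ‖gauG χ 1 q / ((√(N q) : ℝ) : ℂ)‖ = 1 := by
  have key : conj (gauG χ 1 q) * gauG χ 1 q = (N q : ℝ) := by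
    calc conj (gauG χ 1 q) * gauG χ 1 q
        = ∑ y ∈ rs q, gauG χ y q * psiS (((-1 : R K) : K) * y / q) := by
          rw [gau_conj, gauG, Finset.sum_mul]
          exact Finset.sum_congr rfl fun y _ => by rw [ht y]; ring
      _ = ∑ x ∈ rs q, χ x * ∑ y ∈ rs q, psiS (((x - 1 : R K) : K) * y / q) := by
          simp only [gauG, Finset.sum_mul, Finset.mul_sum]
          rw [Finset.sum_comm]
          refine Finset.sum_congr rfl fun x _ => Finset.sum_congr rfl fun y _ => ?_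
          rw [mul_assoc, ← psiS_add]
          congr 2
          push_cast; ring
      _ = ∑ x ∈ rs q, (if q ∣ 1 - x then ((N q : ℝ) : ℂ) else 0) := by
          refine Finset.sum_congr rfl fun x _ => ?_
          rw [sum_psi hq, dvd_sub_comm]
          split_ifs with hx
          · rw [← hχ 1 x hx, h1, one_mul]
          · rw [mul_zero]
      _ = _ := sum_class hq 1 _
  have h2 : ‖gauG χ 1 q‖ ^ 2 = N q := by
    rw [Complex.conj_mul'] at key
    exact_mod_cast key
  have h4 := N_pos hq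
  rw [norm_div, Complex.norm_real, Real.norm_of_nonneg (Real.sqrt_nonneg _), ← h2,
    Real.sqrt_sq (norm_nonneg _), div_self]
  intro h0
  rw [h0] at h2
  linarith

theorem gau_crt {χ₁ χ₂ : R K → ℂ} {a b : R K} (ha : a ≠ 0) (hb : b ≠ 0) (hab : IsCoprime a b)
    (p1 : Per a χ₁) (p2 : Per b χ₂) (m1 : ∀ x y, χ₁ (x * y) = χ₁ x * χ₁ y)
    (m2 : ∀ x y, χ₂ (x * y) = χ₂ x * χ₂ y) (h : R K) :
    gauG (fun x => χ₁ x * χ₂ x) h (a * b) = χ₁ b * χ₂ a * gauG χ₁ h a * gauG χ₂ h b := by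
  have hp : Per (a * b) fun x => χ₁ x * χ₂ x := fun x y hxy => by
    simp only [p1 x y ((dvd_mul_right a b).trans hxy), p2 x y ((dvd_mul_left b a).trans hxy)]
  rw [gauG, sum_rs_crt ha hb hab (gau_per (mul_ne_zero ha hb) hp h), gauG, gauG, mul_assoc,
    Finset.sum_mul_sum, Finset.mul_sum]
  refine Finset.sum_congr rfl fun x _ => ?_
  rw [Finset.mul_sum]
  refine Finset.sum_congr rfl fun y _ => ?_
  have e1 : χ₁ (x * b + y * a) = χ₁ x * χ₁ b := by
    rw [← m1]; exact p1 _ _ ⟨y, by ring⟩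
  have e2 : χ₂ (x * b + y * a) = χ₂ y * χ₂ a := by
    rw [← m2]; exact p2 _ _ ⟨x, by ring⟩
  have e3 : (h : K) * ((x * b + y * a : R K) : K) / ((a * b : R K) : K) =
      (h : K) * x / a + (h : K) * y / b := by
    have := coeR_ne ha
    have := coeR_ne hb
    push_cast
    field_simp
  rw [e1, e2, e3, psiS_add]
  ring

theorem gau_unit {χ : R K → ℂ} (h1 : ∀ x, χ x = 1) {u : R K} (hu : IsUnit u) (h : R K) :
    gauG χ h u = 1 := by
  have : ∀ x ∈ rs u, χ x * psiS ((h : K) * x / u) = 1 := fun x _ => by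
    rw [h1, one_mul, (psiS_div_eq_one_iff hu.ne_zero h).2 hu.dvd x]
  rw [gauG, Finset.sum_congr rfl this, Finset.sum_const, card_rs hu.ne_zero, Nm_eq_one.2 hu]
  simp

theorem gau_N_unit {u : R K} (hu : IsUnit u) : N u = 1 := by
  rw [N, Nm_eq_one.2 hu, Nat.cast_one]

theorem sqrtN_mul (a b : R K) :
    ((√(N (a * b)) : ℝ) : ℂ) = ((√(N a) : ℝ) : ℂ) * ((√(N b) : ℝ) : ℂ) := by
  rw [N_mul, Real.sqrt_mul (by unfold N; positivity), Complex.ofReal_mul]

theorem sqrtN_ne {a : R K} (ha : a ≠ 0) : ((√(N a) : ℝ) : ℂ) ≠ 0 := by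
  have := Real.sqrt_pos.2 (N_pos ha)
  exact_mod_cast this.ne'

theorem sqrtN_sq (a : R K) : ((√(N a) : ℝ) : ℂ) ^ 2 = ((N a : ℝ) : ℂ) := by
  rw [← Complex.ofReal_pow, Real.sq_sqrt (by unfold N; positivity)]

theorem gau_unit_coprime {u : R K} (hu : IsUnit u) (n : R K) : IsCoprime u n := by
  obtain ⟨v, rfl⟩ := hu
  exact ⟨(v⁻¹ : (R K)ˣ), 0, by simp⟩

theorem gau_sqf_ind {P : R K → Prop} (h1 : ∀ u, IsUnit u → P u)
    (h2 : ∀ p n, Prime p → n ≠ 0 → Squarefree n → IsCoprime p n → P n → P (p * n))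
    {n : R K} (hn : Squarefree n) : P n := by
  induction n using UniqueFactorizationMonoid.induction_on_prime with
  | h₁ => exact absurd hn not_squarefree_zero
  | h₂ u hu => exact h1 u hu
  | h₃ a p ha hp ih =>
    have hs : Squarefree a := hn.of_mul_right
    refine h2 p a hp ha hs ((hp.irreducible.coprime_iff_not_dvd).2 fun hd => ?_) (ih hs)
    exact hp.not_isUnit (hn p (mul_dvd_mul_left p hd))

theorem gau_per6 (n : R K) (k : ℕ) : Per n fun x => chi6 x n ^ k := fun _ _ h => by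
  simp only [chi6_congr h]

theorem gau_mul6 (n : R K) (k : ℕ) (x y : R K) :
    chi6 (x * y) n ^ k = chi6 x n ^ k * chi6 y n ^ k := by rw [chi6_mul_left, mul_pow]

theorem gau_gs_mul {a b : R K} (ha : a ≠ 0) (hb : b ≠ 0) (hab : IsCoprime a b) (k : ℕ)
    (h : R K) :
    gs k h (a * b) = chi6 b a ^ k * chi6 a b ^ k * gs k h a * gs k h b := by
  have := gau_crt ha hb hab (gau_per6 a k) (gau_per6 b k) (gau_mul6 a k) (gau_mul6 b k) h
  simpa only [gauG, gs, chi6_mul_right _ ha hb, mul_pow] using this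

theorem gau_gs_unit {u : R K} (hu : IsUnit u) (k : ℕ) (h : R K) : gs k h u = 1 :=
  gau_unit (χ := fun x => chi6 x u ^ k) (fun x => by rw [chi6_unit_right x hu, one_pow]) hu h

theorem gau_gs_neg {n : R K} (hn : n ≠ 0) (k : ℕ) (h : R K) : gs k (-h) n = gs k h n := by
  have := gau_mul hn (gau_per6 n k) (gau_mul6 n k) (t := -1) isCoprime_one_left.neg_left h
  simp only [chi6_neg_one, one_pow, one_mul, mul_neg, mul_one] at this
  exact this.symm

theorem gs_twist {n : R K} (hn : Squarefree n) {k : ℕ} (h1 : 1 ≤ k) (h5 : k ≤ 5) (h : R K) :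
    gs k h n = chi6 h n ^ (6 - k) * gs k 1 n := by
  refine gau_sqf_ind (P := fun n => gs k h n = chi6 h n ^ (6 - k) * gs k 1 n) (fun u hu => ?_)
    (fun p n hp hn0 _ hc ih => ?_) hn
  · simp only [gau_gs_unit hu, chi6_unit_right h hu, one_pow, one_mul]
  · have e : gs k h p = chi6 h p ^ (6 - k) * gs k 1 p := by
      rw [← conj_chi6_pow h hp.ne_zero h1 h5]
      refine gau_twist_prime hp (gau_per6 p k) (gau_mul6 p k) (fun x hx => ?_)
        (fun x hx => by rw [norm_pow, norm_chi6 hx, one_pow]) (exists_chi6_pow_ne hp h1 h5) h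
      rw [(chi6_eq_zero_iff hp.ne_zero).2 fun hc => hp.not_isUnit (hc.isUnit_of_dvd' hx dvd_rfl),
        zero_pow (by omega)]
    rw [gau_gs_mul hp.ne_zero hn0 hc, gau_gs_mul hp.ne_zero hn0 hc, ih, e,
      chi6_mul_right _ hp.ne_zero hn0]
    ring

theorem norm_gt {n : R K} (hn : Squarefree n) {k : ℕ} (h1 : 1 ≤ k) (h5 : k ≤ 5) : ‖gt k n‖ = 1 :=
  gau_norm hn.ne_zero (gau_per6 n k) (by rw [chi6_one_left, one_pow]) fun h => by
    rw [conj_chi6_pow h hn.ne_zero h1 h5]; exact gs_twist hn h1 h5 h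

theorem gs_crt {a b : R K} (ha : a ≠ 0) (hb : b ≠ 0) (hab : IsCoprime a b) (k : ℕ) (h : R K) :
    ∑ x ∈ rs (a * b), chi6 x a ^ k * conj (chi6 x b ^ k) * psiS ((h : K) * x / (a * b : R K)) =
      chi6 b a ^ k * conj (chi6 a b ^ k) * gs k h a * conj (gs k h b) := by
  have := gau_crt (χ₂ := fun x => conj (chi6 x b ^ k)) ha hb hab (gau_per6 a k)
    (fun x y hxy => by simp only [chi6_congr hxy]) (gau_mul6 a k)
    (fun x y => by rw [gau_mul6 b k, map_mul]) h
  have e := gau_conj (fun x => chi6 x b ^ k) (-h) b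
  rw [neg_neg] at e
  rw [← e] at this
  rw [← gau_gs_neg hb k h]
  exact this

theorem gt_mul {a b : R K} (ha : a ≠ 0) (hb : b ≠ 0) (hab : IsCoprime a b) (k : ℕ) :
    gt k (a * b) = gt k a * gt k b * chi6 a b ^ k * chi6 b a ^ k := by
  rw [gt, gt, gt, gau_gs_mul ha hb hab, sqrtN_mul]
  ring

theorem gt_one (k : ℕ) : gt k (1 : R K) = 1 := by
  rw [gt, gau_gs_unit isUnit_one, gau_N_unit isUnit_one]
  simp

theorem gt_unit_mul {u n : R K} (hu : IsUnit u) (hn : n ≠ 0) (k : ℕ) :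
    gt k (u * n) = chi6 u n ^ k * gt k n := by
  rw [gt, gt, gau_gs_mul hu.ne_zero hn (gau_unit_coprime hu n), gau_gs_unit hu, N_mul, gau_N_unit hu,
    chi6_unit_right n hu, one_mul]
  ring

theorem gt_five {n : R K} (hn : n ≠ 0) : gt 5 n = conj (gt 1 n) := by
  have e : conj (gs 1 1 n) = gs 5 (-1) n := by
    have := gau_conj (fun x => chi6 x n ^ 1) 1 n
    simp only [conj_chi6_pow _ hn le_rfl (by norm_num : 1 ≤ 5)] at this
    exact this
  rw [gt, gt, map_div₀, e, gau_gs_neg hn, Complex.conj_ofReal]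

theorem gt_three_real {n : R K} (hn : n ≠ 0) : conj (gt 3 n) = gt 3 n := by
  have e : conj (gs 3 1 n) = gs 3 (-1) n := by
    have := gau_conj (fun x => chi6 x n ^ 3) 1 n
    simp only [conj_chi6_pow _ hn (by norm_num : 1 ≤ 3) (by norm_num : 3 ≤ 5)] at this
    exact this
  rw [gt, map_div₀, e, gau_gs_neg hn, Complex.conj_ofReal]

theorem gs_three {n : R K} (hn : n ≠ 0) (h : R K) : gs 3 h n = g2 h n := by
  simp only [gs, g2, chi6_cube _ hn]

theorem gs_two {n : R K} (hn : n ≠ 0) (h : R K) : gs 2 h n = g3 h n := by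
  simp only [gs, g3, chi6_sq _ hn]

theorem g3_mul_left {n t : R K} (hn : n ≠ 0) (ht : IsCoprime t n) (h : R K) :
    g3 (h * t) n = conj (sym3 t n) * g3 h n := by
  have a : g3 h n = sym3 t n * g3 (h * t) n :=
    gau_mul (χ := fun x => sym3 x n) hn (fun _ _ h => sym3_congr h)
      (fun x y => sym3_mul_left x y n) ht h
  have b := Complex.mul_conj' (sym3 t n)
  rw [norm_sym3 ht] at b
  push_cast at b
  rw [a]
  linear_combination (-g3 (h * t) n) * b

theorem g3_crt {a b : R K} (ha : a ≠ 0) (hb : b ≠ 0) (hab : IsCoprime a b) (h : R K) :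
    g3 h (a * b) = sym3 a b * sym3 b a * g3 h a * g3 h b := by
  rw [← gs_two (mul_ne_zero ha hb), ← gs_two ha, ← gs_two hb, gau_gs_mul ha hb hab, chi6_sq _ ha,
    chi6_sq _ hb]
  ring

theorem g3_unit_mul {u n : R K} (hu : IsUnit u) (hn : n ≠ 0) (h : R K) :
    g3 h (u * n) = sym3 u n * g3 h n := by
  rw [g3_crt hu.ne_zero hn (gau_unit_coprime hu n), ← gs_two hu.ne_zero, gau_gs_unit hu,
    sym3_unit_right n hu]
  ring

theorem g3_twist {n : R K} (hn : Squarefree n) (h : R K) :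
    g3 h n = conj (sym3 h n) * g3 1 n := by
  rw [← gs_two hn.ne_zero, ← gs_two hn.ne_zero, gs_twist hn (by norm_num) (by norm_num),
    ← chi6_sq h hn.ne_zero, conj_chi6_pow h hn.ne_zero (by norm_num) (by norm_num)]

theorem norm_gt3 {n : R K} (hn : Squarefree n) : ‖gt3 n‖ = 1 := by
  rw [gt3, ← gs_two hn.ne_zero]
  exact norm_gt hn (k := 2) (by norm_num) (by norm_num)

theorem gt3_one : gt3 (1 : R K) = 1 := by
  rw [gt3, ← gs_two one_ne_zero]
  exact gt_one 2

theorem gt3_mul {a b : R K} (ha : a ≠ 0) (hb : b ≠ 0) (hab : IsCoprime a b) :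
    gt3 (a * b) = gt3 a * gt3 b * sym3 a b * sym3 b a := by
  rw [gt3, gt3, gt3, g3_crt ha hb hab, sqrtN_mul]
  ring

end

end Vale.Agent.P319N
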