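import Vale.Agent.P319N.Hd
import Vale.Agent.P026.Jac

namespace Vale.Agent.P319N

open NumberField Complex MeasureTheory Filter Topology
open scoped Classical ComplexConjugate Real
open Vale.Agent.P026 (omC kap psi W)

noncomputable section

variable {K : Type} [Field K] [NumberField K] [Setup K]

/-- the embedding of the Eisenstein integers -/
def iota (K : Type) [Field K] [NumberField K] [Setup K] (x : P026.O) : R K :=
  (x.re : R K) + (x.im : R K) * om K

theorem iota_mul (x y : P026.O) : iota K (x * y) = iota K x * iota K y := by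
  simp only [iota, QuadraticAlgebra.re_mul, QuadraticAlgebra.im_mul]
  push_cast
  linear_combination (-(x.im : R K) * y.im) * om_sq_add (K := K)

theorem iota_add (x y : P026.O) : iota K (x + y) = iota K x + iota K y := by
  simp only [iota, QuadraticAlgebra.re_add, QuadraticAlgebra.im_add]
  push_cast
  ring

theorem iota_one : iota K 1 = 1 := by
  simp [iota, QuadraticAlgebra.re_one, QuadraticAlgebra.im_one]

theorem Jac_choose {l : ℕ} (hl : l.Prime) {k0 : ℕ} (h0 : l = 3 * k0 + 1) (f : ℕ) :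
    ∀ k, 3 * k + 1 = l ^ f → ¬ l ∣ (2 * k).choose k := by
  have := Fact.mk hl
  induction f with
  | zero =>
    intro k hk
    obtain rfl : k = 0 := by rw [pow_zero] at hk; omega
    simpa using hl.ne_one
  | succ f ih =>
    intro k hk
    obtain ⟨k', hk'⟩ : ∃ k', 3 * k' + 1 = l ^ f := by
      have : l ^ f % 3 = 1 := by simp [Nat.pow_mod, h0, Nat.add_mod]
      exact ⟨l ^ f / 3, by omega⟩
    have e : k = k0 + l * k' := by
      rw [pow_succ, ← hk'] at hk
      nlinarith
    have e2 : 2 * k = 2 * k0 + l * (2 * k') := by rw [e]; ring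
    rw [(Choose.choose_modEq_choose_mod_mul_choose_div_nat (p := l)).dvd_iff dvd_rfl, e2, e,
      Nat.add_mul_mod_self_left, Nat.add_mul_mod_self_left, Nat.add_mul_div_left _ _ hl.pos,
      Nat.add_mul_div_left _ _ hl.pos, Nat.mod_eq_of_lt (by omega), Nat.mod_eq_of_lt (by omega),
      Nat.div_eq_of_lt (by omega), Nat.div_eq_of_lt (by omega), zero_add, zero_add, hl.dvd_mul]
    rintro (h | h)
    · have := hl.dvd_factorial.1 (h.trans (Dvd.intro _ ((mul_assoc _ _ _).symm.trans
        (Nat.choose_mul_factorial_mul_factorial (show k0 ≤ 2 * k0 by omega)))))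
      omega
    · exact ih k' hk' h

theorem Jac_pow {F : Type} [Field F] [Fintype F] {n : ℕ} (hn : n ≠ 0) :
    ∑ y : F, y ^ n = if Fintype.card F - 1 ∣ n then -1 else 0 := by
  let φ : Fˣ ↪ F := ⟨fun x => x, Units.val_injective⟩
  have : Finset.univ.map φ = Finset.univ.erase 0 := by
    ext x
    simp only [Finset.mem_map, Finset.mem_univ, true_and, Finset.mem_erase, and_true]
    exact isUnit_iff_ne_zero
  rw [← FiniteField.sum_pow_units, ← Finset.add_sum_erase _ _ (Finset.mem_univ 0), ← this,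
    Finset.sum_map, zero_pow hn, zero_add]
  rfl

theorem Jac_sum {F : Type} [Field F] [Fintype F] {k : ℕ} (hk : k ≠ 0)
    (h : Fintype.card F = 3 * k + 1) :
    ∑ y : F, y ^ (2 * k) * (1 - y) ^ (2 * k) = -((-1) ^ k * ((2 * k).choose k : F)) := by
  have : ∀ y : F, y ^ (2 * k) * (1 - y) ^ (2 * k) = ∑ m ∈ Finset.range (2 * k + 1),
      ((-1) ^ m * ((2 * k).choose m : F)) * y ^ (2 * k + m) := by
    intro y
    rw [sub_eq_neg_add, add_pow, Finset.mul_sum]
    refine Finset.sum_congr rfl fun m _ => ?_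
    rw [neg_pow, pow_add]
    ring
  simp only [this]
  rw [Finset.sum_comm, Finset.sum_eq_single k]
  · rw [← Finset.mul_sum, Jac_pow (by omega), if_pos ⟨1, by omega⟩, mul_neg_one]
  · intro m hm hmk
    have := Finset.mem_range.1 hm
    rw [← Finset.mul_sum, Jac_pow (by omega), if_neg, mul_zero]
    rintro ⟨c, hc⟩
    rw [h, Nat.add_sub_cancel] at hc
    rcases c with _ | _ | c
    · omega
    · omega
    · nlinarith [Nat.zero_le (k * c), Nat.pos_of_ne_zero hk]
  · intro hm
    exact absurd (Finset.mem_range.2 (by omega)) hm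

theorem Jac_mulChar {S : Type} [CommRing S] {p : R K} (hp : Prime p) (f : R K → S)
    (h0 : ∀ x y, p ∣ x - y → f x = f y) (h1 : f 1 = 1) (h2 : ∀ x y, f (x * y) = f x * f y)
    (h3 : f 0 = 0) :
    ∃ χ : MulChar (R K ⧸ Ideal.span {p}) S, ∀ x, χ (Ideal.Quotient.mk _ x) = f x := by
  have := Nrm_max hp
  let _ := Ideal.Quotient.field (Ideal.span {p})
  have e : ∀ x, f (Ideal.Quotient.mk (Ideal.span {p}) x).out = f x := fun x =>
    h0 _ _ (rs_mk_eq.1 (Ideal.Quotient.mk_out _))
  refine ⟨{ toFun := fun y => f y.out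
            map_one' := by rw [← map_one (Ideal.Quotient.mk _), e, h1]
            map_mul' := fun x y => ?_
            map_nonunit' := fun x hx => ?_ }, e⟩
  · obtain ⟨x, rfl⟩ := Ideal.Quotient.mk_surjective x
    obtain ⟨y, rfl⟩ := Ideal.Quotient.mk_surjective y
    rw [← map_mul, e, e, e, h2]
  · rw [not_not.1 (mt isUnit_iff_ne_zero.2 hx)]
    exact (e 0).trans h3

/-- minus the Jacobi sum is a primary Eisenstein integer whose prime factors all lie under `p` -/
theorem Jp_spec {p : R K} (hp : Prime p) : ∃ w : P026.O, P026.toC w = -Jp p ∧ P026.Prim w ∧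
    P026.Nm w = Nm p ∧ ∀ π' : P026.O, Prime π' → π' ∣ w → p ∣ iota K π' := by
  have hl : ∀ x : R K, ∃ ζ : P026.O, P026.toC ζ = sym3 x p := fun x => by
    rcases sym3_cases x p with h | h | h | h <;> rw [h]
    · exact ⟨0, map_zero _⟩
    · exact ⟨1, map_one _⟩
    · exact ⟨P026.om, P026.toC_om⟩
    · exact ⟨P026.om ^ 2, by rw [map_pow, P026.toC_om]⟩
  choose z hz using hl
  have h00 : sym3 0 p = 0 := (sym3_eq_zero_iff hp.ne_zero).2 fun h =>
    hp.not_isUnit (isCoprime_zero_left.1 h)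
  obtain ⟨χ, hχ⟩ := Jac_mulChar hp z
    (fun x y h => P026.toC_inj (by rw [hz, hz, sym3_congr h]))
    (P026.toC_inj (by rw [hz, sym3_one_left, map_one]))
    (fun x y => P026.toC_inj (by rw [map_mul, hz, hz, hz, sym3_mul_left]))
    (P026.toC_inj (by rw [hz, map_zero, h00]))
  have hχ' : ∀ x, P026.toC (χ (Ideal.Quotient.mk _ x)) = sym3 x p := fun x => by rw [hχ, hz]
  have := Nrm_max hp
  let _ := Ideal.Quotient.field (Ideal.span {p})
  have := finite_quot hp.ne_zero
  let _ := Fintype.ofFinite (R K ⧸ Ideal.span {p})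
  have hc : Fintype.card (R K ⧸ Ideal.span {p}) = Nm p := by rw [Nm, Nat.card_eq_fintype_card]
  have h4 := four_le_Nm hp
  have h12 := Nm_mod hp
  have h3 : χ ^ 3 = 1 := MulChar.ext fun a => by
    obtain ⟨x, hx⟩ := Ideal.Quotient.mk_surjective (a : R K ⧸ Ideal.span {p})
    rw [MulChar.pow_apply_coe, MulChar.one_apply_coe, ← hx]
    refine P026.toC_inj ?_
    rw [map_pow, hχ', map_one]
    refine sym3_cube (hp.irreducible.coprime_iff_not_dvd.2 fun h => a.ne_zero ?_).symm
    rw [← hx, Ideal.Quotient.eq_zero_iff_mem, Ideal.mem_span_singleton]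
    exact h
  obtain ⟨w, -, hw⟩ := exists_jacobiSum_eq_neg_one_add (n := 3) (by norm_num) (χ := χ) (ψ := χ)
    h3 h3 (by omega) P026.jac_prim
  have e1 : P026.toC (jacobiSum χ χ) = Jp p := by
    rw [jacobiSum, ← sum_rs_eq_sum_quot hp.ne_zero (fun y => χ y * χ (1 - y)), Jp, map_sum]
    refine Finset.sum_congr rfl fun x _ => ?_
    rw [map_mul, hχ', ← hχ' (1 - x), map_sub (Ideal.Quotient.mk _), map_one]
  have e2 : P026.Nm (-jacobiSum χ χ) = Nm p := by
    have h5 := normSq_Jp hp
    rw [← e1, P026.normSq_toC, ← P026.N_neg, P026.N, N] at h5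
    exact_mod_cast h5
  refine ⟨-jacobiSum χ χ, by rw [map_neg, e1],
    ⟨w * P026.om, by rw [hw]; linear_combination (-w) * P026.om_sq⟩, e2, fun π' hπ hd => ?_⟩
  let ι : P026.O →+* R K :=
    { toFun := iota K
      map_one' := iota_one
      map_mul' := iota_mul
      map_zero' := by simp [iota]
      map_add' := iota_add }
  obtain ⟨l, f, b1, b2, b3, b4, b5⟩ := Nm_prime hp
  obtain ⟨c, hc'⟩ : π' ∣ (l : P026.O) := hπ.dvd_of_dvd_pow (n := f) (by
    rw [← Nat.cast_pow, ← b3, ← e2, ← P026.mul_star_eq]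
    exact hd.mul_right _)
  by_contra hn
  have c1 : p ∣ ι c := by
    rw [← map_natCast ι, hc', map_mul] at b4
    exact (hp.dvd_or_dvd b4).resolve_left hn
  have c2 : P026.Nm π' = l := by
    have d1 : P026.Nm π' * P026.Nm c = l ^ 2 := by rw [← P026.Nm_mul, ← hc', P026.Nm_natCast]
    obtain ⟨i, hi, d2⟩ := (Nat.dvd_prime_pow b1).1 (Dvd.intro _ d1)
    interval_cases i
    · exact absurd (P026.isUnit_iff_Nm.2 d2) hπ.not_isUnit
    · simpa using d2
    · rw [d2, mul_eq_left₀ (pow_ne_zero _ b1.ne_zero)] at d1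
      exact absurd (isUnit_of_dvd_unit c1 ((P026.isUnit_iff_Nm.2 d1).map ι)) hp.not_isUnit
  have c3 : c = star π' := mul_left_cancel₀ hπ.ne_zero (by rw [← hc', P026.mul_star_eq, c2])
  obtain ⟨k0, hk0⟩ : ∃ k0, l = 3 * k0 + 1 := by
    have d1 := P026.Nm_cast π'
    have d2 : ¬ 3 ∣ l := fun h => by
      have := Nat.eq_one_of_dvd_coprimes b5 h ((by norm_num : 3 ∣ 6).trans Setup.six)
      omega
    rw [c2] at d1
    have d3 : (π'.re + π'.im) ^ 2 % 3 = 0 ∨ (π'.re + π'.im) ^ 2 % 3 = 1 := by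
      generalize π'.re + π'.im = t
      have : t % 3 = 0 ∨ t % 3 = 1 ∨ t % 3 = 2 := by omega
      rcases this with h | h | h <;> simp [pow_two, Int.mul_emod, h]
    have d4 : (π'.re + π'.im) ^ 2 = l + 3 * (π'.re * π'.im) := by rw [d1]; ring
    exact ⟨l / 3, by omega⟩
  obtain ⟨k, hk⟩ : ∃ k, Nm p = 3 * k + 1 := ⟨Nm p / 3, by omega⟩
  have d1 : ∀ y, Ideal.Quotient.mk (Ideal.span {p}) (ι (star (χ y))) = y ^ (2 * k) := by
    intro y
    obtain ⟨x, rfl⟩ := Ideal.Quotient.mk_surjective y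
    have d2 : star (χ (Ideal.Quotient.mk _ x)) = χ (Ideal.Quotient.mk _ x) ^ 2 :=
      P026.toC_inj (by rw [P026.toC_star, map_pow, hχ', conj_sym3])
    rw [d2, map_pow, map_pow, mul_comm, pow_mul]
    congr 1
    by_cases hx : p ∣ x
    · rw [Ideal.Quotient.eq_zero_iff_mem.2 (Ideal.mem_span_singleton.2 hx), MulChar.map_zero,
        map_zero, map_zero, zero_pow (by omega)]
    · obtain ⟨i, d3, d4⟩ := sym3_spec hp hx
      rw [hk, Nat.add_sub_cancel, Nat.mul_div_cancel_left _ (by norm_num)] at d4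
      rw [P026.toC_inj ((hχ' x).trans (d3.trans (by rw [map_pow, P026.toC_om] :
        P026.toC (P026.om ^ i) = omC ^ i).symm)), ← map_pow, rs_mk_eq.2 d4, map_pow]
      simp [ι, iota, P026.om]
  have d2 : Ideal.Quotient.mk (Ideal.span {p}) (ι (star (jacobiSum χ χ))) = 0 := by
    obtain ⟨t, ht⟩ := dvd_neg.1 hd
    rw [ht, star_mul, map_mul, Ideal.Quotient.eq_zero_iff_mem, Ideal.mem_span_singleton, ← c3]
    exact c1.mul_left _
  rw [jacobiSum, star_sum, map_sum, map_sum] at d2
  simp only [star_mul', map_mul, d1] at d2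
  rw [Jac_sum (by omega) (hc.trans hk), neg_eq_zero, mul_eq_zero_iff_left (by simp)] at d2
  have : CharP (R K ⧸ Ideal.span {p}) l := (CharP.charP_iff_prime_eq_zero b1).2 (by
    rw [← map_natCast (Ideal.Quotient.mk _), Ideal.Quotient.eq_zero_iff_mem,
      Ideal.mem_span_singleton]
    exact b4)
  exact Jac_choose b1 hk0 f k (hk.symm.trans b3) ((CharP.cast_eq_zero_iff _ l _).1 d2)

end

end Vale.Agent.P319N
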