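import Vale.Agent.P319N.LatB
import Vale.Agent.P319N.Emb
import Vale.Agent.P319E.Pois

namespace Vale.Agent.P319N

open NumberField Complex MeasureTheory Filter Topology
open scoped Classical ComplexConjugate Real
open Vale.Agent.P026 (omC kap psi W)

noncomputable section

variable {K : Type} [Field K] [NumberField K] [Setup K]

theorem lp0_T : ∃ κ : ℝ, 0 < κ ∧ ∀ b : Module.Basis (Ix K) ℚ K,
    ∃ T : (Ix K → ℝ) ≃L[ℝ] (Emb K → ℂ), (∀ x σ, T x σ = ∑ i, (x i : ℂ) * σ.1 (b i)) ∧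
      ∀ G : (Emb K → ℂ) → ℂ, ∫ x, G (T x) =
        ((κ / |(((integralBasis K).det b : ℚ) : ℝ)| : ℝ) : ℂ) * ∫ z, G z := by
  obtain ⟨L, hL⟩ := bl_exists_L (K := K)
  refine ⟨Measure.addHaarScalarFactor (volume.map L) volume,
    Measure.addHaarScalarFactor_pos_of_isAddHaarMeasure _ _, fun b => ?_⟩
  set P : Matrix (Ix K) (Ix K) ℝ := (Rat.castHom ℝ).mapMatrix ((integralBasis K).toMatrix b)
  have d : LinearMap.det (Matrix.toLin' P) = (((integralBasis K).det b : ℚ) : ℝ) := by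
    rw [LinearMap.det_toLin', ← RingHom.map_det, Module.Basis.det_apply]; rfl
  have d0 : LinearMap.det (Matrix.toLin' P) ≠ 0 := by
    rw [d]; exact Rat.cast_ne_zero.2 ((integralBasis K).isUnit_det b).ne_zero
  set E := (LinearMap.equivOfDetNeZero _ d0).toContinuousLinearEquiv
  refine ⟨E.trans L, fun x σ => ?_, fun G => ?_⟩
  · show L (P.mulVec x) σ = _
    simp only [hL, Lm, Matrix.mulVec, dotProduct, ofReal_sum, Finset.sum_mul]
    rw [Finset.sum_comm]
    refine Finset.sum_congr rfl fun j _ => ?_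
    rw [← (integralBasis K).sum_toMatrix_smul_self b j, map_sum, Finset.mul_sum]
    refine Finset.sum_congr rfl fun i _ => ?_
    simp [P, Rat.smul_def]; ring
  · refine (E.toHomeomorph.measurableEmbedding.integral_map (μ := volume)
      fun x => G (L x)).symm.trans ?_
    have := Real.map_linearMap_volume_pi_eq_smul_volume_pi d0
    rw [show Measure.map E.toHomeomorph volume = _ from this, integral_smul_measure,
      ENNReal.toReal_ofReal (abs_nonneg _),
      show ∫ x, G (L x) = _ from (L.toHomeomorph.measurableEmbedding.integral_map G).symm,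
      show Measure.map L.toHomeomorph volume = _ from
        Measure.isAddLeftInvariant_eq_smul (volume.map L) volume, integral_smul_nnreal_measure, d,
      abs_inv, NNReal.smul_def, real_smul, real_smul]
    push_cast; ring

theorem lp0_ge (T : (Ix K → ℝ) ≃L[ℝ] (Emb K → ℂ)) :
    ∃ c : ℝ, 0 < c ∧ ∀ x, c * ∑ i, x i ^ 2 ≤ ∑ σ, normSq (T x σ) := by
  set C := ‖(T.symm : (Emb K → ℂ) →L[ℝ] (Ix K → ℝ))‖
  refine ⟨(Fintype.card (Ix K) * C ^ 2 + 1)⁻¹, by positivity, fun x => ?_⟩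
  have S0 : 0 ≤ ∑ σ, normSq (T x σ) := Finset.sum_nonneg fun σ _ => normSq_nonneg _
  have a1 : ‖x‖ ≤ C * ‖T x‖ := by
    simpa using (T.symm : (Emb K → ℂ) →L[ℝ] (Ix K → ℝ)).le_opNorm (T x)
  have a2 : ‖T x‖ ≤ √(∑ σ, normSq (T x σ)) := (pi_norm_le_iff_of_nonneg (Real.sqrt_nonneg _)).2
    fun σ => Real.le_sqrt_of_sq_le (by
      rw [← normSq_eq_norm_sq]
      exact Finset.single_le_sum (fun σ _ => normSq_nonneg (T x σ)) (Finset.mem_univ σ))
  have a3 : ∑ i, x i ^ 2 ≤ Fintype.card (Ix K) * (C * √(∑ σ, normSq (T x σ))) ^ 2 := by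
    rw [← nsmul_eq_mul]
    refine Finset.sum_le_card_nsmul _ _ _ fun i _ => ?_
    rw [← sq_abs]
    exact pow_le_pow_left₀ (abs_nonneg _) ((norm_le_pi_norm x i).trans (a1.trans (by gcongr))) 2
  rw [mul_pow, Real.sq_sqrt S0] at a3
  rw [inv_mul_le_iff₀ (by positivity)]
  linarith

theorem lp0_cmb (b : Module.Basis (Ix K) ℚ K) (k : Ix K → ℤ) (σ : Emb K) :
    σ.1 (cmb b k) = ∑ i, ((k i : ℝ) : ℂ) * σ.1 (b i) := by simp [cmb]

theorem len_cmb_ge (b : Module.Basis (Ix K) ℚ K) :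
    ∃ c : ℝ, 0 < c ∧ ∀ k : Ix K → ℤ, c * ∑ i, (k i : ℝ) ^ 2 ≤ len (cmb b k) := by
  obtain ⟨_, -, H⟩ := lp0_T (K := K)
  obtain ⟨T, hT, -⟩ := H b
  obtain ⟨c, hc, h⟩ := lp0_ge T
  exact ⟨c, hc, fun k => by simpa only [hT, len, lp0_cmb] using h fun i => k i⟩

theorem lp0_psi (b : Module.Basis (Ix K) ℚ K) (h : K) (x : Ix K → ℝ) :
    psiV (jj h * fun σ => ∑ i, (x i : ℂ) * σ.1 (b i)) =
      Complex.exp (2 * π * Complex.I * ∑ i, (((trK (h * b i) : ℚ) : ℝ) : ℂ) * x i) := by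
  simp only [psiV, psi_eq, ← Complex.exp_sum, ← Finset.mul_sum, trK_eq_sum]
  congr 2
  norm_cast
  simp only [Pi.mul_apply, jj, Finset.mul_sum, Finset.sum_mul, im_sum, map_mul]
  rw [Finset.sum_comm]
  refine Finset.sum_congr rfl fun i _ => Finset.sum_congr rfl fun σ _ => ?_
  rw [mul_left_comm (σ.1 h), im_ofReal_mul]; ring

theorem lp0_tr {b b' : Module.Basis (Ix K) ℚ K}
    (h : ∀ i j, trK (b' i * b j) = if i = j then 1 else 0) (k : Ix K → ℤ) (j : Ix K) :
    trK (cmb b' k * b j) = k j := by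
  have : ∀ i, Algebra.trace ℚ K ((k i : K) * b' i * b j / lamK K) = k i * trK (b' i * b j) :=
    fun i => by rw [mul_assoc, mul_div_assoc, ← zsmul_eq_mul, map_zsmul, zsmul_eq_mul, trK]
  rw [trK]
  simp [cmb, Finset.sum_mul, Finset.sum_div, this, h]

theorem pois_basis : ∃ κ : ℝ, 0 < κ ∧ ∀ (b b' : Module.Basis (Ix K) ℚ K)
    (F : (Emb K → ℂ) → ℂ) (C c : ℝ), (∀ i j, trK (b' i * b j) = if i = j then 1 else 0) →
    Continuous F → 0 < c → (∀ z, ‖F z‖ ≤ C * Real.exp (-c * ∑ σ, normSq (z σ))) →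
    Summable (fun k => FT F (jj (cmb b' k))) →
    ∑' m, F (jj (cmb b m)) =
      ((κ / |(((integralBasis K).det b : ℚ) : ℝ)| : ℝ) : ℂ) * ∑' k, FT F (jj (cmb b' k)) := by
  obtain ⟨κ, hκ, H⟩ := lp0_T (K := K)
  refine ⟨κ, hκ, fun b b' F C c h hF hc hb hs => ?_⟩
  obtain ⟨T, hT, hI⟩ := H b
  obtain ⟨c', hc', h'⟩ := lp0_ge T
  have C0 : 0 ≤ C := by simpa using (norm_nonneg _).trans (hb 0)
  have e : ∀ k : Ix K → ℤ, ∫ x : Ix K → ℝ, F (T x) *
      Complex.exp (-(2 * π * Complex.I) * ∑ i, (k i : ℂ) * (x i : ℂ)) =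
      ((κ / |(((integralBasis K).det b : ℚ) : ℝ)| : ℝ) : ℂ) * FT F (jj (cmb b' (-k))) := fun k => by
    rw [FT, ← hI]
    refine integral_congr_ae (ae_of_all _ fun x => ?_)
    beta_reduce
    rw [show T x = fun σ => _ from funext (hT x), lp0_psi]
    simp [lp0_tr h]
  have := P319E.poisson_pi (f := fun x => F (T x)) (hF.comp T.continuous) (C := C)
    (mul_pos hc hc') (fun x => (hb _).trans (by
      have := mul_le_mul_of_nonneg_left (h' x) hc.le
      gcongr ?_ * Real.exp ?_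
      linarith)) (by
      simp only [e]
      exact ((Equiv.neg _).summable_iff.2 hs).mul_left _)
  simp only [e, tsum_mul_left] at this
  rw [← (Equiv.neg _).tsum_eq fun k => FT F (jj (cmb b' k))]
  refine Eq.trans (tsum_congr fun m => congrArg F (funext fun σ => ?_)) this
  rw [hT, jj, lp0_cmb]

end

end Vale.Agent.P319N
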