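import Vale.Agent.P319N.Emb
import Vale.Agent.P026.Pois

namespace Vale.Agent.P319N

open NumberField Complex MeasureTheory Filter Topology
open scoped Classical ComplexConjugate Real
open Vale.Agent.P026 (omC kap psi W)

noncomputable section

variable {K : Type} [Field K] [NumberField K] [Setup K]

theorem lp1_psi (z : ℂ) : psi z = Complex.exp (kap * (2 * z.im * Complex.I)) := by
  rw [psi, Complex.sub_conj]; push_cast; rfl

theorem lp1_kap : 0 < kap := by unfold kap; positivity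

theorem lp1_kap2 : (π : ℂ) = ((√3 / 2 : ℝ) : ℂ) * kap := by
  have : π = √3 / 2 * kap := by unfold kap; field_simp
  exact_mod_cast this

theorem lp1_re {a : ℂ} (ha : 0 < a.re) : 0 < (π / a : ℂ).re := by
  have : 0 < normSq a := normSq_pos.2 fun h => by simp [h] at ha
  rw [div_eq_mul_inv, re_ofReal_mul, inv_re]
  positivity

theorem lp1_diag {a c w : ℂ} (ha : 0 < a.re) (hc : 0 < c.re) (hw : 0 < w.re)
    (h : π / a * (π / c) = w ^ 2) (l1 l2 k : ℂ) :
    ∫ z : ℂ, Complex.exp (-a * z.re ^ 2 + l1 * z.re + k + (-c * z.im ^ 2 + l2 * z.im + 0)) =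
      w * Complex.exp (k + l1 ^ 2 / (4 * a) + l2 ^ 2 / (4 * c)) := by
  have := Complex.volume_preserving_equiv_real_prod.integral_comp' fun p : ℝ × ℝ =>
    Complex.exp (-a * p.1 ^ 2 + l1 * p.1 + k) * Complex.exp (-c * p.2 ^ 2 + l2 * p.2 + 0)
  rw [Measure.volume_eq_prod, integral_prod_mul (fun x : ℝ => Complex.exp (-a * x ^ 2 + l1 * x + k))
    (fun x : ℝ => Complex.exp (-c * x ^ 2 + l2 * x + 0)),
    integral_cexp_quadratic (by simpa using ha), integral_cexp_quadratic (by simpa using hc),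
    neg_neg, neg_neg, mul_mul_mul_comm, P026.pois_sqrt (lp1_re ha) (lp1_re hc) hw h,
    ← Complex.exp_add] at this
  simp only [Complex.exp_add] at this ⊢
  refine this.trans ?_
  simp only [← Complex.exp_add]
  congr 2
  ring

theorem ft_gauss {t : ℂ} (ht : 0 < t.re) (z0 ξ : ℂ) :
    ∫ z : ℂ, Complex.exp (-(kap * t * (normSq (z + z0) : ℝ))) * psi (ξ * z) =
      ((√3 / 2 : ℝ) : ℂ) * t⁻¹ * psi (-(ξ * z0)) * Complex.exp (-(kap * t⁻¹ * (normSq ξ : ℝ))) := by
  have k0 := lp1_kap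
  have ha : 0 < (kap * t : ℂ).re := by rw [re_ofReal_mul]; positivity
  have t0 : t ≠ 0 := fun h => by simp [h] at ht
  have k1 : (kap : ℂ) ≠ 0 := ofReal_ne_zero.2 k0.ne'
  have := lp1_diag ha ha (lp1_re ha) (sq _).symm
    (-2 * kap * t * z0.re + 2 * Complex.I * kap * ξ.im)
    (-2 * kap * t * z0.im + 2 * Complex.I * kap * ξ.re) (-(kap * t * (z0.re ^ 2 + z0.im ^ 2)))
  refine (integral_congr_ae (ae_of_all _ fun z => ?_)).trans (this.trans ?_)
  · simp only [lp1_psi, ← Complex.exp_add, normSq_apply, add_re, add_im, mul_im]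
    congr 1; push_cast; ring
  · rw [lp1_psi, mul_assoc _ (Complex.exp _), ← Complex.exp_add, lp1_kap2]
    congr 1
    · field_simp
    · congr 1
      simp only [normSq_apply, neg_im, mul_im]
      push_cast
      field_simp
      linear_combination (4 * (ξ.im : ℂ) ^ 2 + 4 * (ξ.re : ℂ) ^ 2) * Complex.I_mul_I

theorem lp1_quad (b : ℝ) {ε : ℝ} (hε : 0 < ε) (ξ : ℂ) :
    ∫ z : ℂ, psi (b * Complex.I * z ^ 2) * ((Real.exp (-(kap * ε * normSq z)) : ℝ) : ℂ) *
      psi (ξ * z) = ((√3 / 2 * (√(ε ^ 2 + 4 * b ^ 2))⁻¹ : ℝ) : ℂ) *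
        psi (b * Complex.I * ξ ^ 2 / ((ε ^ 2 + 4 * b ^ 2 : ℝ) : ℂ)) *
          ((Real.exp (-(kap * (ε / (ε ^ 2 + 4 * b ^ 2)) * normSq ξ)) : ℝ) : ℂ) := by
  have k0 := lp1_kap
  have k1 : (kap : ℂ) ≠ 0 := ofReal_ne_zero.2 k0.ne'
  have ha : 0 < (kap * (ε - 2 * b * Complex.I) : ℂ).re := by simp [k0, hε]
  have hc : 0 < (kap * (ε + 2 * b * Complex.I) : ℂ).re := by simp [k0, hε]
  have a0 : (ε - 2 * b * Complex.I : ℂ) ≠ 0 := fun h => by simp [h] at ha
  have c0 : (ε + 2 * b * Complex.I : ℂ) ≠ 0 := fun h => by simp [h] at hc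
  have D0 : 0 < ε ^ 2 + 4 * b ^ 2 := by positivity
  have D : ((ε ^ 2 + 4 * b ^ 2 : ℝ) : ℂ) = (ε - 2 * b * Complex.I) * (ε + 2 * b * Complex.I) := by
    push_cast
    linear_combination (4 * (b : ℂ) ^ 2) * Complex.I_mul_I
  have := lp1_diag ha hc (w := ((√3 / 2 * (√(ε ^ 2 + 4 * b ^ 2))⁻¹ : ℝ) : ℂ))
    (by rw [ofReal_re]; positivity) (by
      rw [← ofReal_pow, mul_pow, inv_pow, Real.sq_sqrt D0.le, ofReal_mul, ofReal_inv, D, lp1_kap2,
        ofReal_pow]
      field_simp) (2 * Complex.I * kap * ξ.im) (2 * Complex.I * kap * ξ.re) 0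
  refine (integral_congr_ae (ae_of_all _ fun z => ?_)).trans (this.trans ?_)
  · simp only [lp1_psi, ofReal_exp, ← Complex.exp_add, normSq_apply, sq, mul_im, mul_re,
      ofReal_re, ofReal_im, I_re, I_im]
    congr 1; push_cast; ring
  · rw [lp1_psi, mul_assoc _ (Complex.exp _), ofReal_exp, ← Complex.exp_add, div_ofReal_im]
    congr 2
    simp only [normSq_apply, sq ξ, mul_im, mul_re, ofReal_re, ofReal_im, I_re, I_im]
    simp only [ofReal_neg, ofReal_mul, ofReal_div, D]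
    push_cast
    generalize hA : (ε - 2 * b * Complex.I : ℂ) = A at a0 ⊢
    generalize hC : (ε + 2 * b * Complex.I : ℂ) = C at c0 ⊢
    field_simp
    subst hA hC
    linear_combination kap * (4 * (ξ.im : ℂ) ^ 2 * (ε + 2 * b * Complex.I) +
      4 * (ξ.re : ℂ) ^ 2 * (ε - 2 * b * Complex.I)) * Complex.I_mul_I

theorem ft_quad (β : ℂ) {ε : ℝ} (hε : 0 < ε) (ξ : ℂ) :
    ∫ z : ℂ, psi (β * z ^ 2) * ((Real.exp (-(kap * ε * normSq z)) : ℝ) : ℂ) * psi (ξ * z) =
      ((√3 / 2 * (√(ε ^ 2 + 4 * normSq β))⁻¹ : ℝ) : ℂ) *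
        psi (-(conj β * ξ ^ 2 / ((ε ^ 2 + 4 * normSq β : ℝ) : ℂ))) *
          ((Real.exp (-(kap * (ε / (ε ^ 2 + 4 * normSq β)) * normSq ξ)) : ℝ) : ℂ) := by
  obtain ⟨u, h1, h2⟩ : ∃ u : ℂ, ‖u‖ = 1 ∧ β * u ^ 2 = ‖β‖ * Complex.I := by
    by_cases h : β = 0
    · exact ⟨1, by simp, by simp [h]⟩
    obtain ⟨u, hu⟩ := IsAlgClosed.exists_pow_nat_eq (‖β‖ * Complex.I / β) two_pos
    refine ⟨u, ?_, by rw [hu]; field_simp⟩
    have := congrArg norm hu
    rw [norm_pow, norm_div, norm_mul, norm_I, norm_real, norm_norm, mul_one,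
      div_self (norm_ne_zero_iff.2 h)] at this
    exact (pow_eq_one_iff_of_nonneg (norm_nonneg _) two_ne_zero).1 this
  have n1 : normSq u = 1 := by rw [normSq_eq_norm_sq, h1, one_pow]
  set r := rotation (⟨u, mem_sphere_zero_iff_norm.2 h1⟩ : Circle)
  rw [← r.measurePreserving.integral_comp r.toHomeomorph.measurableEmbedding]
  refine (integral_congr_ae (ae_of_all _ fun z => ?_)).trans ((lp1_quad ‖β‖ hε (ξ * u)).trans ?_)
  · have : r z = u * z := rfl
    simp only [this, map_mul, n1, one_mul, mul_pow, ← h2, mul_assoc]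
  · rw [← normSq_eq_norm_sq, map_mul, n1, mul_one]
    congr 3
    have c1 := congrArg conj h2
    have c2 := Complex.mul_conj u
    simp only [map_mul, map_pow, conj_ofReal, conj_I] at c1
    rw [n1, ofReal_one] at c2
    rw [← neg_div]
    congr 1
    linear_combination (ξ * u) ^ 2 * c1 - conj β * ξ ^ 2 * (u * conj u + 1) * c2

theorem FT_prod (f : Emb K → ℂ → ℂ) (ξ : Emb K → ℂ) :
    FT (fun z => ∏ σ, f σ (z σ)) ξ = ∏ σ, ∫ z : ℂ, f σ z * psi (ξ σ * z) := by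
  rw [← integral_fintype_prod_volume_eq_prod fun σ z => f σ z * psi (ξ σ * z)]
  simp only [FT, psiV, Finset.prod_mul_distrib, Pi.mul_apply]

end

end Vale.Agent.P319N
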