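import Vale.Agent.P319N.LP0
import Vale.Agent.P319N.LP1

namespace Vale.Agent.P319N

open NumberField Complex MeasureTheory Filter Topology
open scoped Classical ComplexConjugate Real
open Vale.Agent.P026 (omC kap psi W)

noncomputable section

variable {K : Type} [Field K] [NumberField K] [Setup K]

theorem lp2_tsum {L : AddSubgroup K} {b : Module.Basis (Ix K) ℚ K}
    (hb : ∀ z, z ∈ L ↔ ∃ c, z = cmb b c) {E : Type} [NormedAddCommGroup E] (F : K → E) :
    (∑' m, if m ∈ L then F m else 0) = ∑' k, F (cmb b k) ∧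
    ((Summable fun m => if m ∈ L then F m else 0) ↔ Summable fun k => F (cmb b k)) := by
  have h0 : ∀ m ∉ Set.range (cmb b), (if m ∈ L then F m else 0) = 0 := fun m hm =>
    if_neg fun h => hm (((hb m).1 h).imp fun _ e => e.symm)
  have e : ∀ k, (if cmb b k ∈ L then F (cmb b k) else 0) = F (cmb b k) := fun k =>
    if_pos ((hb _).2 ⟨k, rfl⟩)
  rw [← (cmb_inj b).tsum_eq (Function.support_subset_iff'.2 h0), ← (cmb_inj b).summable_iff h0]
  simp only [Function.comp_def, e, and_self]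

theorem lp2_sq (u v : ℂ) : normSq u / 2 - normSq v ≤ normSq (u + v) := by
  simp only [normSq_apply, add_re, add_im]
  nlinarith [sq_nonneg (u.re + 2 * v.re), sq_nonneg (u.im + 2 * v.im)]

theorem lp2_min {t : Emb K → ℝ} (ht : ∀ σ, 0 < t σ) : ∃ a : ℝ, 0 < a ∧ ∀ σ, a ≤ t σ := by
  obtain ⟨σ, h⟩ := Finite.exists_min t
  exact ⟨t σ, ht σ, h⟩

theorem lp2_norm (t : Emb K → ℂ) (z : Emb K → ℂ) {a : ℝ} (ha : ∀ σ, a ≤ (t σ).re) :
    ‖Complex.exp (-(kap * ∑ σ, t σ * (normSq (z σ) : ℝ)))‖ ≤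
      Real.exp (-(kap * a * ∑ σ, normSq (z σ))) := by
  rw [Complex.norm_exp, neg_re, re_ofReal_mul, re_sum, mul_assoc, Finset.mul_sum _ _ a]
  have := lp1_kap
  gcongr with σ
  rw [re_mul_ofReal]
  exact mul_le_mul_of_nonneg_right (ha σ) (normSq_nonneg _)

theorem summable_len {y x : K} (hy : y ≠ 0) (hx : x ≠ 0) {a : ℝ} (ha : 0 < a) (z0 : K) :
    Summable fun m : K => if m ∈ LL2 y x then Real.exp (-(a * len (m + z0))) else 0 := by
  obtain ⟨b, hb, -⟩ := exists_basis hy hx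
  obtain ⟨c, hc, h⟩ := len_cmb_ge b
  refine (lp2_tsum hb _).2.2 (((P319E.summable_gauss (c := a * c / 2) (by positivity)).mul_left
    (Real.exp (a * len z0))).of_nonneg_of_le (fun k => (Real.exp_pos _).le) fun k => ?_)
  have : len (cmb b k) / 2 - len z0 ≤ len (cmb b k + z0) := by
    simp only [len, Finset.sum_div, ← Finset.sum_sub_distrib, map_add]
    exact Finset.sum_le_sum fun σ _ => lp2_sq _ _
  rw [← Real.exp_add, Real.exp_le_exp]
  nlinarith [h k]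

theorem summable_Ga {y x : K} (hy : y ≠ 0) (hx : x ≠ 0) {t : Emb K → ℂ} (ht : ∀ σ, 0 < (t σ).re)
    (z0 : K) : Summable fun m : K => if m ∈ LL2 y x then ‖Ga t (m + z0)‖ else 0 := by
  obtain ⟨a, ha, h⟩ := lp2_min ht
  refine (summable_len hy hx (mul_pos lp1_kap ha) z0).of_nonneg_of_le
    (fun m => by split_ifs; exacts [norm_nonneg _, le_rfl]) fun m => ?_
  split_ifs
  exacts [lp2_norm t _ h, le_rfl]

theorem CL_pos {y x : K} (hy : y ≠ 0) : 0 < CL y x :=
  div_pos (Real.sqrt_pos.2 (sN_pos _)) (mul_pos (div_pos (absN_pos hy) (sN_pos _)) (sN_pos _))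

/-- Poisson summation with an unknown constant -/
def lp2P (K : Type) [Field K] [NumberField K] [Setup K] (κ : ℝ) : Prop :=
  ∀ {y x : K}, y ≠ 0 → x ≠ 0 → ∀ {F : (Emb K → ℂ) → ℂ} {C c : ℝ}, Continuous F → 0 < c →
    (∀ z, ‖F z‖ ≤ C * Real.exp (-c * ∑ σ, normSq (z σ))) →
    (Summable fun h : K => if h ∈ LL2 y⁻¹ (del K / x) then FT F (jj h) else 0) →
    ∑' m : K, (if m ∈ LL2 y x then F (jj m) else 0) =
      ((κ / (absN y / sN y * sN x) : ℝ) : ℂ) *
        ∑' h : K, if h ∈ LL2 y⁻¹ (del K / x) then FT F (jj h) else 0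

theorem lp2_ex : ∃ κ, 0 < κ ∧ lp2P K κ := by
  obtain ⟨κ, hκ, H⟩ := pois_basis (K := K)
  refine ⟨κ, hκ, fun {y x} hy hx F C c hF hc hb hs => ?_⟩
  obtain ⟨b, h1, h2⟩ := exists_basis hy hx
  obtain ⟨b', h3, h4⟩ := exists_dual b
  have h5 : ∀ n, n ∈ LL2 y⁻¹ (del K / x) ↔ ∃ k, n = cmb b' k := fun n => by
    rw [← dual_LL2 hy hx, ← h4]
    exact ⟨fun h c => h _ ((h1 _).2 ⟨c, rfl⟩), fun h z hz => by
      obtain ⟨c, rfl⟩ := (h1 z).1 hz; exact h c⟩
  rw [(lp2_tsum h1 fun m => F (jj m)).1, (lp2_tsum h5 fun m => FT F (jj m)).1, ← h2]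
  exact H b b' F C c h3 hF hc hb ((lp2_tsum h5 fun m => FT F (jj m)).2.1 hs)

theorem lp2_gauss {κ : ℝ} (H : lp2P K κ) {y x : K} (hy : y ≠ 0) (hx : x ≠ 0) {t : Emb K → ℂ}
    (ht : ∀ σ, 0 < (t σ).re) (z0 : K) :
    ∑' m : K, (if m ∈ LL2 y x then Ga t (m + z0) else 0) =
      ((κ * (√3 / 2) ^ rk K / (absN y / sN y * sN x) : ℝ) : ℂ) * (∏ σ, t σ)⁻¹ *
        ∑' h : K, if h ∈ LL2 y⁻¹ (del K / x) then psiK (h * z0) * Ga (fun σ => (t σ)⁻¹) h
          else 0 := by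
  obtain ⟨a, ha, h⟩ := lp2_min ht
  have k0 := lp1_kap
  have e : ∀ h : K, FT (fun z => Complex.exp (-(kap * ∑ σ, t σ * (normSq (z σ + σ.1 z0) : ℝ))))
      (jj h) = (((√3 / 2) ^ rk K : ℝ) : ℂ) * (∏ σ, t σ)⁻¹ *
        (psiK (-h * z0) * Ga (fun σ => (t σ)⁻¹) (-h)) := fun h => by
    simp only [Finset.mul_sum, ← Finset.sum_neg_distrib, Complex.exp_sum, ← mul_assoc (kap : ℂ)]
    rw [FT_prod fun σ z => Complex.exp (-(kap * t σ * (normSq (z + σ.1 z0) : ℝ)))]
    simp only [ft_gauss (ht _)]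
    simp only [Finset.prod_mul_distrib, Finset.prod_const, psiK_eq, psiV, Ga,
      Finset.mul_sum, ← Finset.sum_neg_distrib, Complex.exp_sum, jj, map_mul, map_neg, neg_mul,
      normSq_neg, Finset.prod_inv_distrib, mul_assoc, ofReal_pow]
    rfl
  have ht' : ∀ σ, 0 < (t σ)⁻¹.re := fun σ => by
    rw [inv_re]; exact div_pos (ht σ) (normSq_pos.2 fun h => by simpa [h] using ht σ)
  have := H hy hx (F := fun z => Complex.exp (-(kap * ∑ σ, t σ * (normSq (z σ + σ.1 z0) : ℝ))))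
    (C := Real.exp (kap * a * len z0)) (c := kap * a / 2) (by fun_prop) (by positivity)
    (fun z => (lp2_norm t _ h).trans (by
      have : (∑ σ, normSq (z σ)) / 2 - len z0 ≤ ∑ σ : Emb K, normSq (z σ + σ.1 z0) := by
        simp only [len, Finset.sum_div, ← Finset.sum_sub_distrib]
        exact Finset.sum_le_sum fun σ _ => lp2_sq _ _
      rw [← Real.exp_add, Real.exp_le_exp]
      nlinarith [mul_pos k0 ha])) (by
      refine Summable.of_norm_bounded ((summable_Ga (inv_ne_zero hy)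
        (div_ne_zero del_spec.1 hx) ht' 0).mul_left
          ‖(((√3 / 2) ^ rk K : ℝ) : ℂ) * (∏ σ, t σ)⁻¹‖) fun h => ?_
      split_ifs
      · rw [e, norm_mul, norm_mul (psiK _), norm_psiK, one_mul, add_zero]
        simp [Ga]
      · simp)
  simp only [e] at this
  refine Eq.trans (by simp only [Ga, jj, map_add]) (this.trans ?_)
  rw [← (Equiv.neg K).tsum_eq fun h => if h ∈ LL2 y⁻¹ (del K / x) then
    psiK (h * z0) * Ga (fun σ => (t σ)⁻¹) h else 0, ← tsum_mul_left, ← tsum_mul_left]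
  refine tsum_congr fun h => ?_
  simp only [Equiv.neg_apply, neg_mem_iff]
  split_ifs
  · push_cast; ring
  · simp

theorem lp2_const {κ : ℝ} (hκ : 0 < κ) (H : lp2P K κ) :
    κ * (√3 / 2) ^ rk K = √(sN (del K)) := by
  have d0 := (del_spec (K := K)).1
  have h1 := lp2_gauss H one_ne_zero one_ne_zero (t := fun _ => 1) (by simp) 0
  have h2 := lp2_gauss H one_ne_zero d0 (t := fun _ => 1) (by simp) 0
  simp only [add_zero, mul_zero, psiK_zero, one_mul, inv_one, div_one, div_self d0, absN_one,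
    sN_one, Finset.prod_const_one, mul_one] at h1 h2
  rw [h2] at h1
  have s := summable_len (K := K) one_ne_zero one_ne_zero lp1_kap 0
  have p : (∑' m : K, if m ∈ LL2 1 1 then Ga (fun _ => 1) m else 0) ≠ 0 := by
    have := s.tsum_pos (fun m => by split_ifs; exacts [(Real.exp_pos _).le, le_rfl]) 0
      (by rw [if_pos (zero_mem _)]; exact Real.exp_pos _)
    refine ne_of_eq_of_ne ?_ (ofReal_ne_zero.2 this.ne')
    rw [ofReal_tsum]
    refine tsum_congr fun m => ?_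
    split_ifs <;> simp [Ga, len]
  rw [← mul_assoc, eq_comm, mul_eq_right₀ p, ← ofReal_mul, ofReal_eq_one, mul_div_assoc',
    div_eq_one_iff_eq (sN_pos _).ne'] at h1
  rw [← h1, Real.sqrt_mul_self (by positivity)]

/-- Poisson summation with the normalized constant -/
theorem pois_LL2 {y x : K} (hy : y ≠ 0) (hx : x ≠ 0) {F : (Emb K → ℂ) → ℂ} {C c : ℝ}
    (hF : Continuous F) (hc : 0 < c) (hb : ∀ z, ‖F z‖ ≤ C * Real.exp (-c * ∑ σ, normSq (z σ)))
    (hs : Summable fun h : K => if h ∈ LL2 y⁻¹ (del K / x) then FT F (jj h) else 0) :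
    ∑' m : K, (if m ∈ LL2 y x then F (jj m) else 0) =
      ((CL y x * (2 / √3) ^ rk K : ℝ) : ℂ) *
        ∑' h : K, if h ∈ LL2 y⁻¹ (del K / x) then FT F (jj h) else 0 := by
  obtain ⟨κ, hκ, H⟩ := lp2_ex (K := K)
  rw [H hy hx hF hc hb hs, CL, ← lp2_const hκ H, div_mul_eq_mul_div (κ * _), mul_assoc κ, ← mul_pow,
    show √3 / 2 * (2 / √3) = 1 by field_simp, one_pow, mul_one]

theorem lpois {y x : K} (hy : y ≠ 0) (hx : x ≠ 0) {t : Emb K → ℂ} (ht : ∀ σ, 0 < (t σ).re)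
    (z0 : K) :
    ∑' m : K, (if m ∈ LL2 y x then Ga t (m + z0) else 0) =
      ((CL y x : ℝ) : ℂ) * (∏ σ, t σ)⁻¹ *
        ∑' h : K, if h ∈ LL2 y⁻¹ (del K / x) then psiK (h * z0) * Ga (fun σ => (t σ)⁻¹) h else 0 := by
  obtain ⟨κ, hκ, H⟩ := lp2_ex (K := K)
  rw [lp2_gauss H hy hx ht, CL, lp2_const hκ H]

end

end Vale.Agent.P319N
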