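import Vale.Agent.P319N.LP2

namespace Vale.Agent.P319N

open NumberField Complex MeasureTheory Filter Topology
open scoped Classical ComplexConjugate Real
open Vale.Agent.P026 (omC kap psi W)

noncomputable section

variable {K : Type} [Field K] [NumberField K] [Setup K]

theorem lp3_Ga (t : Emb K → ℝ) (m : K) : Ga (fun σ => (t σ : ℂ)) m =
    ((Real.exp (-(kap * ∑ σ : Emb K, t σ * normSq (σ.1 m))) : ℝ) : ℂ) := by simp [Ga]

theorem lp3_len (m : K) : 0 ≤ len m := Finset.sum_nonneg fun _ _ => normSq_nonneg _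

theorem lp3_sum {y x : K} (hy : y ≠ 0) (hx : x ≠ 0) {a : ℝ} (ha : 0 < a) :
    Summable fun m : K => if m ∈ LL2 y x then Real.exp (-(a * len m)) else 0 := by
  simpa only [add_zero] using summable_len hy hx ha 0

theorem lp3_sum' {y x : K} (hy : y ≠ 0) (hx : x ≠ 0) {a : ℝ} (ha : 0 < a) :
    Summable fun m : K => if m ∈ LL2 y x ∧ m ≠ 0 then Real.exp (-(a * len m)) else 0 :=
  (lp3_sum hy hx ha).of_nonneg_of_le (fun m => by positivity) fun m => by
    by_cases h : m ∈ LL2 y x <;> by_cases h' : m = 0 <;> simp [h, h', Real.exp_nonneg]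

theorem lp3_small {y x : K} (hy : y ≠ 0) (hx : x ≠ 0) : ∃ C : ℝ, 0 ≤ C ∧ ∀ a : ℝ, 0 < a → a ≤ 1 →
    ∑' m : K, (if m ∈ LL2 y x then Real.exp (-(kap * a * len m)) else 0) ≤ C * (a ^ rk K)⁻¹ := by
  have s := lp3_sum (inv_ne_zero hy) (div_ne_zero del_spec.1 hx) lp1_kap
  refine ⟨CL y x * _, mul_nonneg (CL_pos hy).le (s.hasSum.nonneg fun m => by positivity),
    fun a ha h1 => ?_⟩
  have := congrArg norm (lpois hy hx (t := fun _ => (a : ℂ)) (by simpa using ha) 0)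
  have e : (∑' m : K, if m ∈ LL2 y x then Ga (fun _ => (a : ℂ)) (m + 0) else 0) = ((∑' m : K,
      if m ∈ LL2 y x then Real.exp (-(kap * a * len m)) else 0 : ℝ) : ℂ) := by
    rw [ofReal_tsum]
    refine tsum_congr fun m => ?_
    split_ifs <;> simp [Ga, len, Finset.mul_sum, mul_assoc]
  rw [e, norm_real, norm_mul, norm_mul, norm_real, Real.norm_of_nonneg (CL_pos hy).le,
    Finset.prod_const, norm_inv, norm_pow, norm_real, Real.norm_of_nonneg ha.le] at this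
  refine (le_abs_self _).trans (this.le.trans ?_)
  rw [mul_right_comm]
  have := (CL_pos (x := x) hy).le
  refine mul_le_mul_of_nonneg_right (mul_le_mul_of_nonneg_left ?_ this) (by positivity)
  · refine tsum_of_norm_bounded s.hasSum fun h => ?_
    split_ifs
    · rw [norm_mul, norm_psiK, one_mul]
      simpa [len, Ga, jj] using lp2_norm (fun _ => (a : ℂ)⁻¹) (jj h) (a := 1) fun _ => by
        rw [← ofReal_inv, ofReal_re]; exact one_le_inv₀ ha |>.2 h1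
    · simp

theorem gsum_le {y x : K} (hy : y ≠ 0) (hx : x ≠ 0) : ∃ C : ℝ, 0 < C ∧ ∀ a : ℝ, 0 < a →
    ∑' m : K, (if m ∈ LL2 y x ∧ m ≠ 0 then Real.exp (-(kap * a * len m)) else 0) ≤
      C * (a ^ rk K)⁻¹ := by
  obtain ⟨C, C0, H⟩ := lp3_small hy hx
  obtain ⟨b, hb, -⟩ := exists_basis hy hx
  obtain ⟨c, hc, h⟩ := len_cmb_ge b
  have k0 := lp1_kap
  have s := lp3_sum' hy hx (half_pos k0)
  have s0 := s.hasSum.nonneg fun m => by positivity
  set S := ∑' m : K, if m ∈ LL2 y x ∧ m ≠ 0 then Real.exp (-(kap / 2 * len m)) else 0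
  refine ⟨C + (rk K).factorial / (kap * c / 2) ^ rk K * S + 1, by positivity, fun a ha => ?_⟩
  have a0 : 0 < (a ^ rk K)⁻¹ := by positivity
  have s1 := lp3_sum' hy hx (mul_pos k0 ha)
  rcases le_total a 1 with h1 | h1
  · refine ((s1.tsum_le_tsum (fun m => ?_) (lp3_sum hy hx (mul_pos k0 ha))).trans
      (H a ha h1)).trans ?_
    · by_cases h : m ∈ LL2 y x <;> by_cases h' : m = 0 <;> simp [h, h', Real.exp_nonneg]
    · gcongr
      rw [add_assoc]; exact le_add_of_nonneg_right (by positivity)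
  · refine (hasSum_le (fun m => ?_) s1.hasSum (s.hasSum.mul_left
      ((rk K).factorial / (kap * c / 2 * a) ^ rk K))).trans ?_
    · split_ifs with hm
      · obtain ⟨k, rfl⟩ := (hb m).1 hm.1
        obtain ⟨i, hi⟩ : ∃ i, k i ≠ 0 := by_contra fun h => hm.2 (by
          push Not at h; simp [cmb, h])
        have b1 : (1 : ℝ) ≤ ∑ i, (k i : ℝ) ^ 2 := le_trans
          (by exact_mod_cast Int.add_one_le_iff.2 (sq_pos_iff.2 hi))
          (Finset.single_le_sum (fun i _ => sq_nonneg (k i : ℝ)) (Finset.mem_univ i))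
        have b2 : c ≤ len (cmb b k) := (le_mul_of_one_le_right hc.le b1).trans (h k)
        have b3 := Real.pow_div_factorial_le_exp (kap * c / 2 * a) (by positivity) (rk K)
        rw [← inv_div, ← div_eq_inv_mul, le_div_iff₀ (by positivity)]
        refine (mul_le_mul_of_nonneg_left b3 (Real.exp_pos _).le).trans ?_
        rw [← Real.exp_add, Real.exp_le_exp]
        nlinarith [mul_le_mul_of_nonneg_left b2 (mul_pos k0 ha).le,
          mul_le_mul_of_nonneg_left h1 (mul_nonneg k0.le (lp3_len (cmb b k)))]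
      · simp
    · rw [mul_pow _ a, ← div_div, div_mul_eq_mul_div _ (a ^ _), div_eq_mul_inv _ (a ^ _)]
      gcongr
      linarith

theorem box_finite {y x : K} (hy : y ≠ 0) (hx : x ≠ 0) (Y : ℝ) :
    {m : K | m ∈ LL2 y x ∧ ∀ σ : Emb K, normSq (σ.1 m) ≤ Y}.Finite := by
  refine (eventually_cofinite.1 ((lp3_sum hy hx one_pos).tendsto_cofinite_zero.eventually
    (gt_mem_nhds (Real.exp_pos (-(rk K * Y)))))).subset fun m hm => ?_
  rw [Set.mem_setOf_eq, if_pos hm.1, not_lt, Real.exp_le_exp, one_mul, neg_le_neg_iff,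
    ← nsmul_eq_mul]
  exact Finset.sum_le_card_nsmul _ _ _ fun σ _ => hm.2 σ

theorem box_count {y x : K} (hy : y ≠ 0) (hx : x ≠ 0) : ∃ C : ℝ, 0 < C ∧ ∀ Y : ℝ, 0 ≤ Y →
    ({m : K | m ∈ LL2 y x ∧ m ≠ 0 ∧ ∀ σ : Emb K, normSq (σ.1 m) ≤ Y}.ncard : ℝ) ≤ C * Y ^ rk K := by
  obtain ⟨C, C0, H⟩ := gsum_le hy hx
  refine ⟨Real.exp (kap * rk K) * C, by positivity, fun Y hY => ?_⟩
  have fin : {m : K | m ∈ LL2 y x ∧ m ≠ 0 ∧ ∀ σ : Emb K, normSq (σ.1 m) ≤ Y}.Finite :=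
    (box_finite hy hx Y).subset fun m hm => ⟨hm.1, hm.2.2⟩
  rcases hY.eq_or_lt with rfl | hY
  · rw [Set.eq_empty_of_forall_notMem (s := {m : K | _}) fun m hm => (len_pos hm.2.1).not_ge
      (Finset.sum_nonpos fun σ _ => hm.2.2 σ), Set.ncard_empty, Nat.cast_zero]
    positivity
  have k0 := lp1_kap
  have h := ((lp3_sum' hy hx (mul_pos k0 (inv_pos.2 hY))).sum_le_tsum fin.toFinset
    fun m _ => by positivity).trans (H _ (inv_pos.2 hY))
  rw [inv_pow, inv_inv] at h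
  rw [Set.ncard_eq_toFinset_card _ fin, mul_assoc, ← inv_mul_le_iff₀ (Real.exp_pos _), mul_comm,
    ← nsmul_eq_mul, ← Real.exp_neg]
  refine (Finset.card_nsmul_le_sum _ _ _ fun m hm => ?_).trans h
  rw [Set.Finite.mem_toFinset] at hm
  rw [if_pos ⟨hm.1, hm.2.1⟩, Real.exp_le_exp, neg_le_neg_iff, mul_assoc]
  gcongr
  rw [inv_mul_le_iff₀ hY, mul_comm, ← nsmul_eq_mul]
  exact Finset.sum_le_card_nsmul _ _ _ fun σ _ => hm.2.2 σ

theorem fd_count {y x : K} (hy : y ≠ 0) (hx : x ≠ 0) {U : Subgroup Kˣ} {D : Set (Emb K → ℝ)}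
    (hD : IsFD U D) : ∃ C : ℝ, 0 < C ∧ ∀ T : ℝ, 0 ≤ T →
      {m : K | m ∈ LL2 y x ∧ m ≠ 0 ∧ Lg m ∈ D ∧ absN m ≤ T}.Finite ∧
      ({m : K | m ∈ LL2 y x ∧ m ≠ 0 ∧ Lg m ∈ D ∧ absN m ≤ T}.ncard : ℝ) ≤ C * T := by
  obtain ⟨C, C0, H⟩ := box_count hy hx
  obtain ⟨B, hB⟩ := hD.2.2.2
  refine ⟨C * Real.exp B ^ rk K, by positivity, fun T hT => ?_⟩
  have r : (0 : ℝ) < rk K := by exact_mod_cast rk_pos
  have sub : {m : K | m ∈ LL2 y x ∧ m ≠ 0 ∧ Lg m ∈ D ∧ absN m ≤ T} ⊆ {m : K | m ∈ LL2 y x ∧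
      m ≠ 0 ∧ ∀ σ : Emb K, normSq (σ.1 m) ≤ Real.exp B * T ^ (rk K : ℝ)⁻¹} :=
    fun m hm => ⟨hm.1, hm.2.1, fun σ => by
      have p := absN_pos hm.2.1
      have e : rk K * Lg m σ = ∑ τ, Lg m τ + ∑ τ, (Lg m σ - Lg m τ) := by simp [rk]
      have a1 : ∑ τ, (Lg m σ - Lg m τ) ≤ rk K * B := by
        rw [← nsmul_eq_mul]
        exact Finset.sum_le_card_nsmul _ _ _ fun τ _ => (le_abs_self _).trans (hB _ hm.2.2.1 σ τ)
      rw [← exp_Lg hm.2.1, Real.rpow_def_of_pos (p.trans_le hm.2.2.2), ← Real.exp_add,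
        Real.exp_le_exp, ← sub_le_iff_le_add', le_mul_inv_iff₀ r]
      rw [sum_Lg hm.2.1] at e
      linarith [Real.log_le_log p hm.2.2.2]⟩
  have fin := (box_finite hy hx (Real.exp B * T ^ (rk K : ℝ)⁻¹)).subset
    (show {m : K | m ∈ LL2 y x ∧ m ≠ 0 ∧ ∀ σ : Emb K, normSq (σ.1 m) ≤ _} ⊆ _ from
      fun m hm => ⟨hm.1, hm.2.2⟩)
  refine ⟨fin.subset sub, (Nat.cast_le.2 (Set.ncard_le_ncard sub fin)).trans
    ((H _ (by positivity)).trans_eq ?_)⟩
  rw [mul_pow, Real.rpow_inv_natCast_pow hT rk_pos.ne', mul_assoc]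

theorem lp3_dy {α : Type} {P : α → Prop} [DecidablePred P] {f : α → ℝ} {C s : ℝ} (hC : 0 < C)
    (f0 : ∀ m, P m → 0 < f m) (hs : 1 < s) (h : ∀ T : ℝ, 0 ≤ T → {m | P m ∧ f m ≤ T}.Finite ∧
      ({m | P m ∧ f m ≤ T}.ncard : ℝ) ≤ C * T) :
    Summable fun m => if P m then f m ^ (-s) else 0 := by
  have g : Summable fun j : ℕ => (2 : ℝ) ^ (j + 1) * (2 ^ j / C) ^ (-s) := by
    refine ((summable_geometric_of_lt_one (r := (2 : ℝ) ^ (1 - s)) (by positivity)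
      (Real.rpow_lt_one_of_one_lt_of_neg one_lt_two (by linarith))).mul_left
        (2 / C ^ (-s))).congr fun j => ?_
    rw [Real.div_rpow (by positivity) hC.le, ← Real.rpow_natCast, ← Real.rpow_natCast _ j,
      ← Real.rpow_mul zero_le_two, ← Real.rpow_mul zero_le_two, pow_succ, ← Real.rpow_natCast,
      show (1 - s) * j = j + j * -s by ring, Real.rpow_add two_pos]
    ring
  refine summable_of_sum_le (fun m => ?_) (c := ∑' j : ℕ, (2 : ℝ) ^ (j + 1) * (2 ^ j / C) ^ (-s))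
    fun u => ?_
  · beta_reduce
    split_ifs with hm
    exacts [Real.rpow_nonneg (f0 m hm).le _, le_rfl]
  rw [← Finset.sum_filter, ← Finset.sum_fiberwise_of_maps_to
    (g := fun m => Nat.log 2 ⌊C * f m⌋₊) fun x hx => Finset.mem_image_of_mem (fun m => Nat.log 2 ⌊C * f m⌋₊) hx]
  refine (Finset.sum_le_sum fun j _ => ?_).trans (g.sum_le_tsum _ fun j _ => by positivity)
  obtain ⟨fin, cd⟩ := h (2 ^ (j + 1) / C) (by positivity)
  rw [mul_div_cancel₀ _ hC.ne', Set.ncard_eq_toFinset_card _ fin] at cd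
  refine (Finset.sum_le_card_nsmul _ _ ((2 ^ j / C) ^ (-s)) fun m hm => ?_).trans ?_
  · obtain ⟨hm', rfl⟩ := Finset.mem_filter.1 hm
    have pm := (Finset.mem_filter.1 hm').2
    obtain ⟨fi, c1⟩ := h (f m) (f0 m pm).le
    have c2 : 1 ≤ C * f m := le_trans
      (by exact_mod_cast (Set.ncard_pos fi).2 ⟨m, pm, le_rfl⟩) c1
    refine Real.rpow_le_rpow_of_nonpos (by positivity) ?_ (by linarith)
    rw [div_le_iff₀' hC]
    exact le_trans (by exact_mod_cast Nat.pow_log_le_self 2 (Nat.floor_pos.2 c2).ne')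
      (Nat.floor_le (by linarith))
  · rw [nsmul_eq_mul]
    gcongr
    refine le_trans (Nat.cast_le.2 (Finset.card_le_card fun m hm => ?_)) cd
    obtain ⟨hm', rfl⟩ := Finset.mem_filter.1 hm
    refine fin.mem_toFinset.2 ⟨(Finset.mem_filter.1 hm').2, ?_⟩
    rw [le_div_iff₀' hC]
    exact (Nat.lt_floor_add_one _).le.trans
      (by exact_mod_cast Nat.lt_pow_succ_log_self one_lt_two ⌊C * f m⌋₊)

theorem fd_summable {y x : K} (hy : y ≠ 0) (hx : x ≠ 0) {U : Subgroup Kˣ} {D : Set (Emb K → ℝ)}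
    (hD : IsFD U D) {s : ℝ} (hs : 1 < s) :
    Summable fun m : K => if m ∈ LL2 y x ∧ m ≠ 0 ∧ Lg m ∈ D then absN m ^ (-s) else 0 := by
  obtain ⟨C, hC, H⟩ := fd_count hy hx hD
  exact lp3_dy hC (fun m hm => absN_pos hm.2.1) hs (by simpa only [and_assoc] using H)

theorem lp3_lim {y x : K} (hy : y ≠ 0) (hx : x ≠ 0) (ρ : K) {l : Filter ℝ} {t : ℝ → Emb K → ℝ}
    (ht : ∀ ε σ, 0 < t ε σ) (h0 : ∀ σ, Tendsto (fun ε => t ε σ) l (𝓝 0)) :
    Tendsto (fun ε => ∑' h : K, if h ∈ LL2 y x then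
      psiK (h * ρ) * Ga (fun σ => ((t ε σ : ℝ) : ℂ)⁻¹) h else 0) l (𝓝 1) := by
  have k0 := lp1_kap
  rw [← tsum_ite_eq (0 : K) (fun _ => (1 : ℂ))]
  refine tendsto_tsum_of_dominated_convergence (lp3_sum hy hx k0) (fun h => ?_)
    ((eventually_all.2 fun σ => (h0 σ).eventually (gt_mem_nhds one_pos)).mono fun ε hε h => ?_)
  · by_cases h1 : h = 0
    · simp [h1, psiK_zero, Ga, tendsto_const_nhds]
    by_cases h2 : h ∈ LL2 y x
    swap; · simp [h1, h2, tendsto_const_nhds]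
    obtain ⟨σ⟩ := bl_nonempty (K := K)
    have p : 0 < normSq (σ.1 h) := normSq_pos.2 ((map_ne_zero _).2 h1)
    simp only [if_pos h2, if_neg h1]
    refine squeeze_zero_norm (fun ε => ?_)
      (by simpa using (h0 σ).div_const (kap * normSq (σ.1 h)))
    have q := ht ε
    have q1 := q σ
    simp only [← ofReal_inv]
    rw [norm_mul, norm_psiK, one_mul, lp3_Ga, norm_real, Real.norm_of_nonneg (Real.exp_pos _).le,
      Real.exp_neg, ← inv_div]
    refine inv_anti₀ (by positivity) (le_trans ?_ ((le_add_of_nonneg_right zero_le_one).trans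
      (Real.add_one_le_exp _)))
    rw [mul_div_assoc, div_eq_inv_mul]
    gcongr
    exact Finset.single_le_sum (f := fun σ : Emb K => (t ε σ)⁻¹ * normSq (σ.1 h))
      (fun σ _ => mul_nonneg (inv_pos.2 (q σ)).le (normSq_nonneg _)) (Finset.mem_univ σ)
  · split_ifs
    · rw [norm_mul, norm_psiK, one_mul]
      simpa [len, Ga, jj] using lp2_norm (fun σ => ((t ε σ : ℝ) : ℂ)⁻¹) (jj h) (a := 1) fun σ => by
        rw [← ofReal_inv, ofReal_re]; exact (one_le_inv₀ (ht ε σ)).2 (hε σ).le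
    · simp

/-- averages of periodic functions -/
theorem tendsto_per {y x y' x' : K} (hy : y ≠ 0) (hx : x ≠ 0) (hy' : y' ≠ 0) (hx' : x' ≠ 0)
    (hle : LL2 y' x' ≤ LL2 y x) {T : Finset K} (hT : RepsL (LL2 y x) (LL2 y' x') T) {f : K → ℂ}
    (hf : ∀ m ∈ LL2 y x, ∀ k ∈ LL2 y' x', f (m + k) = f m) {l : Filter ℝ} {t : ℝ → Emb K → ℝ}
    (ht : ∀ ε σ, 0 < t ε σ) (h0 : ∀ σ, Tendsto (fun ε => t ε σ) l (𝓝 0)) :
    Tendsto (fun ε => ((∏ σ, t ε σ : ℝ) : ℂ) *
      ∑' m : K, if m ∈ LL2 y x then f m * Ga (fun σ => (t ε σ : ℂ)) m else 0) l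
      (𝓝 (((CL y' x' : ℝ) : ℂ) * ∑ ρ ∈ T, f ρ)) := by
  have := (tendsto_finsetSum T fun ρ _ => (lp3_lim (inv_ne_zero hy')
    (div_ne_zero del_spec.1 hx') ρ ht h0).const_mul (f ρ)).const_mul ((CL y' x' : ℝ) : ℂ)
  simp only [mul_one] at this
  refine this.congr fun ε => ?_
  have ht' : ∀ σ, 0 < ((t ε σ : ℝ) : ℂ).re := ht ε
  rw [tsum_repsL hle hT, Finset.mul_sum, Finset.mul_sum]
  · refine Finset.sum_congr rfl fun ρ hρ => ?_
    have e : ∀ m, (if m ∈ LL2 y' x' then f (m + ρ) * Ga (fun σ => (t ε σ : ℂ)) (m + ρ) else 0) =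
        f ρ * if m ∈ LL2 y' x' then Ga (fun σ => (t ε σ : ℂ)) (m + ρ) else 0 := fun m => by
      split_ifs with hm
      · rw [add_comm m, hf ρ (hT.1 ρ hρ) m hm]
      · simp
    have p : (∏ σ, (t ε σ : ℂ)) ≠ 0 :=
      Finset.prod_ne_zero_iff.2 fun σ _ => ofReal_ne_zero.2 (ht ε σ).ne'
    simp only [e, tsum_mul_left, lpois hy' hx' ht', ofReal_prod]
    have z : ∀ a b c S : ℂ, c ≠ 0 → a * (b * S) = c * (b * (a * c⁻¹ * S)) := fun a b c S h => by
      field_simp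
    exact z _ _ _ _ p
  · refine Summable.of_norm_bounded ((summable_Ga hy hx ht' 0).mul_left (∑ ρ ∈ T, ‖f ρ‖))
      fun m => ?_
    split_ifs with hm
    · obtain ⟨ρ, ⟨h1, h2⟩, -⟩ := hT.2 m hm
      have := hf ρ (hT.1 ρ h1) _ h2
      rw [add_sub_cancel] at this
      rw [norm_mul, add_zero, this]
      gcongr
      exact Finset.single_le_sum (fun ρ _ => norm_nonneg (f ρ)) h1
    · simp

end

end Vale.Agent.P319N
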