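import Vale.Agent.P319N.Nrm
import Vale.Agent.P319N.Psi

namespace Vale.Agent.P319N

open NumberField Complex MeasureTheory Filter Topology
open scoped Classical ComplexConjugate Real
open Vale.Agent.P026 (omC kap psi W)

noncomputable section

variable {K : Type} [Field K] [NumberField K] [Setup K]

theorem natCard_quot {q : R K} : Nat.card (R K ⧸ Ideal.span {q}) = Nm q := rfl

theorem coeR_ne {q : R K} (hq : q ≠ 0) : (q : K) ≠ 0 := fun h => hq (Subtype.ext h)

theorem rs_isCoprime_iff {a b : R K} (hab : a ≠ 0 ∨ b ≠ 0) :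
    IsCoprime a b ↔ ∀ p, Prime p → p ∣ a → ¬ p ∣ b := by
  constructor
  · intro h p hp h1 h2
    exact hp.not_isUnit (h.isUnit_of_dvd' h1 h2)
  · intro h
    exact isCoprime_of_prime_dvd (fun h0 => hab.elim (fun h => h h0.1) (fun h => h h0.2)) h

theorem psiS_congr {q : R K} (hq : q ≠ 0) {x y : R K} (h : q ∣ x - y) :
    psiS ((x : K) / q) = psiS ((y : K) / q) := by
  obtain ⟨k, hk⟩ := h
  have h1 : x = y + q * k := by linear_combination hk
  have h2 := coeR_ne hq
  have h3 : (x : K) / q = (y : K) / q + k := by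
    rw [h1]; push_cast; field_simp
  rw [h3, psiS_add, psiS_R k.2, mul_one]

theorem psiS_div_eq_one_iff {q : R K} (hq : q ≠ 0) (n : R K) :
    (∀ x : R K, psiS ((n : K) * x / q) = 1) ↔ q ∣ n := by
  rw [dvd_iff_div_mem hq]
  constructor
  · intro h
    apply psiS_perfect
    intro a ha
    have := h ⟨a, ha⟩
    rwa [div_mul_eq_mul_div]
  · intro h x
    apply psiS_R
    rw [← div_mul_eq_mul_div]
    exact (R K).mul_mem h x.2

theorem rs_mk_eq {q x y : R K} :
    Ideal.Quotient.mk (Ideal.span {q}) x = Ideal.Quotient.mk (Ideal.span {q}) y ↔ q ∣ x - y := by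
  rw [Ideal.Quotient.eq, Ideal.mem_span_singleton]

theorem rs_mem {q : R K} (hq : q ≠ 0) {x : R K} :
    x ∈ rs q ↔ ∃ y : R K ⧸ Ideal.span {q}, y.out = x := by
  have := finite_quot hq
  unfold rs
  rw [dif_pos (Set.finite_range _)]
  simp

theorem rs_out_mem {q : R K} (hq : q ≠ 0) (y : R K ⧸ Ideal.span {q}) : y.out ∈ rs q :=
  (rs_mem hq).2 ⟨y, rfl⟩

theorem rs_dvd_out (q x : R K) : q ∣ x - (Ideal.Quotient.mk (Ideal.span {q}) x).out := by
  rw [← rs_mk_eq, Ideal.Quotient.mk_out]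

theorem rs_exists {q : R K} (hq : q ≠ 0) (x : R K) : ∃ y ∈ rs q, q ∣ x - y :=
  ⟨_, rs_out_mem hq _, rs_dvd_out q x⟩

theorem rs_inj {q x y : R K} (hx : x ∈ rs q) (hy : y ∈ rs q) (h : q ∣ x - y) : x = y := by
  unfold rs at hx hy
  split_ifs at hx hy with hf
  · simp only [Set.Finite.mem_toFinset, Set.mem_range] at hx hy
    obtain ⟨a, rfl⟩ := hx
    obtain ⟨b, rfl⟩ := hy
    rw [← rs_mk_eq, Ideal.Quotient.mk_out, Ideal.Quotient.mk_out] at h
    rw [h]
  · simp at hx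

theorem rs_eq_image {q : R K} (hq : q ≠ 0) [Fintype (R K ⧸ Ideal.span {q})] :
    rs q = Finset.univ.image (fun y : R K ⧸ Ideal.span {q} => y.out) := by
  ext x
  rw [rs_mem hq]
  simp

theorem rs_out_inj (q : R K) : Function.Injective (fun y : R K ⧸ Ideal.span {q} => y.out) :=
  fun _ _ h => Quotient.out_injective h

theorem card_rs {q : R K} (hq : q ≠ 0) : (rs q).card = Nm q := by
  have := finite_quot hq
  have := Fintype.ofFinite (R K ⧸ Ideal.span {q})
  rw [rs_eq_image hq, Finset.card_image_of_injective _ (rs_out_inj q), Nm,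
    Nat.card_eq_fintype_card, Finset.card_univ]

theorem sum_rs_eq_sum_quot {q : R K} (hq : q ≠ 0) [Fintype (R K ⧸ Ideal.span {q})]
    {M : Type*} [AddCommMonoid M] (F : R K ⧸ Ideal.span {q} → M) :
    ∑ x ∈ rs q, F (Ideal.Quotient.mk _ x) = ∑ y, F y := by
  rw [rs_eq_image hq, Finset.sum_image (rs_out_inj q).injOn]
  simp only [Ideal.Quotient.mk_out]

theorem sum_rs_eq_of_complete {q : R K} (hq : q ≠ 0) {ι : Type*} (s : Finset ι) (φ : ι → R K)
    (hinj : ∀ i ∈ s, ∀ j ∈ s, q ∣ φ i - φ j → i = j) (hsurj : ∀ x, ∃ i ∈ s, q ∣ x - φ i)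
    {f : R K → ℂ} (hf : Per q f) : ∑ x ∈ rs q, f x = ∑ i ∈ s, f (φ i) := by
  symm
  refine Finset.sum_bij (fun i _ => (Ideal.Quotient.mk (Ideal.span {q}) (φ i)).out)
    (fun i _ => rs_out_mem hq _) (fun i hi j hj h => ?_) (fun x hx => ?_) (fun i _ => ?_)
  · exact hinj i hi j hj (rs_mk_eq.1 (Quotient.out_injective h))
  · obtain ⟨i, hi, h⟩ := hsurj x
    refine ⟨i, hi, (rs_inj hx (rs_out_mem hq _) ?_).symm⟩
    have := dvd_add h (rs_dvd_out q (φ i))
    rwa [sub_add_sub_cancel] at this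
  · exact hf _ _ (rs_dvd_out q _)

theorem sum_rs_add {q : R K} (hq : q ≠ 0) {f : R K → ℂ} (hf : Per q f) (a : R K) :
    ∑ x ∈ rs q, f (x + a) = ∑ x ∈ rs q, f x := by
  refine (sum_rs_eq_of_complete hq (rs q) (fun x => x + a) (fun i hi j hj h => ?_)
    (fun x => ?_) hf).symm
  · exact rs_inj hi hj (by simpa using h)
  · obtain ⟨y, hy, h⟩ := rs_exists hq (x - a)
    exact ⟨y, hy, by convert h using 1; ring⟩

theorem sum_rs_mul {q t : R K} (hq : q ≠ 0) (ht : IsCoprime t q) {f : R K → ℂ} (hf : Per q f) :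
    ∑ x ∈ rs q, f (t * x) = ∑ x ∈ rs q, f x := by
  refine (sum_rs_eq_of_complete hq (rs q) (fun x => t * x) (fun i hi j hj h => ?_)
    (fun x => ?_) hf).symm
  · rw [← mul_sub] at h
    exact rs_inj hi hj (ht.symm.dvd_of_dvd_mul_left h)
  · obtain ⟨a, b, hab⟩ := ht
    obtain ⟨y, hy, k, hk⟩ := rs_exists hq (a * x)
    exact ⟨y, hy, b * x + t * k, by linear_combination (-x) * hab + t * hk⟩

theorem sum_rs_assoc {q q' : R K} (hq : q ≠ 0) (h : Associated q q') {f : R K → ℂ} (hf : Per q f) :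
    ∑ x ∈ rs q', f x = ∑ x ∈ rs q, f x := by
  have hq' : q' ≠ 0 := (h.ne_zero_iff).1 hq
  refine (sum_rs_eq_of_complete hq (rs q') (fun x => x) (fun i hi j hj hd => ?_)
    (fun x => ?_) hf).symm
  · exact rs_inj hi hj (h.symm.dvd.trans hd)
  · obtain ⟨y, hy, hd⟩ := rs_exists hq' x
    exact ⟨y, hy, h.dvd.trans hd⟩

theorem sum_rs_crt {q1 q2 : R K} (h1 : q1 ≠ 0) (h2 : q2 ≠ 0) (h : IsCoprime q1 q2) {f : R K → ℂ}
    (hf : Per (q1 * q2) f) :
    ∑ x ∈ rs (q1 * q2), f x = ∑ x1 ∈ rs q1, ∑ x2 ∈ rs q2, f (x1 * q2 + x2 * q1) := by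
  rw [← Finset.sum_product']
  refine sum_rs_eq_of_complete (mul_ne_zero h1 h2) (rs q1 ×ˢ rs q2)
    (fun p => p.1 * q2 + p.2 * q1) (fun i hi j hj hd => ?_) (fun x => ?_) hf
  · rw [Finset.mem_product] at hi hj
    obtain ⟨k, hk⟩ := hd
    have a1 : q1 ∣ (i.1 - j.1) * q2 := ⟨q2 * k - (i.2 - j.2), by linear_combination hk⟩
    have a2 : q2 ∣ (i.2 - j.2) * q1 := ⟨q1 * k - (i.1 - j.1), by linear_combination hk⟩
    exact Prod.ext (rs_inj hi.1 hj.1 (h.dvd_of_dvd_mul_right a1))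
      (rs_inj hi.2 hj.2 (h.symm.dvd_of_dvd_mul_right a2))
  · obtain ⟨a, b, hab⟩ := h
    obtain ⟨y1, hy1, k1, hk1⟩ := rs_exists h1 (b * x)
    obtain ⟨y2, hy2, k2, hk2⟩ := rs_exists h2 (a * x)
    exact ⟨(y1, y2), Finset.mem_product.2 ⟨hy1, hy2⟩, k1 + k2,
      by linear_combination (-x) * hab + q2 * hk1 + q1 * hk2⟩

theorem sum_rs_split {q q' : R K} (hq : q ≠ 0) (hq' : q' ≠ 0) {f : R K → ℂ} (hf : Per (q * q') f) :
    ∑ x ∈ rs (q * q'), f x = ∑ x ∈ rs q, ∑ j ∈ rs q', f (x + q * j) := by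
  rw [← Finset.sum_product']
  refine sum_rs_eq_of_complete (mul_ne_zero hq hq') (rs q ×ˢ rs q')
    (fun p => p.1 + q * p.2) (fun i hi j hj hd => ?_) (fun x => ?_) hf
  · rw [Finset.mem_product] at hi hj
    obtain ⟨k, hk⟩ := hd
    have a1 : i.1 = j.1 := rs_inj hi.1 hj.1 ⟨q' * k - (i.2 - j.2), by linear_combination hk⟩
    have a2 : q * (i.2 - j.2) = q * (q' * k) := by linear_combination hk - a1
    exact Prod.ext a1 (rs_inj hi.2 hj.2 ⟨k, mul_left_cancel₀ hq a2⟩)
  · obtain ⟨y1, hy1, k1, hk1⟩ := rs_exists hq x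
    obtain ⟨y2, hy2, k2, hk2⟩ := rs_exists hq' k1
    exact ⟨(y1, y2), Finset.mem_product.2 ⟨hy1, hy2⟩, k2,
      by linear_combination hk1 + q * hk2⟩

theorem rs_per_psi {q : R K} (hq : q ≠ 0) (n : R K) :
    Per q (fun x => psiS ((n : K) * x / q)) := by
  intro x y h
  simp only [← Subring.coe_mul]
  apply psiS_congr hq
  rw [← mul_sub]
  exact dvd_mul_of_dvd_right h _

theorem sum_psi {q : R K} (hq : q ≠ 0) (n : R K) :
    ∑ x ∈ rs q, psiS ((n : K) * x / q) = if q ∣ n then ((N q : ℝ) : ℂ) else 0 := by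
  split_ifs with h
  · rw [Finset.sum_congr rfl (fun x _ => (psiS_div_eq_one_iff hq n).2 h x)]
    simp [card_rs hq, N]
  · rw [← psiS_div_eq_one_iff hq] at h
    push Not at h
    obtain ⟨a, ha⟩ := h
    have h1 := sum_rs_add hq (rs_per_psi hq n) a
    have h2 : ∀ x : R K, psiS ((n : K) * ((x + a : R K) : K) / q) =
        psiS ((n : K) * a / q) * psiS ((n : K) * x / q) := by
      intro x
      rw [← psiS_add, Subring.coe_add]
      congr 1; ring
    simp only [h2] at h1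
    rw [← Finset.mul_sum] at h1
    have h3 : (psiS ((n : K) * a / q) - 1) * ∑ x ∈ rs q, psiS ((n : K) * x / q) = 0 := by
      linear_combination h1
    exact (mul_eq_zero.1 h3).resolve_left (sub_ne_zero.2 ha)

theorem sum_class {q : R K} (hq : q ≠ 0) (n : R K) (z : ℂ) :
    ∑ c ∈ rs q, (if q ∣ n - c then z else 0) = z := by
  obtain ⟨y, hy, h⟩ := rs_exists hq n
  rw [Finset.sum_eq_single_of_mem y hy, if_pos h]
  intro c hc hne
  rw [if_neg]
  intro h2
  apply hne
  apply rs_inj hc hy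
  have := dvd_sub h h2
  convert this using 1; ring

theorem fourier_rs {M : R K} (hM : M ≠ 0) {f : R K → ℂ} (hf : Per M f) (hb : ∀ x, ‖f x‖ ≤ 1) :
    ∃ c : R K → ℂ, Per M c ∧ ∑ x ∈ rs M, ‖c x‖ ^ 2 ≤ 1 ∧
      ∀ n, f n = ∑ x ∈ rs M, c x * psiS ((n : K) * x / M) := by
  have hN : (0 : ℝ) < N M := N_pos hM
  have hN' : ((N M : ℝ) : ℂ) ≠ 0 := by exact_mod_cast hN.ne'
  set c : R K → ℂ := fun x => ((N M : ℝ) : ℂ)⁻¹ * ∑ y ∈ rs M, f y * psiS (((-y : R K) : K) * x / M)
    with hc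
  have inv : ∀ n, f n = ∑ x ∈ rs M, c x * psiS ((n : K) * x / M) := by
    intro n
    have h1 : ∀ x : R K, c x * psiS ((n : K) * x / M) =
        ∑ y ∈ rs M, ((N M : ℝ) : ℂ)⁻¹ * f y * psiS (((n - y : R K) : K) * x / M) := by
      intro x
      rw [hc]
      simp only
      rw [Finset.mul_sum, Finset.sum_mul]
      refine Finset.sum_congr rfl (fun y _ => ?_)
      have : psiS (((n - y : R K) : K) * x / M) =
          psiS (((-y : R K) : K) * x / M) * psiS ((n : K) * x / M) := by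
        rw [← psiS_add]; congr 1; push_cast; ring
      rw [this]; ring
    simp only [h1]
    rw [Finset.sum_comm, ← sum_class hM n (f n)]
    refine Finset.sum_congr rfl (fun y _ => ?_)
    rw [← Finset.mul_sum, sum_psi hM]
    split_ifs with h
    · rw [hf n y h]; field_simp
    · simp
  refine ⟨c, fun x y h => ?_, ?_, inv⟩
  · rw [hc]
    simp only
    congr 1
    refine Finset.sum_congr rfl (fun z _ => ?_)
    have := rs_per_psi hM (-z) x y h
    simp only at this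
    rw [this]
  · have h1 : ∀ x : R K, ((‖c x‖ ^ 2 : ℝ) : ℂ) =
        ∑ y ∈ rs M, ((N M : ℝ) : ℂ)⁻¹ * conj (f y) * (c x * psiS ((y : K) * x / M)) := by
      intro x
      have h2 : conj (c x) =
          ∑ y ∈ rs M, ((N M : ℝ) : ℂ)⁻¹ * conj (f y) * psiS ((y : K) * x / M) := by
        rw [hc]
        simp only
        rw [map_mul, map_sum, Finset.mul_sum]
        refine Finset.sum_congr rfl (fun y _ => ?_)
        rw [map_mul, ← psiS_neg, map_inv₀, Complex.conj_ofReal, Subring.coe_neg, mul_assoc]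
        congr 3; ring
      rw [Complex.ofReal_pow, ← Complex.mul_conj', h2, Finset.mul_sum]
      exact Finset.sum_congr rfl (fun y _ => by ring)
    have h3 : ((∑ x ∈ rs M, ‖c x‖ ^ 2 : ℝ) : ℂ) = ((∑ y ∈ rs M, (N M)⁻¹ * ‖f y‖ ^ 2 : ℝ) : ℂ) := by
      rw [Complex.ofReal_sum, Complex.ofReal_sum]
      simp only [h1]
      rw [Finset.sum_comm]
      refine Finset.sum_congr rfl (fun y _ => ?_)
      rw [← Finset.mul_sum, ← inv y, Complex.ofReal_mul, Complex.ofReal_pow, ← Complex.mul_conj',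
        Complex.ofReal_inv]
      ring
    rw [Complex.ofReal_inj.1 h3]
    calc ∑ y ∈ rs M, (N M)⁻¹ * ‖f y‖ ^ 2 ≤ ∑ y ∈ rs M, (N M)⁻¹ := by
          refine Finset.sum_le_sum (fun y _ => ?_)
          exact mul_le_of_le_one_right (inv_nonneg.2 hN.le) (pow_le_one₀ (norm_nonneg _) (hb y))
      _ = 1 := by
          rw [Finset.sum_const, card_rs hM, nsmul_eq_mul]
          exact mul_inv_cancel₀ hN.ne'

theorem exists_crt {q1 q2 : R K} (h : IsCoprime q1 q2) (a b : R K) :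
    ∃ x, q1 ∣ x - a ∧ q2 ∣ x - b := by
  obtain ⟨u, v, huv⟩ := h
  exact ⟨a * v * q2 + b * u * q1, ⟨(b - a) * u, by linear_combination a * huv⟩,
    ⟨(a - b) * v, by linear_combination b * huv⟩⟩

theorem exists_coprime_shift {c d e : R K} (hc : c ≠ 0) (h : IsCoprime d e) :
    ∃ k, IsCoprime c (d + k * e) := by
  refine ⟨((UniqueFactorizationMonoid.factors c).filter (fun p => ¬ p ∣ d)).prod, ?_⟩
  rw [rs_isCoprime_iff (Or.inl hc)]
  intro p hp hpc hpd
  by_cases hd : p ∣ d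
  · rcases hp.dvd_or_dvd ((dvd_add_right hd).1 hpd) with h1 | h1
    · obtain ⟨r, hr, hpr⟩ := hp.exists_mem_multiset_dvd h1
      rw [Multiset.mem_filter] at hr
      have hr' := UniqueFactorizationMonoid.irreducible_of_factor r hr.1
      exact hr.2 ((hp.irreducible.associated_of_dvd hr' hpr).symm.dvd.trans hd)
    · exact hp.not_isUnit (h.isUnit_of_dvd' hd h1)
  · obtain ⟨r, hr, hpr⟩ := UniqueFactorizationMonoid.exists_mem_factors_of_dvd hc hp.irreducible hpc
    have h1 : r ∈ (UniqueFactorizationMonoid.factors c).filter (fun p => ¬ p ∣ d) :=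
      Multiset.mem_filter.2 ⟨hr, fun h => hd (hpr.dvd.trans h)⟩
    have h2 := hpr.dvd.trans (Multiset.dvd_prod h1)
    exact hd ((dvd_add_left (dvd_mul_of_dvd_left h2 e)).1 hpd)
/-- Fermat's little theorem -/

theorem fermat {p x : R K} (hp : Prime p) (hx : ¬ p ∣ x) : p ∣ x ^ (Nm p - 1) - 1 := by
  have := finite_quot hp.ne_zero
  have := Fintype.ofFinite (R K ⧸ Ideal.span {p})
  have hmax : (Ideal.span {p}).IsMaximal :=
    PrincipalIdealRing.isMaximal_of_irreducible hp.irreducible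
  let _ := Ideal.Quotient.field (Ideal.span {p})
  have h0 : Ideal.Quotient.mk (Ideal.span {p}) x ≠ 0 := by
    rw [Ne, Ideal.Quotient.eq_zero_iff_mem, Ideal.mem_span_singleton]; exact hx
  have h1 := FiniteField.pow_card_sub_one_eq_one _ h0
  rw [← Nat.card_eq_fintype_card, natCard_quot] at h1
  rw [← rs_mk_eq, map_pow, map_one]
  exact h1


end

end Vale.Agent.P319N
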