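import Vale.Agent.P319N.Nrm
import Vale.Agent.P319N.Psi
import Vale.Agent.P319N.Rs

namespace Vale.Agent.P319N

open NumberField Complex MeasureTheory Filter Topology
open scoped Classical ComplexConjugate Real nonZeroDivisors
open Vale.Agent.P026 (omC kap psi W)

noncomputable section

variable {K : Type} [Field K] [NumberField K] [Setup K]

theorem latb_mul {y x z a : K} (ha : IsI a) (hz : z ∈ LL2 y x) : a * z ∈ LL2 y x :=
  ⟨by rw [mul_div_assoc]; exact (R K).mul_mem (mem_R_of_isI ha) hz.1,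
    by rw [mul_div_assoc]; exact (A K).mul_mem (mem_A_of_isI ha) hz.2⟩

theorem latb_span (b : Module.Basis (Ix K) ℚ K) (z : K) :
    z ∈ Submodule.span ℤ (Set.range b) ↔ ∃ c, z = cmb b c := by
  rw [Submodule.mem_span_range_iff_exists_fun]
  simp only [cmb, zsmul_eq_mul, eq_comm]

theorem exists_basis {y x : K} (hy : y ≠ 0) (hx : x ≠ 0) : ∃ b : Module.Basis (Ix K) ℚ K,
    (∀ z, z ∈ LL2 y x ↔ ∃ c, z = cmb b c) ∧
    |(((integralBasis K).det b : ℚ) : ℝ)| = absN y / sN y * sN x := by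
  obtain ⟨t0, ht0, ht⟩ := exists_integral_multiples ℤ ℚ ({y, x} : Finset K)
  obtain ⟨t, ht', hty, htx⟩ : ∃ t : K, t ≠ 0 ∧ IsI (t * y) ∧ IsI (t * x) :=
    ⟨t0, Int.cast_ne_zero.2 ht0, by simpa [zsmul_eq_mul] using ht y (by simp),
      by simpa [zsmul_eq_mul] using ht x (by simp)⟩
  have y0 := mul_ne_zero ht' hy
  have x0 := mul_ne_zero ht' hx
  let I : Ideal (𝓞 K) :=
    { carrier := {a | (a : K) ∈ LL2 (t * y) (t * x)}
      zero_mem' := by simpa using (LL2 (t * y) (t * x)).zero_mem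
      add_mem' := fun ha hb => by simpa using (LL2 (t * y) (t * x)).add_mem ha hb
      smul_mem' := fun a b hb => by simpa using latb_mul a.isIntegral_coe hb }
  have hI : ∀ z : K, z ∈ (I : FractionalIdeal (𝓞 K)⁰ K) ↔ z ∈ LL2 (t * y) (t * x) := fun z => by
    rw [FractionalIdeal.mem_coeIdeal]
    refine ⟨?_, fun h => ⟨⟨z, isI_of_mem ?_ ?_⟩, h, rfl⟩⟩
    · rintro ⟨a, ha, rfl⟩
      exact ha
    · rw [← mul_div_cancel₀ z y0]
      exact (R K).mul_mem (mem_R_of_isI hty) h.1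
    · rw [← mul_div_cancel₀ z x0]
      exact (A K).mul_mem (mem_A_of_isI htx) h.2
  have I0 : (I : FractionalIdeal (𝓞 K)⁰ K) ≠ 0 := fun h => by
    have : t * y * (t * x) ∈ (I : FractionalIdeal (𝓞 K)⁰ K) := (hI _).2
      ⟨by rw [mul_div_cancel_left₀ _ y0]; exact mem_R_of_isI htx,
        by rw [mul_div_cancel_right₀ _ x0]; exact mem_A_of_isI hty⟩
    rw [h, FractionalIdeal.mem_zero_iff] at this
    exact mul_ne_zero y0 x0 this
  have nI : (Ideal.absNorm I : ℝ) = absN (t * y) / sN (t * y) * sN (t * x) := by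
    have h1 := index_LL2 (y := ⟨t * y, mem_R_of_isI hty⟩) (x := ⟨t * x, mem_A_of_isI htx⟩)
      (fun h => y0 (congrArg Subtype.val h)) (fun h => x0 (congrArg Subtype.val h))
    have h2 := absN_eq (x := ⟨t * y, mem_R_of_isI hty⟩) fun h => y0 (congrArg Subtype.val h)
    have h3 : (algebraMap (𝓞 K) K).toAddMonoidHom.range = LL2 (1 : K) 1 := by
      ext z
      refine ⟨?_, fun h => ⟨⟨z, isI_of_mem (by simpa using h.1) (by simpa using h.2)⟩, rfl⟩⟩
      rintro ⟨a, rfl⟩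
      exact ⟨by simpa using mem_R_of_isI a.isIntegral_coe,
        by simpa using mem_A_of_isI a.isIntegral_coe⟩
    rw [← h3, ← AddSubgroup.index_comap] at h1
    rw [h2, mul_div_cancel_right₀ _ (sN_pos _).ne', ← h1]
    rfl
  let J : (FractionalIdeal (𝓞 K)⁰ K)ˣ := Units.mk0 (FractionalIdeal.spanSingleton (𝓞 K)⁰ t⁻¹ * I)
    (mul_ne_zero (FractionalIdeal.spanSingleton_ne_zero_iff.2 (inv_ne_zero ht')) I0)
  have e : Ix K ≃ Module.Free.ChooseBasisIndex ℤ J := Fintype.equivOfCardEq (by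
    rw [← Module.finrank_eq_card_chooseBasisIndex, ← Module.finrank_eq_card_chooseBasisIndex,
      fractionalIdeal_rank])
  refine ⟨(basisOfFractionalIdeal K J).reindex e.symm, fun z => ?_, ?_⟩
  · rw [← latb_span, Module.Basis.range_reindex, mem_span_basisOfFractionalIdeal]
    change _ ↔ z ∈ FractionalIdeal.spanSingleton (𝓞 K)⁰ t⁻¹ * I
    rw [FractionalIdeal.mem_singleton_mul]
    refine ⟨fun h => ⟨t * z, (hI _).2 ?_, by rw [inv_mul_cancel_left₀ ht']⟩, ?_⟩
    · exact ⟨by rw [mul_div_mul_left _ _ ht']; exact h.1,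
        by rw [mul_div_mul_left _ _ ht']; exact h.2⟩
    · rintro ⟨w, hw, rfl⟩
      rw [hI] at hw
      exact ⟨by rw [← div_eq_inv_mul, div_div]; exact hw.1,
        by rw [← div_eq_inv_mul, div_div]; exact hw.2⟩
  · have h : _ = FractionalIdeal.absNorm (FractionalIdeal.spanSingleton (𝓞 K)⁰ t⁻¹ *
        (I : FractionalIdeal (𝓞 K)⁰ K)) :=
      det_basisOfFractionalIdeal_eq_absNorm K J e
    rw [map_mul, FractionalIdeal.absNorm_span_singleton, FractionalIdeal.coeIdeal_absNorm] at h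
    rw [← Rat.cast_abs, h, Rat.cast_mul, Rat.cast_abs, Rat.cast_natCast, nI,
      show |((Algebra.norm ℚ t⁻¹ : ℚ) : ℝ)| = absN t⁻¹ from rfl, absN_inv, absN_mul,
      sN_mul ht' hy, sN_mul ht' hx]
    have := absN_pos ht'
    have := sN_pos t
    have := sN_pos y
    field_simp

theorem latb_cmb (b : Module.Basis (Ix K) ℚ K) (c : Ix K → ℤ) :
    cmb b c = b.equivFun.symm fun i => (c i : ℚ) := by
  simp [cmb, Algebra.smul_def]

theorem cmb_inj (b : Module.Basis (Ix K) ℚ K) : Function.Injective (cmb b) := fun c c' h => by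
  rw [latb_cmb, latb_cmb] at h
  funext i
  exact_mod_cast congrFun (b.equivFun.symm.injective h) i

theorem exists_dual (b : Module.Basis (Ix K) ℚ K) : ∃ b' : Module.Basis (Ix K) ℚ K,
    (∀ i j, trK (b' i * b j) = if i = j then 1 else 0) ∧
    ∀ n : K, (∀ c, psiK (n * cmb b c) = 1) ↔ ∃ k, n = cmb b' k := by
  obtain ⟨b', hb'⟩ : ∃ b' : Module.Basis (Ix K) ℚ K, ∀ i, b' i = lamK K * b.traceDual i :=
    ⟨b.traceDual.map ((Units.mk0 _ lamK_ne).mulLeftLinearEquiv ℚ K), fun i => by simp⟩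
  have h1 : ∀ i j, trK (b' i * b j) = if i = j then 1 else 0 := fun i j => by
    rw [trK, hb', mul_assoc, mul_div_cancel_left₀ _ lamK_ne, Module.Basis.trace_traceDual_mul]
    simp only [eq_comm]
  have lin : ∀ (a : Ix K → ℚ) (v : Ix K → K) (z : K),
      trK ((∑ i, a i • v i) * z) = ∑ i, a i * trK (v i * z) := fun a v z => by
    simp only [trK, Finset.sum_mul, Finset.sum_div, map_sum, smul_mul_assoc, smul_div_assoc,
      map_smul, smul_eq_mul]
  have cm : ∀ (b : Module.Basis (Ix K) ℚ K) (c : Ix K → ℤ), cmb b c = ∑ i, (c i : ℚ) • b i :=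
    fun b c => by simp [cmb, Algebra.smul_def]
  refine ⟨b', h1, fun n => ⟨fun h => ?_, ?_⟩⟩
  · have : ∀ j, ∃ k : ℤ, trK (n * b j) = k := fun j => by
      have := h (Pi.single j 1)
      rw [psiK_eq_one_iff, cm, Finset.sum_eq_single j (fun i _ hi => by simp [hi]) (by simp)]
        at this
      simpa using this
    choose k hk using this
    refine ⟨k, ?_⟩
    rw [cm, ← b'.sum_repr n]
    refine Finset.sum_congr rfl fun j _ => ?_
    rw [← hk, ← b'.sum_repr n, lin]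
    simp [h1]
  · rintro ⟨k, rfl⟩ c
    refine (psiK_eq_one_iff _).2 ⟨∑ i, k i * c i, ?_⟩
    rw [cm, lin]
    push_cast
    refine Finset.sum_congr rfl fun i _ => ?_
    rw [mul_comm (b' i), cm, lin]
    simp [mul_comm (b _), h1]

theorem exists_repsL {y x y' x' : K} (hy : y ≠ 0) (hx : x ≠ 0) (hy' : y' ≠ 0) (hx' : x' ≠ 0) :
    ∃ T : Finset K, RepsL (LL2 y x) (LL2 y' x') T := by
  obtain ⟨b, hb, -⟩ := exists_basis hy hx
  let φ : (Ix K → ℤ) →+ K :=
    { toFun := cmb b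
      map_zero' := by simp [cmb]
      map_add' := fun c c' => by simp [cmb, add_mul, Finset.sum_add_distrib] }
  have e : φ.range = LL2 y x := by
    ext z
    rw [hb, AddMonoidHom.mem_range]
    exact exists_congr fun c => eq_comm
  have : AddGroup.FG (Ix K → ℤ) := Module.Finite.iff_addGroup_fg.1 inferInstance
  have : AddGroup.FG (LL2 y x) := e ▸ AddGroup.fg_range φ
  have : Finite (LL2 y x ⧸ (LL2 y' x').addSubgroupOf (LL2 y x)) := by
    refine AddCommGroup.finite_of_fg_isAddTorsion _ fun c => ?_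
    obtain ⟨m, rfl⟩ := QuotientAddGroup.mk_surjective c
    obtain ⟨n, -, n0, hn⟩ := exists_mul_mem_R ((m : K) / y')
    obtain ⟨j, hj⟩ := exists_mul_mem_A ((m : K) / x')
    refine isOfFinAddOrder_iff_nsmul_eq_zero.2 ⟨n * Setup.M K ^ j,
      Nat.pos_of_ne_zero (mul_ne_zero n0 (pow_ne_zero _ Setup.Mne)), ?_⟩
    rw [← QuotientAddGroup.mk_nsmul, QuotientAddGroup.eq_zero_iff, AddSubgroup.mem_addSubgroupOf,
      AddSubgroup.coe_nsmul, nsmul_eq_mul]
    push_cast
    exact ⟨by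
      rw [mul_right_comm, mul_comm, mul_div_assoc, mul_div_assoc]
      exact (R K).mul_mem ((R K).pow_mem (natCast_mem _ _) _) hn, by
      rw [mul_assoc, mul_div_assoc, mul_div_assoc]
      exact (A K).mul_mem (natCast_mem _ _) hj⟩
  have := Fintype.ofFinite (LL2 y x ⧸ (LL2 y' x').addSubgroupOf (LL2 y x))
  refine ⟨Finset.univ.image fun c : LL2 y x ⧸ (LL2 y' x').addSubgroupOf (LL2 y x) =>
    ((c.out : LL2 y x) : K), fun t ht => ?_, fun m hm => ?_⟩
  · obtain ⟨c, -, rfl⟩ := Finset.mem_image.1 ht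
    exact c.out.2
  · have key : ∀ c : LL2 y x ⧸ (LL2 y' x').addSubgroupOf (LL2 y x),
        m - ((c.out : LL2 y x) : K) ∈ LL2 y' x' ↔ c = ((⟨m, hm⟩ : LL2 y x) : _ ⧸ _) := fun c => by
      conv_rhs => rw [← c.out_eq', QuotientAddGroup.eq, AddSubgroup.mem_addSubgroupOf]
      rw [sub_eq_neg_add]
      rfl
    refine ⟨_, ⟨Finset.mem_image_of_mem _ (Finset.mem_univ _), (key _).2 rfl⟩, ?_⟩
    rintro t ⟨ht, h⟩
    obtain ⟨c, -, rfl⟩ := Finset.mem_image.1 ht
    rw [(key c).1 h]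

/-- residues of `R` modulo `q` are represented inside `LL2 1 x` -/
theorem sum_repsL {q : R K} (hq : q ≠ 0) {x : K} (hx : x ≠ 0) {T : Finset K}
    (hT : RepsL (LL2 1 x) (LL2 (q : K) x) T) {f : K → ℂ}
    (hf : ∀ a b : K, a ∈ R K → (b - a) / q ∈ R K → f b = f a) :
    ∑ t ∈ T, f t = ∑ a ∈ rs q, f (a : K) := by
  have q0 : (q : K) ≠ 0 := fun h => hq (Subtype.ext h)
  have hR : ∀ t : T, (t : K) ∈ R K := fun t => by simpa using (hT.1 t t.2).1
  rw [sum_rs_eq_of_complete hq T.attach (fun t => ⟨t, hR t⟩) (f := fun a => f a), Finset.sum_attach]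
  · intro i _ j _ h
    have h1 : (i : K) - j ∈ LL2 (q : K) x := ⟨(dvd_iff_div_mem hq).1 h, by
      rw [sub_div]
      exact (A K).sub_mem (hT.1 i i.2).2 (hT.1 j j.2).2⟩
    exact Subtype.ext ((hT.2 i (hT.1 i i.2)).unique ⟨i.2, by simp⟩ ⟨j.2, h1⟩)
  · intro a
    obtain ⟨r, h1, h2⟩ := approx q0 hx (a : K) 0
    have h3 : r ∈ LL2 1 x := ⟨by
      rw [div_one, ← sub_add_cancel r a, ← mul_div_cancel₀ (r - a) q0]
      exact (R K).add_mem ((R K).mul_mem q.2 h1) a.2, by simpa using h2⟩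
    obtain ⟨t, ⟨ht, h4⟩, -⟩ := hT.2 r h3
    refine ⟨⟨t, ht⟩, Finset.mem_attach _ _, (dvd_iff_div_mem hq).2 ?_⟩
    have := (R K).sub_mem h4.1 h1
    rwa [← sub_div, sub_sub_sub_cancel_left] at this
  · intro a b h
    exact hf _ _ b.2 ((dvd_iff_div_mem hq).1 h)

theorem tsum_repsL {L L' : AddSubgroup K} (h : L' ≤ L) {T : Finset K} (hT : RepsL L L' T)
    {F : K → ℂ} (hF : Summable fun m => if m ∈ L then F m else 0) :
    ∑' m, (if m ∈ L then F m else 0) = ∑ t ∈ T, ∑' m, if m ∈ L' then F (m + t) else 0 := by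
  have e : ∀ t : K, ∑' m, (if m ∈ L' then F (m + t) else 0) =
      ∑' m, if m - t ∈ L' then F m else 0 := fun t => by
    rw [← (Equiv.addRight t).tsum_eq fun m => if m - t ∈ L' then F m else 0]
    simp
  have k : ∀ t ∈ T, ∀ m, m - t ∈ L' → m ∈ L := fun t ht m hm => by
    simpa using L.add_mem (h hm) (hT.1 t ht)
  rw [Finset.sum_congr rfl fun t _ => e t, ← Summable.tsum_finsetSum fun t ht => ?_]
  · refine tsum_congr fun m => ?_
    split_ifs with hm
    · obtain ⟨t, ⟨h1, h2⟩, h3⟩ := hT.2 m hm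
      rw [Finset.sum_eq_single_of_mem t h1 fun s hs hne => if_neg fun c => hne (h3 s ⟨hs, c⟩),
        if_pos h2]
    · exact (Finset.sum_eq_zero fun t ht => if_neg fun c => hm (k t ht m c)).symm
  · refine (hF.indicator {m | m - t ∈ L'}).congr fun m => ?_
    by_cases c : m - t ∈ L'
    · simp [c, k t ht m c]
    · simp [c]

end

end Vale.Agent.P319N
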