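import Vale.Agent.P319N.Cls

namespace Vale.Agent.P319N

open NumberField Complex MeasureTheory Filter Topology
open scoped Classical ComplexConjugate Real
open Vale.Agent.P026 (omC kap psi W)

noncomputable section

variable {K : Type} [Field K] [NumberField K] [Level K]

theorem mkM_lft (n : MM K) : mkM (lft n) = n := (mkM_surj n).choose_spec

theorem mkM_eq_iff {a b : R K} :
    mkM a = mkM b ↔ ∃ u : (R K)ˣ, clsK ((u : R K) : K) = 1 ∧ b = u * a := Con.eq (conU K)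

theorem lft_mkM (a : R K) : ∃ u : (R K)ˣ, clsK ((u : R K) : K) = 1 ∧ lft (mkM a) = u * a :=
  mkM_eq_iff.1 (mkM_lft _).symm

theorem lft_mul (n m : MM K) :
    ∃ u : (R K)ˣ, clsK ((u : R K) : K) = 1 ∧ lft (n * m) = u * (lft n * lft m) :=
  mkM_eq_iff.1 (by rw [map_mul, mkM_lft, mkM_lft, mkM_lft])

theorem mkM_zero : mkM (0 : R K) = (0 : MM K) := rfl

theorem mkM_eq_zero {a : R K} : mkM a = 0 ↔ a = 0 := by
  rw [← mkM_zero, eq_comm, mkM_eq_iff]
  constructor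
  · rintro ⟨u, -, h⟩; simpa using h
  · rintro rfl; exact ⟨1, by simpa using clsK_one, by simp⟩

theorem lft_eq_zero {n : MM K} : lft n = 0 ↔ n = 0 := by rw [← mkM_eq_zero, mkM_lft]

theorem mkM_dvd {a b : R K} : mkM a ∣ mkM b ↔ a ∣ b := by
  refine ⟨?_, fun h => map_dvd mkM h⟩
  rintro ⟨c, hc⟩
  obtain ⟨c, rfl⟩ := mkM_surj c
  rw [← map_mul, eq_comm, mkM_eq_iff] at hc
  obtain ⟨u, -, rfl⟩ := hc
  exact ⟨u * c, by ring⟩

theorem isUnit_mkM {a : R K} : IsUnit (mkM a) ↔ IsUnit a := by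
  rw [isUnit_iff_dvd_one, isUnit_iff_dvd_one, ← map_one mkM, mkM_dvd]

theorem prime_mkM {a : R K} : Prime (mkM a) ↔ Prime a := by
  unfold Prime
  rw [isUnit_mkM, Ne, mkM_eq_zero]
  refine and_congr Iff.rfl (and_congr Iff.rfl ⟨fun h x y hxy => ?_, fun h x y hxy => ?_⟩)
  · rw [← mkM_dvd, ← mkM_dvd]
    exact h _ _ (by rwa [← map_mul, mkM_dvd])
  · obtain ⟨x, rfl⟩ := mkM_surj x
    obtain ⟨y, rfl⟩ := mkM_surj y
    rw [mkM_dvd, mkM_dvd]
    exact h _ _ (by rwa [← map_mul, mkM_dvd] at hxy)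

theorem squarefree_mkM {a : R K} : Squarefree (mkM a) ↔ Squarefree a := by
  refine ⟨fun h x hx => ?_, fun h x hx => ?_⟩
  · exact isUnit_mkM.1 (h _ (by rwa [← map_mul, mkM_dvd]))
  · obtain ⟨x, rfl⟩ := mkM_surj x
    exact isUnit_mkM.2 (h _ (by rwa [← map_mul, mkM_dvd] at hx))

theorem isRelPrime_mkM {a b : R K} : IsRelPrime (mkM a) (mkM b) ↔ IsCoprime a b := by
  rw [← isRelPrime_iff_isCoprime]
  refine ⟨fun h x h1 h2 => ?_, fun h x h1 h2 => ?_⟩
  · exact isUnit_mkM.1 (h (mkM_dvd.2 h1) (mkM_dvd.2 h2))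
  · obtain ⟨x, rfl⟩ := mkM_surj x
    exact isUnit_mkM.2 (h (mkM_dvd.1 h1) (mkM_dvd.1 h2))

theorem mon_cancel {x y z : MM K} (hx : x ≠ 0) (h : x * y = x * z) : y = z := by
  obtain ⟨x, rfl⟩ := mkM_surj x
  obtain ⟨y, rfl⟩ := mkM_surj y
  obtain ⟨z, rfl⟩ := mkM_surj z
  rw [← map_mul, ← map_mul, mkM_eq_iff] at h
  obtain ⟨u, hu, h⟩ := h
  refine mkM_eq_iff.2 ⟨u, hu, mul_left_cancel₀ (fun e => hx (mkM_eq_zero.2 e)) ?_⟩
  rw [h]; ring

instance cancelMM : IsCancelMulZero (MM K) where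
  mul_left_cancel_of_ne_zero hx _ _ h := mon_cancel hx h
  mul_right_cancel_of_ne_zero hx _ _ h := mon_cancel hx (by simpa only [mul_comm] using h)

theorem mon_factors {a : R K} (ha : a ≠ 0) :
    (∀ b ∈ (UniqueFactorizationMonoid.factors a).map mkM, Prime b) ∧
      Associated ((UniqueFactorizationMonoid.factors a).map mkM).prod (mkM a) := by
  refine ⟨fun b hb => ?_, ?_⟩
  · obtain ⟨p, hp, rfl⟩ := Multiset.mem_map.1 hb
    exact prime_mkM.2 (UniqueFactorizationMonoid.prime_of_factor p hp)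
  · rw [← map_multiset_prod]
    exact (UniqueFactorizationMonoid.factors_prod ha).map mkM

instance ufmMM : UniqueFactorizationMonoid (MM K) :=
  UniqueFactorizationMonoid.of_exists_prime_factors fun a ha => by
    obtain ⟨a, rfl⟩ := mkM_surj a
    exact ⟨_, mon_factors fun e => ha (mkM_eq_zero.2 e)⟩

theorem card_factors_mkM (a : R K) :
    (UniqueFactorizationMonoid.factors (mkM a)).card =
      (UniqueFactorizationMonoid.factors a).card := by
  by_cases ha : a = 0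
  · subst ha; simp [mkM_zero]
  · have h := mon_factors ha
    have h0 : mkM a ≠ 0 := fun e => ha (mkM_eq_zero.1 e)
    have := UniqueFactorizationMonoid.factors_unique
      (fun x hx => UniqueFactorizationMonoid.irreducible_of_factor x hx)
      (fun x hx => (h.1 x hx).irreducible)
      ((UniqueFactorizationMonoid.factors_prod h0).trans h.2.symm)
    simpa using Multiset.card_eq_card_of_rel this

theorem mon_assoc (a : R K) : Associated (lft (mkM a)) a := by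
  obtain ⟨u, -, h⟩ := lft_mkM a
  rw [h]; exact associated_unit_mul_left _ _ u.isUnit

theorem Nm_lft (a : R K) : Nm (lft (mkM a)) = Nm a := Nm_assoc (mon_assoc a)

theorem clsK_lft (a : R K) : clsK (lft (mkM a) : K) = clsK (a : K) := by
  obtain ⟨u, hu, h⟩ := lft_mkM a
  by_cases ha : a = 0
  · rw [h, ha, mul_zero]
  · rw [h, Subring.coe_mul, clsK_mul (unit_ne u) (by exact_mod_cast ha), hu]
    exact one_mul (clsK (a : K))

theorem chi6_lft (a b : R K) : chi6 (lft (mkM a)) (lft (mkM b)) = chi6 a b := by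
  obtain ⟨u, hu, h⟩ := lft_mkM a
  rw [chi6_assoc _ (mon_assoc b), h, chi6_mul_left, chi6_triv u.isUnit hu, one_mul]

theorem gt_lft (k : ℕ) {a : R K} (ha : a ≠ 0) : gt k (lft (mkM a)) = gt k a := by
  obtain ⟨u, hu, h⟩ := lft_mkM a
  rw [h, gt_unit_mul u.isUnit ha, chi6_triv u.isUnit hu, one_pow, one_mul]

theorem mon_BB {c : GG K} : c ∈ BB K ↔ ∃ v : (R K)ˣ, clsK ((v : R K) : K) = c := by
  constructor
  · rintro ⟨u, hu, rfl⟩
    obtain ⟨v, hv⟩ := mem_unitsR.1 hu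
    exact ⟨v, by rw [hv, clsK_unit]; rfl⟩
  · rintro ⟨v, rfl⟩
    refine ⟨Units.mk0 _ (unit_ne v), mem_unitsR.2 ⟨v, rfl⟩, ?_⟩
    exact (clsK_unit (Units.mk0 _ (unit_ne v))).symm

theorem mon_sup {G : Type} [CommGroup G] {B C : Subgroup G} (hc : IsCompl B C) (x : G) :
    ∃ b ∈ B, b * x ∈ C := by
  have h : x ∈ B ⊔ C := by rw [hc.sup_eq_top]; trivial
  obtain ⟨b, hb, w, hw, rfl⟩ := Subgroup.mem_sup.1 h
  exact ⟨b⁻¹, B.inv_mem hb, by simpa using hw⟩

theorem prim_ex_MM {x : MM K} (hx : x ≠ 0) :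
    ∃ u : MM K, IsUnit u ∧ clsK (lft (u * x) : K) ∈ OmG K := by
  obtain ⟨a, rfl⟩ := mkM_surj x
  have ha : (a : K) ≠ 0 := by exact_mod_cast fun e => hx (mkM_eq_zero.2 e)
  obtain ⟨b, hb, hw⟩ := mon_sup (isCompl_OmG (K := K)) (clsK (a : K))
  obtain ⟨v, hv⟩ := mon_BB.1 hb
  refine ⟨mkM v, isUnit_mkM.2 v.isUnit, ?_⟩
  rw [← map_mul, clsK_lft, Subring.coe_mul, clsK_mul (unit_ne v) ha, hv]
  exact hw

theorem prim_unit_MM {u : MM K} (hu : IsUnit u) (h : clsK (lft u : K) ∈ OmG K) : u = 1 := by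
  obtain ⟨a, rfl⟩ := mkM_surj u
  obtain ⟨v, rfl⟩ := isUnit_mkM.1 hu
  rw [clsK_lft] at h
  have h1 : clsK ((v : R K) : K) ∈ BB K ⊓ OmG K := ⟨mon_BB.2 ⟨v, rfl⟩, h⟩
  rw [isCompl_OmG.inf_eq_bot, Subgroup.mem_bot] at h1
  rw [← map_one mkM, eq_comm, mkM_eq_iff]
  exact ⟨v, h1, by simp⟩

theorem mem_U0 {u : Kˣ} :
    u ∈ U0 K ↔ ∃ v : (R K)ˣ, clsK ((v : R K) : K) = 1 ∧ ((v : R K) : K) = u := by
  constructor
  · rintro ⟨h1, h2⟩
    obtain ⟨v, hv⟩ := mem_unitsR.1 h1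
    exact ⟨v, by rw [hv, clsK_unit]; exact (QuotientGroup.eq_one_iff u).2 h2, hv⟩
  · rintro ⟨v, h1, hv⟩
    rw [hv, clsK_unit] at h1
    exact ⟨mem_unitsR.2 ⟨v, hv⟩, (QuotientGroup.eq_one_iff u).1 h1⟩

end

end Vale.Agent.P319N
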