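import Vale.Agent.P319N.Defs

/-! # Cubic reciprocity, part F: arithmetic of the semilocal ring -/

namespace Vale.Agent.P319N.Rec

open NumberField

variable {K : Type} [Field K] [NumberField K] [Setup K]

theorem A_of_isI {x : K} (h : IsI x) : x ∈ A K := ⟨1, by simp, one_ne_zero, by simpa using h⟩

theorem inv_nat_A {b : ℕ} (hb : b.Coprime (Setup.M K)) (hb0 : b ≠ 0) : (b : K)⁻¹ ∈ A K :=
  ⟨b, hb, hb0, by
    rw [mul_inv_cancel₀ (Nat.cast_ne_zero.2 hb0)]; exact isIntegral_one⟩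

theorem nat_split (M N : ℕ) (hN : N ≠ 0) : ∃ k b : ℕ, b.Coprime M ∧ b ≠ 0 ∧ N ∣ M ^ k * b := by
  induction N using induction_on_primes with
  | zero => exact absurd rfl hN
  | one => exact ⟨0, 1, by simp, one_ne_zero, one_dvd _⟩
  | prime_mul p n hp ih =>
    obtain ⟨k, b, h1, h2, h3⟩ := ih (right_ne_zero_of_mul hN)
    by_cases h : p ∣ M
    · exact ⟨k + 1, b, h1, h2, by rw [pow_succ', mul_assoc]; exact mul_dvd_mul h h3⟩
    · exact ⟨k, p * b, ((Nat.Prime.coprime_iff_not_dvd hp).2 h).mul_left h1,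
        mul_ne_zero hp.ne_zero h2, by rw [mul_left_comm]; exact mul_dvd_mul_left p h3⟩

theorem exists_dvd (z : 𝓞 K) (hz : z ≠ 0) : ∃ k b : ℕ, b.Coprime (Setup.M K) ∧ b ≠ 0 ∧
    z ∣ (Setup.M K : 𝓞 K) ^ k * b := by
  have h1 := Ideal.mem_span_singleton.1 (Ideal.absNorm_mem (Ideal.span {z}))
  obtain ⟨k, b, h2, h3, h4⟩ := nat_split (Setup.M K) (Ideal.absNorm (Ideal.span {z}))
    (by simpa [Ideal.absNorm_eq_zero_iff] using hz)
  refine ⟨k, b, h2, h3, h1.trans ?_⟩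
  exact_mod_cast Nat.cast_dvd_cast (α := 𝓞 K) h4

theorem not_isUnit_M : ¬ IsUnit (Setup.M K : 𝓞 K) := by
  intro h
  have h1 : IsUnit (algebraMap ℤ (𝓞 K) (Setup.M K)) := by simpa using h
  have h2 := Int.isUnit_iff.1 (isUnit_of_map_unit _ _ h1)
  have h3 := Setup.six (K := K)
  omega

theorem inv_mem_A {y : K} (hy : y ∈ A K) : 1 + MK K * y ≠ 0 ∧ (1 + MK K * y)⁻¹ ∈ A K := by
  obtain ⟨b, hb, hb0, hy⟩ := hy
  let y0 : 𝓞 K := ⟨_, hy⟩
  let z : 𝓞 K := b + Setup.M K * y0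
  have hz : (z : K) = b * (1 + MK K * y) := by
    change (b : K) + MK K * (b * y) = _
    ring
  have hc : IsCoprime z (Setup.M K) := by
    have := (Nat.isCoprime_iff_coprime.2 hb).map (Int.castRingHom (𝓞 K))
    simp only [eq_intCast, Int.cast_natCast] at this
    exact this.add_mul_left_left _
  have hz0 : z ≠ 0 := fun h => not_isUnit_M (isCoprime_zero_left.1 (h ▸ hc))
  have hz1 : (z : K) ≠ 0 := RingOfIntegers.coe_ne_zero_iff.2 hz0
  have h0 : 1 + MK K * y ≠ 0 := right_ne_zero_of_mul (hz ▸ hz1)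
  obtain ⟨k, c, h1, h2, h3⟩ := exists_dvd z hz0
  obtain ⟨v, hv⟩ := hc.pow_right.dvd_of_dvd_mul_left h3
  refine ⟨h0, c, h1, h2, ?_⟩
  have hv' : (c : K) = z * v := by exact_mod_cast congrArg (algebraMap (𝓞 K) K) hv
  have : (c : K) * (1 + MK K * y)⁻¹ = b * v := by
    rw [hv', hz]; field_simp
  rw [this]
  exact (isI_nat b).mul v.isIntegral_coe

theorem exists_gcd {z : K} (hz : IsI z) : ∃ g α β : K, g ≠ 0 ∧ IsI g ∧ IsI α ∧ IsI β ∧
    MK K / g ∈ A K ∧ z / g ∈ A K ∧ g = z * α + MK K * β := by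
  let z0 : 𝓞 K := ⟨z, hz⟩
  let m : 𝓞 K := Setup.M K
  have hm : m ≠ 0 := Nat.cast_ne_zero.2 Setup.Mne
  obtain ⟨g, hg⟩ := IsDedekindDomain.exists_eq_span_pair (I := Ideal.span {z0, m}) (x := m * m)
    (Ideal.mul_mem_left _ _ (Ideal.subset_span (by simp))) (mul_ne_zero hm hm)
  obtain ⟨α, β, h1⟩ := Ideal.mem_span_pair.1 (hg ▸ Ideal.subset_span (by simp) :
    g ∈ Ideal.span {z0, m})
  obtain ⟨x, y, h2⟩ := Ideal.mem_span_pair.1 (hg ▸ Ideal.subset_span (by simp) :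
    m ∈ Ideal.span {m * m, g})
  obtain ⟨x', y', h3⟩ := Ideal.mem_span_pair.1 (hg ▸ Ideal.subset_span (by simp) :
    z0 ∈ Ideal.span {m * m, g})
  have e1 : (α : K) * z + β * MK K = g := congrArg (algebraMap (𝓞 K) K) h1
  have e2 : (x : K) * (MK K * MK K) + y * g = MK K := congrArg (algebraMap (𝓞 K) K) h2
  have e3 : (x' : K) * (MK K * MK K) + y' * g = z := congrArg (algebraMap (𝓞 K) K) h3
  obtain ⟨h4, h5⟩ := inv_mem_A (A_of_isI x.isIntegral_coe.neg)
  have hM := MK_ne (K := K)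
  have hg0 : (g : K) ≠ 0 := by
    intro h
    apply mul_ne_zero hM h4
    rw [h] at e2
    linear_combination -e2
  have h6 : MK K / g ∈ A K := by
    have : MK K / g = y * (1 + MK K * -x)⁻¹ := by
      rw [← div_eq_mul_inv, div_eq_div_iff hg0 h4]
      linear_combination -e2
    rw [this]
    exact (A K).mul_mem (A_of_isI y.isIntegral_coe) h5
  refine ⟨g, α, β, hg0, g.isIntegral_coe, α.isIntegral_coe, β.isIntegral_coe, h6, ?_,
    by linear_combination -e1⟩
  have : z / g = x' * MK K * (MK K / g) + y' := by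
    field_simp
    linear_combination -e3
  rw [this]
  exact (A K).add_mem ((A K).mul_mem ((A K).mul_mem (A_of_isI x'.isIntegral_coe) MK_mem_A) h6)
    (A_of_isI y'.isIntegral_coe)

theorem gen_ind {P : K → Prop} (hmul : ∀ x y, x ≠ 0 → y ≠ 0 → P x → P y → P (x * y))
    (hB : ∀ a, a ≠ 0 → MK K * a ∈ A K → MK K / a ∈ A K → P a) {a : K} (ha : a ∈ R K)
    (ha0 : a ≠ 0) : P a := by
  have hM := MK_ne (K := K)
  have key : ∀ (k : ℕ) (z : K), z ∈ A K → z ≠ 0 → MK K ^ k / z ∈ A K → P z := by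
    intro k
    induction k with
    | zero =>
      intro z hz h0 h
      refine hB z h0 ((A K).mul_mem MK_mem_A hz) ?_
      rw [pow_zero, one_div] at h
      exact div_eq_mul_inv (MK K) z ▸ (A K).mul_mem MK_mem_A h
    | succ k ih =>
      rintro z ⟨b, hb, hb0, hz⟩ h0 h
      have hb1 : (b : K) ≠ 0 := Nat.cast_ne_zero.2 hb0
      obtain ⟨g, α, β, hg0, hg, hα, hβ, h1, h2, h3⟩ := exists_gcd hz
      have e : z = g * (b * z / g) * (b : K)⁻¹ := by field_simp
      have hz1 : b * z / g ≠ 0 := div_ne_zero (mul_ne_zero hb1 h0) hg0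
      rw [e]
      refine hmul _ _ (mul_ne_zero hg0 hz1) (inv_ne_zero hb1) (hmul _ _ hg0 hz1
        (hB g hg0 ((A K).mul_mem MK_mem_A (A_of_isI hg)) h1) (ih _ h2 hz1 ?_))
        (hB _ (inv_ne_zero hb1) ((A K).mul_mem MK_mem_A (inv_nat_A hb hb0)) ?_)
      · have : MK K ^ k / (b * z / g) = MK K ^ k * α + β * (MK K ^ (k + 1) / z) * (b : K)⁻¹ := by
          rw [h3]; field_simp; ring
        rw [this]
        exact (A K).add_mem ((A K).mul_mem ((A K).pow_mem MK_mem_A k) (A_of_isI hα))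
          ((A K).mul_mem ((A K).mul_mem (A_of_isI hβ) h) (inv_nat_A hb hb0))
      · rw [div_inv_eq_mul]
        exact (A K).mul_mem MK_mem_A (natCast_mem _ b)
  obtain ⟨j, hj⟩ := ha
  induction j generalizing a with
  | zero =>
    rw [pow_zero, one_mul] at hj
    obtain ⟨k, b, h1, h2, v, hv⟩ := exists_dvd (⟨a, hj⟩ : 𝓞 K) (by
      intro h; exact ha0 (congrArg Subtype.val h))
    have hv' : MK K ^ k * b = a * v := congrArg (algebraMap (𝓞 K) K) hv
    refine key k a (A_of_isI hj) ha0 ?_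
    have hb1 : (b : K) ≠ 0 := Nat.cast_ne_zero.2 h2
    have : MK K ^ k / a = v * (b : K)⁻¹ := by field_simp; linear_combination hv'
    rw [this]
    exact (A K).mul_mem (A_of_isI v.isIntegral_coe) (inv_nat_A h1 h2)
  | succ j ih =>
    have := hmul _ _ (mul_ne_zero hM ha0) (inv_ne_zero hM)
      (ih (mul_ne_zero hM ha0) (by rwa [← mul_assoc, ← pow_succ]))
      (hB _ (inv_ne_zero hM) (by rw [mul_inv_cancel₀ hM]; exact (A K).one_mem)
        (by rw [div_inv_eq_mul]; exact (A K).mul_mem MK_mem_A MK_mem_A))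
    rwa [mul_comm (MK K), mul_inv_cancel_right₀ hM] at this

end Vale.Agent.P319N.Rec
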