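import Vale.Agent.P319N.RecE2

/-! # Cubic reciprocity, part G: restriction of scalars -/

namespace Vale.Agent.P319N.Rec

set_option linter.unusedSectionVars false

open scoped Classical
open Function Matrix Module

noncomputable section

theorem exists_pullback {G R R' : Type} [Group G] [Ring R] [Ring R'] {π : G →* R} (hπ : IsExt π)
    (Φ : R' →+* R) (hΦ : Injective Φ) : ∃ (G' : Type) (_ : Group G') (π' : G' →* R') (p : G' →* G),
      IsExt π' ∧ Injective p ∧ ∀ x, π (p x) = Φ (π' x) := by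
  let H : Subgroup (G × R'ˣ) :=
    { carrier := {x | π x.1 = Φ x.2}
      one_mem' := by simp
      mul_mem' := fun {x y} hx hy => by
        simp only [Set.mem_ofPred_eq] at hx hy
        simp [hx, hy]
      inv_mem' := fun {x} hx => by
        simp only [Set.mem_ofPred_eq] at hx
        change π x.1⁻¹ = Φ (x.2⁻¹ : R'ˣ)
        rw [← mul_one (π x.1⁻¹), ← map_one Φ, ← x.2.mul_inv, map_mul, ← hx, ← mul_assoc, ← map_mul,
          inv_mul_cancel, map_one, one_mul] }
  let p : H →* G := (MonoidHom.fst _ _).comp H.subtype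
  have hp : Injective p := fun x y h => Subtype.ext (Prod.ext h (Units.ext (hΦ
    ((x.2.symm.trans (congrArg π h)).trans y.2))))
  refine ⟨H, inferInstance, ((Units.coeHom R').comp (MonoidHom.snd _ _)).comp H.subtype, p,
    ⟨fun g hg => ?_, fun z hz => ?_⟩, hp, fun x => x.2⟩
  · obtain ⟨x, hx⟩ := hπ.1 _ (hg.map Φ)
    exact ⟨⟨(x, hg.unit), hx⟩, rfl⟩
  · have h := hπ.2 (p z) (z.2.trans ((congrArg Φ hz).trans (map_one Φ)))
    exact ⟨fun y => hp (by rw [map_mul, map_mul]; exact h.1 _), hp (by rw [map_pow, h.2, map_one])⟩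

theorem pull_can {G G' R R' : Type*} [Group G] [Group G'] [Ring R] [Ring R'] [Algebra ℚ R]
    [Algebra ℚ R'] {π : G →* R} {π' : G' →* R'} (hπ : IsExt π) (hπ' : IsExt π') {Φ : R' →+* R}
    {p : G' →* G} (hp : ∀ x, π (p x) = Φ (π' x)) {n : R'} (hn : n * n = 0) :
    p (can π' n) = can π (Φ n) := by
  obtain ⟨x, hx⟩ := hπ'.lift3 hn
  rw [hπ'.can_eq hx, map_pow, hπ.can_eq (x := p x) (by
    rw [hp, hx, map_add, map_one, map_rat_smul])]

variable {F K : Type} [Field F] [Field K] [Algebra F K] {ι κ : Type} [Fintype ι] [DecidableEq ι]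
  [Fintype κ] [DecidableEq κ] (b : Basis ι F K)

variable (κ) in
/-- restriction of scalars on matrices -/
def Phi : Matrix κ κ K →+* Matrix (κ × ι) (κ × ι) F :=
  (compRingEquiv κ ι F).toRingHom.comp (Algebra.leftMulMatrix b).toRingHom.mapMatrix

theorem Phi_apply (m : Matrix κ κ K) (p q : κ × ι) :
    Phi κ b m p q = b.repr (m p.1 q.1 * b q.2) p.2 :=
  Algebra.leftMulMatrix_eq_repr_mul b _ _ _

theorem Phi_inj : Injective (Phi κ b) :=
  (compRingEquiv κ ι F).injective.comp (Matrix.map_injective (Algebra.leftMulMatrix_injective b))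

theorem Phi_mulVec (m : Matrix κ κ K) (v : κ → K) :
    Phi κ b m *ᵥ (fun p => b.repr (v p.1) p.2) = fun p => b.repr ((m *ᵥ v) p.1) p.2 := by
  funext p
  rw [mulVec, dotProduct, Fintype.sum_prod_type, mulVec, dotProduct, map_sum, Finsupp.finsetSum_apply]
  refine Finset.sum_congr rfl fun j _ => ?_
  exact congrFun (Algebra.leftMulMatrix_mulVec_repr b (m p.1 j) (v j)) p.2

variable {O : Type*} [CommRing O] {w : O} {A : Type} [CommRing A] [IsDomain A] [Algebra O A]
  [Algebra A F] [IsFractionRing A F] {R : Type} [CommRing R] [IsDomain R] [Algebra O R]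
  [Algebra R K] [IsFractionRing R K] [Algebra O F] [Algebra O K] [IsScalarTower O A F]
  [IsScalarTower O F K] [IsScalarTower O R K]

theorem crit_pull (hw : w ^ 2 + w + 1 = 0)
    (hb : ∀ x : K, (∃ r : R, algebraMap R K r = x) ↔ ∀ i, ∃ y : A, algebraMap A F y = b.repr x i)
    (hfA : ∀ n : A, n ≠ 0 → Finite (A ⧸ Ideal.span {n})) (huA : IsUnit (algebraMap O A w - 1))
    (hfR : ∀ n : R, n ≠ 0 → Finite (R ⧸ Ideal.span {n})) (huR : IsUnit (algebraMap O R w - 1))
    {G G' : Type*} [Group G] [Group G'] {π : G →* Matrix (κ × ι) (κ × ι) F}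
    {π' : G' →* Matrix κ κ K} {p : G' →* G} (hp : Injective p) (hp' : ∀ x, π (p x) = Phi κ b (π' x))
    (hC : Crit w A π) : Crit w R π' := by
  have inj := IsFractionRing.injective A F
  have injR := IsFractionRing.injective R K
  choose c hc using fun r : R => (hb _).1 ⟨r, rfl⟩
  choose e he using fun i => (hb (b i)).2 fun j =>
    ⟨if i = j then 1 else 0, by split_ifs with h <;> simp [h]⟩
  let φ : (κ → R) →ₗ[O] (κ × ι → A) :=
    { toFun := fun v q => c (v q.1) q.2
      map_add' := fun v v' => funext fun q => inj (by simp [hc])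
      map_smul' := fun t v => funext fun q => inj (by
        simp only [hc, Pi.smul_apply, RingHom.id_apply]
        rw [Algebra.smul_def, Algebra.smul_def, map_mul (algebraMap R K), map_mul (algebraMap A F), hc,
          ← IsScalarTower.algebraMap_apply, ← IsScalarTower.algebraMap_apply,
          IsScalarTower.algebraMap_apply O F K, ← Algebra.smul_def, map_smul, Finsupp.smul_apply,
          smul_eq_mul]) }
  have hφ : ∀ v q, algebraMap A F (φ v q) = b.repr (algebraMap R K (v q.1)) q.2 := fun v q => hc _ _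
  have φinj : Injective φ := fun v v' h => funext fun j => injR (b.ext_elem fun i => by
    rw [← hφ v (j, i), ← hφ v' (j, i), h])
  have φsurj : Surjective φ := by
    intro y
    choose v hv using fun j => (hb (b.equivFun.symm fun i => algebraMap A F (y (j, i)))).2
      fun i => ⟨y (j, i), by rw [← Basis.equivFun_apply, LinearEquiv.apply_symm_apply]⟩
    exact ⟨v, funext fun q => inj (by
      rw [hφ, hv, ← Basis.equivFun_apply, LinearEquiv.apply_symm_apply])⟩
  let T : Matrix κ κ R → Matrix (κ × ι) (κ × ι) A := fun P =>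
    Matrix.of fun s t => c (P s.1 t.1 * e t.2) s.2
  have hT : ∀ P, emb F (T P) = Phi κ b (emb K P) := fun P => by
    ext s t
    rw [emb_apply, Phi_apply, emb_apply, ← he, ← map_mul]
    exact hc _ _
  have hT' : ∀ P v, T P *ᵥ φ v = φ (P *ᵥ v) := fun P v => funext fun q => inj (by
    have h1 := congrFun (Phi_mulVec b (emb K P) fun j => algebraMap R K (v j)) q
    rw [hφ, RingHom.map_mulVec, RingHom.map_mulVec]
    refine Eq.trans ?_ h1
    rw [← hT]
    congr 1
    exact funext (hφ v))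
  have hdet : ∀ P, P.det ≠ 0 → (T P).det ≠ 0 := fun P hP => by
    rw [← isUnit_emb (F := F), hT]
    exact (isUnit_emb.2 hP).map _
  have hq : ∀ Q, QIso φ (LinearMap.range (lin O Q)) (LinearMap.range (lin O (T Q))) := by
    refine fun Q => ⟨fun x => ⟨?_, ?_⟩, fun y => ?_⟩
    · rintro ⟨y, hy⟩
      obtain ⟨v, rfl⟩ := φsurj y
      exact ⟨v, φinj ((hT' Q v).symm.trans hy)⟩
    · rintro ⟨v, rfl⟩
      exact ⟨φ v, hT' Q v⟩
    · obtain ⟨v, rfl⟩ := φsurj y
      exact ⟨v, by simp⟩
  have hcomm : ∀ P Q, Commute P Q → Commute (T P) (T Q) := fun P Q h => emb_inj (F := F) (by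
    rw [map_mul, map_mul, hT, hT, ← map_mul, ← map_mul, h.eq, map_mul, map_mul])
  have hsup : ∀ P Q : Matrix κ κ R, (∀ x, ∃ y z, x = P *ᵥ y + Q *ᵥ z) →
      ∀ x, ∃ y z, x = T P *ᵥ y + T Q *ᵥ z := fun P Q h x => by
    obtain ⟨v, rfl⟩ := φsurj x
    obtain ⟨y, z, rfl⟩ := h v
    exact ⟨φ y, φ z, by rw [hT', hT', map_add]⟩
  have hS : ∀ P Q : Matrix κ κ R, Q.det ≠ 0 → Commute P Q → (∀ x, ∃ y z, x = P *ᵥ y + Q *ᵥ z) →
      SS w (lin O (T P)) (LinearMap.range (lin O (T Q))) =
        SS w (lin O P) (LinearMap.range (lin O Q)) := fun P Q hQ h h' => by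
    have := (adm_lin hfR huR hQ).2.1
    have := (adm_lin hfA huA (hdet Q hQ)).2.1
    refine SS_transport hw (hq Q) (fr_lin huA _)
      (qiso_of_sup (by rw [← lin_mul, ← lin_mul, (hcomm P Q h).eq]) (hsup P Q h'))
      (qiso_of_sup (by rw [← lin_mul, ← lin_mul, h.eq]) h') fun x => ?_
    rw [lin_apply, lin_apply, hT', sub_self]
    exact zero_mem _
  intro P Q hP hQ h h' x y hx hy
  rw [← hS P Q hQ h h', ← hS Q P hP h.symm (fun x => by
      obtain ⟨y, z, rfl⟩ := h' x
      exact ⟨z, y, add_comm _ _⟩),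
    ← hC _ _ (hdet P hP) (hdet Q hQ) (hcomm P Q h) (hsup P Q h') (p x) (p y)
      (by rw [hp', hx, hT]) (by rw [hp', hy, hT]), commute_map_iff hp]

end

end Vale.Agent.P319N.Rec
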