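import Vale.Agent.P319N.RecE3
import Vale.Agent.P319N.RecF
import Vale.Agent.P319N.RecG

/-! # Cubic reciprocity in a number field containing the cube roots of unity -/

namespace Vale.Agent.P319N

namespace Rec

set_option linter.unusedSectionVars false

open scoped Classical nonZeroDivisors
open Function Matrix Module NumberField
open Vale.Agent.P026 (O omC)

noncomputable section

theorem pi_ZZ {G K : Type*} [Group G] [Field K] [CharZero K] {π : G →* Matrix (Fin 2) (Fin 2) K}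
    (hπ : IsExt π) {s t : K} (h : 1 + s * t ≠ 0) :
    π (ZZ π 0 1 s t) = dm 0 (1 + s * t) * dm 1 (1 + s * t)⁻¹ := by
  have h01 : (0 : Fin 2) ≠ 1 := by decide
  rw [ZZ, map_mul, map_mul, map_mul, hπ.pi_can (single_sq h01 _), hπ.pi_can (single_sq h01 _),
    hπ.pi_can (single_sq h01.symm _), hπ.pi_can (single_sq h01.symm _), dm_eq, dm_eq]
  have h' : 1 + t * s ≠ 0 := by rwa [mul_comm]
  ext i j
  fin_cases i <;> fin_cases j <;> simp [Matrix.mul_apply, Fin.sum_univ_two] <;> field_simp <;> ring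

variable {K : Type} [Field K] [NumberField K] [Setup K]

theorem omK_sq : omK K ^ 2 + omK K + 1 = 0 := by
  have h := (Setup.hzeta (K := K)).pow (by norm_num) (show 12 = 4 * 3 by norm_num)
  have := h.geom_sum_eq_zero (by norm_num)
  simp only [Finset.sum_range_succ, Finset.range_zero, Finset.sum_empty] at this
  rw [omK]
  linear_combination this

variable (K) in
/-- the Eisenstein integers inside `R` -/
def toR : O →+* R K :=
  (QuadraticAlgebra.lift (R := ℤ) (a := -1) (b := -1) ⟨om K, Subtype.ext (by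
    change omK K * omK K = ((-1 : ℤ) • 1 + (-1 : ℤ) • omK K : K)
    simp only [neg_smul, one_smul]
    linear_combination omK_sq (K := K))⟩).toRingHom

theorem toR_om : toR K P026.om = om K := by simp [toR, P026.om]

theorem R_of_isI {x : K} (h : IsI x) : x ∈ R K := ⟨0, by simpa using h⟩

instance : IsFractionRing (R K) K := IsFractionRing.of_field _ _ fun z => by
  obtain ⟨x, y, -, rfl⟩ := IsFractionRing.div_surjective (𝓞 K) z
  exact ⟨⟨x, R_of_isI x.isIntegral_coe⟩, ⟨y, R_of_isI y.isIntegral_coe⟩, rfl⟩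

theorem isUnit_MR : IsUnit ((Setup.M K : ℕ) : R K) :=
  IsUnit.of_mul_eq_one ⟨(MK K)⁻¹, 1, by
    rw [pow_one, mul_inv_cancel₀ MK_ne]; exact isIntegral_one⟩
    (Subtype.ext (mul_inv_cancel₀ MK_ne))

theorem fin_R (n : R K) (hn : n ≠ 0) : Finite (R K ⧸ Ideal.span {n}) := by
  let f : 𝓞 K →+* R K := (algebraMap (𝓞 K) K).codRestrict _ fun x => R_of_isI x.isIntegral_coe
  refine finite_quot_of_loc f (Setup.M K) ?_ (by rw [map_natCast]; exact isUnit_MR)
    (fun y hy => Ideal.finiteQuotientOfFreeOfNeBot _ (by simpa using hy)) n hn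
  rintro ⟨x, j, h⟩
  exact ⟨j, ⟨_, h⟩, Subtype.ext rfl⟩

section

variable {F : Type} [Field F] [CharZero F] [Algebra O F] [IsFractionRing O F] [Algebra F K]
  [Algebra O K] [IsScalarTower O F K] {ι : Type} [Fintype ι] [DecidableEq ι] (b : Basis ι F K)
  (hb : ∀ x : K, IsI x ↔ ∀ i, ∃ y : O, algebraMap O F y = b.repr x i)
include hb

omit hb in
theorem repr_nat (n : ℕ) (x : K) (i : ι) : b.repr (n * x) i = n * b.repr x i := by
  rw [← nsmul_eq_mul, map_nsmul, Finsupp.smul_apply, nsmul_eq_mul]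

theorem mem_R_iff (x : K) : (∃ r : R K, algebraMap (R K) K r = x) ↔
    ∀ i, ∃ y : AF F (Setup.M K), algebraMap _ F y = b.repr x i := by
  constructor
  · rintro ⟨⟨x, j, h⟩, rfl⟩ i
    obtain ⟨y, hy⟩ := (hb _).1 h i
    rw [← Nat.cast_pow, repr_nat, Nat.cast_pow] at hy
    exact ⟨⟨_, j, y, hy.symm⟩, rfl⟩
  · intro h
    choose y hy using h
    choose j z hz using fun i => (y i).2
    refine ⟨⟨x, ∑ i, j i, (hb _).2 fun i => ?_⟩, rfl⟩
    obtain ⟨k, hk⟩ := Nat.exists_eq_add_of_le' (Finset.single_le_sum (f := j)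
      (fun _ _ => Nat.zero_le _) (Finset.mem_univ i))
    refine ⟨Setup.M K ^ k * z i, ?_⟩
    rw [← Nat.cast_pow (α := K), repr_nat, ← hy, hk, map_mul, ← hz, map_pow, map_natCast]
    push_cast
    exact (mul_assoc _ _ _).symm.trans (by rw [← pow_add]; rfl)

theorem mi_Phi {s : K} (hs : s / MK K ^ 2 ∈ A K) (i j : Fin 2) :
    MI (IF F (Setup.M K)) (Phi (Fin 2) b (single i j s)) := by
  intro p q
  rw [Phi_apply]
  by_cases h : i = p.1 ∧ j = q.1
  · obtain ⟨c, hc, -, h1⟩ := hs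
    have h2 : IsI (b q.2) := (hb _).2 fun l =>
      ⟨if q.2 = l then 1 else 0, by split_ifs with h <;> simp [h]⟩
    obtain ⟨y, hy⟩ := (hb _).1 (h1.mul h2) p.2
    refine ⟨c, hc, y, ?_⟩
    rw [hy, ← repr_nat, ← Nat.cast_pow, ← repr_nat, ← h.1, ← h.2, single_apply_same]
    congr 2
    have := MK_ne (K := K)
    push_cast
    field_simp
  · rw [single_apply_of_ne _ _ _ _ _ h, zero_mul, map_zero]
    exact zero_mem _

omit hb in
theorem supp_Phi (s : K) {i j : Fin 2} (hij : i ≠ j) :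
    Supp {p | p.1 = i} {p | p.1 = i}ᶜ (Phi (Fin 2) b (single i j s)) := by
  intro p q h
  rw [Phi_apply] at h
  by_cases h1 : i = p.1 ∧ j = q.1
  · exact ⟨h1.1.symm, fun h2 => hij (h2.symm.trans h1.2.symm)⟩
  · rw [single_apply_of_ne _ _ _ _ _ h1, zero_mul, map_zero] at h
    exact absurd rfl h

variable [Algebra O (R K)] [IsScalarTower O (R K) K]

theorem Sy_rec (hu : IsUnit (algebraMap O (R K) P026.om - 1)) {u a : R K} (ha : a ≠ 0)
    (h : IsCoprime u a) (h1 : One 6 (u : K)) : Sy P026.om u a = Sy P026.om a u := by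
  have h6 := Setup.six (K := K)
  have hM := Setup.Mne (K := K)
  have hMK := MK_ne (K := K)
  have h01 : (0 : Fin 2) ≠ 1 := by decide
  obtain ⟨G, _, π, hπ, hC⟩ := exists_ext F (Fin 2 × ι) P026.om_sq (fin_AF (F := F) hM) (hu_AF h6 hM)
  obtain ⟨S, hS, hS'⟩ := exists_split hπ (rad_IF h6) (hh_IF h6 hM hπ hC)
  obtain ⟨G', _, π', p, hπ', hp, hp'⟩ := exists_pullback hπ (Phi (Fin 2) b) (Phi_inj b)
  have hC' : Crit P026.om (R K) π' := crit_pull b P026.om_sq (mem_R_iff b hb) (fin_AF hM)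
    (hu_AF h6 hM) fin_R hu hp hp' hC
  have e0 : (u : K) = 1 + MK K * (MK K ^ 5 * ((u - 1) / MK K ^ 6)) := by field_simp; ring
  obtain ⟨hu0, hui⟩ := inv_mem_A ((A K).mul_mem ((A K).pow_mem MK_mem_A 5) h1)
  rw [← e0] at hu0 hui
  have small : ∀ i j : Fin 2, i ≠ j → ∀ s : K, s / MK K ^ 2 ∈ A K →
      p (can π' (single i j s)) ∈ S := fun i j hij s hs => by
    rw [pull_can hπ hπ' hp' (single_sq hij _)]
    exact hS' _ _ (supp_Phi b s hij) (mi_Phi b hb hs i j)
  have hZ : ∀ s t : K, s / MK K ^ 2 ∈ A K → t / MK K ^ 2 ∈ A K → 1 + s * t = u →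
      p (ZZ π' 0 1 s t) ∈ S := fun s t hs ht hst => by
    have key : ∀ x : K, x / MK K ^ 2 ∈ A K → -(x / (1 + s * t)) / MK K ^ 2 ∈ A K := fun x hx => by
      rw [hst, show -(x / u) / MK K ^ 2 = -(x / MK K ^ 2 * (u : K)⁻¹) by ring]
      exact (A K).neg_mem ((A K).mul_mem hx hui)
    rw [ZZ, map_mul, map_mul, map_mul]
    exact mul_mem (mul_mem (mul_mem (small _ _ h01.symm _ (key t ht)) (small _ _ h01 _ hs))
      (small _ _ h01.symm _ ht)) (small _ _ h01 _ (key s hs))
  have hP : CM π' (dm 0 (a : K)) (dm 0 (u : K) * dm 1 (u : K)⁻¹) := by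
    refine gen_ind (P := fun a => CM π' (dm 0 a) (dm 0 (u : K) * dm 1 (u : K)⁻¹))
      (fun x y hx hy h h' => ?_) (fun a ha0 h2 h3 => ?_) a.2 (fun h => ha (Subtype.ext h))
    · rw [← dm_mul]
      exact CM.mul hπ' (isUnit_dm 0 hx) (isUnit_dm 0 hy) h h'
    · have h4 : MK K ^ 3 ≠ 0 := pow_ne_zero _ hMK
      obtain ⟨d, hd⟩ := hπ'.1 _ (isUnit_dm (0 : Fin 2) h4)
      obtain ⟨d', hd'⟩ := hπ'.1 _ (isUnit_dm (0 : Fin 2) (mul_ne_zero h4 ha0))
      have e1 := ZZ_conj hπ' h01 hd ((u - 1) / MK K ^ 3)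
      have e2 := ZZ_conj hπ' h01 hd' ((u - 1) / (MK K ^ 3 * a))
      have e3 : 1 + MK K ^ 3 * ((u - 1) / MK K ^ 3) = u := by field_simp; ring
      have e4 : 1 + MK K ^ 3 * a * ((u - 1) / (MK K ^ 3 * a)) = u := by field_simp; ring
      have e5 : ZZ π' 0 1 (MK K ^ 3) ((u - 1) / MK K ^ 3) =
          ZZ π' 0 1 (MK K ^ 3 * a) ((u - 1) / (MK K ^ 3 * a)) := by
        refine hp (hS _ (hZ _ _ ?_ ?_ e3) _ (hZ _ _ ?_ ?_ e4) ?_)
        · rw [show MK K ^ 3 / MK K ^ 2 = MK K by field_simp]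
          exact MK_mem_A
        · rw [show (u - 1) / MK K ^ 3 / MK K ^ 2 = MK K * ((u - 1) / MK K ^ 6) by field_simp]
          exact (A K).mul_mem MK_mem_A h1
        · rwa [show MK K ^ 3 * a / MK K ^ 2 = MK K * a by field_simp]
        · rw [show (u - 1) / (MK K ^ 3 * a) / MK K ^ 2 = MK K / a * ((u - 1) / MK K ^ 6) by
            field_simp]
          exact (A K).mul_mem h3 h1
        · rw [hp', hp', pi_ZZ hπ' (e3.trans_ne hu0), pi_ZZ hπ' (e4.trans_ne hu0), e3, e4]
      rw [mul_div_cancel₀ _ h4] at e1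
      rw [mul_div_cancel₀ _ (mul_ne_zero h4 ha0), ← e5] at e2
      have e6 : Commute (d⁻¹ * d') (ZZ π' 0 1 1 (u - 1)) := by
        rw [Commute, SemiconjBy, mul_assoc, e2, ← mul_assoc, ← mul_assoc,
          ← mul_inv_cancel_right (ZZ π' 0 1 (MK K ^ 3) _) d, ← e1]
        group
      have e7 : (1 : K) + 1 * (u - 1) = u := by ring
      intro x y hx hy
      refine hπ'.commute_congr ?_ ?_ e6
      · rw [map_mul, pi_inv_eq (m := dm 0 (MK K ^ 3)⁻¹) (by
          rw [hd, dm_mul, mul_inv_cancel₀ h4, dm_one]), hd', dm_mul, inv_mul_cancel_left₀ h4, hx]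
      · rw [pi_ZZ hπ' (e7.trans_ne hu0), e7, hy]
  have hu0' : u ≠ 0 := fun h => hu0 (congrArg Subtype.val h)
  have hQ := cm_block P026.om_sq hu hC' (a := 0) (det_dA 1 hu0')
    (fun c => by rw [dA_mulVec]; simp) (fun x => by rw [dA_mulVec]; simp) ha
  rw [emb_dA] at hQ
  have hR := CM.mul hπ' ((isUnit_dm 0 hu0).mul (isUnit_dm 1 (inv_ne_zero hu0))) (isUnit_dm 1 hu0)
    hP.symm hQ
  rw [mul_assoc, dm_mul, inv_mul_cancel₀ hu0, dm_one, mul_one] at hR
  obtain ⟨x, hx⟩ := hπ'.1 _ (isUnit_dm (0 : Fin 2) hu0)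
  obtain ⟨y, hy⟩ := hπ'.1 (dm 0 (a : K)) (isUnit_dm (0 : Fin 2) fun h => ha (Subtype.ext h))
  have := (hC' (dA 0 u) (dA 0 a) (det_dA 0 hu0') (det_dA 0 ha) (commute_diagonal _ _) ?_ x y
    (by rw [hx, emb_dA]; rfl) (by rw [hy, emb_dA]; rfl)).1 (hR x y hx hy)
  · rwa [SS_dA P026.om_sq hu fin_R 0 ha h.symm, SS_dA P026.om_sq hu fin_R 0 hu0' h] at this
  intro v
  obtain ⟨s, t, hst⟩ := h
  refine ⟨Function.update v 0 (s * v 0), Pi.single 0 (t * v 0), funext fun i => ?_⟩
  rw [dA_mulVec, dA_mulVec]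
  by_cases hi : i = 0
  · subst hi
    simp only [Pi.add_apply, update_self, Pi.single_eq_same]
    linear_combination (-v 0) * hst
  · simp [hi]

end

end

end Rec

open Rec Module
open scoped nonZeroDivisors
open Vale.Agent.P026 (O)

theorem cubic_rec {K : Type} [Field K] [NumberField K] [Setup K] : ∃ j : ℕ, ∀ a b : R K, b ≠ 0 →
    IsCoprime a b → One j (a : K) → sym3 a b = sym3 b a := by
  classical
  refine ⟨6, fun a b hb hab h1 => ?_⟩
  let _ : Algebra O (R K) := (toR K).toAlgebra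
  let _ : Algebra O K := ((R K).subtype.comp (toR K)).toAlgebra
  have : IsScalarTower O (R K) K := IsScalarTower.of_algebraMap_eq fun _ => rfl
  have : FaithfulSMul O K := (faithfulSMul_iff_algebraMap_injective O K).2
    ((injective_iff_map_eq_zero _).2 fun x hx => by
      have h := congrArg (algebraMap O K) (P026.mul_star_eq x)
      rw [map_mul, hx, zero_mul, map_natCast] at h
      exact P026.Nm_eq_zero.1 (Nat.cast_eq_zero.1 h.symm))
  let F := FractionRing O
  let _ : Algebra F K := FractionRing.liftAlgebra O K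
  have : IsScalarTower O F K := FractionRing.isScalarTower_liftAlgebra O K
  have : IsScalarTower ℚ F K := IsScalarTower.of_algebraMap_eq' (Subsingleton.elim _ _)
  have : FiniteDimensional F K := Module.Finite.of_restrictScalars_finite ℚ F K
  let C := integralClosure O K
  have : Module.Free O C := IsIntegralClosure.module_free O F K C
  have : Module.Finite O C := IsIntegralClosure.finite O F K C
  have := IsIntegralClosure.isLocalization O F K C
  let b0 := Module.Free.chooseBasis O C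
  let β := b0.localizationLocalization F O⁰ K
  have hβ : ∀ x : K, IsI x ↔ ∀ i, ∃ y : O, algebraMap O F y = β.repr x i := by
    intro x
    constructor
    · intro h i
      exact ⟨_, (b0.localizationLocalization_repr_algebraMap F O⁰ K ⟨x, h.tower_top⟩ i).symm⟩
    · intro h
      choose y hy using h
      have : x = algebraMap C K (∑ i, y i • b0 i) := by
        refine β.ext_elem fun i => ?_
        rw [b0.localizationLocalization_repr_algebraMap F O⁰ K, ← hy, Basis.repr_sum_self]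
      rw [this]
      exact isIntegral_trans (A := O) _ (∑ i, y i • b0 i).2
  have hom : algebraMap O (R K) P026.om = om K := toR_om
  have hu : IsUnit (algebraMap O (R K) P026.om - 1) := by
    have := isUnit_of_dvd_unit (map_dvd (algebraMap O (R K)) (om_dvd (Setup.six (K := K))))
      (by rw [map_natCast]; exact isUnit_MR)
    rwa [map_sub, map_one] at this
  have e0 : (a : K) = 1 + MK K * (MK K ^ 5 * ((a - 1) / MK K ^ 6)) := by
    have := MK_ne (K := K)
    field_simp; ring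
  have ha : a ≠ 0 := fun h => (inv_mem_A ((A K).mul_mem ((A K).pow_mem MK_mem_A 5) h1)).1
    (e0.symm.trans (congrArg Subtype.val h))
  have key : ∀ x n : R K, n ≠ 0 → IsCoprime n x → sym3 x n = P026.omC ^ (Sy P026.om x n).val := by
    intro x n hn h
    rw [← gsym3_eq (Nm := Nm) P026.om_sq fin_R (fun _ _ => rfl) hn h
      ((isCoprime_one_right (x := n)).of_isCoprime_of_dvd_right hu.dvd), hom]
    rfl
  rw [key a b hb hab.symm, key b a ha hab, Sy_rec β hβ hu hb hab h1]

end Vale.Agent.P319N
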