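import Mathlib

/-! # Cubic reciprocity, part A: third-systems (orientations) on finite quotients -/

namespace Vale.Agent.P319N.Rec

theorem z3_cases : ∀ k : ZMod 3, k = 0 ∨ k = 1 ∨ k = 2 := by decide
theorem z3_01 : (0 : ZMod 3) ≠ 1 := by decide
theorem z3_02 : (0 : ZMod 3) ≠ 2 := by decide
theorem z3_12 : (1 : ZMod 3) ≠ 2 := by decide
theorem z3_sum1 : (1 : ZMod 3) + 1 + 1 = 0 := by decide
theorem z3_sum2 : (0 : ZMod 3) + 1 + 2 = 0 := by decide

open scoped Classical

noncomputable section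

variable {A : Type*} [CommRing A] {L L' : Type*} [AddCommGroup L] [Module A L]
  [AddCommGroup L'] [Module A L']

def Per (N : Submodule A L) (F : L → ZMod 3) : Prop := ∀ x y, x - y ∈ N → F x = F y

def Ori (w : A) (N : Submodule A L) (e : L → ZMod 3) : Prop :=
  Per N e ∧ ∀ x, x ∉ N → e (w • x) = e x + 1

def qsum (N : Submodule A L) (F : L → ZMod 3) : ZMod 3 := ∑ᶠ q : L ⧸ N, F q.out

def cmp (N : Submodule A L) (e f : L → ZMod 3) : ZMod 3 :=
  qsum N fun x => if x ∉ N ∧ f x = 0 then e x else 0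

def Reps (N : Submodule A L) {τ : Type*} (r : τ → L) : Prop :=
  (∀ s t, r s - r t ∈ N → s = t) ∧ ∀ x, ∃ t, x - r t ∈ N

/-- `φ` induces an isomorphism `L' / N' ≃ L / N` -/
def QIso (φ : L' →ₗ[A] L) (N' : Submodule A L') (N : Submodule A L) : Prop :=
  (∀ x, φ x ∈ N ↔ x ∈ N') ∧ ∀ y, ∃ x, y - φ x ∈ N

/-- `w` acts freely on the nonzero elements of `L / N` -/
def Fr (w : A) (N : Submodule A L) : Prop := ∀ x, w • x - x ∈ N → x ∈ N

theorem out_sub (N : Submodule A L) (x : L) : (N.mkQ x).out - x ∈ N :=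
  (Submodule.Quotient.eq N).1 (Quotient.out_eq _)

theorem Reps.bij {N : Submodule A L} {τ : Type*} {r : τ → L} (hr : Reps N r) :
    Function.Bijective fun t => N.mkQ (r t) := by
  refine ⟨fun s t h => hr.1 s t ((Submodule.Quotient.eq N).1 h), fun q => ?_⟩
  obtain ⟨x, rfl⟩ := N.mkQ_surjective q
  obtain ⟨t, ht⟩ := hr.2 x
  exact ⟨t, ((Submodule.Quotient.eq N).2 ht).symm⟩

theorem reps_out (N : Submodule A L) : Reps N fun q : L ⧸ N => q.out := by
  refine ⟨fun s t h => ?_, fun x => ⟨N.mkQ x, ?_⟩⟩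
  · have := (Submodule.Quotient.eq N).2 h
    rwa [show Submodule.Quotient.mk s.out = s from Quotient.out_eq s,
      show Submodule.Quotient.mk t.out = t from Quotient.out_eq t] at this
  · simpa using N.neg_mem (out_sub N x)

theorem Reps.finite {N : Submodule A L} {τ : Type*} [Finite τ] {r : τ → L} (hr : Reps N r) :
    Finite (L ⧸ N) := Finite.of_surjective _ hr.bij.2

theorem qsum_reps {N : Submodule A L} {τ : Type*} [Fintype τ] {r : τ → L} (hr : Reps N r)
    {F : L → ZMod 3} (hF : Per N F) : qsum N F = ∑ t, F (r t) := by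
  have := Fintype.ofBijective _ hr.bij
  rw [qsum, finsum_eq_sum_of_fintype]
  exact (Fintype.sum_bijective _ hr.bij _ _ fun t => (hF _ _ (out_sub N _)).symm).symm

theorem qsum_add {N : Submodule A L} [Finite (L ⧸ N)] (F G : L → ZMod 3) :
    qsum N (fun x => F x + G x) = qsum N F + qsum N G := by
  have := Fintype.ofFinite (L ⧸ N)
  simp only [qsum, finsum_eq_sum_of_fintype, Finset.sum_add_distrib]

theorem qsum_zero (N : Submodule A L) : qsum N (fun _ => 0) = 0 := by simp [qsum]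

theorem QIso.reps {φ : L' →ₗ[A] L} {N' : Submodule A L'} {N : Submodule A L} (h : QIso φ N' N)
    {τ : Type*} {r : τ → L'} (hr : Reps N' r) : Reps N fun t => φ (r t) := by
  refine ⟨fun s t hst => hr.1 s t ((h.1 _).1 (by rwa [map_sub])), fun y => ?_⟩
  obtain ⟨x, hx⟩ := h.2 y
  obtain ⟨t, ht⟩ := hr.2 x
  refine ⟨t, ?_⟩
  have := N.add_mem hx ((h.1 _).2 ht)
  rwa [map_sub, sub_add_sub_cancel] at this

theorem QIso.finite {φ : L' →ₗ[A] L} {N' : Submodule A L'} {N : Submodule A L} (h : QIso φ N' N)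
    [Finite (L' ⧸ N')] : Finite (L ⧸ N) := (h.reps (reps_out N')).finite

theorem QIso.per {φ : L' →ₗ[A] L} {N' : Submodule A L'} {N : Submodule A L} (h : QIso φ N' N)
    {F : L → ZMod 3} (hF : Per N F) : Per N' (F ∘ φ) := fun x y hxy =>
  hF _ _ (by rw [← map_sub]; exact (h.1 _).2 hxy)

theorem QIso.ori {w : A} {φ : L' →ₗ[A] L} {N' : Submodule A L'} {N : Submodule A L}
    (h : QIso φ N' N) {e : L → ZMod 3} (he : Ori w N e) : Ori w N' (e ∘ φ) :=
  ⟨h.per he.1, fun x hx => by
    simp only [Function.comp, map_smul]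
    exact he.2 _ fun h' => hx ((h.1 x).1 h')⟩

theorem QIso.qsum {φ : L' →ₗ[A] L} {N' : Submodule A L'} {N : Submodule A L} (h : QIso φ N' N)
    [Finite (L' ⧸ N')] {F : L → ZMod 3} (hF : Per N F) : qsum N' (F ∘ φ) = qsum N F := by
  have := Fintype.ofFinite (L' ⧸ N')
  rw [qsum_reps (reps_out N') (h.per hF), qsum_reps (h.reps (reps_out N')) hF]
  rfl

theorem mem_congr {N : Submodule A L} {x y : L} (h : x - y ∈ N) : x ∈ N ↔ y ∈ N :=
  ⟨fun hx => by simpa using N.sub_mem hx h, fun hy => by simpa using N.add_mem h hy⟩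

theorem per_cmp {N : Submodule A L} {e f : L → ZMod 3} (he : Per N e) (hf : Per N f) :
    Per N fun x => if x ∉ N ∧ f x = 0 then e x else 0 := fun x y h => by
  simp only [mem_congr h, he x y h, hf x y h]

theorem QIso.cmp {φ : L' →ₗ[A] L} {N' : Submodule A L'} {N : Submodule A L} (h : QIso φ N' N)
    [Finite (L' ⧸ N')] {e f : L → ZMod 3} (he : Per N e) (hf : Per N f) :
    cmp N' (e ∘ φ) (f ∘ φ) = cmp N e f := by
  rw [Rec.cmp, Rec.cmp, ← h.qsum (per_cmp he hf)]
  congr 1
  funext x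
  simp only [Function.comp, h.1]

variable {w : A} (hw : w ^ 2 + w + 1 = 0)
include hw

theorem w_cube : w ^ 3 = 1 := by linear_combination (w - 1) * hw

theorem smul_mem_iff {N : Submodule A L} (x : L) : w • x ∈ N ↔ x ∈ N := by
  refine ⟨fun h => ?_, N.smul_mem w⟩
  have := N.smul_mem (w ^ 2) h
  rwa [smul_smul, ← pow_succ, w_cube hw, one_smul] at this

theorem qiso_smul (N : Submodule A L) : QIso (LinearMap.lsmul A L w) N N :=
  ⟨smul_mem_iff hw, fun y => ⟨w ^ 2 • y, by
    rw [LinearMap.lsmul_apply, smul_smul, ← pow_succ', w_cube hw, one_smul, sub_self]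
    exact N.zero_mem⟩⟩

theorem qsum_shift {N : Submodule A L} [Finite (L ⧸ N)] {F : L → ZMod 3} (hF : Per N F) :
    qsum N (fun x => F (w • x)) = qsum N F := (qiso_smul hw N).qsum hF

theorem qsum_indep {N : Submodule A L} [Finite (L ⧸ N)] {e f d : L → ZMod 3} (he : Ori w N e)
    (hf : Ori w N f) (hd : Per N d) (hd' : ∀ x, x ∉ N → d (w • x) = d x) :
    cmp N d e = cmp N d f := by
  let h : ZMod 3 → ZMod 3 → ZMod 3 := fun i j =>
    qsum N fun x => if x ∉ N ∧ e x = i ∧ f x = j then d x else 0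
  have hs : ∀ i j, h (i + 1) (j + 1) = h i j := by
    intro i j
    simp only [h]
    rw [← qsum_shift hw (fun x y hxy => by
      simp only [mem_congr hxy, he.1 x y hxy, hf.1 x y hxy, hd x y hxy])]
    congr 1
    funext x
    by_cases hx : x ∈ N
    · simp [smul_mem_iff hw, hx]
    · simp [smul_mem_iff hw, hx, he.2 x hx, hf.2 x hx, hd' x hx]
  have h1 : cmp N d e = h 0 0 + h 0 1 + h 0 2 := by
    simp only [h, ← qsum_add, cmp]
    congr 1
    funext x
    generalize f x = k
    by_cases hx : x ∉ N ∧ e x = 0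
    · rcases z3_cases k with rfl | rfl | rfl <;>
        simp [hx, z3_01, z3_02, z3_12, z3_01.symm, z3_02.symm, z3_12.symm]
    · simp [← and_assoc, hx]
  have h2 : cmp N d f = h 0 0 + h 1 0 + h 2 0 := by
    simp only [h, ← qsum_add, cmp]
    congr 1
    funext x
    generalize e x = k
    by_cases hx : x ∉ N ∧ f x = 0
    · rcases z3_cases k with rfl | rfl | rfl <;>
        simp [hx, z3_01, z3_02, z3_12, z3_01.symm, z3_02.symm, z3_12.symm]
    · rw [if_neg hx, if_neg (by tauto), if_neg (by tauto), if_neg (by tauto)]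
      simp
  have h3 : h 0 1 = h 2 0 := hs 2 0
  have h4 : h 1 0 = h 0 2 := hs 0 2
  rw [h1, h2, h3, h4]
  ring

omit hw in
theorem cmp_self (N : Submodule A L) (e : L → ZMod 3) : cmp N e e = 0 := by
  refine Eq.trans ?_ (qsum_zero N)
  rw [cmp]
  congr 1
  funext x
  split_ifs with h
  · exact h.2
  · rfl

theorem cmp_trans {N : Submodule A L} [Finite (L ⧸ N)] {e f g : L → ZMod 3} (he : Ori w N e)
    (hf : Ori w N f) (hg : Ori w N g) : cmp N e f + cmp N f g = cmp N e g := by
  have h1 : cmp N e f = cmp N (fun x => e x - f x) f := by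
    simp only [cmp]
    congr 1
    funext x
    split_ifs with h
    · rw [h.2, sub_zero]
    · rfl
  rw [h1, qsum_indep hw hf hg (fun x y h => by simp only [he.1 x y h, hf.1 x y h])
    (fun x hx => by simp only [he.2 x hx, hf.2 x hx]; ring), cmp, cmp, cmp, ← qsum_add]
  congr 1
  funext x
  split_ifs <;> simp

theorem qsum_three {N : Submodule A L} [Finite (L ⧸ N)] {e : L → ZMod 3} (he : Ori w N e)
    (φ : ZMod 3 → ZMod 3) (hφ : φ 0 + φ 1 + φ 2 = 0) :
    qsum N (fun x => if x ∉ N then φ (e x) else 0) = 0 := by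
  let h : ZMod 3 → ZMod 3 → ZMod 3 := fun i c => qsum N fun x => if x ∉ N ∧ e x = i then c else 0
  have hs : ∀ i c, h (i + 1) c = h i c := by
    intro i c
    simp only [h]
    rw [← qsum_shift hw (fun x y hxy => by simp only [mem_congr hxy, he.1 x y hxy])]
    congr 1
    funext x
    by_cases hx : x ∈ N
    · simp [smul_mem_iff hw, hx]
    · simp [smul_mem_iff hw, hx, he.2 x hx]
  have h1 : qsum N (fun x => if x ∉ N then φ (e x) else 0) = h 0 (φ 0) + h 1 (φ 1) + h 2 (φ 2) := by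
    simp only [h, ← qsum_add]
    congr 1
    funext x
    generalize e x = k
    by_cases hx : x ∈ N
    · simp [hx]
    · rcases z3_cases k with rfl | rfl | rfl <;>
        simp [hx, z3_01, z3_02, z3_12, z3_01.symm, z3_02.symm, z3_12.symm]
  have h3 : h 1 (φ 1) = h 0 (φ 1) := hs 0 _
  have h4 : h 2 (φ 2) = h 0 (φ 2) := (hs 1 _).trans (hs 0 _)
  rw [h1, h3, h4]
  simp only [h, ← qsum_add]
  refine Eq.trans ?_ (qsum_zero N)
  congr 1
  funext x
  split_ifs
  · exact hφ
  · simp

theorem card_eq_one {N : Submodule A L} {e : L → ZMod 3} (he : Ori w N e) {τ : Type*} [Fintype τ]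
    {r : τ → L} (hr : Reps N r) : (Fintype.card τ : ZMod 3) = 1 := by
  have := hr.finite
  have h := qsum_three hw he (fun _ => 1) z3_sum1
  rw [qsum_reps hr (fun x y hxy => by simp only [mem_congr hxy])] at h
  obtain ⟨t, ht⟩ := hr.2 0
  have ht' : r t ∈ N := (mem_congr ht).1 N.zero_mem
  have h2 : ∑ s, (if r s ∈ N then (1 : ZMod 3) else 0) = 1 := by
    rw [Finset.sum_eq_single t (fun s _ hs => if_neg fun h' => hs (hr.1 _ _ (N.sub_mem h' ht')))
      (by simp), if_pos ht']
  refine Eq.trans ?_ ((congrArg₂ (· + ·) h2 h).trans (add_zero _))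
  rw [← Finset.sum_add_distrib, Finset.card_univ.symm, Finset.card_eq_sum_ones, Nat.cast_sum]
  refine Finset.sum_congr rfl fun s _ => ?_
  by_cases hs : r s ∈ N <;> simp [hs]

end

end Vale.Agent.P319N.Rec
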