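import Vale.Agent.P319N.RecA

/-! # Cubic reciprocity, part A2: gluing, the cocycle and its commutator -/

namespace Vale.Agent.P319N.Rec

open scoped Classical
open Function LinearMap

noncomputable section

variable {A : Type*} [CommRing A] {L L' : Type*} [AddCommGroup L] [Module A L]
  [AddCommGroup L'] [Module A L']

/-- representatives in which `N` itself is represented by `0` -/
theorem exists_reps0 (N : Submodule A L) :
    ∃ r : L ⧸ N → L, Reps N r ∧ r 0 = 0 ∧ ∀ q, r q ∈ N → q = 0 := by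
  have h0 : (0 : L ⧸ N).out ∈ N := by simpa using out_sub N 0
  have hr : Reps N fun q : L ⧸ N => if q = 0 then 0 else q.out := by
    have key : ∀ q : L ⧸ N, (if q = 0 then 0 else q.out) - q.out ∈ N := by
      intro q
      split_ifs with h
      · rw [h]; simpa using h0
      · simp
    refine ⟨fun s t h => (reps_out N).1 s t ?_, fun x => ?_⟩
    · have := N.add_mem (N.sub_mem h (key s)) (key t)
      convert this using 1
      abel
    · obtain ⟨t, ht⟩ := (reps_out N).2 x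
      refine ⟨t, ?_⟩
      have := N.sub_mem ht (key t)
      convert this using 1
      abel
  exact ⟨_, hr, if_pos rfl, fun q hq => hr.1 q 0 (by simpa using hq)⟩

theorem reps_chain {g : L' →ₗ[A] L} (hg : Injective g) {N : Submodule A L'} {σ τ : Type*}
    {r₁ : σ → L} {r₂ : τ → L'} (h₁ : Reps (range g) r₁) (h₂ : Reps N r₂) :
    Reps (N.map g) fun p : σ × τ => r₁ p.1 + g (r₂ p.2) := by
  constructor
  · rintro ⟨a, b⟩ ⟨a', b'⟩ ⟨y, hy, h⟩
    dsimp only at h
    obtain rfl : a = a' := h₁.1 _ _ ⟨y - r₂ b + r₂ b', by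
      rw [map_add, map_sub, h]; abel⟩
    have : y = r₂ b - r₂ b' := hg (by rw [h, map_sub]; abel)
    rw [h₂.1 b b' (this ▸ hy)]
  · intro x
    obtain ⟨a, y, hy⟩ := h₁.2 x
    obtain ⟨b, hb⟩ := h₂.2 y
    exact ⟨(a, b), _, hb, by rw [map_sub, hy]; dsimp only; abel⟩

theorem finite_map {g : L' →ₗ[A] L} (hg : Injective g) {N : Submodule A L'} [Finite (L' ⧸ N)]
    [Finite (L ⧸ range g)] : Finite (L ⧸ N.map g) :=
  (reps_chain hg (reps_out _) (reps_out N)).finite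

theorem mem_map_inj {g : L' →ₗ[A] L} (hg : Injective g) {N : Submodule A L'} (x : L') :
    g x ∈ N.map g ↔ x ∈ N := ⟨fun ⟨_, hy, h⟩ => hg h ▸ hy, fun h => ⟨x, h, rfl⟩⟩

theorem ext_out {g : L' →ₗ[A] L} (e₂ : L' → ZMod 3) (e₁ : L → ZMod 3) {x : L} (hx : x ∉ range g) :
    extend g e₂ e₁ x = e₁ x := extend_apply' _ _ _ hx

theorem ori_extend {w : A} (hw : w ^ 2 + w + 1 = 0) {g : L' →ₗ[A] L} (hg : Injective g)
    {N : Submodule A L'} {e₁ : L → ZMod 3} {e₂ : L' → ZMod 3} (h₁ : Ori w (range g) e₁)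
    (h₂ : Ori w N e₂) : Ori w (N.map g) (extend g e₂ e₁) := by
  constructor
  · rintro x y ⟨n, hn, h⟩
    by_cases hy : y ∈ range g
    · obtain ⟨y, rfl⟩ := hy
      obtain rfl : x = g (n + y) := by rw [map_add, h]; abel
      rw [hg.extend_apply, hg.extend_apply]
      exact h₂.1 _ _ (by simpa using hn)
    · have hxy : x - y ∈ range g := ⟨n, h⟩
      rw [ext_out _ _ hy, ext_out _ _ (fun hx => hy ((mem_congr hxy).1 hx))]
      exact h₁.1 _ _ hxy
  · intro x hx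
    by_cases hy : x ∈ range g
    · obtain ⟨y, rfl⟩ := hy
      rw [← map_smul, hg.extend_apply, hg.extend_apply]
      exact h₂.2 _ fun h => hx ⟨y, h, rfl⟩
    · rw [ext_out _ _ hy, ext_out _ _ (fun h => hy ((smul_mem_iff hw x).1 h))]
      exact h₁.2 _ hy

theorem cmp_extend {w : A} (hw : w ^ 2 + w + 1 = 0) {g : L' →ₗ[A] L} (hg : Injective g)
    {N : Submodule A L'} [Finite (L' ⧸ N)] [Finite (L ⧸ range g)] {e₁ f₁ : L → ZMod 3}
    {e₂ f₂ : L' → ZMod 3} (h₁ : Ori w (range g) e₁) (h₁' : Ori w (range g) f₁)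
    (h₂ : Ori w N e₂) (h₂' : Ori w N f₂) :
    cmp (N.map g) (extend g e₂ e₁) (extend g f₂ f₁) = cmp (range g) e₁ f₁ + cmp N e₂ f₂ := by
  have := Fintype.ofFinite (L' ⧸ N)
  have := Fintype.ofFinite (L ⧸ range g)
  obtain ⟨r₁, hr₁, hr0, hr0'⟩ := exists_reps0 (range g)
  have hr₂ := reps_out N
  have hc := card_eq_one hw h₂ hr₂
  rw [cmp, cmp, cmp, qsum_reps (reps_chain hg hr₁ hr₂)
    (per_cmp (ori_extend hw hg h₁ h₂).1 (ori_extend hw hg h₁' h₂').1),
    qsum_reps hr₁ (per_cmp h₁.1 h₁'.1), qsum_reps hr₂ (per_cmp h₂.1 h₂'.1), Fintype.sum_prod_type,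
    ← Finset.add_sum_erase _ _ (Finset.mem_univ (0 : L ⧸ range g)),
    ← Finset.add_sum_erase _ _ (Finset.mem_univ (0 : L ⧸ range g)), hr0,
    if_neg (fun h => h.1 (Submodule.zero_mem _)), zero_add, add_comm]
  congr 1
  · refine Finset.sum_congr rfl fun a ha => ?_
    have ha' : r₁ a ∉ range g := fun h => (Finset.mem_erase.1 ha).1 (hr0' a h)
    rw [Finset.sum_congr rfl (g := fun _ => if r₁ a ∉ range g ∧ f₁ (r₁ a) = 0 then e₁ (r₁ a) else 0),
      Finset.sum_const, Finset.card_univ, nsmul_eq_mul, hc, one_mul]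
    intro b _
    have h1 : r₁ a + g b.out - r₁ a ∈ range g := ⟨b.out, by abel⟩
    have h2 : r₁ a + g b.out ∉ range g := fun h => ha' ((mem_congr h1).1 h)
    have h3 : r₁ a + g b.out ∉ N.map g := fun h => h2 (LinearMap.map_le_range h)
    simp only [ext_out _ _ h2, h₁.1 _ _ h1, h₁'.1 _ _ h1, h3, ha']
  · refine Finset.sum_congr rfl fun b _ => ?_
    simp only [hr0, zero_add, hg.extend_apply, mem_map_inj hg]

theorem diamond {w : A} (hw : w ^ 2 + w + 1 = 0) {N₁ N₂ : Submodule A L} (h : N₁ ⊔ N₂ = ⊤)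
    [Finite (L ⧸ N₁)] [Finite (L ⧸ N₂)] {φ ψ : L → ZMod 3} (hφ : Ori w N₁ φ) (hψ : Ori w N₂ ψ) :
    cmp (N₁ ⊓ N₂) (fun x => if x ∈ N₁ then ψ x else φ x)
      (fun x => if x ∈ N₂ then φ x else ψ x) = 0 := by
  have := Fintype.ofFinite (L ⧸ N₁)
  have := Fintype.ofFinite (L ⧸ N₂)
  have hd : ∀ x : L, ∃ y ∈ N₁, ∃ z ∈ N₂, y + z = x := fun x =>
    Submodule.mem_sup.1 (h ▸ Submodule.mem_top)
  have q1 : QIso N₂.subtype (N₁.comap N₂.subtype) N₁ := ⟨fun _ => Iff.rfl, fun x => by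
    obtain ⟨y, hy, z, hz, rfl⟩ := hd x
    exact ⟨⟨z, hz⟩, by simpa using hy⟩⟩
  have q2 : QIso N₁.subtype (N₂.comap N₁.subtype) N₂ := ⟨fun _ => Iff.rfl, fun x => by
    obtain ⟨y, hy, z, hz, rfl⟩ := hd x
    exact ⟨⟨y, hy⟩, by simpa using hz⟩⟩
  obtain ⟨r₁, hr₁, hm₁⟩ : ∃ r : L ⧸ N₁ → L, Reps N₁ r ∧ ∀ t, r t ∈ N₂ := by
    choose r hr using fun q : L ⧸ N₁ => q1.2 q.out
    refine ⟨fun q => r q, ⟨fun s t hst => (reps_out N₁).1 s t ?_, fun x => ?_⟩, fun q => (r q).2⟩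
    · convert N₁.sub_mem (N₁.add_mem hst (hr s)) (hr t) using 1
      simp
    · obtain ⟨t, ht⟩ := (reps_out N₁).2 x
      exact ⟨t, by simpa using N₁.add_mem ht (hr t)⟩
  obtain ⟨r₂, hr₂, hm₂⟩ : ∃ r : L ⧸ N₂ → L, Reps N₂ r ∧ ∀ t, r t ∈ N₁ := by
    choose r hr using fun q : L ⧸ N₂ => q2.2 q.out
    refine ⟨fun q => r q, ⟨fun s t hst => (reps_out N₂).1 s t ?_, fun x => ?_⟩, fun q => (r q).2⟩
    · convert N₂.sub_mem (N₂.add_mem hst (hr s)) (hr t) using 1
      simp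
    · obtain ⟨t, ht⟩ := (reps_out N₂).2 x
      exact ⟨t, by simpa using N₂.add_mem ht (hr t)⟩
  have hr : Reps (N₁ ⊓ N₂) fun p : (L ⧸ N₂) × (L ⧸ N₁) => r₂ p.1 + r₁ p.2 := by
    constructor
    · rintro ⟨a, b⟩ ⟨a', b'⟩ ⟨h1, h2⟩
      rw [hr₁.1 b b' (by
          convert N₁.add_mem (N₁.sub_mem h1 (hm₂ a)) (hm₂ a') using 1; simp; abel),
        hr₂.1 a a' (by
          convert N₂.add_mem (N₂.sub_mem h2 (hm₁ b)) (hm₁ b') using 1; simp; abel)]
    · intro x
      obtain ⟨b, hb⟩ := hr₁.2 x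
      obtain ⟨a, ha⟩ := hr₂.2 x
      refine ⟨(a, b), ?_, ?_⟩
      · convert N₁.sub_mem hb (hm₂ a) using 1; simp; abel
      · convert N₂.sub_mem ha (hm₁ b) using 1; simp; abel
  rw [cmp, qsum_reps hr (per_cmp (fun x y h => by
      simp only [mem_congr h.1, hφ.1 x y h.1, hψ.1 x y h.2]) (fun x y h => by
      simp only [mem_congr h.2, hφ.1 x y h.1, hψ.1 x y h.2])), Fintype.sum_prod_type]
  refine Finset.sum_eq_zero fun a _ => ?_
  have h3 := qsum_three hw hφ id z3_sum2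
  rw [qsum_reps hr₁ (fun x y h => by simp only [mem_congr h, hφ.1 x y h])] at h3
  have e1 : ∀ b, r₂ a + r₁ b - r₁ b ∈ N₁ := fun b => by simpa using hm₂ a
  have e2 : ∀ b, r₂ a + r₁ b - r₂ a ∈ N₂ := fun b => by simpa using hm₁ b
  simp only [Submodule.mem_inf, mem_congr (e1 _), mem_congr (e2 _), hφ.1 _ _ (e1 _),
    hψ.1 _ _ (e2 _)]
  by_cases ha : r₂ a ∈ N₂
  · refine Finset.sum_eq_zero fun b _ => ?_
    by_cases hb : r₁ b ∈ N₁ <;> simp [ha, hb]
  · by_cases hz : ψ (r₂ a) = 0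
    · refine Eq.trans (Finset.sum_congr rfl fun b _ => ?_) h3
      by_cases hb : r₁ b ∈ N₁ <;> simp [ha, hb, hz]
    · simp [ha, hz]

theorem exists_ori {w : A} (hw : w ^ 2 + w + 1 = 0) {N : Submodule A L} (hN : Fr w N) :
    ∃ e, Ori w N e := by
  have h3 := w_cube hw
  let pw : ZMod 3 → A := fun k => w ^ k.val
  have pw_add : ∀ k l, pw (k + l) = pw k * pw l := by
    intro k l
    simp only [pw, ZMod.val_add, ← pow_add]
    exact (pow_eq_pow_mod _ h3).symm
  have pw0 : pw 0 = 1 := pow_zero w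
  have pw1 : pw 1 = w := pow_one w
  have pw2 : pw 2 = w ^ 2 := rfl
  let S : Setoid L := ⟨fun x y => ∃ k, x - pw k • y ∈ N, ⟨fun x => ⟨0, by simp [pw0]⟩,
    fun {x y} ⟨k, hk⟩ => ⟨-k, by
      have := N.neg_mem (N.smul_mem (pw (-k)) hk)
      rwa [smul_sub, smul_smul, ← pw_add, neg_add_cancel, pw0, one_smul, neg_sub] at this⟩,
    fun {x y z} ⟨k, hk⟩ ⟨l, hl⟩ => ⟨k + l, by
      have := N.add_mem hk (N.smul_mem (pw k) hl)
      rwa [smul_sub, smul_smul, ← pw_add, sub_add_sub_cancel] at this⟩⟩⟩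
  let ρ : L → L := fun x => (Quotient.mk S x).out
  have hρ : ∀ x, ∃ k, x - pw k • ρ x ∈ N := fun x => S.symm (Quotient.mk_out (s := S) x)
  have hρ' : ∀ x y, S.r x y → ρ x = ρ y := fun x y h => by simp only [ρ, Quotient.sound h]
  have uniq : ∀ x y k l, x ∉ N → x - pw k • y ∈ N → x - pw l • y ∈ N → k = l := by
    intro x y k l hx hk hl
    have hy : y ∉ N := fun hy => hx ((mem_congr hk).2 (N.smul_mem _ hy))
    have h1 : pw (k - l) • y - y ∈ N := by
      have := N.smul_mem (pw (-l)) (N.sub_mem hl hk)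
      rwa [sub_sub_sub_cancel_left, smul_sub, smul_smul, smul_smul, ← pw_add, ← pw_add,
        neg_add_cancel, pw0, one_smul, neg_add_eq_sub] at this
    rcases z3_cases (k - l) with h | h | h
    · exact sub_eq_zero.1 h
    · rw [h, pw1] at h1
      exact absurd (hN y h1) hy
    · rw [h, pw2] at h1
      have := N.neg_mem (N.smul_mem w h1)
      rw [smul_sub, smul_smul, ← pow_succ', h3, one_smul, neg_sub] at this
      exact absurd (hN y this) hy
  let e : L → ZMod 3 := fun x => if x ∈ N then 0 else (hρ x).choose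
  have he : ∀ x, x ∉ N → x - pw (e x) • ρ x ∈ N := fun x hx => by
    simp only [e, if_neg hx]; exact (hρ x).choose_spec
  refine ⟨e, fun x y h => ?_, fun x hx => ?_⟩
  · by_cases hx : x ∈ N
    · simp only [e, if_pos hx, if_pos ((mem_congr h).1 hx)]
    · have hy : y ∉ N := fun hy => hx ((mem_congr h).2 hy)
      refine uniq x (ρ x) _ _ hx (he x hx) ?_
      rw [hρ' x y ⟨0, by simpa [pw0] using h⟩]
      simpa using N.add_mem h (he y hy)
  · have hx' : w • x ∉ N := fun h => hx ((smul_mem_iff hw x).1 h)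
    refine uniq (w • x) (ρ x) _ _ hx' ?_ ?_
    · rw [← hρ' (w • x) x ⟨1, by simp [pw1]⟩]
      exact he _ hx'
    · have := N.smul_mem w (he x hx)
      rwa [smul_sub, smul_smul, ← pw1, ← pw_add, add_comm, pw1] at this

/-- a chosen orientation -/
def ori (w : A) (N : Submodule A L) : L → ZMod 3 := Classical.epsilon (Ori w N)

theorem ori_spec {w : A} (hw : w ^ 2 + w + 1 = 0) {N : Submodule A L} (hN : Fr w N) :
    Ori w N (ori w N) := Classical.epsilon_spec (exists_ori hw hN)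

/-- the Gauss–Schering symbol of `Q` on `L / N` -/
def SS (w : A) (Q : L →ₗ[A] L) (N : Submodule A L) : ZMod 3 := cmp N (ori w N ∘ Q) (ori w N)

/-- the cocycle -/
def coc (w : A) (g h : L →ₗ[A] L) : ZMod 3 :=
  cmp (range (g ∘ₗ h)) (extend g (ori w (range h)) (ori w (range g))) (ori w (range (g ∘ₗ h)))

/-- admissible endomorphisms -/
def Adm (w : A) (g : L →ₗ[A] L) : Prop := Injective g ∧ Finite (L ⧸ range g) ∧ Fr w (range g)

variable {w : A} (hw : w ^ 2 + w + 1 = 0)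

theorem Adm.comp {g h : L →ₗ[A] L} (hg : Adm w g) (hh : Adm w h) : Adm w (g ∘ₗ h) := by
  have := hg.2.1
  have := hh.2.1
  refine ⟨hg.1.comp hh.1, by rw [range_comp]; exact finite_map hg.1, fun x hx => ?_⟩
  rw [range_comp] at hx ⊢
  obtain ⟨y, rfl⟩ := hg.2.2 x (LinearMap.map_le_range hx)
  rw [← map_smul, ← map_sub, mem_map_inj hg.1] at hx
  exact ⟨y, hh.2.2 y hx, rfl⟩

include hw

theorem SS_eq {Q : L →ₗ[A] L} {N : Submodule A L} [Finite (L ⧸ N)] (hQ : QIso Q N N)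
    {e : L → ZMod 3} (he : Ori w N e) : SS w Q N = cmp N (e ∘ Q) e := by
  have ho : Ori w N (ori w N) := Classical.epsilon_spec ⟨e, he⟩
  rw [SS, ← cmp_trans hw (hQ.ori ho) (hQ.ori he) ho, hQ.cmp ho.1 he.1,
    ← cmp_trans hw (hQ.ori he) he ho, add_comm (cmp N (e ∘ Q) e), ← add_assoc,
    cmp_trans hw ho he ho, cmp_self, zero_add]

theorem SS_transport {φ : L' →ₗ[A] L} {N' : Submodule A L'} {N : Submodule A L} [Finite (L' ⧸ N')]
    (h : QIso φ N' N) (hN : Fr w N) {Q : L →ₗ[A] L} {Q' : L' →ₗ[A] L'} (hQ : QIso Q N N)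
    (hQ' : QIso Q' N' N') (hc : ∀ x, Q (φ x) - φ (Q' x) ∈ N) : SS w Q N = SS w Q' N' := by
  have ho := ori_spec hw hN
  rw [SS_eq hw hQ' (h.ori ho), SS, ← h.cmp (hQ.ori ho).1 ho.1]
  congr 1
  funext x
  exact ho.1 _ _ (hc x)

theorem SS_triv {N : Submodule A L} (hN : Fr w N) {Q : L →ₗ[A] L} (hc : ∀ x, Q x - x ∈ N) :
    SS w Q N = 0 := by
  have ho := ori_spec hw hN
  rw [SS, show ori w N ∘ Q = ori w N from funext fun x => ho.1 _ _ (hc x), cmp_self]

theorem SS_map {g : L' →ₗ[A] L} (hg : Injective g) {N : Submodule A L'} [Finite (L' ⧸ N)]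
    [Finite (L ⧸ range g)] (hN : Fr w N) (hg' : Fr w (range g)) {Q : L →ₗ[A] L} {Q' : L' →ₗ[A] L'}
    (hQ : QIso Q (range g) (range g)) (hQ' : QIso Q' N N) (hQ'' : QIso Q (N.map g) (N.map g))
    (hc : ∀ x, Q (g x) = g (Q' x)) :
    SS w Q (N.map g) = SS w Q (range g) + SS w Q' N := by
  have := finite_map (N := N) hg
  have h1 := ori_spec hw hg'
  have h2 := ori_spec hw hN
  rw [SS_eq hw hQ'' (ori_extend hw hg h1 h2), SS, SS,
    ← cmp_extend hw hg (hQ.ori h1) h1 (hQ'.ori h2) h2]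
  congr 1
  funext x
  by_cases hx : x ∈ range g
  · obtain ⟨y, rfl⟩ := hx
    simp only [Function.comp, hc, hg.extend_apply]
  · simp only [Function.comp, ext_out _ _ hx, ext_out _ _ (fun h => hx ((hQ.1 x).1 h))]

theorem coc_cocycle {g h k : L →ₗ[A] L} (hg : Adm w g) (hh : Adm w h) (hk : Adm w k) :
    coc w g h + coc w (g ∘ₗ h) k = coc w h k + coc w g (h ∘ₗ k) := by
  have og := ori_spec hw hg.2.2
  have oh := ori_spec hw hh.2.2
  have ok := ori_spec hw hk.2.2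
  have ogh := ori_spec hw (hg.comp hh).2.2
  have ohk := ori_spec hw (hh.comp hk).2.2
  have oghk := ori_spec hw ((hg.comp hh).comp hk).2.2
  have := hg.2.1
  have := hk.2.1
  have := (hg.comp hh).2.1
  have := (hh.comp hk).2.1
  have := ((hg.comp hh).comp hk).2.1
  have o1 : Ori w (range (g ∘ₗ h)) (extend g (ori w (range h)) (ori w (range g))) := by
    rw [range_comp]; exact ori_extend hw hg.1 og oh
  have o2 : Ori w (range (h ∘ₗ k)) (extend h (ori w (range k)) (ori w (range h))) := by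
    rw [range_comp]; exact ori_extend hw hh.1 oh ok
  have e1 := cmp_extend hw (hg.comp hh).1 o1 ogh ok ok
  have e2 := cmp_extend hw hg.1 og og o2 ohk
  have o3 := ori_extend hw (hg.comp hh).1 o1 ok
  have o4 := ori_extend hw (hg.comp hh).1 ogh ok
  have o5 := ori_extend hw hg.1 og o2
  have o6 := ori_extend hw hg.1 og ohk
  rw [← range_comp] at e1 e2 o3 o4 o5 o6
  rw [cmp_self, add_zero] at e1
  rw [cmp_self, zero_add] at e2
  have e3 : extend (g ∘ₗ h) (ori w (range k)) (extend g (ori w (range h)) (ori w (range g))) =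
      extend g (extend h (ori w (range k)) (ori w (range h))) (ori w (range g)) := by
    funext x
    by_cases hx : x ∈ range g
    · obtain ⟨y, rfl⟩ := hx
      rw [hg.1.extend_apply]
      by_cases hy : y ∈ range h
      · obtain ⟨z, rfl⟩ := hy
        rw [hh.1.extend_apply]
        exact (hg.comp hh).1.extend_apply _ _ z
      · rw [ext_out _ _ hy, ext_out _ _ (fun ⟨z, hz⟩ => hy ⟨z, hg.1 hz⟩), hg.1.extend_apply]
    · rw [ext_out _ _ hx, ext_out _ _ (fun ⟨z, hz⟩ => hx ⟨h z, hz⟩), ext_out _ _ hx]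
  rw [coc, coc, coc, coc, ← e1, ← e2, cmp_trans hw o3 o4 oghk, e3]
  exact (cmp_trans hw o5 o6 oghk).symm

omit hw in
theorem coc_id : coc w (LinearMap.id : L →ₗ[A] L) LinearMap.id = 0 := by
  refine Eq.trans ?_ (qsum_zero (range (LinearMap.id ∘ₗ LinearMap.id : L →ₗ[A] L)))
  rw [coc, cmp]
  congr 1
  funext x
  exact if_neg fun h => h.1 ⟨x, rfl⟩

omit hw in
theorem qiso_of_sup {P Q : L →ₗ[A] L} [Finite (L ⧸ range Q)] (hc : P ∘ₗ Q = Q ∘ₗ P)
    (h : ∀ x, ∃ y z, x = P y + Q z) : QIso P (range Q) (range Q) := by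
  have hm : ∀ x ∈ range Q, P x ∈ range Q := by
    rintro _ ⟨y, rfl⟩
    exact ⟨P y, (LinearMap.congr_fun hc y).symm⟩
  have hs : Surjective ((range Q).mapQ (range Q) P hm) := by
    intro q
    obtain ⟨x, rfl⟩ := (range Q).mkQ_surjective q
    obtain ⟨y, z, rfl⟩ := h x
    exact ⟨Submodule.Quotient.mk y, (Submodule.Quotient.eq _).2 ⟨-z, by simp⟩⟩
  refine ⟨fun x => ⟨fun hx => ?_, hm x⟩, fun x => ?_⟩
  · have := Finite.injective_iff_surjective.2 hs (a₁ := Submodule.Quotient.mk x) (a₂ := 0) (by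
      rw [map_zero, Submodule.mapQ_apply]; exact (Submodule.Quotient.mk_eq_zero _).2 hx)
    exact (Submodule.Quotient.mk_eq_zero _).1 this
  · obtain ⟨y, z, rfl⟩ := h x
    exact ⟨y, z, by simp⟩

theorem coc_comm {P Q : L →ₗ[A] L} (hP : Adm w P) (hQ : Adm w Q) (hc : P ∘ₗ Q = Q ∘ₗ P)
    (h : ∀ x, ∃ y z, x = P y + Q z) :
    coc w P Q + SS w P (range Q) = coc w Q P + SS w Q (range P) := by
  have := hP.2.1
  have := hQ.2.1
  have := (hP.comp hQ).2.1
  have oP := ori_spec hw hP.2.2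
  have oQ := ori_spec hw hQ.2.2
  have oPQ := ori_spec hw (hP.comp hQ).2.2
  have qP := qiso_of_sup hc h
  have qQ := qiso_of_sup hc.symm fun x => by
    obtain ⟨y, z, rfl⟩ := h x
    exact ⟨z, y, add_comm _ _⟩
  have hi : range P ⊓ range Q = range (P ∘ₗ Q) := by
    apply le_antisymm
    · rintro _ ⟨⟨y, rfl⟩, hy⟩
      obtain ⟨z, rfl⟩ := (qP.1 y).1 hy
      exact ⟨z, rfl⟩
    · rintro _ ⟨y, rfl⟩
      exact ⟨⟨Q y, rfl⟩, P y, (LinearMap.congr_fun hc y).symm⟩
  have hd := diamond hw (N₁ := range P) (N₂ := range Q) (eq_top_iff.2 fun x _ => by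
    obtain ⟨y, z, rfl⟩ := h x
    exact Submodule.add_mem_sup ⟨y, rfl⟩ ⟨z, rfl⟩) oP oQ
  have f1 : (fun x => if x ∈ range P then ori w (range Q) x else ori w (range P) x) =
      extend P (ori w (range Q) ∘ P) (ori w (range P)) := by
    funext x
    split_ifs with hx
    · obtain ⟨y, rfl⟩ := hx
      rw [hP.1.extend_apply]; rfl
    · rw [ext_out _ _ hx]
  have f2 : (fun x => if x ∈ range Q then ori w (range P) x else ori w (range Q) x) =
      extend Q (ori w (range P) ∘ Q) (ori w (range Q)) := by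
    funext x
    split_ifs with hx
    · obtain ⟨y, rfl⟩ := hx
      rw [hQ.1.extend_apply]; rfl
    · rw [ext_out _ _ hx]
  rw [f1, f2, hi] at hd
  have e1 := cmp_extend hw hP.1 oP oP (qP.ori oQ) oQ
  have e2 := cmp_extend hw hQ.1 oQ oQ (qQ.ori oP) oP
  have o1 := ori_extend hw hP.1 oP (qP.ori oQ)
  have o2 := ori_extend hw hP.1 oP oQ
  have o3 := ori_extend hw hQ.1 oQ (qQ.ori oP)
  have o4 := ori_extend hw hQ.1 oQ oP
  rw [← range_comp] at e1 e2 o1 o2 o3 o4
  rw [← hc] at e2 o3 o4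
  rw [cmp_self, zero_add] at e1 e2
  rw [coc, coc, SS, SS, ← e1, ← e2, ← hc, add_comm, cmp_trans hw o1 o2 oPQ, add_comm,
    cmp_trans hw o3 o4 oPQ, ← cmp_trans hw o1 o3 oPQ, hd, zero_add]

end

end Vale.Agent.P319N.Rec
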