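import Mathlib

/-! # Cubic reciprocity, part B: a central extension from a cocycle on a submonoid -/

namespace Vale.Agent.P319N.Rec

open OreLocalization

/-- `π` is a central extension of the unit group with kernel of exponent `3` -/
def IsExt {G M : Type*} [Group G] [Monoid M] (π : G →* M) : Prop :=
  (∀ g, IsUnit g → ∃ x, π x = g) ∧ ∀ z, π z = 1 → (∀ y, Commute z y) ∧ z ^ 3 = 1

/-- cocycle data -/
structure Coc (M : Type) [Monoid M] where
  Γ : Submonoid M
  c : M → M → ZMod 3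
  unit : ∀ g ∈ Γ, IsUnit g
  coc : ∀ g ∈ Γ, ∀ h ∈ Γ, ∀ k ∈ Γ, c g h + c (g * h) k = c h k + c g (h * k)
  one : c 1 1 = 0
  den : ∀ g, IsUnit g → ∃ m ∈ Γ, (∀ h, Commute m h) ∧ m * g ∈ Γ

namespace Coc

variable {M : Type} [Monoid M] (D : Coc M)

theorem c_one_left {g : M} (hg : g ∈ D.Γ) : D.c 1 g = 0 := by
  have := D.coc 1 D.Γ.one_mem 1 D.Γ.one_mem g hg
  rw [one_mul, one_mul, D.one] at this
  linear_combination -this

theorem c_one_right {g : M} (hg : g ∈ D.Γ) : D.c g 1 = 0 := by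
  have := D.coc g hg 1 D.Γ.one_mem 1 D.Γ.one_mem
  rw [mul_one, mul_one, D.one] at this
  linear_combination this

/-- the extended monoid -/
@[ext] structure Mon where
  g : D.Γ
  a : ZMod 3

instance : Monoid D.Mon where
  mul x y := ⟨x.g * y.g, x.a + y.a + D.c x.g y.g⟩
  one := ⟨1, 0⟩
  mul_assoc x y z := by
    refine Mon.ext (mul_assoc x.g y.g z.g) ?_
    change x.a + y.a + D.c x.g y.g + z.a + D.c (x.g * y.g) z.g =
      x.a + (y.a + z.a + D.c y.g z.g) + D.c x.g (y.g * z.g)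
    linear_combination D.coc _ x.g.2 _ y.g.2 _ z.g.2
  one_mul x := by
    refine Mon.ext (one_mul x.g) ?_
    change 0 + x.a + D.c 1 x.g = x.a
    rw [D.c_one_left x.g.2]; ring
  mul_one x := by
    refine Mon.ext (mul_one x.g) ?_
    change x.a + 0 + D.c x.g 1 = x.a
    rw [D.c_one_right x.g.2]; ring

variable {D}

theorem mul_g (x y : D.Mon) : (x * y).g = x.g * y.g := rfl
theorem mul_a (x y : D.Mon) : (x * y).a = x.a + y.a + D.c x.g y.g := rfl

theorem cancel_left {s x y : D.Mon} (h : s * x = s * y) : x = y := by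
  have h1 : x.g = y.g := Subtype.ext ((D.unit _ s.g.2).mul_left_cancel
    (congrArg (fun z : D.Mon => (z.g : M)) h))
  have h2 := congrArg Mon.a h
  rw [mul_a, mul_a, h1] at h2
  exact Mon.ext h1 (by linear_combination h2)

/-- the central elements of the kernel -/
def zz (k : ZMod 3) : D.Mon := ⟨1, k⟩

theorem zz_mul (k : ZMod 3) (x : D.Mon) : zz k * x = ⟨x.g, k + x.a⟩ :=
  Mon.ext (one_mul _) (by
    change k + x.a + D.c 1 x.g = k + x.a
    rw [D.c_one_left x.g.2, add_zero])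

theorem zz_comm (k : ZMod 3) (x : D.Mon) : Commute (zz k) x := by
  rw [Commute, SemiconjBy, zz_mul]
  refine Mon.ext (mul_one _).symm ?_
  change k + x.a = x.a + k + D.c x.g 1
  rw [D.c_one_right x.g.2]; ring

theorem zz_add (k l : ZMod 3) : (zz k * zz l : D.Mon) = zz (k + l) := zz_mul k _

theorem zz_cube (k : ZMod 3) : (zz k : D.Mon) ^ 3 = 1 := by
  rw [pow_succ, pow_two, zz_add, zz_add]
  have : ∀ k : ZMod 3, k + k + k = 0 := by decide
  rw [this]; rfl

theorem eq_zz_mul {x y : D.Mon} (h : (x.g : M) = y.g) : ∃ k, x = zz k * y :=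
  ⟨x.a - y.a, by rw [zz_mul]; exact Mon.ext (Subtype.ext h) (by simp)⟩

theorem cube_central {x : D.Mon} (h : ∀ g, Commute (x.g : M) g) : x ^ 3 ∈ Submonoid.center D.Mon := by
  rw [Submonoid.mem_center_iff]
  intro y
  obtain ⟨k, hk⟩ := eq_zz_mul (x := x * y) (y := y * x) (h _)
  have h1 : ∀ u : D.Mon, x * (y * u) = zz k * (y * (x * u)) := fun u => by
    rw [← mul_assoc, hk, mul_assoc, mul_assoc]
  have h2 : ∀ u v : D.Mon, u * (zz k * v) = zz k * (u * v) := fun u v =>
    (zz_comm k u).symm.left_comm v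
  have h3 : ∀ u : D.Mon, zz k * (zz k * (zz k * u)) = u := fun u => by
    rw [← mul_assoc, ← mul_assoc, ← pow_two, ← pow_succ, zz_cube, one_mul]
  have : x ^ 3 * y = x * (x * (x * (y * 1))) := by simp [pow_succ, mul_assoc]
  rw [this, h1, h2, h2, h1, h2, h1, h3]
  simp [pow_succ, mul_assoc]

instance : OreSet (Submonoid.center D.Mon) where
  ore_right_cancel r₁ r₂ s h := ⟨s, by
    rw [← Submonoid.mem_center_iff.1 s.2, ← Submonoid.mem_center_iff.1 s.2, h]⟩
  oreNum r _ := r
  oreDenom _ s := s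
  ore_eq r s := (Submonoid.mem_center_iff.1 s.2 r).symm

variable (D)

/-- projection -/
def pr : D.Mon →* M where
  toFun x := x.g
  map_one' := rfl
  map_mul' _ _ := rfl

/-- the localised monoid -/
abbrev Loc : Type := D.Mon[(Submonoid.center D.Mon)⁻¹]

noncomputable def prS : Submonoid.center D.Mon →* Mˣ :=
  IsUnit.liftRight (D.pr.comp (Submonoid.subtype _)) fun s => D.unit _ s.1.g.2

noncomputable def prL : D.Loc →* M := universalMulHom D.pr D.prS fun _ => rfl

theorem prL_div (r : D.Mon) (s : Submonoid.center D.Mon) :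
    D.prL (r /ₒ s) = ((D.prS s)⁻¹ : Mˣ) * (r.g : M) := rfl

theorem prL_num (r : D.Mon) : D.prL (numeratorHom r) = r.g := universalMulHom_commutes _ _ _

variable {D}

theorem num_inj {x y : D.Mon} (h : (numeratorHom x : D.Loc) = numeratorHom y) : x = y := by
  obtain ⟨u, v, h1, h2⟩ := oreDiv_eq_iff.1 h
  simp only [OneMemClass.coe_one, mul_one] at h2
  rw [← h2] at h1
  exact (cancel_left h1).symm

theorem num_central {z : D.Mon} (hz : z ∈ Submonoid.center D.Mon) (y : D.Loc) :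
    Commute (numeratorHom z) y := by
  induction y using OreLocalization.ind with
  | c r s =>
    have e : (r /ₒ s : D.Loc) = (((numeratorUnit s)⁻¹ : D.Locˣ) : D.Loc) * (numeratorHom r : D.Loc) := by
      change _ = (1 /ₒ s) * (r /ₒ 1)
      rw [mul_div_one, one_mul]
    have hc : ∀ t : D.Mon, Commute (numeratorHom z : D.Loc) (numeratorHom t) := fun t =>
      Commute.map (Submonoid.mem_center_iff.1 hz t).symm _
    rw [e]
    exact (Commute.units_inv_right (hc s)).mul_right (hc r)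

theorem ker_prL {y : D.Loc} (h : D.prL y = 1) : ∃ k, y = numeratorHom (zz k) := by
  induction y using OreLocalization.ind with
  | c r s =>
    rw [prL_div, Units.inv_mul_eq_one] at h
    obtain ⟨k, rfl⟩ := eq_zz_mul (x := r) (y := s) h.symm
    refine ⟨k, ?_⟩
    rw [(zz_comm k s.1).eq, ← mul_div_one, OreLocalization.div_eq_one, one_mul]
    rfl

theorem num_unit (x : D.Mon) : IsUnit (numeratorHom x : D.Loc) := by
  obtain ⟨u, hu⟩ := D.unit _ x.g.2
  obtain ⟨m, hm, hc, hm'⟩ := D.den _ u⁻¹.isUnit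
  let μ : D.Mon := ⟨⟨m, hm⟩, 0⟩
  let y : D.Mon := μ * μ * ⟨⟨_, hm'⟩, 0⟩
  have hy : (y.g : M) = m * m * (m * ↑u⁻¹) := rfl
  have hμ : ((μ ^ 3).g : M) = m * m * m := by rw [pow_succ, pow_two]; rfl
  have hcen : ∀ k, zz k * μ ^ 3 ∈ Submonoid.center D.Mon := fun k =>
    mul_mem (Submonoid.mem_center_iff.2 fun g => (zz_comm k g).symm.eq) (cube_central hc)
  obtain ⟨k, hk⟩ := eq_zz_mul (x := x * y) (y := μ ^ 3) (by
    change (x.g : M) * y.g = _
    rw [hy, hμ, ← hu, ← mul_assoc (m * m), ← mul_assoc,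
      ← (((hc _).mul_left (hc _)).mul_left (hc _)).eq, mul_assoc, Units.mul_inv, mul_one])
  obtain ⟨l, hl⟩ := eq_zz_mul (x := y * x) (y := μ ^ 3) (by
    change y.g * (x.g : M) = _
    rw [hy, hμ, ← hu, ← mul_assoc (m * m), mul_assoc, Units.inv_mul, mul_one])
  have h1 := numerator_isUnit (S := Submonoid.center D.Mon) ⟨_, hcen k⟩
  have h2 := numerator_isUnit (S := Submonoid.center D.Mon) ⟨_, hcen l⟩
  simp only [← hk, ← hl, map_mul] at h1 h2
  obtain ⟨a, ha⟩ := h1.exists_right_inv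
  obtain ⟨b, hb⟩ := h2.exists_left_inv
  rw [mul_assoc] at ha
  rw [← mul_assoc] at hb
  exact ⟨⟨_, _, ha, by rw [← left_inv_eq_right_inv hb ha]; exact hb⟩, rfl⟩

variable (D)

noncomputable def pi : D.Locˣ →* M := D.prL.comp (Units.coeHom _)

theorem isExt : IsExt D.pi := by
  constructor
  · intro g hg
    obtain ⟨m, hm, hc, hm'⟩ := D.den g hg
    let μ : D.Mon := ⟨⟨m, hm⟩, 0⟩
    let x : D.Mon := ⟨⟨_, hm'⟩, 0⟩
    refine ⟨(num_unit μ).unit⁻¹ * (num_unit x).unit, ?_⟩
    apply (D.unit m hm).mul_left_cancel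
    have h1 : D.pi (num_unit μ).unit = m := D.prL_num μ
    have h2 : D.pi (num_unit x).unit = m * g := D.prL_num x
    rw [← h2, ← h1, ← map_mul, mul_inv_cancel_left]
  · intro z hz
    obtain ⟨k, hk⟩ := ker_prL hz
    have hk' : (z : D.Loc) = numeratorHom (zz k) := hk
    refine ⟨fun y => Units.ext ?_, Units.ext ?_⟩
    · rw [Units.val_mul, Units.val_mul, hk']
      exact num_central (Submonoid.mem_center_iff.2 fun g => (zz_comm k g).symm.eq) _
    · rw [Units.val_pow_eq_pow_val, hk', ← map_pow, zz_cube, map_one, Units.val_one]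

end Coc

section

variable {G M : Type*} [Group G] [Monoid M] {π : G →* M}

theorem IsExt.eq_mul (hπ : IsExt π) {x y : G} (h : π x = π y) :
    ∃ z, (∀ u, Commute z u) ∧ z ^ 3 = 1 ∧ x = z * y := by
  have : π (x * y⁻¹) = 1 := by rw [map_mul, h, ← map_mul, mul_inv_cancel, map_one]
  exact ⟨_, (hπ.2 _ this).1, (hπ.2 _ this).2, by simp⟩

theorem IsExt.commute_congr (hπ : IsExt π) {x x' y y' : G} (h : π x = π x') (h' : π y = π y')
    (hc : Commute x' y') : Commute x y := by
  obtain ⟨z, hz, -, rfl⟩ := hπ.eq_mul h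
  obtain ⟨z', hz', -, rfl⟩ := hπ.eq_mul h'
  exact (hz _).mul_left ((hz' _).symm.mul_right hc)

end

theorem Coc.commute_iff {M : Type} [Monoid M] (D : Coc M) {P Q : M} (hP : P ∈ D.Γ) (hQ : Q ∈ D.Γ)
    (hc : Commute P Q) {x y : D.Locˣ} (hx : D.pi x = P) (hy : D.pi y = Q) :
    Commute x y ↔ D.c P Q = D.c Q P := by
  let p : D.Mon := ⟨⟨P, hP⟩, 0⟩
  let q : D.Mon := ⟨⟨Q, hQ⟩, 0⟩
  have h1 : D.pi (Coc.num_unit p).unit = P := D.prL_num p
  have h2 : D.pi (Coc.num_unit q).unit = Q := D.prL_num q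
  have : Commute x y ↔ Commute (Coc.num_unit p).unit (Coc.num_unit q).unit :=
    ⟨D.isExt.commute_congr (h1.trans hx.symm) (h2.trans hy.symm),
      D.isExt.commute_congr (hx.trans h1.symm) (hy.trans h2.symm)⟩
  rw [this, ← Commute.units_val_iff, IsUnit.unit_spec, IsUnit.unit_spec]
  constructor
  · intro h
    have h3 : p * q = q * p := Coc.num_inj (by rw [map_mul, map_mul]; exact h)
    have h4 := congrArg Coc.Mon.a h3
    simpa [Coc.mul_a, p, q] using h4
  · intro h
    refine Commute.map (show p * q = q * p from Coc.Mon.ext (Subtype.ext hc.eq) ?_) _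
    simpa [Coc.mul_a, p, q] using h

end Vale.Agent.P319N.Rec
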