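import Vale.Agent.P319N.RecB

/-! # Cubic reciprocity, part C: canonical lifts of square-zero unipotents -/

namespace Vale.Agent.P319N.Rec

set_option linter.unusedSectionVars false
set_option linter.unusedSimpArgs false

open Matrix

section Can

variable {G R : Type*} [Group G] [Ring R] [Algebra ℚ R] (π : G →* R)

/-- the canonical lift of `1 + n` -/
noncomputable def can (n : R) : G :=
  (Classical.epsilon fun x : G => π x = 1 + (3⁻¹ : ℚ) • n) ^ 3

variable {π}

theorem isUnit_one_add {n : R} (hn : n * n = 0) : IsUnit (1 + n) :=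
  ⟨⟨1 + n, 1 - n, by noncomm_ring [hn], by noncomm_ring [hn]⟩, rfl⟩

theorem IsExt.cube_eq (hπ : IsExt π) {x y : G} (h : π x = π y) : x ^ 3 = y ^ 3 := by
  obtain ⟨z, hz, hz3, rfl⟩ := hπ.eq_mul h
  rw [(hz y).mul_pow, hz3, one_mul]

theorem IsExt.lift3 (hπ : IsExt π) {n : R} (hn : n * n = 0) : ∃ x, π x = 1 + (3⁻¹ : ℚ) • n :=
  hπ.1 _ (isUnit_one_add (by rw [smul_mul_smul_comm, hn, smul_zero]))

theorem IsExt.can_eq (hπ : IsExt π) {n : R} {x : G} (hx : π x = 1 + (3⁻¹ : ℚ) • n) :
    can π n = x ^ 3 :=
  hπ.cube_eq ((Classical.epsilon_spec (p := fun x : G => π x = 1 + (3⁻¹ : ℚ) • n) ⟨x, hx⟩).trans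
    hx.symm)

theorem IsExt.pi_can (hπ : IsExt π) {n : R} (hn : n * n = 0) : π (can π n) = 1 + n := by
  obtain ⟨x, hx⟩ := hπ.lift3 hn
  have h1 : ((3⁻¹ : ℚ) • n) * ((3⁻¹ : ℚ) • n) = 0 := by rw [smul_mul_smul_comm, hn, smul_zero]
  have h2 : (3⁻¹ : ℚ) • n + (3⁻¹ : ℚ) • n + (3⁻¹ : ℚ) • n = n := by
    rw [← add_smul, ← add_smul]; norm_num
  rw [hπ.can_eq hx, map_pow, hx]
  generalize (3⁻¹ : ℚ) • n = m at h1 h2
  rw [← h2]
  have : (1 + m) ^ 3 = 1 + (m + m + m) + 3 * (m * m) + m * (m * m) := by noncomm_ring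
  rw [this, h1]; simp

theorem IsExt.can_conj (hπ : IsExt π) {n n' : R} (hn : n * n = 0) {g : G}
    (h : π g * n = n' * π g) : g * can π n = can π n' * g := by
  obtain ⟨x, hx⟩ := hπ.lift3 hn
  have : π (g * x * g⁻¹) = 1 + (3⁻¹ : ℚ) • n' := by
    rw [map_mul, map_mul, hx, mul_add, mul_one, mul_smul_comm, h, add_mul, smul_mul_assoc,
      mul_assoc, ← map_mul, mul_inv_cancel, map_one, mul_one]
  rw [hπ.can_eq hx, hπ.can_eq this, conj_pow]
  simp

theorem IsExt.can_add (hπ : IsExt π) {n n' : R} (hn : n * n = 0) (hn' : n' * n' = 0)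
    (h : n * n' = 0) (h' : n' * n = 0) : can π (n + n') = can π n * can π n' := by
  obtain ⟨x, hx⟩ := hπ.lift3 hn
  obtain ⟨y, hy⟩ := hπ.lift3 hn'
  have h1 : π (x * y) = 1 + (3⁻¹ : ℚ) • (n + n') := by
    rw [map_mul, hx, hy, add_mul, one_mul, mul_add, mul_one, smul_mul_smul_comm, h, smul_zero,
      smul_add]
    abel
  have h2 : π (y * x) = 1 + (3⁻¹ : ℚ) • (n + n') := by
    rw [map_mul, hx, hy, add_mul, one_mul, mul_add, mul_one, smul_mul_smul_comm, h', smul_zero,
      smul_add]
    abel
  obtain ⟨z, hz, hz3, hk⟩ := hπ.eq_mul (h2.trans h1.symm)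
  have h3 : ∀ u, y * (x * u) = z * (x * (y * u)) := fun u => by
    rw [← mul_assoc, hk, mul_assoc, mul_assoc]
  have h4 : ∀ u v, u * (z * v) = z * (u * v) := fun u v => (hz u).symm.left_comm v
  have h5 : ∀ u, z * (z * (z * u)) = u := fun u => by
    rw [← mul_assoc, ← mul_assoc, ← pow_two, ← pow_succ, hz3, one_mul]
  rw [hπ.can_eq hx, hπ.can_eq hy, hπ.can_eq h1]
  have : (x * y) ^ 3 = x * (y * (x * (y * (x * y)))) := by simp [pow_succ, mul_assoc]
  rw [this, h3, h3, h4 y, h3]
  simp only [h4 x]
  rw [h5]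
  simp [pow_succ, mul_assoc]

theorem IsExt.can_zero (hπ : IsExt π) : can π 0 = 1 := by
  rw [hπ.can_eq (x := 1) (by simp), one_pow]

theorem IsExt.can_neg (hπ : IsExt π) {n : R} (hn : n * n = 0) : can π (-n) = (can π n)⁻¹ := by
  rw [eq_inv_iff_mul_eq_one, ← hπ.can_add (by simpa) hn (by simpa) (by simpa), neg_add_cancel,
    hπ.can_zero]

end Can

section SL2

variable {G F ι : Type*} [Group G] [Field F] [CharZero F] [Fintype ι] [DecidableEq ι]
  {π : G →* Matrix ι ι F} (hπ : IsExt π) {a b : ι} (hab : a ≠ b)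

/-- the diagonal matrix with one entry `u` -/
def dm (a : ι) (u : F) : Matrix ι ι F := diagonal (Pi.mulSingle a u)

omit [CharZero F] in
theorem dm_eq (a : ι) (u : F) : dm a u = 1 + single a a (u - 1) := by
  ext i j
  by_cases hij : i = j
  · subst hij
    by_cases hi : i = a
    · subst hi; simp [dm]
    · simp [dm, Pi.mulSingle_eq_of_ne hi, Ne.symm hi]
  · have : ¬ (a = i ∧ a = j) := fun h => hij (h.1.symm.trans h.2)
    simp [dm, diagonal_apply_ne _ hij, one_apply_ne hij, single, this]

include hab in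
omit [CharZero F] in
theorem single_sq (r : F) : single a b r * single a b r = (0 : Matrix ι ι F) :=
  single_mul_single_of_ne _ _ _ _ hab.symm _

include hπ hab

theorem x_add (r s : F) : can π (single a b (r + s)) = can π (single a b r) * can π (single a b s) := by
  rw [single_add, hπ.can_add (single_sq hab _) (single_sq hab _)] <;>
    exact single_mul_single_of_ne _ _ _ _ hab.symm _

theorem x_neg (r : F) : can π (single a b (-r)) = (can π (single a b r))⁻¹ := by
  rw [← single_neg, hπ.can_neg (single_sq hab _)]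

theorem d_x {d : G} {u : F} (hd : π d = dm a u) (r : F) :
    d * can π (single a b r) = can π (single a b (u * r)) * d := by
  refine hπ.can_conj (single_sq hab _) ?_
  rw [hd, dm_eq, add_mul, mul_add, single_mul_single_same, single_mul_single_of_ne _ _ _ _ hab.symm,
    one_mul, mul_one, ← single_add, add_zero]
  congr 1; ring

theorem d_y {d : G} {u : F} (hd : π d = dm a u) (r : F) :
    d * can π (single b a (r * u)) = can π (single b a r) * d := by
  refine hπ.can_conj (single_sq hab.symm _) ?_
  rw [hd, dm_eq, add_mul, mul_add, single_mul_single_same, single_mul_single_of_ne _ _ _ _ hab,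
    one_mul, mul_one, ← single_add, add_zero]
  congr 1; ring

variable (π a b) in
/-- the canonical lift of the Weyl element -/
noncomputable def ww : G := can π (single a b 1) * can π (single b a (-1)) * can π (single a b 1)

theorem pi_ww : π (ww π a b) =
    1 - single a a 1 - single b b 1 + single a b 1 - single b a 1 := by
  rw [ww, map_mul, map_mul, hπ.pi_can (single_sq hab _), hπ.pi_can (single_sq hab.symm _)]
  simp only [mul_add, add_mul, one_mul, mul_one, single_mul_single_same,
    single_mul_single_of_ne _ _ _ _ hab, single_mul_single_of_ne _ _ _ _ hab.symm, mul_neg,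
    neg_mul, ← single_neg]
  abel

theorem ww_x (r : F) : ww π a b * can π (single a b (-r)) = can π (single b a r) * ww π a b := by
  refine hπ.can_conj (single_sq hab _) ?_
  rw [pi_ww hπ hab]
  simp only [mul_add, add_mul, mul_sub, sub_mul, one_mul, mul_one, single_mul_single_same,
    single_mul_single_of_ne _ _ _ _ hab, single_mul_single_of_ne _ _ _ _ hab.symm, mul_neg,
    neg_mul, ← single_neg]
  abel

theorem ww_dm (u : F) : π (ww π a b) * dm a u = dm b u * π (ww π a b) := by
  rw [pi_ww hπ hab, dm_eq, dm_eq]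
  simp only [mul_add, add_mul, mul_sub, sub_mul, one_mul, mul_one, single_mul_single_same,
    single_mul_single_of_ne _ _ _ _ hab, single_mul_single_of_ne _ _ _ _ hab.symm]
  abel

variable (π a b) in
/-- the rank one relation element -/
noncomputable def ZZ (s t : F) : G :=
  can π (single b a (-(t / (1 + s * t)))) * can π (single a b s) * can π (single b a t) *
    can π (single a b (-(s / (1 + s * t))))

theorem ZZ_one {d : G} {u : F} (hu : u ≠ 0) (hd : π d = dm a u) :
    ZZ π a b 1 (u - 1) = ww π a b * d⁻¹ * (ww π a b)⁻¹ * d := by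
  have e1 : (1 : F) + 1 * (u - 1) = u := by ring
  have e2 : can π (single b a (u - 1)) = can π (single b a (-1)) * can π (single b a u) := by
    rw [← x_add hπ hab.symm, neg_add_eq_sub]
  have e3 : can π (single a b ((u - 1) / u)) =
      can π (single a b (-(1 / u))) * can π (single a b 1) := by
    rw [← x_add hπ hab]; congr 2; field_simp; ring
  have e4 := ww_x hπ hab (-((u - 1) / u))
  have e5 := d_x hπ hab hd (-(1 / u))
  have e6 := d_y hπ hab hd 1
  rw [neg_neg, e3] at e4
  rw [show u * -(1 / u) = -1 by field_simp] at e5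
  rw [one_mul] at e6
  have e7 : (ww π a b)⁻¹ = can π (single a b (-1)) * can π (single b a 1) *
      can π (single a b (-1)) := by
    rw [ww, x_neg hπ hab, x_neg hπ hab.symm]; group
  have e8 : can π (single a b 1) * can π (single b a (-1)) =
      ww π a b * (can π (single a b 1))⁻¹ := by rw [ww]; group
  rw [ZZ, e1, e2, e7]
  calc _ = can π (single b a (-((u - 1) / u))) * (can π (single a b 1) * can π (single b a (-1))) *
        can π (single b a u) * can π (single a b (-(1 / u))) := by group
    _ = ww π a b * can π (single a b (-(1 / u))) * can π (single b a u) *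
        can π (single a b (-(1 / u))) := by rw [e8, ← mul_assoc, ← e4]; group
    _ = ww π a b * d⁻¹ * (d * can π (single a b (-(1 / u)))) * can π (single b a u) *
        can π (single a b (-(1 / u))) := by group
    _ = ww π a b * d⁻¹ * can π (single a b (-1)) * (d * can π (single b a u)) *
        can π (single a b (-(1 / u))) := by rw [e5]; group
    _ = ww π a b * d⁻¹ * can π (single a b (-1)) * can π (single b a 1) *
        (d * can π (single a b (-(1 / u)))) := by rw [e6]; group
    _ = _ := by rw [e5]; group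

theorem ZZ_conj {d : G} {s : F} (hd : π d = dm a s) (t : F) :
    d * ZZ π a b 1 (s * t) = ZZ π a b s t * d := by
  have e1 := d_y hπ hab hd (-(t / (1 + s * t)))
  have e2 := d_x hπ hab hd 1
  have e3 := d_y hπ hab hd t
  have e4 := d_x hπ hab hd (-(1 / (1 + s * t)))
  rw [show -(t / (1 + s * t)) * s = -(s * t / (1 + 1 * (s * t))) by ring] at e1
  rw [mul_one] at e2
  rw [mul_comm t] at e3
  rw [show s * -(1 / (1 + s * t)) = -(s / (1 + s * t)) by ring] at e4
  rw [ZZ, ZZ, ← mul_assoc, ← mul_assoc, ← mul_assoc, e1, mul_assoc _ d, e2, ← mul_assoc,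
    mul_assoc _ d, e3, ← mul_assoc, mul_assoc _ d, one_mul, e4, ← mul_assoc]

end SL2

end Vale.Agent.P319N.Rec
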