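import Vale.Agent.P319N.RecC

/-! # Cubic reciprocity, part C2: the diagonal subgroup -/

namespace Vale.Agent.P319N.Rec

set_option linter.unusedSectionVars false

open Matrix

variable {G F ι : Type*} [Group G] [Field F] [CharZero F] [Fintype ι] [DecidableEq ι]
  {π : G →* Matrix ι ι F}

theorem dm_one (a : ι) : dm a (1 : F) = 1 := by simp [dm_eq]

theorem dm_mul (a : ι) (u v : F) : dm a u * dm a v = dm a (u * v) := by
  rw [dm, dm, dm, diagonal_mul_diagonal, Pi.mulSingle_mul]; rfl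

theorem dm_comm (a b : ι) (u v : F) : Commute (dm a u) (dm b v) := commute_diagonal _ _

theorem dm_self (a : ι) (u : F) : dm a u a a = u := by simp [dm]

theorem isUnit_dm (a : ι) {u : F} (hu : u ≠ 0) : IsUnit (dm a u) :=
  ⟨⟨dm a u, dm a u⁻¹, by rw [dm_mul, mul_inv_cancel₀ hu, dm_one],
    by rw [dm_mul, inv_mul_cancel₀ hu, dm_one]⟩, rfl⟩

theorem pi_inv_eq {x : G} {m : Matrix ι ι F} (h : π x * m = 1) : π x⁻¹ = m := by
  rw [← mul_one (π x⁻¹), ← h, ← mul_assoc, ← map_mul, inv_mul_cancel, map_one, one_mul]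

/-- a radical ring of small elements -/
def Rad (I : NonUnitalSubring F) : Prop := ∀ r ∈ I, ∃ r' ∈ I, (1 + r) * (1 + r') = 1

variable (π) in
/-- the hypothesis coming from the reciprocity law of the ground field -/
def HH (I : NonUnitalSubring F) : Prop :=
  ∀ a, ∀ r ∈ I, ∀ x g : G, π x = dm a (1 + r) → (∀ u, Commute (π g) (dm a u)) → Commute g x

variable {I : NonUnitalSubring F}

theorem Rad.ne (hI : Rad I) {r : F} (hr : r ∈ I) : 1 + r ≠ 0 := by
  obtain ⟨r', -, h⟩ := hI r hr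
  exact left_ne_zero_of_mul_eq_one h

theorem Rad.div_mem (hI : Rad I) {r s : F} (hr : r ∈ I) (hs : s ∈ I) : s / (1 + r) ∈ I := by
  obtain ⟨r', hr', h⟩ := hI r hr
  rw [div_eq_mul_inv, ← eq_inv_of_mul_eq_one_right h, mul_add, mul_one]
  exact I.add_mem hs (I.mul_mem hs hr')

variable (π) in
def EE (hI : Rad I) (a : ι) : Subgroup G where
  carrier := {x | ∃ r ∈ I, π x = dm a (1 + r)}
  one_mem' := ⟨0, I.zero_mem, by rw [add_zero, dm_one, map_one]⟩
  mul_mem' := by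
    rintro x y ⟨r, hr, hx⟩ ⟨s, hs, hy⟩
    refine ⟨r + s + r * s, I.add_mem (I.add_mem hr hs) (I.mul_mem hr hs), ?_⟩
    rw [map_mul, hx, hy, dm_mul]; congr 1; ring
  inv_mem' := by
    rintro x ⟨r, hr, hx⟩
    obtain ⟨r', hr', h⟩ := hI r hr
    exact ⟨r', hr', pi_inv_eq (by rw [hx, dm_mul, h, dm_one])⟩

variable (π) in
/-- `g` conjugates the `a`-th diagonal subgroup to the `b`-th -/
def Cj (g : G) (a b : ι) : Prop := ∀ u, π g * dm a u = dm b u * π g

theorem Cj.mul {g h : G} {a b c : ι} (hg : Cj π g b c) (hh : Cj π h a b) : Cj π (g * h) a c :=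
  fun u => by rw [map_mul, mul_assoc, hh, ← mul_assoc, hg, mul_assoc]

theorem Cj.inv {g : G} {a b : ι} (hg : Cj π g a b) : Cj π g⁻¹ b a := fun u => by
  have h1 : π g⁻¹ * π g = 1 := by rw [← map_mul, inv_mul_cancel, map_one]
  have h2 : π g * π g⁻¹ = 1 := by rw [← map_mul, mul_inv_cancel, map_one]
  calc π g⁻¹ * dm b u = π g⁻¹ * (dm b u * π g) * π g⁻¹ := by
        rw [mul_assoc, mul_assoc, h2, mul_one]
    _ = _ := by rw [← hg, ← mul_assoc, h1, one_mul]

theorem Cj.pi {g x : G} {a b : ι} (hg : Cj π g a b) {u : F} (hx : π x = dm a u) :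
    π (g * x * g⁻¹) = dm b u := by
  rw [map_mul, map_mul, hx, hg, mul_assoc, ← map_mul, mul_inv_cancel, map_one, mul_one]

theorem Cj.mem {hI : Rad I} {g x : G} {a b : ι} (hg : Cj π g a b) (hx : x ∈ EE π hI a) :
    g * x * g⁻¹ ∈ EE π hI b := by
  obtain ⟨r, hr, h⟩ := hx
  exact ⟨r, hr, hg.pi h⟩

theorem HH.comm (hH : HH π I) {hI : Rad I} {a b : ι} {x g : G} (hx : x ∈ EE π hI a) {u : F}
    (hg : π g = dm b u) : Commute g x := by
  obtain ⟨r, hr, h⟩ := hx
  exact hH a r hr x g h fun v => hg ▸ dm_comm _ _ _ _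

theorem exists_delta (hπ : IsExt π) (hI : Rad I) (hH : HH π I) :
    ∃ Δ : Subgroup G, (∀ x ∈ Δ, π x = 1 → x = 1) ∧
      (∀ x ∈ Δ, ∃ u : ι → F, (∀ a, u a - 1 ∈ I) ∧ π x = diagonal u) ∧
      ∀ a b, a ≠ b → ∀ s ∈ I, ∀ t ∈ I, ZZ π a b s t ∈ Δ := by
  cases isEmpty_or_nonempty ι with
  | inl h => exact ⟨⊥, fun x hx _ => hx, fun x _ => ⟨1, fun a => h.elim a, Subsingleton.elim _ _⟩,
      fun a => h.elim a⟩
  | inr h =>
  obtain ⟨a0⟩ := h
  obtain ⟨p, hp⟩ : ∃ p : ι → G, ∀ a, Cj π (p a) a0 a := by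
    refine ⟨fun a => if a0 = a then 1 else ww π a0 a, fun a => ?_⟩
    by_cases h : a0 = a
    · subst h; intro u; simp
    · simp only [if_neg h]; exact ww_dm hπ h
  let E0 := EE π hI a0
  let Φ : ι → (E0 →* G) := fun a => (MulAut.conj (p a)).toMonoidHom.comp E0.subtype
  have hΦ : ∀ a x, Φ a x = p a * x * (p a)⁻¹ := fun _ _ => rfl
  have c1 : Pairwise fun a b => ∀ x y, Commute (Φ a x) (Φ b y) := fun a b _ x y => by
    obtain ⟨r, -, h⟩ := (hp a).mem x.2
    exact hH.comm ((hp b).mem y.2) h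
  have c0 : Pairwise fun (_ _ : ι) => ∀ x y : E0, Commute (E0.subtype x) (E0.subtype y) :=
    fun a b _ x y => by
      obtain ⟨r, -, h⟩ := x.2
      exact hH.comm y.2 h
  let Ψ := MonoidHom.noncommPiCoprod Φ c1
  let Ψ0 := MonoidHom.noncommPiCoprod (fun _ : ι => E0.subtype) c0
  let χ : E0 →* F :=
    { toFun := fun x => π x a0 a0
      map_one' := by simp
      map_mul' := by
        rintro ⟨x, r, -, hx⟩ ⟨y, s, -, hy⟩
        change π (x * y) a0 a0 = π x a0 a0 * π y a0 a0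
        rw [map_mul, hx, hy, dm_mul, dm_self, dm_self, dm_self] }
  have hχ : ∀ x : E0, π x = dm a0 (χ x) ∧ χ x - 1 ∈ I := by
    rintro ⟨x, r, hr, hx⟩
    have : χ ⟨x, r, hr, hx⟩ = 1 + r := by
      change π x a0 a0 = _
      rw [hx, dm_self]
    rw [this]
    exact ⟨hx, by simpa using hr⟩
  have key : ∀ e, π (Ψ e) = diagonal fun a => χ (e a) := by
    have : π.comp Ψ = (diagonalRingHom ι F).toMonoidHom.comp (χ.compLeft ι) := by
      refine MonoidHom.pi_ext fun a x => ?_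
      change π (Ψ _) = diagonal (χ ∘ Pi.mulSingle a x)
      rw [MonoidHom.noncommPiCoprod_mulSingle, hΦ, (hp a).pi (hχ x).1, dm]
      congr 1
      funext j
      exact (Pi.apply_mulSingle (fun _ => χ) (fun _ => map_one χ) a x j).symm
    exact fun e => DFunLike.congr_fun this e
  refine ⟨Ψ0.ker.map Ψ, ?_, ?_, ?_⟩
  · rintro _ ⟨e, he, rfl⟩ h
    rw [key] at h
    have h1 : ∀ a, Φ a (e a) = E0.subtype (e a) := by
      intro a
      have h2 : χ (e a) = 1 := by simpa using congrFun (congrFun h a) a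
      have h3 := (hπ.2 (e a) (by rw [(hχ _).1, h2, dm_one])).1 (p a)
      rw [hΦ, ← h3.eq, mul_inv_cancel_right]; rfl
    refine Eq.trans ?_ he
    simp only [Ψ, Ψ0, MonoidHom.noncommPiCoprod_apply]
    exact Finset.noncommProd_congr rfl (fun a _ => h1 a) _
  · rintro _ ⟨e, -, rfl⟩
    exact ⟨_, fun a => (hχ _).2, key e⟩
  · intro a b hab s hs t ht
    by_cases hs0 : s = 0
    · have : ZZ π a b s t = 1 := by
        simp only [ZZ, hs0, zero_mul, add_zero, div_one, neg_zero, single_zero, hπ.can_zero,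
          mul_one, x_neg hπ hab.symm, inv_mul_cancel]
      rw [this]; exact one_mem _
    have hst := I.mul_mem hs ht
    obtain ⟨d, hd⟩ := hπ.1 _ (isUnit_dm a (hI.ne hst))
    obtain ⟨d', hd'⟩ := hπ.1 _ (isUnit_dm a hs0)
    have hdE : d ∈ EE π hI a := ⟨_, hst, hd⟩
    have hw : Cj π (ww π a b) a b := ww_dm hπ hab
    have e1 := ZZ_one hπ hab (hI.ne hst) hd
    rw [add_sub_cancel_left] at e1
    have e2 := ZZ_conj hπ hab hd' t
    rw [e1, ((hH.comm (hw.mem (inv_mem hdE)) hd').mul_right (hH.comm hdE hd')).eq,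
      mul_left_inj] at e2
    rw [← e2]
    let y : E0 := ⟨(p a)⁻¹ * d * (p a)⁻¹⁻¹, (hp a).inv.mem hdE⟩
    refine ⟨Pi.mulSingle b y⁻¹ * Pi.mulSingle a y, ?_, ?_⟩
    · change Ψ0 _ = 1
      rw [map_mul, MonoidHom.noncommPiCoprod_mulSingle, MonoidHom.noncommPiCoprod_mulSingle,
        ← map_mul, inv_mul_cancel, map_one]
    · rw [map_mul, MonoidHom.noncommPiCoprod_mulSingle, MonoidHom.noncommPiCoprod_mulSingle, hΦ, hΦ]
      obtain ⟨r, hr, hy⟩ := (y⁻¹).2
      have e3 := hH a0 r hr _ ((p b)⁻¹ * (ww π a b * p a)) hy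
        ((hp b).inv.mul (hw.mul (hp a)))
      have e4 : ((y⁻¹ : E0) : G) = (p b)⁻¹ * (ww π a b * p a) * (y⁻¹ : E0) *
        ((p b)⁻¹ * (ww π a b * p a))⁻¹ := by rw [e3.eq, mul_inv_cancel_right]
      rw [e4]
      simp only [y, InvMemClass.coe_inv]
      group

end Vale.Agent.P319N.Rec
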