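import Vale.Agent.P319N.RecC2

/-! # Cubic reciprocity, part C3: the extension splits over the small elementary group -/

namespace Vale.Agent.P319N.Rec

set_option linter.unusedSectionVars false

open Matrix

variable {G F ι : Type*} [Group G] [Field F] [CharZero F] [Fintype ι] [DecidableEq ι]
  {π : G →* Matrix ι ι F} {I : NonUnitalSubring F}

def MI (I : NonUnitalSubring F) (n : Matrix ι ι F) : Prop := ∀ i j, n i j ∈ I

def Supp (A B : Set ι) (n : Matrix ι ι F) : Prop := ∀ i j, n i j ≠ 0 → i ∈ A ∧ j ∈ B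

def Blk (T : Set ι) (g : Matrix ι ι F) : Prop := ∀ i j, g i j ≠ 0 → (i ∈ T ∧ j ∈ T) ∨ i = j

theorem exists_of_mul_ne {m n : Matrix ι ι F} {i j : ι} (h : (m * n) i j ≠ 0) :
    ∃ k, m i k ≠ 0 ∧ n k j ≠ 0 := by
  rw [mul_apply] at h
  obtain ⟨k, -, hk⟩ := Finset.exists_ne_zero_of_sum_ne_zero h
  exact ⟨k, mul_ne_zero_iff.1 hk⟩

theorem Supp.mul_eq_zero {A B A' B' : Set ι} {m n : Matrix ι ι F} (hm : Supp A B m)
    (hn : Supp A' B' n) (h : ∀ k ∈ B, k ∉ A') : m * n = 0 := by
  ext i j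
  by_contra h0
  obtain ⟨k, h1, h2⟩ := exists_of_mul_ne h0
  exact h k (hm _ _ h1).2 (hn _ _ h2).1

theorem Supp.mul {A B A' B' : Set ι} {m n : Matrix ι ι F} (hm : Supp A B m)
    (hn : Supp A' B' n) : Supp A B' (m * n) := fun i j h => by
  obtain ⟨k, h1, h2⟩ := exists_of_mul_ne h
  exact ⟨(hm _ _ h1).1, (hn _ _ h2).2⟩

theorem Supp.add {A B : Set ι} {m n : Matrix ι ι F} (hm : Supp A B m) (hn : Supp A B n) :
    Supp A B (m + n) := fun i j h => by
  by_cases h1 : m i j = 0
  · exact hn i j fun h2 => h (by rw [Matrix.add_apply, h1, h2, add_zero])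
  · exact hm i j h1

theorem Supp.mono {A B A' B' : Set ι} {m : Matrix ι ι F} (hm : Supp A B m) (h : A ⊆ A')
    (h' : B ⊆ B') : Supp A' B' m := fun i j hij => ⟨h (hm i j hij).1, h' (hm i j hij).2⟩

theorem supp_zero (A B : Set ι) : Supp A B (0 : Matrix ι ι F) := fun _ _ h => absurd rfl h

theorem supp_single {A B : Set ι} {a b : ι} {r : F} (h : r ≠ 0 → a ∈ A ∧ b ∈ B) :
    Supp A B (single a b r) := fun i j hij => by
  by_cases h1 : a = i ∧ b = j
  · obtain ⟨rfl, rfl⟩ := h1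
    exact h (by simpa using hij)
  · exact absurd (single_apply_of_ne _ _ _ _ _ h1) hij

theorem MI.mul {m n : Matrix ι ι F} (hm : MI I m) (hn : MI I n) : MI I (m * n) := fun i j => by
  rw [mul_apply]
  exact sum_mem fun k _ => I.mul_mem (hm _ _) (hn _ _)

theorem MI.add {m n : Matrix ι ι F} (hm : MI I m) (hn : MI I n) : MI I (m + n) := fun i j =>
  I.add_mem (hm i j) (hn i j)

theorem MI.neg {m : Matrix ι ι F} (hm : MI I m) : MI I (-m) := fun i j => I.neg_mem (hm i j)

theorem mi_zero : MI I (0 : Matrix ι ι F) := fun _ _ => I.zero_mem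

theorem mi_single {a b : ι} {r : F} (h : r ∈ I) : MI I (single a b r) := fun i j => by
  by_cases h1 : a = i ∧ b = j
  · obtain ⟨rfl, rfl⟩ := h1
    simpa using h
  · rw [single_apply_of_ne _ _ _ _ _ h1]; exact I.zero_mem

theorem MI.conj {g g' n : Matrix ι ι F} (hg : MI I (g - 1)) (hg' : MI I (g' - 1)) (hn : MI I n) :
    MI I (g * n * g') := by
  have : g * n * g' = n + (g - 1) * n + (n + (g - 1) * n) * (g' - 1) := by noncomm_ring
  rw [this]
  exact (hn.add (hg.mul hn)).add ((hn.add (hg.mul hn)).mul hg')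

variable (π I) in
/-- the small elementary group on the index set `T` -/
def ST (Δ : Subgroup G) (T : Set ι) : Subgroup G :=
  Subgroup.closure {x | (∃ a ∈ T, ∃ b ∈ T, a ≠ b ∧ ∃ r ∈ I, x = can π (single a b r)) ∨ x ∈ Δ}

variable (hπ : IsExt π) {Δ : Subgroup G}
include hπ

theorem ST_induction {T : Set ι} {p : G → Prop} (h1 : p 1)
    (hx : ∀ x, p x → ∀ a ∈ T, ∀ b ∈ T, a ≠ b → ∀ r ∈ I, p (x * can π (single a b r)))
    (hd : ∀ x, p x → ∀ d ∈ Δ, p (x * d)) {x : G} (h : x ∈ ST π I Δ T) : p x := by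
  induction h using Subgroup.closure_induction_right with
  | one => exact h1
  | mul_right x _ y hy ih =>
    rcases hy with ⟨a, ha, b, hb, hab, r, hr, rfl⟩ | hy
    · exact hx x ih a ha b hb hab r hr
    · exact hd x ih y hy
  | mul_inv_cancel x _ y hy ih =>
    rcases hy with ⟨a, ha, b, hb, hab, r, hr, rfl⟩ | hy
    · rw [← x_neg hπ hab]
      exact hx x ih a ha b hb hab _ (I.neg_mem hr)
    · exact hd x ih _ (Δ.inv_mem hy)

theorem can_mem {T A B : Set ι} (hA : A ⊆ T) (hB : B ⊆ T) (hAB : ∀ k ∈ B, k ∉ A)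
    {q : Matrix ι ι F} (hq : Supp A B q) (hq' : MI I q) : can π q ∈ ST π I Δ T := by
  have key : ∀ s : Finset (ι × ι), Supp A B (∑ p ∈ s, single p.1 p.2 (q p.1 p.2)) ∧
      can π (∑ p ∈ s, single p.1 p.2 (q p.1 p.2)) ∈ ST π I Δ T := by
    intro s
    induction s using Finset.induction_on with
    | empty => rw [Finset.sum_empty, hπ.can_zero]; exact ⟨supp_zero _ _, one_mem _⟩
    | insert p s hp ih =>
      have h1 : Supp A B (single p.1 p.2 (q p.1 p.2)) := supp_single (hq _ _)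
      rw [Finset.sum_insert hp, hπ.can_add (h1.mul_eq_zero h1 hAB) (ih.1.mul_eq_zero ih.1 hAB)
        (h1.mul_eq_zero ih.1 hAB) (ih.1.mul_eq_zero h1 hAB)]
      refine ⟨h1.add ih.1, mul_mem ?_ ih.2⟩
      by_cases h0 : q p.1 p.2 = 0
      · rw [h0, single_zero, hπ.can_zero]; exact one_mem _
      · obtain ⟨ha, hb⟩ := hq _ _ h0
        exact Subgroup.subset_closure (Or.inl ⟨_, hA ha, _, hB hb,
          fun h => hAB _ hb (h ▸ ha), _, hq' _ _, rfl⟩)
  have := (key Finset.univ).2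
  rw [Fintype.sum_prod_type] at this
  rw [matrix_eq_sum_single q]
  exact this

variable (hΔ : ∀ x ∈ Δ, ∃ u : ι → F, (∀ a, u a - 1 ∈ I) ∧ π x = diagonal u)
include hΔ

theorem ST_inv {T : Set ι} {x : G} (h : x ∈ ST π I Δ T) : MI I (π x - 1) ∧ Blk T (π x) := by
  have step : ∀ x y : G, MI I (π x - 1) ∧ Blk T (π x) → MI I (π y - 1) ∧ Blk T (π y) →
      MI I (π (x * y) - 1) ∧ Blk T (π (x * y)) := by
    intro x y hx hy
    rw [map_mul]
    constructor
    · have : π x * π y - 1 = π x - 1 + (π y - 1) + (π x - 1) * (π y - 1) := by noncomm_ring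
      rw [this]
      exact (hx.1.add hy.1).add (hx.1.mul hy.1)
    · intro i j hij
      obtain ⟨k, h1, h2⟩ := exists_of_mul_ne hij
      rcases hx.2 _ _ h1 with h1 | rfl
      · rcases hy.2 _ _ h2 with h2 | rfl
        · exact Or.inl ⟨h1.1, h2.2⟩
        · exact Or.inl h1
      · exact hy.2 _ _ h2
  refine ST_induction hπ (p := fun x => MI I (π x - 1) ∧ Blk T (π x)) ?_ ?_ ?_ h
  · rw [map_one, sub_self]
    exact ⟨mi_zero, fun i j h => Or.inr (by by_contra h'; exact h (one_apply_ne h'))⟩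
  · intro x hx a ha b hb hab r hr
    refine step _ _ hx ?_
    rw [hπ.pi_can (single_sq hab _), add_sub_cancel_left]
    refine ⟨mi_single hr, fun i j h => ?_⟩
    by_cases hij : i = j
    · exact Or.inr hij
    · rw [Matrix.add_apply, one_apply_ne hij, zero_add] at h
      exact Or.inl (supp_single (fun _ => ⟨ha, hb⟩) i j h)
  · intro x hx d hd
    refine step _ _ hx ?_
    obtain ⟨u, hu, h⟩ := hΔ d hd
    rw [h]
    refine ⟨fun i j => ?_, fun i j h => Or.inr (by by_contra h'; exact h (diagonal_apply_ne _ h'))⟩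
    by_cases hij : i = j
    · subst hij; simpa using hu i
    · rw [Matrix.sub_apply, diagonal_apply_ne _ hij, one_apply_ne hij, sub_zero]; exact I.zero_mem

theorem ST_conj {T A B : Set ι} {c : ι} (hc : c ∉ T) (hA : A = T ∨ A = {c}) (hB : B = T ∨ B = {c})
    {x : G} (h : x ∈ ST π I Δ T) {n : Matrix ι ι F} (hn : Supp A B n) (hn' : MI I n)
    (hn0 : n * n = 0) : ∃ n', Supp A B n' ∧ MI I n' ∧ x * can π n = can π n' * x := by
  obtain ⟨h1, h2⟩ := ST_inv hπ hΔ h
  obtain ⟨h3, h4⟩ := ST_inv hπ hΔ (inv_mem h)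
  refine ⟨π x * n * π x⁻¹, fun i j hij => ?_, h1.conj h3 hn', hπ.can_conj hn0 ?_⟩
  · obtain ⟨k, h5, h6⟩ := exists_of_mul_ne hij
    obtain ⟨l, h7, h8⟩ := exists_of_mul_ne h5
    obtain ⟨hl, hk⟩ := hn _ _ h8
    constructor
    · rcases h2 _ _ h7 with h | rfl
      · rcases hA with rfl | rfl
        · exact h.1
        · exact absurd (hl ▸ h.2 : c ∈ T) hc
      · exact hl
    · rcases h4 _ _ h6 with h | rfl
      · rcases hB with rfl | rfl
        · exact h.2
        · exact absurd (hk ▸ h.1 : c ∈ T) hc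
      · exact hk
  · rw [mul_assoc, ← map_mul, inv_mul_cancel, map_one, mul_one]

theorem ST_normal (hI : Rad I) (hZ : ∀ a b, a ≠ b → ∀ s ∈ I, ∀ t ∈ I, ZZ π a b s t ∈ Δ)
    {T : Set ι} {c : ι} (hc : c ∉ T) {x : G} (h : x ∈ ST π I Δ (insert c T)) :
    ∃ m s n, Supp {c} T m ∧ MI I m ∧ s ∈ ST π I Δ T ∧ Supp T {c} n ∧ MI I n ∧
      x = can π m * s * can π n := by
  let P : G → Prop := fun x => ∃ m s n, Supp {c} T m ∧ MI I m ∧ s ∈ ST π I Δ T ∧
    Supp T {c} n ∧ MI I n ∧ x = can π m * s * can π n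
  have d1 : ∀ k ∈ ({c} : Set ι), k ∉ T := by rintro _ rfl; exact hc
  have d2 : ∀ k ∈ T, k ∉ ({c} : Set ι) := fun k hk h => d1 k h hk
  have P1 : ∀ x, P x → ∀ g ∈ ST π I Δ T, P (x * g) := by
    rintro _ ⟨m, s, n, hm, hm', hs, hn, hn', rfl⟩ g hg
    obtain ⟨n', h1, h2, h3⟩ := ST_conj hπ hΔ hc (Or.inl rfl) (Or.inr rfl) (inv_mem hg) hn hn'
      (hn.mul_eq_zero hn d1)
    refine ⟨m, s * g, n', hm, hm', mul_mem hs hg, h1, h2, ?_⟩
    rw [← mul_inv_eq_iff_eq_mul, inv_inv] at h3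
    rw [← h3]; group
  have P2 : ∀ x, P x → ∀ q, Supp T {c} q → MI I q → P (x * can π q) := by
    rintro _ ⟨m, s, n, hm, hm', hs, hn, hn', rfl⟩ q hq hq'
    refine ⟨m, s, n + q, hm, hm', hs, hn.add hq, hn'.add hq', ?_⟩
    rw [hπ.can_add (hn.mul_eq_zero hn d1) (hq.mul_eq_zero hq d1) (hn.mul_eq_zero hq d1)
      (hq.mul_eq_zero hn d1), mul_assoc]
  have P3 : ∀ x, P x → ∀ b ∈ T, ∀ r ∈ I, P (x * can π (single c b r)) := by
    rintro _ ⟨m, s, n, hm, hm', hs, hn, hn', rfl⟩ b hb r hr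
    have hbc : b ≠ c := fun h => hc (h ▸ hb)
    let n' := n - single b c (n b c)
    have s1 : Supp {b} {c} (single b c (n b c)) := supp_single fun _ => ⟨rfl, rfl⟩
    have s1' := s1.mono (Set.singleton_subset_iff.2 hb) le_rfl
    have s2 : Supp (T \ {b}) {c} n' := by
      intro i j hij
      by_cases h1 : b = i ∧ c = j
      · obtain ⟨rfl, rfl⟩ := h1
        simp [n'] at hij
      · simp only [n'] at hij
        rw [Matrix.sub_apply, single_apply_of_ne _ _ _ _ _ h1, sub_zero] at hij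
        obtain ⟨h2, h3⟩ := hn _ _ hij
        exact ⟨⟨h2, fun h4 => h1 ⟨h4.symm, h3.symm⟩⟩, h3⟩
    have s2' := s2.mono Set.sdiff_subset le_rfl
    have m2 : MI I n' := by
      rw [show n' = n + -single b c (n b c) from sub_eq_add_neg _ _]
      exact hn'.add (mi_single (hn' _ _)).neg
    have s3 : Supp {c} {b} (single c b r) := supp_single fun _ => ⟨rfl, rfl⟩
    have s4 := s2.mul s3
    have d3 : ∀ k ∈ ({b} : Set ι), k ∉ T \ {b} := fun k hk h => h.2 hk
    have d4 : ∀ k ∈ ({c} : Set ι), k ∉ T \ {b} := fun k hk h => d1 k hk h.1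
    have e1 : can π n = can π (single b c (n b c)) * can π n' := by
      rw [← hπ.can_add (s1'.mul_eq_zero s1' d1) (s2'.mul_eq_zero s2' d1) (s1'.mul_eq_zero s2' d1)
        (s2'.mul_eq_zero s1' d1), add_sub_cancel]
    have z1 := s4.mul_eq_zero s4 d3
    have z2 := s2.mul_eq_zero s2 d4
    have z3 := s4.mul_eq_zero s2 d3
    have z4 := s2.mul_eq_zero s4 d4
    have z5 := s3.mul_eq_zero s2 d3
    have e2 : can π (single c b r) * (can π (n' * single c b r) * can π n') =
        can π n' * can π (single c b r) := by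
      rw [← hπ.can_add z1 z2 z3 z4]
      refine hπ.can_conj (by rw [add_mul, mul_add, mul_add, z1, z2, z3, z4]; simp) ?_
      rw [hπ.pi_can (single_sq hbc.symm _), add_mul, mul_add (single c b r), ← mul_assoc, z5]
      noncomm_ring
    have hu := I.mul_mem (hn' b c) hr
    have e3 : can π (single b c (n b c)) * can π (single c b r) =
        can π (single c b (r / (1 + n b c * r))) * ZZ π b c (n b c) r *
          can π (single b c (n b c / (1 + n b c * r))) := by
      rw [ZZ, x_neg hπ hbc, x_neg hπ hbc.symm]; group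
    have s5 : Supp {c} T (single c b (r / (1 + n b c * r))) := supp_single fun _ => ⟨rfl, hb⟩
    obtain ⟨m', h1, h2, h3⟩ := ST_conj hπ hΔ hc (Or.inr rfl) (Or.inl rfl) hs s5
      (mi_single (hI.div_mem hu hr)) (single_sq hbc.symm _)
    have p0 : P (can π m * s * can π (single c b (r / (1 + n b c * r)))) := by
      refine ⟨m + m', s, 0, hm.add h1, hm'.add h2, hs, supp_zero _ _, mi_zero, ?_⟩
      rw [hπ.can_add (hm.mul_eq_zero hm d2) (h1.mul_eq_zero h1 d2) (hm.mul_eq_zero h1 d2)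
        (h1.mul_eq_zero hm d2), hπ.can_zero, mul_one, mul_assoc, h3, mul_assoc]
    have p1 := P1 _ p0 _ (Subgroup.subset_closure (Or.inr (hZ b c hbc _ (hn' b c) _ hr)))
    have p2 := P2 _ p1 _ (supp_single fun _ => ⟨hb, rfl⟩) (mi_single (a := b) (b := c)
      (hI.div_mem hu (hn' b c)))
    have p3 := P1 _ p2 _ (can_mem hπ Set.sdiff_subset (Set.singleton_subset_iff.2 hb) d3 s4
      (m2.mul (mi_single hr)))
    have p4 := P2 _ p3 _ s2' m2
    convert p4 using 1
    rw [e1, mul_assoc, mul_assoc _ (can π n'), ← e2, ← mul_assoc (can π (single b c _)), e3]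
    simp only [mul_assoc]
  refine ST_induction hπ (p := P) ⟨0, 1, 0, supp_zero _ _, mi_zero, one_mem _, supp_zero _ _,
    mi_zero, by simp [hπ.can_zero]⟩ ?_
    (fun x hx d hd => P1 x hx d (Subgroup.subset_closure (Or.inr hd))) h
  intro x hx a ha b hb hab r hr
  rcases ha with rfl | ha
  · exact P3 x hx b (hb.resolve_left hab.symm) r hr
  · rcases hb with rfl | hb
    · exact P2 x hx _ (supp_single fun _ => ⟨ha, rfl⟩) (mi_single hr)
    · exact P1 x hx _ (Subgroup.subset_closure (Or.inl ⟨a, ha, b, hb, hab, r, hr, rfl⟩))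

theorem ST_inj (hI : Rad I) (hZ : ∀ a b, a ≠ b → ∀ s ∈ I, ∀ t ∈ I, ZZ π a b s t ∈ Δ)
    (h0 : ∀ x ∈ Δ, π x = 1 → x = 1) (T : Set ι) : ∀ x ∈ ST π I Δ T, π x = 1 → x = 1 := by
  induction T, Set.toFinite T using Set.Finite.induction_on with
  | empty =>
    intro x hx
    refine h0 x (ST_induction hπ (p := fun x => x ∈ Δ) Δ.one_mem ?_ ?_ hx)
    · exact fun _ _ a ha => absurd ha (Set.notMem_empty a)
    · exact fun x hx d hd => Δ.mul_mem hx hd
  | @insert c T hc _ ih =>
    intro x hx h1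
    obtain ⟨m, s, n, hm, -, hs, hn, -, rfl⟩ := ST_normal hπ hΔ hI hZ hc hx
    have d1 : ∀ k ∈ ({c} : Set ι), k ∉ T := by rintro _ rfl; exact hc
    have d2 : ∀ k ∈ T, k ∉ ({c} : Set ι) := fun k hk h => d1 k h hk
    have zm := hm.mul_eq_zero hm d2
    have zn := hn.mul_eq_zero hn d1
    have e : s = (can π m)⁻¹ * (can π m * s * can π n) * (can π n)⁻¹ := by group
    have e' : π s = 1 - m - n + m * n := by
      rw [e, map_mul, map_mul, h1, ← hπ.can_neg zm, ← hπ.can_neg zn,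
        hπ.pi_can (by simpa), hπ.pi_can (by simpa)]
      noncomm_ring
    have hb := (ST_inv hπ hΔ hs).2
    have hmn := hm.mul hn
    have z : ∀ {A B : Set ι} {q : Matrix ι ι F}, Supp A B q → ∀ i j, ¬ (i ∈ A ∧ j ∈ B) →
        q i j = 0 := fun hq i j h => by by_contra h'; exact h (hq i j h')
    have hm0 : m = 0 := by
      ext i j
      by_contra h
      obtain ⟨rfl, hj⟩ := hm i j h
      have hij : i ≠ j := fun h => hc (h ▸ hj)
      rcases hb i j (by
        rw [e', Matrix.add_apply, Matrix.sub_apply, Matrix.sub_apply, one_apply_ne hij, z hn _ _ (fun h => hc h.1),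
          z hmn _ _ (fun h => hij h.2.symm)]
        simpa using h) with h | h
      · exact hc h.1
      · exact hij h
    have hn0 : n = 0 := by
      ext i j
      by_contra h
      obtain ⟨hi, rfl⟩ := hn i j h
      have hij : i ≠ j := fun h => hc (h ▸ hi)
      rcases hb i j (by
        rw [e', Matrix.add_apply, Matrix.sub_apply, Matrix.sub_apply, one_apply_ne hij, z hm _ _ (fun h => hc h.2),
          z hmn _ _ (fun h => hij h.1)]
        simpa using h) with h | h
      · exact hc h.2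
      · exact hij h
    rw [hm0, hn0, hπ.can_zero, one_mul, mul_one]
    exact ih s hs (by rw [e', hm0, hn0]; simp)

omit hΔ in
/-- the splitting theorem -/
theorem exists_split (hI : Rad I) (hH : HH π I) : ∃ S : Subgroup G,
    (∀ x ∈ S, ∀ y ∈ S, π x = π y → x = y) ∧
    ∀ (A : Set ι) (q : Matrix ι ι F), Supp A Aᶜ q → MI I q → can π q ∈ S := by
  obtain ⟨Δ, h0, hΔ, hZ⟩ := exists_delta hπ hI hH
  refine ⟨ST π I Δ Set.univ, fun x hx y hy h => ?_, fun A q hq hq' =>
    can_mem hπ (Set.subset_univ _) (Set.subset_univ _) (fun _ h => h) hq hq'⟩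
  rw [← mul_inv_eq_one]
  exact ST_inj hπ hΔ hI hZ h0 _ _ (mul_mem hx (inv_mem hy))
    (by rw [map_mul, h, ← map_mul, mul_inv_cancel, map_one])

end Vale.Agent.P319N.Rec
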