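import Vale.Agent.P319N.RecA2
import Vale.Agent.P026.Bas

/-! # Cubic reciprocity, part D: Gauss's lemma -/

namespace Vale.Agent.P319N.Rec

open scoped Classical
open Function LinearMap
open Vale.Agent.P026 (omC omC_cube)

noncomputable section

variable {A : Type*} [CommRing A] {R : Type*} [CommRing R] [Algebra A R] {w : A}

variable (w) in
/-- the symbol of `a` modulo `n` -/
def Sy (a n : R) : ZMod 3 := SS w (mulLeft A a) (range (mulLeft A n))

theorem mem_range_mul {n x : R} : x ∈ range (mulLeft A n) ↔ n ∣ x :=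
  ⟨fun ⟨y, h⟩ => ⟨y, h.symm⟩, fun ⟨y, h⟩ => ⟨y, h.symm⟩⟩

theorem reps_quot (n : R) : Reps (range (mulLeft A n)) fun q : R ⧸ Ideal.span {n} => q.out := by
  refine ⟨fun s t h => ?_, fun x => ⟨Ideal.Quotient.mk _ x, ?_⟩⟩
  · rw [← Ideal.Quotient.mk_out s, ← Ideal.Quotient.mk_out t, Ideal.Quotient.eq,
      Ideal.mem_span_singleton]
    exact mem_range_mul.1 h
  · rw [mem_range_mul, ← Ideal.mem_span_singleton, ← Ideal.Quotient.eq, Ideal.Quotient.mk_out]

theorem fr_mul {n : R} (h : IsCoprime n (algebraMap A R w - 1)) : Fr w (range (mulLeft A n)) := by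
  intro x hx
  rw [mem_range_mul] at hx ⊢
  refine h.dvd_of_dvd_mul_left ?_
  rwa [sub_mul, one_mul, ← Algebra.smul_def]

theorem qiso_mul {a n : R} (h : IsCoprime n a) :
    QIso (mulLeft A a) (range (mulLeft A n)) (range (mulLeft A n)) := by
  refine ⟨fun x => ?_, fun y => ?_⟩
  · rw [mem_range_mul, mem_range_mul]
    exact ⟨h.dvd_of_dvd_mul_left, fun h => h.mul_left _⟩
  · obtain ⟨u, v, huv⟩ := h
    exact ⟨v * y, u * y, by simp only [mulLeft_apply]; linear_combination y * huv⟩

theorem Sy_assoc (a : R) {n m : R} (h : Associated n m) : Sy w a n = Sy w a m := by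
  have : range (mulLeft A n) = range (mulLeft A m) := by
    ext x; rw [mem_range_mul, mem_range_mul, h.dvd_iff_dvd_left]
  rw [Sy, Sy, this]

variable (hw : w ^ 2 + w + 1 = 0)
include hw

theorem Sy_unit (a : R) {n : R} (h : IsUnit n) : Sy w a n = 0 :=
  SS_triv hw (fun _ _ => mem_range_mul.2 h.dvd) fun _ => mem_range_mul.2 h.dvd

variable [IsDomain R]

theorem Sy_mul {a n m : R} (hn : n ≠ 0) [Finite (R ⧸ Ideal.span {n})] [Finite (R ⧸ Ideal.span {m})]
    (h : IsCoprime (n * m) a) (h' : IsCoprime (n * m) (algebraMap A R w - 1)) :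
    Sy w a (n * m) = Sy w a n + Sy w a m := by
  have := (reps_quot (A := A) n).finite
  have := (reps_quot (A := A) m).finite
  have e : range (mulLeft A (n * m)) = (range (mulLeft A m)).map (mulLeft A n) := by
    rw [← range_comp, mulLeft_mul]
  rw [Sy, e]
  exact SS_map hw (mul_right_injective₀ hn) (fr_mul h'.of_mul_left_right)
    (fr_mul h'.of_mul_left_left) (qiso_mul h.of_mul_left_left) (qiso_mul h.of_mul_left_right)
    (e ▸ qiso_mul h) fun x => mul_left_comm _ _ _

theorem Sy_prime {a p : R} (hp : Prime p) [Finite (R ⧸ Ideal.span {p})] (h : IsCoprime p a)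
    (h' : IsCoprime p (algebraMap A R w - 1)) :
    p ∣ a ^ ((Nat.card (R ⧸ Ideal.span {p}) - 1) / 3) - algebraMap A R w ^ (Sy w a p).val := by
  have := Fintype.ofFinite (R ⧸ Ideal.span {p})
  have : (Ideal.span {p}).IsPrime := (Ideal.span_singleton_prime hp.ne_zero).2 hp
  have ho := ori_spec hw (fr_mul h')
  set e := ori w (range (mulLeft A p))
  let mk := Ideal.Quotient.mk (Ideal.span {p})
  have hmk : ∀ x, mk x = 0 ↔ x ∈ range (mulLeft A p) := fun x => by
    rw [mem_range_mul, Ideal.Quotient.eq_zero_iff_mem, Ideal.mem_span_singleton]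
  let f : R ⧸ Ideal.span {p} → ZMod 3 := fun q => e q.out
  have hf : ∀ x, f (mk x) = e x := fun x => ho.1 _ _ ((hmk _).1 (by
    rw [map_sub, Ideal.Quotient.mk_out, sub_self]))
  let ω := mk (algebraMap A R w)
  have h3 : ω ^ 3 = 1 := by rw [← map_pow, ← map_pow, w_cube hw, map_one, map_one]
  let pw : ZMod 3 → R ⧸ Ideal.span {p} := fun k => ω ^ k.val
  have pw_add : ∀ k l, pw (k + l) = pw k * pw l := by
    intro k l
    simp only [pw, ZMod.val_add, ← pow_add]
    exact (pow_eq_pow_mod _ h3).symm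
  have pw0 : pw 0 = 1 := pow_zero ω
  have pw_ne : ∀ k, pw k ≠ 0 := fun k =>
    left_ne_zero_of_mul_eq_one (by rw [← pw_add, add_neg_cancel, pw0])
  have f1 : ∀ y, y ≠ 0 → f (ω * y) = f y + 1 := by
    intro y hy
    obtain ⟨x, rfl⟩ := Ideal.Quotient.mk_surjective y
    rw [← map_mul, hf, hf, ← Algebra.smul_def]
    exact ho.2 x fun h => hy ((hmk x).2 h)
  have f2 : ∀ k y, y ≠ 0 → f (pw k * y) = f y + k := by
    intro k y hy
    rcases z3_cases k with rfl | rfl | rfl
    · rw [pw0, one_mul, add_zero]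
    · rw [show pw 1 = ω from pow_one ω, f1 y hy]
    · rw [show pw 2 = ω * ω from pow_two ω, mul_assoc,
        f1 _ (mul_ne_zero (pow_one ω ▸ pw_ne 1) hy), f1 y hy]; ring
  have ha : mk a ≠ 0 := fun h0 =>
    hp.not_unit (h.isUnit_of_dvd' dvd_rfl (mem_range_mul.1 ((hmk a).1 h0)))
  let T := Finset.univ.filter fun y : R ⧸ Ideal.span {p} => y ≠ 0 ∧ f y = 0
  have hS : Sy w a p = ∑ y ∈ T, f (mk a * y) := by
    rw [Sy, SS, cmp, qsum_reps (reps_quot p) (per_cmp ((qiso_mul h).ori ho).1 ho.1),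
      Finset.sum_filter]
    refine Finset.sum_congr rfl fun y _ => ?_
    rw [← hmk, Ideal.Quotient.mk_out, Function.comp, mulLeft_apply, ← hf (a * _), map_mul,
      Ideal.Quotient.mk_out]
  have hcard : Nat.card (R ⧸ Ideal.span {p}) - 1 = 3 * T.card := by
    rw [Nat.card_eq_fintype_card, ← Finset.card_univ, ← Finset.card_erase_of_mem (Finset.mem_univ 0),
      Finset.card_eq_sum_card_fiberwise (f := f) (t := Finset.univ) (fun _ _ => Finset.mem_univ _),
      Finset.sum_congr rfl (g := fun _ => T.card), Finset.sum_const, Finset.card_univ, ZMod.card,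
      smul_eq_mul]
    intro k _
    symm
    refine Finset.card_bij' (fun y _ => pw k * y) (fun y _ => pw (-k) * y) ?_ ?_ ?_ ?_
    · intro y hy
      obtain ⟨-, h1, h2⟩ := Finset.mem_filter.1 hy
      simp [f2 k y h1, h2, pw_ne, h1]
    · intro y hy
      simp only [Finset.mem_filter, Finset.mem_erase, Finset.mem_univ, and_true] at hy
      simp [T, f2 (-k) y hy.1, hy.2, pw_ne, hy.1]
    · intro y _
      rw [← mul_assoc, ← pw_add, neg_add_cancel, pw0, one_mul]
    · intro y _
      rw [← mul_assoc, ← pw_add, add_neg_cancel, pw0, one_mul]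
  let σ : R ⧸ Ideal.span {p} → R ⧸ Ideal.span {p} := fun y => pw (-f (mk a * y)) * (mk a * y)
  have hσ : ∀ y ∈ T, σ y ∈ T := by
    intro y hy
    obtain ⟨-, h1, -⟩ := Finset.mem_filter.1 hy
    simp [T, σ, f2 _ _ (mul_ne_zero ha h1), pw_ne, ha, h1]
  have hσ' : Set.InjOn σ T := by
    intro y hy z hz hyz
    obtain ⟨-, h1, h2⟩ := Finset.mem_filter.1 hy
    obtain ⟨-, h3, h4⟩ := Finset.mem_filter.1 hz
    simp only [σ, mul_left_comm _ (mk a)] at hyz
    have h5 := mul_left_cancel₀ ha hyz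
    have h6 := congrArg f h5
    rw [f2 _ _ h1, f2 _ _ h3, h2, h4, zero_add, zero_add] at h6
    rw [h6] at h5
    exact mul_left_cancel₀ (pw_ne _) h5
  have hprod : ∏ y ∈ T, σ y = ∏ y ∈ T, y :=
    Finset.prod_nbij σ hσ hσ' (Finset.surjOn_of_injOn_of_card_le σ hσ hσ' le_rfl) fun _ _ => rfl
  have hpw : ∏ y ∈ T, pw (f (mk a * y)) = pw (∑ y ∈ T, f (mk a * y)) := by
    induction T using Finset.induction_on with
    | empty => simp [pw0]
    | insert y s hy ih => rw [Finset.prod_insert hy, Finset.sum_insert hy, pw_add, ih]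
  have hT : ∏ y ∈ T, y ≠ 0 := Finset.prod_ne_zero_iff.2 fun y hy => (Finset.mem_filter.1 hy).2.1
  have key : mk a ^ T.card = pw (Sy w a p) := by
    apply mul_right_cancel₀ hT
    rw [hS, ← hpw, ← Finset.prod_const, ← Finset.prod_mul_distrib]
    conv_rhs => rw [← hprod, ← Finset.prod_mul_distrib]
    refine Finset.prod_congr rfl fun y _ => ?_
    rw [← mul_assoc, ← pw_add, add_neg_cancel, pw0, one_mul]
  rw [hcard, Nat.mul_div_cancel_left _ (by norm_num), ← Ideal.mem_span_singleton,
    ← Ideal.Quotient.eq, map_pow, map_pow]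
  exact key

omit hw [IsDomain R] in
/-- generic cubic residue symbol at a prime -/
def gsym3p (Nm : R → ℕ) (om x p : R) : ℂ :=
  if p ∣ x then 0 else if p ∣ x ^ ((Nm p - 1) / 3) - 1 then 1
  else if p ∣ x ^ ((Nm p - 1) / 3) - om then omC else omC ^ 2

omit hw in
theorem omC_add (k l : ZMod 3) : omC ^ (k + l).val = omC ^ k.val * omC ^ l.val := by
  rw [ZMod.val_add, ← pow_add]
  exact (pow_eq_pow_mod _ omC_cube).symm

omit hw in
theorem omC_inj {k l : ZMod 3} (h : omC ^ k.val = omC ^ l.val) : k = l := by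
  have hp : IsPrimitiveRoot omC 3 := by
    have : Fact (Nat.Prime 3) := ⟨Nat.prime_three⟩
    have := IsPrimitiveRoot.orderOf omC
    rwa [orderOf_eq_prime omC_cube P026.omC_ne_one] at this
  exact ZMod.val_injective 3 (hp.pow_inj k.val_lt l.val_lt h)

theorem gsym3p_eq {Nm : R → ℕ} {a p : R} (hp : Prime p) [Finite (R ⧸ Ideal.span {p})]
    (hN : Nm p = Nat.card (R ⧸ Ideal.span {p})) (h : IsCoprime p a)
    (h' : IsCoprime p (algebraMap A R w - 1)) :
    gsym3p Nm (algebraMap A R w) a p = omC ^ (Sy w a p).val := by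
  have h1 := Sy_prime hw hp h h'
  have nd : ∀ x, IsCoprime p x → ¬ p ∣ x := fun x hx hd =>
    hp.not_unit (hx.isUnit_of_dvd' dvd_rfl hd)
  have h3 : algebraMap A R w ^ 3 = 1 := by rw [← map_pow, w_cube hw, map_one]
  have h2 : algebraMap A R w ^ 2 + algebraMap A R w + 1 = 0 := by
    simpa using congrArg (algebraMap A R) hw
  rw [gsym3p, if_neg (nd a h), hN]
  generalize a ^ _ = b at h1 ⊢
  generalize algebraMap A R w = o at *
  rcases z3_cases (Sy w a p) with h0 | h0 | h0 <;> rw [h0] at h1 ⊢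
  · rw [if_pos (by simpa using h1)]; simp
  · rw [show (1 : ZMod 3).val = 1 from rfl, pow_one] at h1 ⊢
    rw [if_neg (fun h => nd _ h' (by simpa using h.sub h1)), if_pos h1]
  · rw [show (2 : ZMod 3).val = 2 from rfl] at h1 ⊢
    rw [if_neg fun h => nd _ h' ?_, if_neg fun h => nd _ h' ?_]
    · convert (h.sub h1).mul_left (o ^ 2) using 1
      linear_combination (1 - o) * h3
    · convert (h.sub h1).mul_left (-o) using 1
      linear_combination h3

theorem gsym3_eq [UniqueFactorizationMonoid R] {Nm : R → ℕ}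
    (hfin : ∀ n : R, n ≠ 0 → Finite (R ⧸ Ideal.span {n}))
    (hN : ∀ p, Prime p → Nm p = Nat.card (R ⧸ Ideal.span {p})) {a n : R} (hn : n ≠ 0)
    (h : IsCoprime n a) (h' : IsCoprime n (algebraMap A R w - 1)) :
    ((UniqueFactorizationMonoid.factors n).map (gsym3p Nm (algebraMap A R w) a)).prod =
      omC ^ (Sy w a n).val := by
  have hs := UniqueFactorizationMonoid.factors_prod hn
  have hp := UniqueFactorizationMonoid.prime_of_factor (a := n)
  rw [← Sy_assoc a hs]
  replace h := h.of_isCoprime_of_dvd_left hs.dvd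
  replace h' := h'.of_isCoprime_of_dvd_left hs.dvd
  generalize UniqueFactorizationMonoid.factors n = s at *
  clear hs
  induction s using Multiset.induction_on with
  | empty => simp [Sy_unit hw a isUnit_one]
  | cons p s ih =>
    have h1 := hp p (Multiset.mem_cons_self _ _)
    have h2 : ∀ q ∈ s, Prime q := fun q hq => hp q (Multiset.mem_cons_of_mem hq)
    have := hfin p h1.ne_zero
    have := hfin s.prod (Multiset.prod_ne_zero fun h => (h2 0 h).ne_zero rfl)
    rw [Multiset.prod_cons] at h h'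
    rw [Multiset.map_cons, Multiset.prod_cons, Multiset.prod_cons, Sy_mul hw h1.ne_zero h h',
      omC_add, ih h2 h.of_mul_left_right h'.of_mul_left_right,
      gsym3p_eq hw h1 (hN p h1) h.of_mul_left_left h'.of_mul_left_left]

end

end Vale.Agent.P319N.Rec
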