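import Vale.Agent.P319N.RecD
import Vale.Agent.P319N.RecC3

/-! # Cubic reciprocity, part E: the extension attached to the standard lattice -/

namespace Vale.Agent.P319N.Rec

set_option linter.unusedSectionVars false

open scoped Classical
open Function Matrix

noncomputable section

variable {O : Type*} [CommRing O] {w : O} {A : Type} [CommRing A] [IsDomain A] [Algebra O A]
  {F : Type} [Field F] [Algebra A F] [IsFractionRing A F] {ι : Type} [Fintype ι] [DecidableEq ι]

variable (O) in
/-- a matrix as an `O`-linear map -/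
def lin (P : Matrix ι ι A) : (ι → A) →ₗ[O] (ι → A) := (toLin' P).restrictScalars O

theorem lin_apply (P : Matrix ι ι A) (x : ι → A) : lin O P x = P *ᵥ x := rfl

theorem lin_mul (P Q : Matrix ι ι A) : lin O (P * Q) = lin O P ∘ₗ lin O Q :=
  LinearMap.ext fun x => (mulVec_mulVec x P Q).symm

variable (F) in
/-- the inclusion of integral matrices -/
def emb : Matrix ι ι A →+* Matrix ι ι F := (algebraMap A F).mapMatrix

theorem emb_apply (P : Matrix ι ι A) (i j : ι) : emb F P i j = algebraMap A F (P i j) := rfl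

theorem emb_inj : Injective (emb F : Matrix ι ι A → _) :=
  Matrix.map_injective (IsFractionRing.injective A F)

theorem isUnit_emb {P : Matrix ι ι A} : IsUnit (emb F P) ↔ P.det ≠ 0 := by
  rw [isUnit_iff_isUnit_det, isUnit_iff_ne_zero, emb, ← RingHom.map_det]
  exact (map_ne_zero_iff _ (IsFractionRing.injective A F))

theorem fr_lin (hu : IsUnit (algebraMap O A w - 1)) (P : Matrix ι ι A) :
    Fr w (LinearMap.range (lin O P)) := by
  rintro x ⟨y, hy⟩
  obtain ⟨v, hv⟩ := hu.exists_left_inv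
  refine ⟨v • y, ?_⟩
  rw [lin_apply] at hy ⊢
  rw [mulVec_smul, hy, ← algebraMap_smul A w x, smul_sub, smul_smul, ← sub_smul, ← mul_sub_one, hv,
    one_smul]

theorem adm_lin (hfin : ∀ n : A, n ≠ 0 → Finite (A ⧸ Ideal.span {n}))
    (hu : IsUnit (algebraMap O A w - 1)) {P : Matrix ι ι A} (hP : P.det ≠ 0) :
    Adm w (lin O P) := by
  refine ⟨fun x y h => ?_, ?_, fr_lin hu P⟩
  · have := congrArg (P.adjugate *ᵥ ·) h
    simp only [lin_apply, mulVec_mulVec, adjugate_mul, smul_mulVec, one_mulVec] at this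
    exact smul_right_injective _ hP this
  · have := hfin _ hP
    refine Finite.of_surjective (fun q : ι → A ⧸ Ideal.span {P.det} =>
      (LinearMap.range (lin O P)).mkQ fun i => (q i).out) fun q => ?_
    obtain ⟨x, rfl⟩ := Submodule.mkQ_surjective _ q
    refine ⟨fun i => Ideal.Quotient.mk _ (x i), (Submodule.Quotient.eq _).2 ?_⟩
    have h : ∀ i, ∃ c, (Ideal.Quotient.mk (Ideal.span {P.det}) (x i)).out - x i = P.det * c :=
      fun i => Ideal.mem_span_singleton.1 (Ideal.Quotient.eq.1 (Ideal.Quotient.mk_out _))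
    choose c hc using h
    refine ⟨P.adjugate *ᵥ c, ?_⟩
    rw [lin_apply, mulVec_mulVec, mul_adjugate, smul_mulVec, one_mulVec]
    funext i
    exact (hc i).symm

theorem exists_den (g : Matrix ι ι F) : ∃ m : A, m ≠ 0 ∧
    ∃ P : Matrix ι ι A, emb F P = algebraMap A F m • g := by
  obtain ⟨m, hm⟩ := IsLocalization.exist_integer_multiples_of_finite (nonZeroDivisors A)
    (fun p : ι × ι => g p.1 p.2)
  choose P hP using hm
  refine ⟨m, nonZeroDivisors.ne_zero m.2, Matrix.of fun i j => P (i, j), ?_⟩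
  ext i j
  rw [emb_apply, of_apply, hP, Matrix.smul_apply, algebraMap_smul]

variable (w A) in
/-- the commutator criterion -/
def Crit {G : Type*} [Group G] (π : G →* Matrix ι ι F) : Prop :=
  ∀ P Q : Matrix ι ι A, P.det ≠ 0 → Q.det ≠ 0 → Commute P Q →
    (∀ x, ∃ y z, x = P *ᵥ y + Q *ᵥ z) → ∀ x y, π x = emb F P → π y = emb F Q →
    (Commute x y ↔ SS w (lin O P) (LinearMap.range (lin O Q)) =
      SS w (lin O Q) (LinearMap.range (lin O P)))

variable (F ι) in
theorem exists_ext (hw : w ^ 2 + w + 1 = 0) (hfin : ∀ n : A, n ≠ 0 → Finite (A ⧸ Ideal.span {n}))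
    (hu : IsUnit (algebraMap O A w - 1)) :
    ∃ (G : Type) (_ : Group G) (π : G →* Matrix ι ι F), IsExt π ∧ Crit w A π := by
  let l : Matrix ι ι F → Matrix ι ι A := invFun (emb F)
  have hl : ∀ P, l (emb F P) = P := leftInverse_invFun emb_inj
  let D : Coc (Matrix ι ι F) :=
    { Γ :=
        { carrier := {g | ∃ P : Matrix ι ι A, P.det ≠ 0 ∧ g = emb F P}
          one_mem' := ⟨1, by simp, (map_one _).symm⟩
          mul_mem' := by
            rintro _ _ ⟨P, hP, rfl⟩ ⟨Q, hQ, rfl⟩
            exact ⟨P * Q, by rw [det_mul]; exact mul_ne_zero hP hQ, (map_mul _ _ _).symm⟩ }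
      c := fun g h => coc w (lin O (l g)) (lin O (l h))
      unit := by
        rintro _ ⟨P, hP, rfl⟩
        exact isUnit_emb.2 hP
      coc := by
        rintro _ ⟨P, hP, rfl⟩ _ ⟨Q, hQ, rfl⟩ _ ⟨R, hR, rfl⟩
        simp only [← map_mul, hl, lin_mul]
        exact coc_cocycle hw (adm_lin hfin hu hP) (adm_lin hfin hu hQ) (adm_lin hfin hu hR)
      one := by
        have : lin O (l 1) = LinearMap.id := by
          rw [← map_one (emb (A := A) (ι := ι) F), hl]
          exact LinearMap.ext fun x => one_mulVec x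
        rw [this, coc_id]
      den := by
        intro g hg
        obtain ⟨m, hm, P, hP⟩ := exists_den (A := A) g
        have e : emb F (m • (1 : Matrix ι ι A)) = algebraMap A F m • 1 := by
          ext i j
          by_cases h : i = j <;> simp [emb_apply, h, one_apply]
        have hm' : IsUnit (algebraMap A F m • (1 : Matrix ι ι F)) := by
          rw [← e, isUnit_emb]; simp [hm]
        refine ⟨_, ⟨m • 1, by simp [hm], e.symm⟩, fun h => by simp [Commute, SemiconjBy], P, ?_, ?_⟩
        · rw [← isUnit_emb (F := F), hP, ← one_mul g, ← smul_mul_assoc]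
          exact hm'.mul hg
        · rw [hP, smul_mul_assoc, one_mul] }
  refine ⟨D.Locˣ, inferInstance, D.pi, D.isExt, fun P Q hP hQ hc h x y hx hy => ?_⟩
  rw [D.commute_iff ⟨P, hP, rfl⟩ ⟨Q, hQ, rfl⟩ (hc.map _) hx hy]
  have := coc_comm hw (adm_lin hfin hu hP) (adm_lin hfin hu hQ)
    (by rw [← lin_mul, ← lin_mul, hc.eq]) h
  change coc w (lin O (l (emb F P))) (lin O (l (emb F Q))) =
    coc w (lin O (l (emb F Q))) (lin O (l (emb F P))) ↔ _
  rw [hl, hl]
  exact ⟨fun h => by linear_combination this - h, fun h => by linear_combination this - h⟩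

theorem finite_quot_of_loc {S T : Type*} [CommRing S] [CommRing T] (f : S →+* T) (m : S)
    (hT : ∀ x : T, ∃ j s, f m ^ j * x = f s) (hu : IsUnit (f m))
    (hS : ∀ y : S, y ≠ 0 → Finite (S ⧸ Ideal.span {y})) (n : T) (hn : n ≠ 0) :
    Finite (T ⧸ Ideal.span {n}) := by
  obtain ⟨j, y, hy⟩ := hT n
  have hy0 : y ≠ 0 := by
    rintro rfl
    exact hn ((hu.pow j).mul_right_eq_zero.1 (hy.trans (map_zero f)))
  have := hS y hy0
  let φ : S ⧸ Ideal.span {y} →+* T ⧸ Ideal.span {n} := Ideal.quotientMap _ f (by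
    rw [Ideal.span_singleton_le_iff_mem, Ideal.mem_comap, ← hy]
    exact Ideal.mul_mem_left _ _ (Ideal.mem_span_singleton_self _))
  have hφ : ∀ s, φ (Ideal.Quotient.mk _ s) = Ideal.Quotient.mk _ (f s) := fun _ => rfl
  let μ := Ideal.Quotient.mk (Ideal.span {n}) (f m)
  have hμ : IsUnit μ := hu.map _
  obtain ⟨d, hd, h1⟩ : ∃ d, 0 < d ∧ μ ^ d = 1 := by
    obtain ⟨a, b, hab, h⟩ := Finite.exists_ne_map_eq_of_infinite
      fun a : ℕ => Ideal.Quotient.mk (Ideal.span {y}) m ^ a
    have h' : μ ^ a = μ ^ b := by simpa only [map_pow, hφ] using congrArg φ h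
    wlog hlt : a < b generalizing a b
    · exact this b a hab.symm h.symm h'.symm (by omega)
    refine ⟨b - a, by omega, (hμ.pow a).mul_left_cancel ?_⟩
    rw [← pow_add, mul_one, h']; congr 1; omega
  refine Finite.of_surjective φ fun q => ?_
  obtain ⟨x, rfl⟩ := Ideal.Quotient.mk_surjective q
  obtain ⟨k, s, hs⟩ := hT x
  refine ⟨Ideal.Quotient.mk _ (m ^ ((d - 1) * k) * s), ?_⟩
  rw [hφ, map_mul, ← hs, map_pow, map_mul, map_mul, map_pow, map_pow, ← mul_assoc, ← pow_add,
    show (d - 1) * k + k = d * k by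
      obtain ⟨e, rfl⟩ : ∃ e, d = e + 1 := ⟨d - 1, by omega⟩
      simp [add_mul], pow_mul, h1, one_pow, one_mul]

end

end Vale.Agent.P319N.Rec
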