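import Vale.Agent.P319N.RecE

/-! # Cubic reciprocity, part E2: consequences of the commutator criterion -/

namespace Vale.Agent.P319N.Rec

set_option linter.unusedSectionVars false

open scoped Classical
open Function Matrix

noncomputable section

section CM

variable {G M : Type*} [Group G] [Monoid M] {π : G →* M}

variable (π) in
/-- lifts of `m` and `n` commute -/
def CM (m n : M) : Prop := ∀ x y, π x = m → π y = n → Commute x y

theorem CM.symm {m n : M} (h : CM π m n) : CM π n m := fun x y hx hy => (h y x hy hx).symm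

theorem cm_refl (hπ : IsExt π) (m : M) : CM π m m := fun x _ hx hy =>
  hπ.commute_congr rfl (hy.trans hx.symm) (Commute.refl x)

theorem CM.mul (hπ : IsExt π) {m m' n : M} (hm : IsUnit m) (hm' : IsUnit m') (h : CM π m n)
    (h' : CM π m' n) : CM π (m * m') n := by
  intro x y hx hy
  obtain ⟨a, ha⟩ := hπ.1 m hm
  obtain ⟨b, hb⟩ := hπ.1 m' hm'
  exact hπ.commute_congr (x' := a * b) (by rw [map_mul, ha, hb, hx]) rfl
    ((h a y ha hy).mul_left (h' b y hb hy))

theorem CM.of_mul (hπ : IsExt π) {m m' n : M} (hm : IsUnit m) (h : CM π m n)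
    (h' : CM π (m * m') n) : CM π m' n := by
  intro x y hx hy
  obtain ⟨a, ha⟩ := hπ.1 m hm
  have := (h a y ha hy).inv_left.mul_left (h' (a * x) y (by rw [map_mul, ha, hx]) hy)
  rwa [inv_mul_cancel_left] at this

theorem cm_one (hπ : IsExt π) (n : M) : CM π 1 n := fun x y hx _ => (hπ.2 x hx).1 y

end CM

variable {O : Type*} [CommRing O] {w : O} {A : Type} [CommRing A] [IsDomain A] [Algebra O A]
  {F : Type} [Field F] [CharZero F] [Algebra A F] [IsFractionRing A F] {ι : Type} [Fintype ι]
  [DecidableEq ι] {G : Type*} [Group G] {π : G →* Matrix ι ι F}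

/-- integral version of `dm` -/
def dA (a : ι) (u : A) : Matrix ι ι A := diagonal (Pi.mulSingle a u)

theorem emb_dA (a : ι) (u : A) : emb F (dA a u) = dm a (algebraMap A F u) := by
  rw [dA, dm, emb, RingHom.mapMatrix_apply, diagonal_map (map_zero _)]
  congr 1
  funext j
  exact Pi.apply_mulSingle (fun _ => algebraMap A F) (fun _ => map_one _) a u j

theorem dA_mulVec (a : ι) (u : A) (x : ι → A) :
    dA a u *ᵥ x = x + Pi.single a ((u - 1) * x a) := by
  funext i
  rw [dA, mulVec_diagonal]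
  by_cases h : i = a
  · subst h; simp; ring
  · simp [h]

theorem det_dA (a : ι) {u : A} (hu : u ≠ 0) : (dA a u).det ≠ 0 := by
  rw [← isUnit_emb (F := FractionRing A), isUnit_iff_isUnit_det, emb, ← RingHom.map_det, dA,
    det_diagonal, Finset.prod_pi_mulSingle' ]
  simpa using hu

theorem mem_range_dA {a : ι} {u : A} {v : ι → A} :
    v ∈ LinearMap.range (lin O (dA a u)) ↔ u ∣ v a := by
  constructor
  · rintro ⟨x, rfl⟩
    exact ⟨x a, by simp [lin_apply, dA_mulVec]; ring⟩
  · rintro ⟨c, hc⟩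
    refine ⟨Function.update v a c, ?_⟩
    rw [lin_apply, dA_mulVec]
    funext i
    by_cases h : i = a
    · subst h; simp [hc]; ring
    · simp [h]

variable (hw : w ^ 2 + w + 1 = 0) (hu : IsUnit (algebraMap O A w - 1)) (hC : Crit w A π)
include hw hu hC

theorem cm_block {a : ι} {Q : Matrix ι ι A} (hQ : Q.det ≠ 0)
    (h1 : ∀ c, Q *ᵥ Pi.single a c = Pi.single a c) (h2 : ∀ x, (Q *ᵥ x) a = x a) {ξ : A}
    (hξ : ξ ≠ 0) : CM π (emb F Q) (dm a (algebraMap A F ξ)) := by
  intro x y hx hy
  rw [hC Q (dA a ξ) hQ (det_dA a hξ) ?_ ?_ x y hx (by rw [hy, emb_dA]),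
    SS_triv hw (fr_lin hu _), SS_triv hw (fr_lin hu _)]
  · intro v
    exact ⟨Pi.single a ((ξ - 1) * v a), by simp [lin_apply, h1, dA_mulVec]⟩
  · intro v
    rw [mem_range_dA]
    simp [lin_apply, h2]
  · refine mulVec_injective (funext fun v => ?_)
    rw [← mulVec_mulVec, ← mulVec_mulVec, dA_mulVec, dA_mulVec, mulVec_add, h1, h2]
  · intro v
    exact ⟨Pi.single a (v a), v - Pi.single a (v a), by simp [h1, dA_mulVec]⟩

omit hC in
theorem SS_dA (hfin : ∀ n : A, n ≠ 0 → Finite (A ⧸ Ideal.span {n})) (a : ι) {c ξ : A} (hξ : ξ ≠ 0)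
    (h : IsCoprime ξ c) :
    SS w (lin O (dA a c)) (LinearMap.range (lin O (dA a ξ))) = Sy w c ξ := by
  have := hfin ξ hξ
  have := (reps_quot (A := O) ξ).finite
  refine SS_transport hw (φ := LinearMap.single O (fun _ => A) a) ⟨fun x => ?_, fun y => ?_⟩
    (fr_lin hu _) ⟨fun x => ?_, fun y => ?_⟩ (qiso_mul h) fun x => ?_
  · rw [mem_range_dA, mem_range_mul]; simp
  · exact ⟨y a, by rw [mem_range_dA]; simp⟩
  · rw [mem_range_dA, mem_range_dA, show lin O (dA a c) x a = c * x a by
      simp [lin_apply, dA_mulVec]; ring]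
    exact ⟨h.dvd_of_dvd_mul_left, fun h => h.mul_left _⟩
  · obtain ⟨u, v, huv⟩ := h
    refine ⟨v • y, mem_range_dA.2 ⟨u * y a, ?_⟩⟩
    simp only [lin_apply, dA_mulVec, Pi.sub_apply, Pi.add_apply, Pi.smul_apply, Pi.single_eq_same,
      smul_eq_mul]
    linear_combination (-y a) * huv
  · rw [mem_range_dA, lin_apply, dA_mulVec]
    simp [sub_mul]

theorem cm_scalar (hfin : ∀ n : A, n ≠ 0 → Finite (A ⧸ Ideal.span {n})) (a : ι) {c ξ : A}
    (hc : c ≠ 0) (hξ : ξ ≠ 0) (h : IsCoprime ξ c) (hS : Sy w c ξ = Sy w ξ c) :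
    CM π (dm a (algebraMap A F c)) (dm a (algebraMap A F ξ)) := by
  intro x y hx hy
  rw [hC (dA a c) (dA a ξ) (det_dA a hc) (det_dA a hξ) (commute_diagonal _ _) ?_ x y
    (by rw [hx, emb_dA]) (by rw [hy, emb_dA]), SS_dA hw hu hfin a hξ h,
    SS_dA hw hu hfin a hc h.symm, hS]
  intro v
  obtain ⟨s, t, hst⟩ := h
  refine ⟨Function.update v a (t * v a), Pi.single a (s * v a), funext fun i => ?_⟩
  by_cases hi : i = a
  · subst hi
    simp only [dA_mulVec, Pi.add_apply, update_self, Pi.single_eq_same]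
    linear_combination (-v i) * hst
  · rw [dA_mulVec, dA_mulVec]
    simp [hi]

theorem cm_of_comm (hπ : IsExt π) {a : ι} {ξ : A} (hξ : ξ ≠ 0)
    (hs : ∀ c : A, c ≠ 0 → CM π (dm a (algebraMap A F c)) (dm a (algebraMap A F ξ)))
    {g : Matrix ι ι F} (hg : IsUnit g) (hc : ∀ u, Commute g (dm a u)) :
    CM π g (dm a (algebraMap A F ξ)) := by
  have inj := IsFractionRing.injective A F
  obtain ⟨m, hm, P, hP⟩ := exists_den (A := A) g
  have hm' : algebraMap A F m ≠ 0 := (map_ne_zero_iff _ inj).2 hm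
  have h0 : Commute P (single a a 1) := by
    apply emb_inj (F := F)
    have h := hc 2
    rw [dm_eq, show (2 : F) - 1 = 1 by norm_num] at h
    have h' : Commute g (single a a 1) := by
      simpa using h.sub_right (Commute.one_right g)
    have e : emb F (single a a (1 : A)) = single a a 1 := by
      rw [emb, RingHom.mapMatrix_apply, map_single, map_one]
    rw [map_mul, map_mul, hP, e, smul_mul_assoc, mul_smul_comm, h'.eq]
  have r1 : ∀ j, j ≠ a → P a j = 0 := fun j hj => by
    simpa [hj] using (congrFun (congrFun h0.eq a) j).symm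
  have r2 : ∀ j, j ≠ a → P j a = 0 := fun j hj => by
    simpa [hj] using congrFun (congrFun h0.eq j) a
  have hsc : algebraMap A F m • (1 : Matrix ι ι F) * g = emb F P := by rw [hP, smul_mul_assoc, one_mul]
  let D : Matrix ι ι A := diagonal fun i => if i = a then 1 else m
  have hD : D.det ≠ 0 := by
    rw [det_diagonal]
    exact Finset.prod_ne_zero_iff.2 fun i _ => by split_ifs; exacts [one_ne_zero, hm]
  have e1 : algebraMap A F m • (1 : Matrix ι ι F) = dm a (algebraMap A F m) * emb F D := by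
    rw [← emb_dA, ← map_mul, dA, diagonal_mul_diagonal]
    ext i j
    by_cases h : i = j
    · subst h
      by_cases h : i = a <;> simp [emb_apply, h]
    · simp [emb_apply, h]
  have u1 : IsUnit (algebraMap A F m • (1 : Matrix ι ι F)) :=
    e1 ▸ (isUnit_dm a hm').mul (isUnit_emb.2 hD)
  have hPd : P.det ≠ 0 := isUnit_emb.1 (hsc ▸ u1.mul hg)
  let Q : Matrix ι ι A := P + single a a (1 - P a a)
  have e2 : P = dA a (P a a) * Q := by
    ext i j
    rw [dA, diagonal_mul]
    by_cases h : i = a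
    · subst h
      by_cases h : j = i
      · subst h; simp [Q]
      · simp [Q, r1 j h, Ne.symm h]
    · simp [Q, h, Ne.symm h]
  have e3 := hPd
  rw [e2, det_mul] at e3
  have hc0 : P a a ≠ 0 := by
    intro h
    apply left_ne_zero_of_mul e3
    rw [dA, det_diagonal]
    exact Finset.prod_eq_zero (Finset.mem_univ a) (by simpa using h)
  refine CM.of_mul hπ u1 ?_ ?_
  · rw [e1]
    refine CM.mul hπ (isUnit_dm a hm') (isUnit_emb.2 hD) (hs m hm) (cm_block hw hu hC hD ?_ ?_ hξ)
    · intro c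
      funext i
      by_cases h : i = a <;> simp [D, mulVec_diagonal, h]
    · intro x
      simp [D, mulVec_diagonal]
  · rw [hsc, e2, map_mul, emb_dA]
    refine CM.mul hπ (isUnit_dm a ((map_ne_zero_iff _ inj).2 hc0))
      (isUnit_emb.2 (right_ne_zero_of_mul e3)) (hs _ hc0)
      (cm_block hw hu hC (right_ne_zero_of_mul e3) ?_ ?_ hξ)
    · intro c
      funext i
      by_cases h : i = a
      · subst h; simp [Q]
      · simp [Q, h, r2 i h, Ne.symm h]
    · intro x
      rw [mulVec, dotProduct, Finset.sum_eq_single a (fun j _ h => by simp [Q, r1 j h, Ne.symm h])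
        (by simp)]
      simp [Q]

end

end Vale.Agent.P319N.Rec
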