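import Vale.Agent.P319N.RecE2
import Vale.Agent.P026.Sup

/-! # Cubic reciprocity, part E3: input from the Eisenstein integers -/

namespace Vale.Agent.P319N.Rec

set_option linter.unusedSectionVars false

open scoped Classical
open Function Matrix
open Vale.Agent.P026

noncomputable section

variable (F : Type) [Field F] [CharZero F] [Algebra O F] [IsFractionRing O F] (M : ℕ)

/-- `ℤ[ω][1/M]` -/
def AF : Subalgebra O F where
  carrier := {x | ∃ (j : ℕ) (y : O), (M : F) ^ j * x = algebraMap O F y}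
  mul_mem' := by
    rintro a b ⟨i, x, hx⟩ ⟨j, y, hy⟩
    exact ⟨i + j, x * y, by rw [map_mul, ← hx, ← hy]; ring⟩
  add_mem' := by
    rintro a b ⟨i, x, hx⟩ ⟨j, y, hy⟩
    exact ⟨i + j, M ^ j * x + M ^ i * y, by
      rw [map_add, map_mul, map_mul, ← hx, ← hy, map_pow, map_pow, map_natCast]; ring⟩
  algebraMap_mem' y := ⟨0, y, by simp⟩

/-- the small elements -/
def IF : NonUnitalSubring F where
  carrier := {x | ∃ b : ℕ, b.Coprime M ∧ ∃ y : O, (b : F) * x = (M : F) ^ 2 * algebraMap O F y}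
  mul_mem' := by
    rintro a b ⟨i, hi, x, hx⟩ ⟨j, hj, y, hy⟩
    refine ⟨i * j, hi.mul_left hj, M ^ 2 * x * y, ?_⟩
    rw [map_mul, map_mul, map_pow, map_natCast]
    push_cast
    linear_combination (j * b) * hx + (M ^ 2 * algebraMap O F x) * hy
  add_mem' := by
    rintro a b ⟨i, hi, x, hx⟩ ⟨j, hj, y, hy⟩
    refine ⟨i * j, hi.mul_left hj, j * x + i * y, ?_⟩
    rw [map_add, map_mul, map_mul, map_natCast, map_natCast]
    push_cast
    linear_combination j * hx + i * hy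
  zero_mem' := ⟨1, by simp, 0, by simp⟩
  neg_mem' := by
    rintro a ⟨i, hi, x, hx⟩
    exact ⟨i, hi, -x, by rw [map_neg]; linear_combination -hx⟩

variable {F M} (h6 : 6 ∣ M) (hM : M ≠ 0)

theorem alg_coe (y : O) : ((algebraMap O (AF F M) y : AF F M) : F) = algebraMap O F y := rfl

theorem alg_inj : Injective (algebraMap O (AF F M)) := fun _ _ h =>
  IsFractionRing.injective O F (congrArg Subtype.val h)

theorem AF_loc (x : AF F M) : ∃ j s, algebraMap O (AF F M) M ^ j * x = algebraMap O (AF F M) s := by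
  obtain ⟨x, j, y, h⟩ := x
  exact ⟨j, y, Subtype.ext (by simpa using h)⟩

include hM in
theorem isUnit_M : IsUnit (algebraMap O (AF F M) M) := by
  have : (M : F) ≠ 0 := Nat.cast_ne_zero.2 hM
  exact IsUnit.of_mul_eq_one ⟨(M : F)⁻¹, 1, 1, by simp [this]⟩ (Subtype.ext (by simp [this]))

include hM in
theorem fin_AF (n : AF F M) (hn : n ≠ 0) : Finite (AF F M ⧸ Ideal.span {n}) :=
  finite_quot_of_loc (algebraMap O (AF F M)) M AF_loc (isUnit_M hM) (fun _ => finite_quot) n hn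

include h6 in
theorem om_dvd : om - 1 ∣ (M : O) := by
  obtain ⟨k, rfl⟩ := h6
  exact ⟨(om ^ 2 - 1) * 2 * k, by push_cast; linear_combination (-2 * k * (om - 2)) * om_sq⟩

include h6 hM in
theorem hu_AF : IsUnit (algebraMap O (AF F M) om - 1) := by
  have := isUnit_of_dvd_unit (map_dvd (algebraMap O (AF F M)) (om_dvd h6)) (isUnit_M hM)
  rwa [map_sub, map_one] at this

include h6 in
theorem rad_IF : Rad (IF F M) := by
  rintro r ⟨b, hb, y, h⟩
  let z : O := b + M ^ 2 * y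
  have hN : (Nm z).Coprime M := by
    have h1 : IsCoprime ((b : ℤ) ^ 2) (M : ℤ) := (Nat.isCoprime_iff_coprime.2 hb).pow_left
    have h2 : (Nm z : ℤ) = b ^ 2 + M * (M * (2 * b * y.re - b * y.im) +
        M ^ 3 * (y.re ^ 2 - y.re * y.im + y.im ^ 2)) := by
      rw [Nm_cast]
      simp [z, pow_two, QuadraticAlgebra.re_mul, QuadraticAlgebra.im_mul]
      ring
    rw [← Nat.isCoprime_iff_coprime, h2]
    exact h1.add_mul_left_left _
  have hb0 : (b : F) ≠ 0 := by
    rintro h0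
    rw [Nat.cast_eq_zero.1 h0, Nat.coprime_zero_left] at hb
    omega
  have hz0 : (Nm z : F) ≠ 0 := by
    rintro h0
    rw [Nat.cast_eq_zero.1 h0, Nat.coprime_zero_left] at hN
    omega
  have e1 : algebraMap O F z = b * (1 + r) := by
    simp only [z, map_add, map_mul, map_pow, map_natCast]
    linear_combination -h
  have e2 : algebraMap O F z * algebraMap O F (star z) = Nm z := by
    rw [← map_mul, mul_star_eq, map_natCast]
  have hr : 1 + r ≠ 0 := by
    intro h0
    rw [e1, h0, mul_zero, zero_mul] at e2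
    exact hz0 e2.symm
  refine ⟨-r / (1 + r), ⟨Nm z, hN, -(y * star z), ?_⟩, by field_simp; ring⟩
  rw [map_neg, map_mul, ← e2, e1]
  field_simp
  linear_combination (-algebraMap O F (star z)) * h

theorem sym3_Sy {c ξ : O} (hξ : ξ ≠ 0) (h : IsCoprime ξ c) (h' : IsCoprime ξ (om - 1)) :
    sym3 c ξ = omC ^ (Sy om c ξ).val :=
  gsym3_eq (A := O) om_sq (fun _ => finite_quot) (fun _ hp => (natCard_quot hp.ne_zero).symm) hξ h h'

include h6 hM in
theorem Sy_AF {c ξ : O} (hξ : ξ ≠ 0) (h : IsCoprime ξ c) (h' : IsCoprime ξ M) :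
    Sy om (algebraMap O (AF F M) c) (algebraMap O (AF F M) ξ) = Sy om c ξ := by
  have := finite_quot hξ
  have := (reps_quot (A := O) ξ).finite
  refine SS_transport om_sq (φ := Algebra.linearMap O (AF F M)) ⟨fun x => ?_, fun y => ?_⟩
    (fr_mul ?_) (qiso_mul (h.map _)) (qiso_mul h) fun x => by simp
  · rw [mem_range_mul, mem_range_mul]
    refine ⟨fun ⟨y, hy⟩ => ?_, map_dvd _⟩
    obtain ⟨j, s, hs⟩ := AF_loc y
    refine (h'.pow_right (n := j)).dvd_of_dvd_mul_left ⟨s, alg_inj (F := F) (M := M) ?_⟩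
    rw [map_mul, map_mul, ← hs, map_pow]
    exact (congrArg (_ * ·) hy).trans (by ring)
  · obtain ⟨j, s, hs⟩ := AF_loc y
    obtain ⟨u, v, huv⟩ := h'.pow_right (n := j)
    refine ⟨v * s, mem_range_mul.2 ⟨algebraMap _ _ u * y, ?_⟩⟩
    have := congrArg (algebraMap O (AF F M)) huv
    rw [map_add, map_mul, map_mul, map_pow, map_one] at this
    rw [Algebra.linearMap_apply, map_mul, ← hs]
    linear_combination (-y) * this
  · exact ((isCoprime_one_right (x := algebraMap O (AF F M) ξ)).of_isCoprime_of_dvd_right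
      (hu_AF h6 hM).dvd)

variable {ι : Type} [Fintype ι] [DecidableEq ι] {G : Type*} [Group G] {π : G →* Matrix ι ι F}
  (hπ : IsExt π) (hC : Crit om (AF F M) π)
include h6 hM hπ hC

omit hπ in
theorem cm_alpha (a : ι) {c ξ : O} (hc : c ∣ M) (hξ : IsCoprime ξ M) (h : sym3 c ξ = 1) :
    CM π (dm a (algebraMap O F c)) (dm a (algebraMap O F ξ)) := by
  have hM' : (M : O) ≠ 0 := Nat.cast_ne_zero.2 hM
  have hξ0 : ξ ≠ 0 := by
    rintro rfl
    exact prime_lam.not_isUnit (isUnit_of_dvd_unit (show lam ∣ (M : O) by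
      obtain ⟨k, rfl⟩ := h6
      exact ⟨-lam * 2 * k, by push_cast; linear_combination (2 * k) * lam_sq⟩)
      (isCoprime_zero_left.1 hξ))
  have h1 := hξ.of_isCoprime_of_dvd_right hc
  have hu := isUnit_of_dvd_unit (map_dvd (algebraMap O (AF F M)) hc) (isUnit_M hM)
  refine cm_scalar om_sq (hu_AF h6 hM) hC (fin_AF hM) a hu.ne_zero
    ((map_ne_zero_iff _ alg_inj).2 hξ0) (h1.map (algebraMap O (AF F M))) ?_
  rw [Sy_unit om_sq _ hu, Sy_AF h6 hM hξ0 h1 hξ]
  rw [sym3_Sy hξ0 h1 (hξ.of_isCoprime_of_dvd_right (om_dvd h6))] at h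
  exact omC_inj (h.trans (pow_zero _).symm)

omit hπ in
theorem cm_beta (a : ι) {c ξ : O} (hc : Prim c) (hξ : Prim ξ) (hc' : IsCoprime c M)
    (hξ' : IsCoprime ξ M) (h : IsCoprime ξ c) :
    CM π (dm a (algebraMap O F c)) (dm a (algebraMap O F ξ)) := by
  refine cm_scalar om_sq (hu_AF h6 hM) hC (fin_AF hM) a ((map_ne_zero_iff _ alg_inj).2 hc.ne_zero)
    ((map_ne_zero_iff _ alg_inj).2 hξ.ne_zero) (h.map (algebraMap O (AF F M))) ?_
  rw [Sy_AF h6 hM hξ.ne_zero h hξ', Sy_AF h6 hM hc.ne_zero h.symm hc']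
  apply omC_inj
  rw [← sym3_Sy hξ.ne_zero h (hξ'.of_isCoprime_of_dvd_right (om_dvd h6)),
    ← sym3_Sy hc.ne_zero h.symm (hc'.of_isCoprime_of_dvd_right (om_dvd h6)), cubic_recip hc hξ]

theorem cm_O (a : ι) {ξ : O} (hξ : (M : O) ^ 2 ∣ ξ - 1) (c : O) (hc : c ≠ 0) :
    CM π (dm a (algebraMap O F c)) (dm a (algebraMap O F ξ)) := by
  have inj := IsFractionRing.injective O F
  have un : ∀ {x : O}, x ≠ 0 → IsUnit (dm a (algebraMap O F x)) := fun hx =>
    isUnit_dm a ((map_ne_zero_iff _ inj).2 hx)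
  have h3 : (3 : O) ∣ M := by
    obtain ⟨k, rfl⟩ := h6
    exact ⟨2 * k, by push_cast; ring⟩
  have hM1 : (M : O) ∣ ξ - 1 := (dvd_pow_self _ two_ne_zero).trans hξ
  have h9 : (9 : O) ∣ ξ - 1 := by
    have := (pow_dvd_pow_of_dvd h3 2).trans hξ
    rwa [show (3 : O) ^ 2 = 9 by norm_num] at this
  have hP : Prim ξ := h3.trans hM1
  have hco : IsCoprime ξ M := by
    obtain ⟨k, hk⟩ := hM1
    exact ⟨1, -k, by linear_combination hk⟩
  have al : ∀ c : O, c ∣ M → CM π (dm a (algebraMap O F c)) (dm a (algebraMap O F ξ)) :=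
    fun c hc => cm_alpha h6 hM hC a hc hco (by
      rw [sym3_SYM hP prim_one h9 (hc.trans hM1), sym3_unit_right _ isUnit_one])
  induction c using UniqueFactorizationMonoid.induction_on_prime with
  | h₁ => exact absurd rfl hc
  | h₂ u hu => exact al u hu.dvd
  | h₃ x p hx hp ih =>
    rw [map_mul, ← dm_mul]
    refine CM.mul hπ (un hp.ne_zero) (un hx) ?_ (ih hx)
    by_cases hpM : p ∣ M
    · exact al p hpM
    have hl : ¬ lam ∣ p := fun h => hpM (((prime_lam.dvd_prime_iff_associated hp).1 h).symm.dvd.trans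
      (Dvd.dvd.trans ⟨-lam, by linear_combination lam_sq⟩ h3))
    obtain ⟨u, hu, hq⟩ := exists_prim_assoc hl
    have hq' : Prime (u * p) := (associated_unit_mul_left p u hu).symm.prime hp
    have hqM : IsCoprime (u * p) M := hq'.irreducible.coprime_iff_not_dvd.2 fun h =>
      hpM ((dvd_mul_left p u).trans h)
    refine CM.of_mul hπ (un hu.ne_zero) (al u hu.dvd) ?_
    rw [dm_mul, ← map_mul]
    generalize u * p = q at *
    obtain ⟨e, η, hη, rfl⟩ := WfDvdMonoid.max_power_factor hP.ne_zero hq'.irreducible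
    have hη' := hP.of_mul (hq.pow e)
    rw [map_mul, ← dm_mul]
    refine (CM.mul hπ (un (pow_ne_zero e hq.ne_zero)) (un hη'.ne_zero) ?_ (cm_beta h6 hM hC a hη' hq
      hco.of_mul_left_right hqM (hq'.irreducible.coprime_iff_not_dvd.2 hη))).symm
    clear * - hπ un hq
    induction e with
    | zero => rw [pow_zero, map_one, dm_one]; exact cm_one hπ _
    | succ e ih =>
      rw [pow_succ, map_mul, ← dm_mul]
      exact CM.mul hπ (un (pow_ne_zero e hq.ne_zero)) (un hq.ne_zero) ih (cm_refl hπ _)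

theorem cm_all (a : ι) {ξ : O} (hξ : (M : O) ^ 2 ∣ ξ - 1) {g : Matrix ι ι F} (hg : IsUnit g)
    (hc : ∀ u, Commute g (dm a u)) : CM π g (dm a (algebraMap O F ξ)) := by
  have hM' : (M : O) ≠ 0 := Nat.cast_ne_zero.2 hM
  have hξ0 : ξ ≠ 0 := by
    rintro rfl
    have h3 : (3 : O) ∣ 0 - 1 := by
      obtain ⟨k, rfl⟩ := h6
      exact Dvd.dvd.trans ⟨12 * k ^ 2, by push_cast; ring⟩ hξ
    exact Prim.ne_zero h3 rfl
  refine cm_of_comm om_sq (hu_AF h6 hM) hC hπ (ξ := algebraMap O (AF F M) ξ)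
    ((map_ne_zero_iff _ alg_inj).2 hξ0) (fun c hc => ?_) hg hc
  obtain ⟨c, j, y, hy⟩ := c
  have hMF : (M : F) ^ j ≠ 0 := pow_ne_zero _ (Nat.cast_ne_zero.2 hM)
  have hy0 : y ≠ 0 := by
    rintro rfl
    exact hc (Subtype.ext ((mul_eq_zero.1 (hy.trans (map_zero _))).resolve_left hMF))
  have h1 := cm_O h6 hM hπ hC a hξ _ (pow_ne_zero j hM')
  have h2 := cm_O h6 hM hπ hC a hξ _ hy0
  rw [map_pow, map_natCast] at h1
  rw [← hy, ← dm_mul] at h2
  exact CM.of_mul hπ (isUnit_dm a hMF) h1 h2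

theorem hh_IF : HH π (IF F M) := by
  rintro a r ⟨b, hb, y, h⟩ x g hx hg
  obtain ⟨s, t, hst⟩ := (Nat.isCoprime_iff_coprime.2 hb).pow_right (n := 2)
  have hst' : (s : O) * b + t * M ^ 2 = 1 := by exact_mod_cast congrArg (Int.cast : ℤ → O) hst
  have hgu : IsUnit (π g) := (Group.isUnit g).map π
  have h1 := cm_all h6 hM hπ hC a (ξ := s * b) ⟨-t, by linear_combination hst'⟩ hgu hg
  have h2 := cm_all h6 hM hπ hC a (ξ := s * b + M ^ 2 * (s * y))
    ⟨-t + s * y, by linear_combination hst'⟩ hgu hg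
  have e : algebraMap O F (s * b + M ^ 2 * (s * y)) = algebraMap O F (s * b) * (1 + r) := by
    simp only [map_add, map_mul, map_pow, map_natCast, map_intCast]
    linear_combination (-s) * h
  have h0 : algebraMap O F (s * b) ≠ 0 := by
    rw [map_ne_zero_iff _ (IsFractionRing.injective O F)]
    refine Prim.ne_zero ?_
    obtain ⟨k, rfl⟩ := h6
    exact ⟨-t * 12 * k ^ 2, by push_cast at hst' ⊢; linear_combination hst'⟩
  rw [e, ← dm_mul] at h2
  exact (CM.of_mul hπ (isUnit_dm a h0) h1.symm h2.symm).symm g x rfl hx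

end

end Vale.Agent.P319N.Rec
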