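import Vale.Agent.P319N.Mon
import Vale.Agent.P319N.LP3
import Vale.Agent.P319N.FD
import Vale.Agent.P319N.SumA

namespace Vale.Agent.P319N

open NumberField Complex MeasureTheory Filter Topology
open scoped Classical ComplexConjugate Real
open Vale.Agent.P026 (omC kap psi W)

noncomputable section

variable {K : Type} [Field K] [NumberField K] [Level K]

theorem DD_spec : IsFD (U1 K) (DD K) :=
  Classical.epsilon_spec (exists_FD (K := K) cls_he le_rfl (by simp))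

theorem U1_le : U1 K ≤ U0 K ⊓ unitsA K := fun _ h =>
  ⟨⟨h.1, Subgroup.mem_sup_left h.2⟩, H1_le_unitsA _ h.2⟩

theorem i0_pos : 0 < i0 K := Nat.pos_of_ne_zero fun h =>
  Uj_index (K := K) (ee K) (by
    by_contra h'
    exact h' (by
      by_contra h2
      exact h2 (Subgroup.relIndex_eq_zero_of_le_right (inf_le_inf_right _ inf_le_left) h)))

theorem exists_repsX : ∃ X : Finset Kˣ, RepsX X := by
  have h6 : (H6 K).FiniteIndex := Subgroup.finiteIndex_of_finite_quotient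
  have : (U0 K ⊔ unitsA K).FiniteIndex := cls_fin (U := unitsR K) (by
    rw [U0, Subgroup.inf_relIndex_left]
    exact Subgroup.FiniteIndex.index_ne_zero) finite_unitsA_R
  haveI := Fintype.ofFinite (Kˣ ⧸ (U0 K ⊔ unitsA K))
  refine ⟨Finset.univ.image (fun c : Kˣ ⧸ (U0 K ⊔ unitsA K) => c.out), fun z => ?_⟩
  have key : ∀ c : Kˣ ⧸ (U0 K ⊔ unitsA K), z * c.out⁻¹ ∈ U0 K ⊔ unitsA K ↔ c = z := fun c => by
    rw [mul_comm, ← QuotientGroup.eq, QuotientGroup.out_eq']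
  refine ⟨(z : Kˣ ⧸ (U0 K ⊔ unitsA K)).out, ⟨by simp, (key _).2 rfl⟩, ?_⟩
  rintro y ⟨hy, h⟩
  obtain ⟨c, -, rfl⟩ := Finset.mem_image.1 hy
  rw [(key c).1 h]

theorem RepsX.div {X : Finset Kˣ} (hX : RepsX X) (w : Kˣ) : RepsX (X.image fun x => w / x) := by
  intro z
  have key : ∀ x : Kˣ, z * (w / x)⁻¹ ∈ U0 K ⊔ unitsA K ↔ w / z * x⁻¹ ∈ U0 K ⊔ unitsA K := by
    intro x
    rw [← Subgroup.inv_mem_iff]
    have : (z * (w / x)⁻¹)⁻¹ = w / z * x⁻¹ := by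
      simp only [div_eq_mul_inv, mul_inv_rev, inv_inv]; ac_rfl
    rw [this]
  obtain ⟨x, ⟨h1, h2⟩, h3⟩ := hX (w / z)
  refine ⟨w / x, ⟨Finset.mem_image_of_mem _ h1, (key x).2 h2⟩, ?_⟩
  rintro y ⟨hy, h⟩
  obtain ⟨x', hx', rfl⟩ := Finset.mem_image.1 hy
  rw [h3 x' ⟨hx', (key x').1 h⟩]

theorem reg_card {m0 : K} (h0 : m0 ≠ 0) :
    Nat.card {v : (U0 K ⊓ unitsA K : Subgroup Kˣ) // Rep (((v : Kˣ) : K) * m0)} = i0 K := by
  refine Nat.card_eq_of_bijective (fun v => (QuotientGroup.mk v.1 :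
    (U0 K ⊓ unitsA K : Subgroup Kˣ) ⧸ (U1 K).subgroupOf (U0 K ⊓ unitsA K))) ⟨?_, ?_⟩
  · rintro ⟨v, hv⟩ ⟨v', hv'⟩ h
    have h1 : ((v⁻¹ * v' : (U0 K ⊓ unitsA K : Subgroup Kˣ)) : Kˣ) ∈ U1 K :=
      Subgroup.mem_subgroupOf.1 (QuotientGroup.eq.1 h)
    have h2 := (DD_spec.exists_rep hv.1).unique (y₁ := 1) (y₂ := ⟨_, h1⟩) (by simpa using hv.2)
      (by
        have := hv'.2
        convert this using 2
        have := Units.ne_zero (v : Kˣ)
        simp only [Subgroup.coe_mul, Subgroup.coe_inv, Units.val_mul, Units.val_inv_eq_inv_val]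
        field_simp)
    have h3 : ((v⁻¹ * v' : (U0 K ⊓ unitsA K : Subgroup Kˣ)) : Kˣ) = 1 :=
      (congrArg Subtype.val h2).symm
    exact Subtype.ext (inv_mul_eq_one.1 (Subtype.ext h3))
  · intro c
    obtain ⟨v, rfl⟩ := QuotientGroup.mk_surjective c
    have hv : ((v : Kˣ) : K) * m0 ≠ 0 := mul_ne_zero (Units.ne_zero _) h0
    obtain ⟨u, hu, -⟩ := DD_spec.exists_rep hv
    refine ⟨⟨v * ⟨u, U1_le u.2⟩, mul_ne_zero (Units.ne_zero _) h0, ?_⟩, ?_⟩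
    · convert hu using 2
      simp only [Subgroup.coe_mul, Units.val_mul]; ring
    · exact (QuotientGroup.eq.2 (by simpa [Subgroup.mem_subgroupOf] using u.2)).symm

def toR (m : K) : R K := if h : m ∈ R K then ⟨m, h⟩ else 0
def toA (m : K) : A K := if h : m ∈ A K then ⟨m, h⟩ else 0
theorem toR_coe {m : K} (h : m ∈ R K) : (toR m : K) = m := by simp [toR, h]
theorem toA_coe {m : K} (h : m ∈ A K) : (toA m : K) = m := by simp [toA, h]

theorem mem_LL2_one {m x : K} : m ∈ LL2 1 x ↔ m ∈ R K ∧ m / x ∈ A K := by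
  show m / 1 ∈ R K ∧ _ ↔ _
  rw [div_one]

abbrev RegS (X : Finset Kˣ) : Type :=
  {p : X × K // Rep p.2 ∧ p.2 ∈ LL2 1 ((p.1 : Kˣ) : K)}

def regPhi (X : Finset Kˣ) (p : RegS X) : MM K × Associates (A K) :=
  (mkM (toR p.1.2), Associates.mk (toA (p.1.2 / ((p.1.1 : Kˣ) : K))))

theorem reg_ne {X : Finset Kˣ} (p : RegS X) : (regPhi X p).1 ≠ 0 ∧ (regPhi X p).2 ≠ 0 := by
  obtain ⟨⟨x, m⟩, h1, h2⟩ := p
  obtain ⟨h2, h3⟩ := mem_LL2_one.1 h2
  refine ⟨fun h => h1.1 ?_, fun h => div_ne_zero h1.1 (Units.ne_zero (x : Kˣ)) ?_⟩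
  · rw [← toR_coe h2, mkM_eq_zero.1 h]; rfl
  · rw [← toA_coe h3, Associates.mk_eq_zero.1 h]; rfl

theorem reg_iff {X : Finset Kˣ} (p : RegS X) (n : R K) (a : A K) :
    regPhi X p = (mkM n, Associates.mk a) ↔ (∃ u ∈ U0 K, p.1.2 = (u : K) * n) ∧
      ∃ w ∈ unitsA K, p.1.2 / ((p.1.1 : Kˣ) : K) = (w : K) * a := by
  obtain ⟨⟨x, m⟩, h1, h2⟩ := p
  obtain ⟨h2, h3⟩ := mem_LL2_one.1 h2
  simp only [regPhi, Prod.mk.injEq]
  refine and_congr ?_ ?_
  · rw [eq_comm, mkM_eq_iff]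
    constructor
    · rintro ⟨u, hu, e⟩
      exact ⟨Units.mk0 _ (unit_ne u), mem_U0.2 ⟨u, hu, rfl⟩,
        (toR_coe h2).symm.trans (congrArg Subtype.val e)⟩
    · rintro ⟨u, hu, e⟩
      obtain ⟨v, hv, e'⟩ := mem_U0.1 hu
      exact ⟨v, hv, Subtype.ext (by rw [toR_coe h2, e, ← e']; rfl)⟩
  · rw [eq_comm, Associates.mk_eq_mk_iff_associated]
    constructor
    · rintro ⟨u, e⟩
      have hu : ((u : A K) : K) ≠ 0 := by exact_mod_cast u.ne_zero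
      exact ⟨Units.mk0 _ hu, mem_unitsA.2 ⟨u, rfl⟩, by
        rw [← toA_coe h3, ← e, mul_comm]; rfl⟩
    · rintro ⟨u, hu, e⟩
      obtain ⟨v, e'⟩ := mem_unitsA.1 hu
      exact ⟨v, Subtype.ext (by rw [toA_coe h3, e, ← e', mul_comm]; rfl)⟩

theorem reg_fiber {X : Finset Kˣ} (hX : RepsX X) {t : MM K × Associates (A K)} (h1 : t.1 ≠ 0)
    (h2 : t.2 ≠ 0) : Nat.card {p : RegS X // regPhi X p = t} = i0 K := by
  obtain ⟨n, a⟩ := t
  obtain ⟨n, rfl⟩ := mkM_surj n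
  obtain ⟨a, rfl⟩ := Associates.mk_surjective a
  have hn : (n : K) ≠ 0 := by exact_mod_cast fun e => h1 (mkM_eq_zero.2 e)
  have ha : (a : K) ≠ 0 := by exact_mod_cast fun e => h2 (Associates.mk_eq_zero.2 e)
  obtain ⟨x, ⟨hx, hz⟩, hu⟩ := hX (Units.mk0 _ (div_ne_zero hn ha))
  obtain ⟨u0, hu0, w0, hw0, e⟩ := Subgroup.mem_sup.1 hz
  have e' : (u0 : K) * w0 = n / a * (x : K)⁻¹ := by simpa using congrArg Units.val e
  have hx0 := x.ne_zero
  have hu00 := u0.ne_zero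
  have hw00 := w0.ne_zero
  have hm0 : (n : K) / u0 ≠ 0 := div_ne_zero hn hu00
  have e1 : ∀ v : K, v * (n / u0) / x = v * w0 * a := fun v => by
    field_simp at e' ⊢
    linear_combination -v * e'
  rw [← reg_card hm0, eq_comm]
  refine Nat.card_eq_of_bijective (fun v => ⟨⟨(⟨x, hx⟩, ((v.1 : Kˣ) : K) * (n / u0)), v.2,
    mem_LL2_one.2 ⟨?_, ?_⟩⟩, (reg_iff _ _ _).2 ⟨⟨v.1 / u0, (U0 K).div_mem v.1.2.1 hu0, ?_⟩,
      ⟨v.1 * w0, (unitsA K).mul_mem v.1.2.2 hw0, ?_⟩⟩⟩) ⟨?_, ?_⟩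
  · refine (R K).mul_mem v.1.2.1.1.1 ?_
    have := (R K).mul_mem n.2 hu0.1.2
    rwa [Units.val_inv_eq_inv_val, ← div_eq_mul_inv] at this
  · rw [e1]
    exact (A K).mul_mem ((A K).mul_mem v.1.2.2.1 hw0.1) a.2
  · simp only [Units.val_div_eq_div_val]; ring
  · simpa using e1 _
  · intro v v' h
    have := congrArg (fun p => p.1.1.2) h
    exact Subtype.ext (Subtype.ext (Units.ext (mul_right_cancel₀ hm0 this)))
  · rintro ⟨⟨⟨⟨y, hy⟩, m⟩, hr⟩, hp⟩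
    obtain ⟨⟨u, hu1, e2⟩, w, hw, e3⟩ := (reg_iff _ _ _).1 hp
    simp only at e2 e3
    have := u.ne_zero
    have := y.ne_zero
    have hy' : y = x := hu y ⟨hy, Subgroup.mem_sup.2 ⟨u⁻¹, (U0 K).inv_mem hu1, w, hw,
      Units.ext (by
        simp only [Units.val_mul, Units.val_inv_eq_inv_val, Units.val_mk0]
        rw [e2] at e3
        field_simp at e3 ⊢
        linear_combination -e3)⟩⟩
    subst hy'
    have e4 : ((u * u0 : Kˣ) : K) * (n / u0) = m := by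
      rw [e2, Units.val_mul]; field_simp
    have e5 : u * u0 = w / w0 := Units.ext (by
      have h5 := e1 ((u * u0 : Kˣ) : K)
      rw [e4, e3] at h5
      rw [Units.val_div_eq_div_val, eq_div_iff hw00]
      exact (mul_right_cancel₀ ha h5).symm)
    refine ⟨⟨⟨u * u0, (U0 K).mul_mem hu1 hu0, e5 ▸ (unitsA K).div_mem hw hw0⟩, ?_⟩, ?_⟩
    · show Rep (((u * u0 : Kˣ) : K) * (n / u0))
      rw [e4]; exact hr.1
    · exact Subtype.ext (Subtype.ext (Prod.ext rfl e4))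

theorem reg_val {X : Finset Kˣ} (p : RegS X) :
    N (lft (regPhi X p).1) * sA (regPhi X p).2 = absN p.1.2 / sN ((p.1.1 : Kˣ) : K) ∧
      ∃ u ∈ U0 K, (lft (regPhi X p).1 : K) = (u : K) * p.1.2 := by
  have h0 := reg_ne p
  obtain ⟨⟨x, m⟩, h1, h2⟩ := p
  obtain ⟨h2, h3⟩ := mem_LL2_one.1 h2
  simp only [regPhi] at h0 ⊢
  constructor
  · have := absN_eq (K := K) (x := toR m) (fun e => h0.1 (mkM_eq_zero.2 e))
    rw [toR_coe h2] at this
    rw [N, Nm_lft, sA_mk (fun e => h0.2 (Associates.mk_eq_zero.2 e)), toA_coe h3, this,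
      sN_div h1.1 (Units.ne_zero _), N]
    ring
  · obtain ⟨u, hu, e⟩ := lft_mkM (toR m)
    exact ⟨Units.mk0 _ (unit_ne u), mem_U0.2 ⟨u, hu, rfl⟩, by
      rw [e, Subring.coe_mul, toR_coe h2]; rfl⟩

theorem reg_ball : ∃ C : ℝ, ∀ T : ℝ, 0 ≤ T → ∃ s : Finset (MM K), (s.card : ℝ) ≤ C * T ∧
    {n : MM K | n ≠ 0 ∧ (Nm (lft n) : ℝ) ≤ T} ⊆ s := by
  obtain ⟨X, hX⟩ := exists_repsX (K := K)
  choose C hC hc using fun x : Kˣ => fd_count one_ne_zero x.ne_zero (DD_spec (K := K))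
  refine ⟨∑ x ∈ X, C x * sN (x : K), fun T hT => ?_⟩
  have hT' : ∀ x : Kˣ, 0 ≤ sN (x : K) * T := fun x => mul_nonneg (sN_pos _).le hT
  refine ⟨X.biUnion fun x => (hc x _ (hT' x)).1.toFinset.image fun m => mkM (toR m), ?_, ?_⟩
  · rw [Finset.sum_mul]
    refine (Nat.cast_le.2 Finset.card_biUnion_le).trans ?_
    push_cast
    refine Finset.sum_le_sum fun x _ => (Nat.cast_le.2 Finset.card_image_le).trans ?_
    rw [← Set.ncard_eq_toFinset_card _ (hc x _ (hT' x)).1, mul_assoc]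
    exact (hc x _ (hT' x)).2
  · rintro n ⟨h0, hn⟩
    have := reg_fiber hX (t := (n, 1)) h0 one_ne_zero
    obtain ⟨⟨p, hp⟩⟩ := (Nat.card_pos_iff.1 (this ▸ i0_pos)).1
    have h1 := (reg_val p).1
    rw [hp, sA_one, mul_one, eq_div_iff (sN_pos _).ne'] at h1
    simp only [Finset.coe_biUnion, Set.mem_iUnion, Finset.mem_coe, Finset.mem_image,
      Set.Finite.mem_toFinset]
    refine ⟨p.1.1, p.1.1.2, p.1.2, ⟨p.2.2, p.2.1.1, p.2.1.2, ?_⟩, congrArg Prod.fst hp⟩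
    rw [← h1, mul_comm]
    exact mul_le_mul_of_nonneg_left hn (sN_pos _).le

theorem fin_ball_MM (T : ℝ) : {n : MM K | n ≠ 0 ∧ (Nm (lft n) : ℝ) ≤ T}.Finite := by
  obtain ⟨C, hC⟩ := reg_ball (K := K)
  obtain ⟨s, -, hs⟩ := hC (max T 0) (le_max_right _ _)
  exact s.finite_toSet.subset fun n hn => hs ⟨hn.1, hn.2.trans (le_max_left _ _)⟩

theorem card_le_MM : ∃ C : ℝ, ∀ T : ℝ, 0 ≤ T →
    ({n : MM K | n ≠ 0 ∧ (Nm (lft n) : ℝ) ≤ T}.ncard : ℝ) ≤ C * T := by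
  obtain ⟨C, hC⟩ := reg_ball (K := K)
  refine ⟨C, fun T hT => ?_⟩
  obtain ⟨s, h1, hs⟩ := hC T hT
  refine le_trans ?_ h1
  exact_mod_cast (Set.ncard_le_ncard hs s.finite_toSet).trans_eq (Set.ncard_coe_finset s)

theorem regroup {X : Finset Kˣ} (hX : RepsX X) {f : K → ℂ} {B : ℝ}
    (hf : ∀ u ∈ U0 K, ∀ m ∈ R K, f ((u : K) * m) = f m) (hb : ∀ m ∈ R K, ‖f m‖ ≤ B)
    {Φ : ℝ → ℂ} {C : ℝ} (hΦ : ∀ x, 0 < x → ‖Φ x‖ ≤ C * x ^ (-2 : ℝ)) :
    (Summable fun n : MM K => if n ≠ 0 then f (lft n) *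
      ∑' a : Associates (A K), (if a ≠ 0 then Φ (N (lft n) * sA a) else 0) else 0) ∧
    (i0 K : ℂ) * ∑' n : MM K, (if n ≠ 0 then f (lft n) *
      ∑' a : Associates (A K), (if a ≠ 0 then Φ (N (lft n) * sA a) else 0) else 0) =
    ∑ x ∈ X, ∑' m : K,
      if Rep m ∧ m ∈ LL2 1 (x : K) then f m * Φ (absN m / sN (x : K)) else 0 := by
  let F : X × K → ℂ := fun p => if Rep p.2 ∧ p.2 ∈ LL2 1 ((p.1 : Kˣ) : K) then
    f p.2 * Φ (absN p.2 / sN ((p.1 : Kˣ) : K)) else 0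
  let G : MM K × Associates (A K) → ℂ := fun t =>
    if t.1 ≠ 0 ∧ t.2 ≠ 0 then f (lft t.1) * Φ (N (lft t.1) * sA t.2) else 0
  have hB : 0 ≤ B := (norm_nonneg _).trans (hb 0 (R K).zero_mem)
  have hF : Summable F := by
    refine Summable.of_norm ((summable_prod_of_nonneg fun _ => norm_nonneg _).2
      ⟨fun x => ?_, (hasSum_fintype _).summable⟩)
    refine Summable.of_nonneg_of_le (fun _ => norm_nonneg _) (fun m => ?_)
      ((fd_summable one_ne_zero (Units.ne_zero (x : Kˣ)) DD_spec (s := 2) (by norm_num)).mul_left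
        (B * (C * sN ((x : Kˣ) : K) ^ (2 : ℝ))))
    by_cases h : Rep m ∧ m ∈ LL2 1 ((x : Kˣ) : K)
    · have p1 := absN_pos h.1.1
      have p2 := sN_pos ((x : Kˣ) : K)
      simp only [F, if_pos h, if_pos (⟨h.2, h.1.1, h.1.2⟩ : _ ∧ _ ∧ _), norm_mul]
      rw [mul_assoc]
      refine mul_le_mul (hb _ (mem_LL2_one.1 h.2).1) ((hΦ _ (div_pos p1 p2)).trans_eq ?_)
        (norm_nonneg _) hB
      rw [Real.div_rpow p1.le p2.le, Real.rpow_neg p2.le]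
      field_simp
    · have h' : ¬ (m ∈ LL2 1 ((x : Kˣ) : K) ∧ m ≠ 0 ∧ Lg m ∈ DD K) :=
        fun e => h ⟨⟨e.2.1, e.2.2⟩, e.1⟩
      simp only [F, if_neg h, if_neg h', norm_zero, mul_zero, le_refl]
  have h1 : HasSum (fun p : RegS X => F p.1) (∑' p, F p) :=
    (hasSum_subtype_iff_of_support_subset (s := {p : X × K | Rep p.2 ∧
      p.2 ∈ LL2 1 ((p.1 : Kˣ) : K)}) fun p hp => by
        by_contra h
        exact hp (if_neg h)).2 hF.hasSum
  have hFG : ∀ p : RegS X, F p.1 = G (regPhi X p) := fun p => by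
    obtain ⟨e1, u, hu, e2⟩ := reg_val p
    simp only [F, G, if_pos p.2, if_pos (reg_ne p), e1, e2, hf u hu _ (mem_LL2_one.1 p.2.2).1]
  have h2 : HasSum (fun t => (i0 K : ℂ) * G t) (∑' p, F p) := by
    refine ((Equiv.sigmaFiberEquiv (regPhi X)).hasSum_iff.2 h1).sigma fun t => ?_
    have e : (fun c : {p : RegS X // regPhi X p = t} =>
        ((fun p : RegS X => F p.1) ∘ Equiv.sigmaFiberEquiv (regPhi X)) ⟨t, c⟩) = fun _ => G t :=
      funext fun c => by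
        show F c.1.1 = G t
        rw [hFG, c.2]
    rw [e]
    by_cases h : t.1 ≠ 0 ∧ t.2 ≠ 0
    · have hc := reg_fiber hX h.1 h.2
      haveI := (Nat.card_pos_iff.1 (hc ▸ i0_pos)).2
      haveI := Fintype.ofFinite {p : RegS X // regPhi X p = t}
      convert hasSum_fintype _
      rw [Finset.sum_const, Finset.card_univ, ← Nat.card_eq_fintype_card, hc, nsmul_eq_mul]
    · simp only [G, if_neg h, mul_zero]; exact hasSum_zero
  have hi : (i0 K : ℂ) ≠ 0 := by exact_mod_cast i0_pos.ne'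
  have hG : Summable G := (summable_mul_left_iff hi).1 h2.summable
  have e3 : ∀ n : MM K, ∑' a, G (n, a) = if n ≠ 0 then f (lft n) *
      ∑' a : Associates (A K), (if a ≠ 0 then Φ (N (lft n) * sA a) else 0) else 0 := fun n => by
    by_cases h : n ≠ 0
    · rw [if_pos h, ← tsum_mul_left]
      exact tsum_congr fun a => by by_cases h' : a ≠ 0 <;> simp [G, h, h']
    · simp [G, h]
  refine ⟨hG.prod.congr e3, ?_⟩
  rw [← tsum_congr e3, ← hG.tsum_prod, ← tsum_mul_left, h2.tsum_eq, hF.tsum_prod, tsum_fintype,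
    ← Finset.sum_coe_sort X]

end

end Vale.Agent.P319N
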