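import Vale.Agent.P319N.Rng

namespace Vale.Agent.P319N

open NumberField Complex MeasureTheory Filter Topology
open scoped Classical ComplexConjugate Real
open Vale.Agent.P026 (omC kap psi W)

noncomputable section

variable {K : Type} [Field K] [NumberField K] [Setup K]

/-- the inclusion of the ring of integers -/
def RngA_phi (K : Type) [Field K] [NumberField K] [Setup K] : 𝓞 K →+* A K :=
  (algebraMap (𝓞 K) K).codRestrict _ fun x => mem_A_of_isI x.isIntegral_coe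

theorem RngA_phi_coe (x : 𝓞 K) : (RngA_phi K x : K) = x := rfl

theorem RngA_dvd_iff {q x : A K} (hq : q ≠ 0) : q ∣ x ↔ (x : K) / q ∈ A K := by
  have h0 : (q : K) ≠ 0 := by simpa using hq
  refine ⟨?_, fun h => ⟨⟨_, h⟩, Subtype.ext (by simp [mul_div_cancel₀ _ h0])⟩⟩
  rintro ⟨c, rfl⟩
  simp [h0]

theorem RngA_dvd {x : A K} (hx : x ≠ 0) : ∃ j, j ≠ 0 ∧ x ∣ (Setup.M K : A K) ^ j := by
  obtain ⟨j, hj⟩ := exists_mul_mem_A (x : K)⁻¹
  refine ⟨j + 1, j.succ_ne_zero, ((RngA_dvd_iff hx).2 ?_).trans (pow_dvd_pow _ j.le_succ)⟩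
  simpa [div_eq_mul_inv] using hj

theorem RngA_M : (Setup.M K : A K) ≠ 0 := fun h =>
  MK_ne (K := K) (by simpa using congrArg Subtype.val h)

instance pidA : IsPrincipalIdealRing (A K) := by
  let _ := (RngA_phi K).toAlgebra
  let S : Submonoid (𝓞 K) :=
    { carrier := {x | ∃ b : ℕ, b.Coprime (Setup.M K) ∧ b ≠ 0 ∧ x = b}
      one_mem' := ⟨1, by simp, one_ne_zero, by simp⟩
      mul_mem' := by
        rintro _ _ ⟨a, h1, h2, rfl⟩ ⟨b, h3, h4, rfl⟩
        exact ⟨a * b, Nat.Coprime.mul_left h1 h3, mul_ne_zero h2 h4, by simp⟩ }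
  have : IsLocalization S (A K) := by
    rw [isLocalization_iff]
    refine ⟨?_, ?_, fun {x y} h => ⟨1, ?_⟩⟩
    · rintro ⟨_, b, h1, h2, rfl⟩
      refine IsUnit.of_mul_eq_one ⟨_, inv_nat_mem_A h1⟩ (Subtype.ext ?_)
      simp [h2]
    · rintro ⟨z, b, h1, h2, h3⟩
      refine ⟨(⟨_, h3⟩, ⟨b, b, h1, h2, rfl⟩), Subtype.ext ?_⟩
      change z * ((b : 𝓞 K) : K) = b * z
      simp [mul_comm]
    · have : (x : K) = y := congrArg (Subtype.val : A K → K) h
      rw [RingOfIntegers.ext this]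
  have : IsDedekindDomain (A K) := IsLocalization.isDedekindDomain (𝓞 K) (M := S) (by
    rintro _ ⟨b, -, h2, rfl⟩
    exact mem_nonZeroDivisors_of_ne_zero (by simpa using h2)) _
  refine IsPrincipalIdealRing.of_finite_primes ?_
  have h1 := UniqueFactorizationMonoid.fintypeSubtypeDvd (Ideal.span {(Setup.M K : A K)})
    (by simpa using Setup.Mne)
  have h2 : {I | I ∣ Ideal.span {(Setup.M K : A K)}}.Finite :=
    Finite.of_fintype (α := {I // I ∣ Ideal.span {(Setup.M K : A K)}})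
  refine (h2.insert ⊥).subset fun I hI => ?_
  by_cases h0 : I = ⊥
  · exact Or.inl h0
  obtain ⟨x, hx, hx0⟩ := Submodule.exists_mem_ne_zero_of_ne_bot h0
  obtain ⟨j, -, hj⟩ := RngA_dvd hx0
  exact Or.inr (Ideal.dvd_span_singleton.2
    (Ideal.IsPrime.mem_of_pow_mem hI j (I.mem_of_dvd hj hx)))

theorem prime_A_dvd {p : A K} (hp : Prime p) : p ∣ (Setup.M K : A K) := by
  obtain ⟨j, -, hj⟩ := RngA_dvd hp.ne_zero
  exact hp.dvd_of_dvd_pow hj

theorem RngA_surj {x : A K} (hx : x ≠ 0) :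
    Function.Surjective ((Ideal.Quotient.mk (Ideal.span {x})).comp (RngA_phi K)) := by
  intro z
  obtain ⟨z, rfl⟩ := Ideal.Quotient.mk_surjective z
  have h0 : (x : K) ≠ 0 := by simpa using hx
  obtain ⟨r, h1, h2⟩ := approx (one_ne_zero (α := K)) h0 0 z
  have h3 : r ∈ A K := by
    have := (A K).add_mem ((A K).mul_mem h2 x.2) z.2
    rwa [div_mul_cancel₀ _ h0, sub_add_cancel] at this
  exact ⟨⟨r, isI_of_mem (by simpa using h1) h3⟩,
    Ideal.Quotient.eq.2 (Ideal.mem_span_singleton.2 ((RngA_dvd_iff hx).2 h2))⟩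

theorem finite_quot_A {x : A K} (hx : x ≠ 0) : Finite (A K ⧸ Ideal.span {x}) := by
  obtain ⟨j, -, hj⟩ := RngA_dvd hx
  have := Ideal.finiteQuotientOfFreeOfNeBot
    (RingHom.ker ((Ideal.Quotient.mk (Ideal.span {x})).comp (RngA_phi K))) fun hc => by
      have : (Setup.M K : 𝓞 K) ^ j ∈
          RingHom.ker ((Ideal.Quotient.mk (Ideal.span {x})).comp (RngA_phi K)) := by
        rw [RingHom.mem_ker, RingHom.comp_apply, Ideal.Quotient.eq_zero_iff_mem,
          Ideal.mem_span_singleton]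
        simpa using hj
      rw [hc, Submodule.mem_bot] at this
      exact pow_ne_zero j (Nat.cast_ne_zero.2 Setup.Mne) this
  exact Finite.of_equiv _ (RingHom.quotientKerEquivOfSurjective (RngA_surj hx)).toEquiv

theorem finite_dvd_A {x : Associates (A K)} (hx : x ≠ 0) : {a : Associates (A K) | a ∣ x}.Finite := by
  have h1 := UniqueFactorizationMonoid.fintypeSubtypeDvd x hx
  exact Finite.of_fintype (α := {a // a ∣ x})

theorem RngA_sq {M : Type} [CommMonoidWithZero M] [WfDvdMonoid M] (x : M) (hx : x ≠ 0) :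
    ∃ c s : M, c ^ 2 * s = x ∧ Squarefree s := by
  induction x using (wellFounded_dvdNotUnit (α := M)).induction with
  | _ x ih =>
    by_cases h : Squarefree x
    · exact ⟨1, x, by simp, h⟩
    obtain ⟨d, hd⟩ := not_forall.1 h
    obtain ⟨⟨y, rfl⟩, hu⟩ := Classical.not_imp.1 hd
    have hy := right_ne_zero_of_mul hx
    obtain ⟨c, s, rfl, hs⟩ := ih y ⟨hy, d * d, fun h => hu (isUnit_of_mul_isUnit_left h),
      mul_comm _ _⟩ hy
    exact ⟨d * c, s, by rw [mul_pow, mul_assoc, sq], hs⟩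

theorem exists_sq_A {z : K} (hz : z ≠ 0) :
    ∃ x : K, x ≠ 0 ∧ x ^ 2 / z ∈ A K ∧ MK K * z / x ^ 2 ∈ A K := by
  obtain ⟨j, hj⟩ := exists_mul_mem_A z
  have hM := pow_ne_zero j (MK_ne (K := K))
  obtain ⟨c, s, h1, h2⟩ := RngA_sq ((⟨_, hj⟩ * (Setup.M K : A K) ^ j : A K)) (mul_ne_zero
    (fun hc => mul_ne_zero hM hz (congrArg Subtype.val hc)) (pow_ne_zero j RngA_M))
  have h3 : (c : K) ^ 2 * s = MK K ^ j * z * MK K ^ j := by simpa using congrArg Subtype.val h1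
  have hs : (s : K) ≠ 0 := by simpa using h2.ne_zero
  have hc : (c : K) ≠ 0 := fun hc => by simp [hc, hz, Setup.Mne] at h3
  have h4 : z = c ^ 2 * s / (MK K ^ j) ^ 2 := by
    rw [h3]
    field_simp
  refine ⟨s * c / MK K ^ j, div_ne_zero (mul_ne_zero hs hc) hM, ?_, ?_⟩
  · convert s.2 using 1
    rw [h4]
    field_simp
  · obtain ⟨k, hk, h5⟩ := RngA_dvd h2.ne_zero
    convert (RngA_dvd_iff h2.ne_zero).1 ((h2.dvd_pow_iff_dvd hk).1 h5) using 1
    rw [h4]
    push_cast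
    field_simp

theorem mem_unitsA {u : Kˣ} : u ∈ unitsA K ↔ ∃ v : (A K)ˣ, ((v : A K) : K) = u := by
  refine ⟨fun h => ⟨⟨⟨_, h.1⟩, ⟨_, h.2⟩, Subtype.ext (by simp), Subtype.ext (by simp)⟩, rfl⟩, ?_⟩
  rintro ⟨v, hv⟩
  refine ⟨hv ▸ v.1.2, ?_⟩
  have : ((u⁻¹ : Kˣ) : K) = ((v⁻¹ : (A K)ˣ) : A K) := by
    rw [Units.val_inv_eq_inv_val, ← hv]
    exact inv_eq_of_mul_eq_one_right (by exact_mod_cast congrArg Subtype.val v.mul_inv)
  rw [this]
  exact Subtype.mem _

theorem H1_le_unitsA (j : ℕ) : H1 K j ≤ unitsA K := fun _ h => ⟨h.1.mem, h.2.mem⟩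

theorem finite_unitsA_H1 (j : ℕ) : (H1 K j).relIndex (unitsA K) ≠ 0 := by
  have hM : (Setup.M K : A K) ^ j ≠ 0 := pow_ne_zero j RngA_M
  have := finite_quot_A hM
  let g : unitsA K →* A K :=
    { toFun := fun u => ⟨u.1, u.2.1⟩
      map_one' := rfl
      map_mul' := fun _ _ => rfl }
  let f := ((Ideal.Quotient.mk (Ideal.span {(Setup.M K : A K) ^ j})).toMonoidHom.comp g).toHomUnits
  have key : ∀ u ∈ f.ker, One j ((u : Kˣ) : K) := fun u hu => by
    have h1 : Ideal.Quotient.mk (Ideal.span {(Setup.M K : A K) ^ j}) (g u) =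
        Ideal.Quotient.mk _ 1 := congrArg Units.val hu
    rw [Ideal.Quotient.eq, Ideal.mem_span_singleton, RngA_dvd_iff hM] at h1
    simpa [One, g] using h1
  have h2 : f.ker ≤ (H1 K j).subgroupOf (unitsA K) := fun u hu =>
    ⟨key u hu, key u⁻¹ (inv_mem hu)⟩
  exact (Subgroup.finiteIndex_of_le h2).index_ne_zero

theorem RngA_fin (H : Subgroup Kˣ) (h1 : unitsA K ≤ H)
    (h2 : ∀ z : Kˣ, (z : K) ∈ A K → ∃ n, n ≠ 0 ∧ z ^ n ∈ H) : H.FiniteIndex := by
  have hz : ∀ z : Kˣ, ∃ a b : Kˣ, (a : K) ∈ A K ∧ (b : K) ∈ A K ∧ z = a * b⁻¹ := fun z => by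
    obtain ⟨j, hj⟩ := exists_mul_mem_A (z : K)
    refine ⟨Units.mk0 (MK K) MK_ne ^ j * z, Units.mk0 (MK K) MK_ne ^ j, by simpa using hj,
      by simpa using (A K).pow_mem MK_mem_A j, by rw [mul_inv_cancel_comm]⟩
  let T : Set (Kˣ ⧸ H) := (fun a : Associates (A K) =>
    if h : ((Quot.out a : A K) : K) ≠ 0 then QuotientGroup.mk (Units.mk0 _ h) else 1) ''
    {a | a ∣ Associates.mk (Setup.M K : A K)}
  have hT : T.Finite := (finite_dvd_A (by simpa using Setup.Mne)).image _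
  have hu : ∀ (v : (A K)ˣ) (z : Kˣ), ((v : A K) : K) = z → (z : Kˣ ⧸ H) = 1 := fun v z h =>
    (QuotientGroup.eq_one_iff _).2 (h1 (mem_unitsA.2 ⟨v, h⟩))
  have key : ∀ (a : A K) (z : Kˣ), (a : K) = z → (z : Kˣ ⧸ H) ∈ Subgroup.closure T := by
    intro a
    induction a using UniqueFactorizationMonoid.induction_on_prime with
    | h₁ => exact fun z hz => absurd hz.symm z.ne_zero
    | h₂ a ha =>
      obtain ⟨v, rfl⟩ := ha
      exact fun z hz => hu v z hz ▸ one_mem _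
    | h₃ a p ha hp ih =>
      intro z hz
      obtain ⟨v, hv⟩ : Associated (Quot.out (Associates.mk p)) p :=
        Associates.mk_eq_mk_iff_associated.1 (Associates.quot_out _)
      have a1 : (a : K) ≠ 0 := by simpa using ha
      have a2 : ((v : A K) : K) ≠ 0 := by simp
      have a3 : ((Quot.out (Associates.mk p) : A K) : K) ≠ 0 := fun hc =>
        hp.ne_zero (by rw [← hv, show Quot.out (Associates.mk p) = 0 by simpa using hc, zero_mul])
      have e : z = Units.mk0 _ a3 * Units.mk0 _ a2 * Units.mk0 _ a1 := by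
        ext
        rw [← hz]
        simp only [Units.val_mul, Units.val_mk0]
        exact_mod_cast congrArg (· * a) hv.symm
      rw [e, QuotientGroup.mk_mul, QuotientGroup.mk_mul, hu v (Units.mk0 _ a2) rfl]
      exact mul_mem (mul_mem (Subgroup.subset_closure ⟨Associates.mk p,
        Associates.mk_dvd_mk.2 (prime_A_dvd hp), dif_pos a3⟩) (one_mem _)) (ih _ rfl)
  have : Group.FG (Kˣ ⧸ H) := by
    refine Group.fg_iff.2 ⟨T, eq_top_iff.2 fun g _ => ?_, hT⟩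
    obtain ⟨z, rfl⟩ := QuotientGroup.mk_surjective g
    obtain ⟨a, b, ha, hb, rfl⟩ := hz z
    rw [QuotientGroup.mk_mul, QuotientGroup.mk_inv]
    exact mul_mem (key ⟨_, ha⟩ a rfl) (inv_mem (key ⟨_, hb⟩ b rfl))
  have : Finite (Kˣ ⧸ H) := CommGroup.finite_of_fg_isMulTorsion _ fun g => by
    obtain ⟨z, rfl⟩ := QuotientGroup.mk_surjective g
    obtain ⟨a, b, ha, hb, rfl⟩ := hz z
    obtain ⟨n, hn, h3⟩ := h2 a ha
    obtain ⟨m, hm, h4⟩ := h2 b hb
    refine isOfFinOrder_iff_pow_eq_one.2 ⟨n * m, Nat.pos_of_ne_zero (mul_ne_zero hn hm),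
      (QuotientGroup.mk_pow H _ _).symm.trans ((QuotientGroup.eq_one_iff _).2 ?_)⟩
    rw [mul_pow, inv_pow, pow_mul, pow_mul']
    exact mul_mem (pow_mem h3 _) (inv_mem (pow_mem h4 _))
  exact Subgroup.finiteIndex_of_finite_quotient

/-- `Kˣ` modulo the units of `A` and `k`-th powers is finite -/
theorem finite_unitsA_pow {k : ℕ} (hk : k ≠ 0) :
    (unitsA K ⊔ (powMonoidHom k : Kˣ →* Kˣ).range).FiniteIndex :=
  RngA_fin _ le_sup_left fun z _ => ⟨k, hk, Subgroup.mem_sup_right ⟨z, rfl⟩⟩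

theorem finite_unitsA_R : (unitsR K ⊔ unitsA K).FiniteIndex := by
  refine RngA_fin _ le_sup_right fun z hz => ⟨Fintype.card (ClassGroup (𝓞 K)),
    Fintype.card_ne_zero, ?_⟩
  generalize hh : Fintype.card (ClassGroup (𝓞 K)) = h
  have h0 : (⟨z, hz⟩ : A K) ≠ 0 := fun hc => z.ne_zero (congrArg Subtype.val hc)
  obtain ⟨j, -, hj⟩ := RngA_dvd h0
  have hM : (Setup.M K : 𝓞 K) ^ j ∈ (Ideal.span {(⟨z, hz⟩ : A K)}).comap (RngA_phi K) := by
    rw [Ideal.mem_comap, Ideal.mem_span_singleton]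
    simpa using hj
  have hI : (Ideal.span {(⟨z, hz⟩ : A K)}).comap (RngA_phi K) ∈ nonZeroDivisors (Ideal (𝓞 K)) := by
    rw [mem_nonZeroDivisors_iff_ne_zero]
    intro hc
    rw [hc, Submodule.zero_eq_bot, Submodule.mem_bot] at hM
    exact pow_ne_zero j (Nat.cast_ne_zero.2 Setup.Mne) hM
  obtain ⟨α, hα⟩ := (ClassGroup.mk0_eq_one_iff (pow_mem hI h)).1 (by
    have := map_pow (ClassGroup.mk0 (R := 𝓞 K)) ⟨_, hI⟩ h
    rw [← hh, pow_card_eq_one, hh] at this
    exact this)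
  have h1 : ∀ x ∈ (Ideal.span {(⟨z, hz⟩ : A K)}).comap (RngA_phi K), ∃ t : 𝓞 K,
      (t : K) * α = (x : K) ^ h := fun x hx => by
    have := Ideal.pow_mem_pow hx h
    rw [hα, Ideal.submodule_span_eq, Ideal.mem_span_singleton'] at this
    obtain ⟨t, ht⟩ := this
    exact ⟨t, by exact_mod_cast congrArg (algebraMap (𝓞 K) K) ht⟩
  obtain ⟨t, ht⟩ := h1 _ hM
  have ht' : (t : K) * α = MK K ^ (j * h) := by
    rw [ht, pow_mul]
    simp
  have hM' := pow_ne_zero (j * h) (MK_ne (K := K))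
  have hα0 : (α : K) ≠ 0 := right_ne_zero_of_mul (ht' ▸ hM')
  have e : z ^ h = Units.mk0 _ hα0 * (z ^ h * (Units.mk0 _ hα0)⁻¹) := by
    rw [mul_comm, inv_mul_cancel_right]
  rw [e]
  refine Subgroup.mul_mem_sup ⟨mem_R_of_isI α.isIntegral_coe, ?_⟩ ⟨?_, ?_⟩
  · convert div_MK_pow_mem_R (mem_R_of_isI t.isIntegral_coe) (j * h) using 1
    rw [← ht', Units.val_inv_eq_inv_val, Units.val_mk0,
      div_mul_cancel_left₀ (left_ne_zero_of_mul (ht' ▸ hM'))]
  · obtain ⟨b, b1, b2, b3⟩ := hz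
    obtain ⟨s, hs⟩ := h1 ⟨_, b3⟩ (Ideal.mem_comap.2 (Ideal.mem_span_singleton'.2
      ⟨b, Subtype.ext rfl⟩))
    have hb : (b : K) ≠ 0 := Nat.cast_ne_zero.2 b2
    convert (A K).mul_mem (mem_A_of_isI s.isIntegral_coe) ((A K).pow_mem (inv_nat_mem_A b1) h)
      using 1
    have hs' : (s : K) * α = ((b : K) * z) ^ h := hs
    simp only [Units.val_mul, Units.val_pow_eq_pow_val, Units.val_inv_eq_inv_val, Units.val_mk0]
    change _ = (s : K) * _
    rw [eq_div_of_mul_eq hα0 hs', mul_pow, inv_pow]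
    field_simp
  · have h2 : α ∈ ((Ideal.span {(⟨z, hz⟩ : A K)}) ^ h).comap (RngA_phi K) := by
      refine Ideal.le_comap_pow _ _ ?_
      rw [hα]
      exact Submodule.mem_span_singleton_self α
    rw [Ideal.mem_comap, Ideal.span_singleton_pow, Ideal.mem_span_singleton,
      RngA_dvd_iff (pow_ne_zero h h0)] at h2
    simpa [RngA_phi_coe, div_eq_mul_inv] using h2

end

end Vale.Agent.P319N
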