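import Vale.Agent.P319N.Mob
import Vale.Agent.P319E.Fin

namespace Vale.Agent.P319N

theorem small_ell : ∃ C : ℕ, ∀ p q : ℕ, p.Prime → q.Prime → q ≠ 2 → q ≠ p → ∃ l : ℕ, l.Prime ∧
    l ≤ (q * Nat.log 2 p + 2) ^ C ∧ q ∣ l - 1 ∧ l ≠ p ∧ ¬ ∃ x : ZMod l, x ^ q = p :=
  P319E.small_ell_of (θ := 999 / 1000) (by norm_num) fun K _ _ hz => mobBound K hz

end Vale.Agent.P319N
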