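import Vale.Agent.P319N.Sym1

namespace Vale.Agent.P319N

open NumberField Complex MeasureTheory Filter Topology UniqueFactorizationMonoid
open scoped Classical ComplexConjugate Real
open Vale.Agent.P026 (omC kap psi W omC_cube omC_mul omC_ne_one)

noncomputable section

variable {K : Type} [Field K] [NumberField K] [Setup K]

theorem sym3_prime {p : R K} (hp : Prime p) (x : R K) : sym3 x p = sym3p x p :=
  sym_J_prime (sym3p_assoc x) hp

theorem sym3_mul_left (x y n : R K) : sym3 (x * y) n = sym3 x n * sym3 y n := by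
  unfold sym3
  rw [← Multiset.prod_map_mul]
  exact congrArg _ (Multiset.map_congr rfl fun p hp => sym3p_mul (prime_of_factor p hp) x y)

theorem sym3_mul_right (x : R K) {n m : R K} (hn : n ≠ 0) (hm : m ≠ 0) :
    sym3 x (n * m) = sym3 x n * sym3 x m := sym_J_mul (sym3p_assoc x) hn hm

theorem sym3_one_left (n : R K) : sym3 1 n = 1 := by
  refine Multiset.prod_eq_one fun z hz => ?_
  obtain ⟨p, hp, rfl⟩ := Multiset.mem_map.1 hz
  simp [sym3p, (prime_of_factor p hp).not_dvd_one]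

theorem sym3_unit_right (x : R K) {u : R K} (hu : IsUnit u) : sym3 x u = 1 := by
  simp [sym3, factors_of_isUnit hu]

theorem sym3_pow_left (x n : R K) (k : ℕ) : sym3 (x ^ k) n = sym3 x n ^ k := by
  induction k with
  | zero => rw [pow_zero, pow_zero, sym3_one_left]
  | succ k ih => rw [pow_succ, pow_succ, sym3_mul_left, ih]

theorem sym3_pow_right (x : R K) {n : R K} (hn : n ≠ 0) (k : ℕ) :
    sym3 x (n ^ k) = sym3 x n ^ k := by
  induction k with
  | zero => rw [pow_zero, pow_zero, sym3_unit_right x isUnit_one]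
  | succ k ih => rw [pow_succ, pow_succ, sym3_mul_right x (pow_ne_zero _ hn) hn, ih]

theorem sym3_congr {x y n : R K} (h : n ∣ x - y) : sym3 x n = sym3 y n :=
  congrArg _ (Multiset.map_congr rfl fun _ hp => sym3p_congr ((dvd_of_mem_factors hp).trans h))

theorem sym3_assoc (x : R K) {n m : R K} (h : Associated n m) : sym3 x n = sym3 x m :=
  sym_rel (sym3p_assoc x) (factors_rel_of_associated h)

theorem sym3_eq_zero_iff {x n : R K} (hn : n ≠ 0) : sym3 x n = 0 ↔ ¬ IsCoprime x n :=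
  sym_J_zero (sym3p_eq_zero x) hn

theorem sym3_cube {x n : R K} (h : IsCoprime x n) : sym3 x n ^ 3 = 1 := by
  unfold sym3
  rw [← Multiset.prod_map_pow]
  refine Multiset.prod_eq_one fun z hz => ?_
  obtain ⟨p, hp, rfl⟩ := Multiset.mem_map.1 hz
  exact sym3p_cube (sym_not_dvd h hp)

theorem sym3_neg_one (n : R K) : sym3 (-1) n = 1 := by
  have h1 := sym3_pow_left (-1) n 3
  rw [sym3_cube isCoprime_one_left.neg_left] at h1
  rw [← h1]; norm_num

theorem sym_sym3_cases (x n : R K) : sym3 x n = 0 ∨ sym3 x n ^ 3 = 1 := by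
  rcases eq_or_ne n 0 with rfl | hn
  · right; simp [sym3]
  by_cases h : IsCoprime x n
  · exact Or.inr (sym3_cube h)
  · exact Or.inl ((sym3_eq_zero_iff hn).2 h)

theorem sym3_cases (x n : R K) :
    sym3 x n = 0 ∨ sym3 x n = 1 ∨ sym3 x n = omC ∨ sym3 x n = omC ^ 2 := by
  refine (sym_sym3_cases x n).imp_right fun h => ?_
  generalize sym3 x n = z at h
  have e : (z - 1) * ((z - omC) * (z - omC ^ 2)) = 0 := by
    linear_combination h - (z ^ 2 - z) * omC_mul + (z - 1) * omC_cube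
  simpa only [mul_eq_zero, sub_eq_zero] using e

theorem sym_norm_of_pow {z : ℂ} {k : ℕ} (hk : k ≠ 0) (h : z ^ k = 1) : ‖z‖ = 1 := by
  have := congrArg norm h
  rw [norm_pow, norm_one] at this
  exact (pow_eq_one_iff_of_nonneg (norm_nonneg _) hk).1 this

theorem norm_sym3_le (x n : R K) : ‖sym3 x n‖ ≤ 1 := by
  rcases sym_sym3_cases x n with h | h
  · simp [h]
  · exact (sym_norm_of_pow (by norm_num) h).le

theorem norm_sym3 {x n : R K} (h : IsCoprime x n) : ‖sym3 x n‖ = 1 :=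
  sym_norm_of_pow (by norm_num) (sym3_cube h)

theorem conj_sym3 (x n : R K) : conj (sym3 x n) = sym3 x n ^ 2 := by
  rcases sym_sym3_cases x n with h | h
  · simp [h]
  · have h1 := Complex.mul_conj' (sym3 x n)
    rw [sym_norm_of_pow (by norm_num) h] at h1
    push_cast at h1
    linear_combination (sym3 x n) ^ 2 * h1 - conj (sym3 x n) * h

theorem sym3_spec {p x : R K} (hp : Prime p) (hx : ¬ p ∣ x) :
    ∃ i : ℕ, sym3 x p = omC ^ i ∧ p ∣ x ^ ((Nm p - 1) / 3) - om K ^ i := by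
  rw [sym3_prime hp]; exact sym3p_spec hp hx

theorem sym3_eq_of {p x : R K} (hp : Prime p) {i : ℕ}
    (h : p ∣ x ^ ((Nm p - 1) / 3) - om K ^ i) : sym3 x p = omC ^ i := by
  rw [sym3_prime hp]; exact sym3p_eq_of hp h

theorem sym3_eq_one_iff {p x : R K} (hp : Prime p) (hx : ¬ p ∣ x) :
    sym3 x p = 1 ↔ ∃ y, p ∣ x - y ^ 3 := by
  constructor
  · intro h
    have h4 := Nm_mod hp
    refine sym_euler hp hx (sym_k_pos hp) (by omega) ?_
    by_contra h1
    rw [sym3_prime hp, sym3p, if_neg hx, if_neg h1] at h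
    split_ifs at h
    · exact omC_ne_one h
    · apply omC_ne_one
      linear_combination omC_cube - omC * h
  · rintro ⟨y, hy⟩
    have h1 : ¬ p ∣ y := fun h => hx ((dvd_iff_dvd_of_dvd_sub hy).2 (dvd_pow h three_ne_zero))
    rw [sym3_congr hy, sym3_pow_left, sym3_prime hp, sym3p_cube h1]

theorem exists_sym3_ne {p : R K} (hp : Prime p) : ∃ x, ¬ p ∣ x ∧ sym3 x p ≠ 1 := by
  have h0 := sym_k_pos hp
  obtain ⟨x, h1, h2⟩ := sym_exists_pow_ne hp h0 (by omega)
  refine ⟨x, h1, fun h => ?_⟩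
  rw [sym3_prime hp, sym3p, if_neg h1, if_neg h2] at h
  split_ifs at h
  · exact omC_ne_one h
  · apply omC_ne_one
    linear_combination omC_cube - omC * h

theorem sym2_prime {p : R K} (hp : Prime p) (x : R K) : sym2 x p = sym2p x p :=
  sym_J_prime (sym2p_assoc x) hp

theorem sym2_mul_left (x y n : R K) : sym2 (x * y) n = sym2 x n * sym2 y n := by
  unfold sym2
  rw [← Multiset.prod_map_mul]
  exact congrArg _ (Multiset.map_congr rfl fun p hp =>
    sym2p_mul (prime_of_factor p hp) x y)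

theorem sym2_mul_right (x : R K) {n m : R K} (hn : n ≠ 0) (hm : m ≠ 0) :
    sym2 x (n * m) = sym2 x n * sym2 x m := sym_J_mul (sym2p_assoc x) hn hm

theorem sym2_one_left (n : R K) : sym2 1 n = 1 := by
  refine Multiset.prod_eq_one fun z hz => ?_
  obtain ⟨p, hp, rfl⟩ := Multiset.mem_map.1 hz
  simp [sym2p, (prime_of_factor p hp).not_dvd_one]

theorem sym2_pow_left (x n : R K) (k : ℕ) : sym2 (x ^ k) n = sym2 x n ^ k := by
  induction k with
  | zero => rw [pow_zero, pow_zero, sym2_one_left]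
  | succ k ih => rw [pow_succ, pow_succ, sym2_mul_left, ih]

theorem sym2_congr {x y n : R K} (h : n ∣ x - y) : sym2 x n = sym2 y n :=
  congrArg _ (Multiset.map_congr rfl fun _ hp => sym2p_congr ((dvd_of_mem_factors hp).trans h))

theorem sym2_unit_right (x : R K) {u : R K} (hu : IsUnit u) : sym2 x u = 1 := by
  simp [sym2, factors_of_isUnit hu]

theorem sym2_assoc (x : R K) {n m : R K} (h : Associated n m) : sym2 x n = sym2 x m :=
  sym_rel (sym2p_assoc x) (factors_rel_of_associated h)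

theorem sym2_eq_zero_iff {x n : R K} (hn : n ≠ 0) : sym2 x n = 0 ↔ ¬ IsCoprime x n :=
  sym_J_zero (sym2p_eq_zero x) hn

theorem sym2_sq {x n : R K} (h : IsCoprime x n) : sym2 x n ^ 2 = 1 := by
  unfold sym2
  rw [← Multiset.prod_map_pow]
  refine Multiset.prod_eq_one fun z hz => ?_
  obtain ⟨p, hp, rfl⟩ := Multiset.mem_map.1 hz
  exact sym2p_sq (sym_not_dvd h hp)

theorem sym2_cases (x n : R K) : sym2 x n = 0 ∨ sym2 x n = 1 ∨ sym2 x n = -1 := by
  rcases eq_or_ne n 0 with rfl | hn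
  · right; left; simp [sym2]
  by_cases h : IsCoprime x n
  · exact Or.inr (sq_eq_one_iff.1 (sym2_sq h))
  · exact Or.inl ((sym2_eq_zero_iff hn).2 h)

theorem conj_sym2 (x n : R K) : conj (sym2 x n) = sym2 x n := by
  rcases sym2_cases x n with h | h | h <;> simp [h]

theorem norm_sym2_le (x n : R K) : ‖sym2 x n‖ ≤ 1 := by
  rcases sym2_cases x n with h | h | h <;> simp [h]

theorem norm_sym2 {x n : R K} (h : IsCoprime x n) : ‖sym2 x n‖ = 1 :=
  sym_norm_of_pow (by norm_num) (sym2_sq h)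

theorem sym2_eq_one_iff {p x : R K} (hp : Prime p) (hx : ¬ p ∣ x) :
    sym2 x p = 1 ↔ ∃ y, p ∣ x - y ^ 2 := by
  constructor
  · intro h
    have h4 := Nm_mod hp
    have h5 := four_le_Nm hp
    refine sym_euler (k := (Nm p - 1) / 2) hp hx (by omega) (by omega) ?_
    by_contra h1
    rw [sym2_prime hp, sym2p, if_neg hx, if_neg h1] at h
    norm_num at h
  · rintro ⟨y, hy⟩
    have h1 : ¬ p ∣ y := fun h => hx ((dvd_iff_dvd_of_dvd_sub hy).2 (dvd_pow h two_ne_zero))
    rw [sym2_congr hy, sym2_pow_left, sym2_prime hp, sym2p_sq h1]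

theorem exists_sym2_ne {p : R K} (hp : Prime p) : ∃ x, ¬ p ∣ x ∧ sym2 x p ≠ 1 := by
  have h5 := four_le_Nm hp
  obtain ⟨x, h1, h2⟩ := sym_exists_pow_ne (k := (Nm p - 1) / 2) hp (by omega) (by omega)
  refine ⟨x, h1, ?_⟩
  rw [sym2_prime hp, sym2p, if_neg h1, if_neg h2]
  norm_num

theorem sym2_neg_one (n : R K) : sym2 (-1) n = 1 := by
  obtain ⟨z, -, -, hz⟩ := exists_zeta_R (K := K)
  have e : (-1 : R K) = (z ^ 3) ^ 2 := by rw [← hz]; ring
  rw [e, sym2_pow_left]
  exact sym2_sq ⟨-z ^ 3, 0, by linear_combination -hz⟩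

theorem chi6_mul_left (x y n : R K) : chi6 (x * y) n = chi6 x n * chi6 y n := by
  simp only [chi6, sym3_mul_left, sym2_mul_left]; ring

theorem chi6_pow_left (x n : R K) (k : ℕ) : chi6 (x ^ k) n = chi6 x n ^ k := by
  simp only [chi6, sym3_pow_left, sym2_pow_left]; ring

theorem chi6_mul_right (x : R K) {n m : R K} (hn : n ≠ 0) (hm : m ≠ 0) :
    chi6 x (n * m) = chi6 x n * chi6 x m := by
  simp only [chi6, sym3_mul_right _ hn hm, sym2_mul_right _ hn hm]; ring

theorem chi6_congr {x y n : R K} (h : n ∣ x - y) : chi6 x n = chi6 y n := by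
  simp only [chi6, sym3_congr h, sym2_congr h]

theorem chi6_assoc (x : R K) {n m : R K} (h : Associated n m) : chi6 x n = chi6 x m := by
  simp only [chi6, sym3_assoc x h, sym2_assoc x h]

theorem chi6_one_left (n : R K) : chi6 1 n = 1 := by
  simp [chi6, sym3_one_left, sym2_one_left]

theorem chi6_unit_right (x : R K) {u : R K} (hu : IsUnit u) : chi6 x u = 1 := by
  simp [chi6, sym3_unit_right x hu, sym2_unit_right x hu]

theorem chi6_neg_one (n : R K) : chi6 (-1) n = 1 := by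
  simp [chi6, sym3_neg_one, sym2_neg_one]

theorem norm_chi6_le (x n : R K) : ‖chi6 x n‖ ≤ 1 := by
  rw [chi6, norm_mul, norm_pow]
  exact mul_le_one₀ (pow_le_one₀ (norm_nonneg _) (norm_sym3_le x n)) (norm_nonneg _)
    (norm_sym2_le x n)

theorem norm_chi6 {x n : R K} (h : IsCoprime x n) : ‖chi6 x n‖ = 1 := by
  rw [chi6, norm_mul, norm_pow, norm_sym3 h, norm_sym2 h]; norm_num

theorem chi6_eq_zero_iff {x n : R K} (hn : n ≠ 0) : chi6 x n = 0 ↔ ¬ IsCoprime x n := by
  rw [chi6, mul_eq_zero, pow_eq_zero_iff two_ne_zero, sym3_eq_zero_iff hn, sym2_eq_zero_iff hn,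
    or_self]

theorem chi6_pow_six {x n : R K} (hn : n ≠ 0) :
    chi6 x n ^ 6 = if IsCoprime x n then 1 else 0 := by
  split_ifs with h
  · have e : chi6 x n ^ 6 = (sym3 x n ^ 3) ^ 4 * (sym2 x n ^ 2) ^ 3 := by rw [chi6]; ring
    rw [e, sym3_cube h, sym2_sq h]; norm_num
  · rw [(chi6_eq_zero_iff hn).2 h]; norm_num

theorem chi6_pow_add_six (x : R K) {n : R K} (hn : n ≠ 0) {k : ℕ} (hk : 1 ≤ k) :
    chi6 x n ^ (k + 6) = chi6 x n ^ k := by
  rw [pow_add, chi6_pow_six hn]
  split_ifs with h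
  · rw [mul_one]
  · rw [(chi6_eq_zero_iff hn).2 h, zero_pow (by omega), mul_zero]

theorem chi6_pow_five (x : R K) {n : R K} (hn : n ≠ 0) : chi6 x n ^ 5 = conj (chi6 x n) := by
  by_cases h : IsCoprime x n
  · have h1 := Complex.mul_conj' (chi6 x n)
    have h2 := chi6_pow_six (x := x) hn
    rw [if_pos h] at h2
    rw [norm_chi6 h] at h1
    push_cast at h1
    linear_combination conj (chi6 x n) * h2 - (chi6 x n) ^ 5 * h1
  · rw [(chi6_eq_zero_iff hn).2 h]; simp

theorem conj_chi6_pow (x : R K) {n : R K} (hn : n ≠ 0) {k : ℕ} (h1 : 1 ≤ k) (h5 : k ≤ 5) :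
    conj (chi6 x n ^ k) = chi6 x n ^ (6 - k) := by
  rw [map_pow, ← chi6_pow_five x hn, ← pow_mul]
  have e : 5 * k = 6 - k + 6 * (k - 1) := by omega
  rw [e]
  generalize k - 1 = j
  induction j with
  | zero => simp
  | succ j ih => rw [Nat.mul_succ, ← add_assoc, chi6_pow_add_six x hn (by omega), ih]

theorem chi6_sq (x : R K) {n : R K} (hn : n ≠ 0) : chi6 x n ^ 2 = sym3 x n := by
  by_cases h : IsCoprime x n
  · have e : chi6 x n ^ 2 = sym3 x n ^ 3 * sym2 x n ^ 2 * sym3 x n := by rw [chi6]; ring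
    rw [e, sym3_cube h, sym2_sq h]; ring
  · rw [(chi6_eq_zero_iff hn).2 h, (sym3_eq_zero_iff hn).2 h]; simp

theorem chi6_cube (x : R K) {n : R K} (hn : n ≠ 0) : chi6 x n ^ 3 = sym2 x n := by
  by_cases h : IsCoprime x n
  · have e : chi6 x n ^ 3 = (sym3 x n ^ 3) ^ 2 * sym2 x n ^ 2 * sym2 x n := by rw [chi6]; ring
    rw [e, sym3_cube h, sym2_sq h]; ring
  · rw [(chi6_eq_zero_iff hn).2 h, (sym2_eq_zero_iff hn).2 h]; simp

theorem chi6_mul_sym3 (x : R K) {n : R K} (hn : n ≠ 0) : chi6 x n * sym3 x n = sym2 x n := by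
  rw [← chi6_sq x hn, ← chi6_cube x hn]; ring

theorem exists_chi6_pow_ne {p : R K} (hp : Prime p) {k : ℕ} (h1 : 1 ≤ k) (h5 : k ≤ 5) :
    ∃ x, ¬ p ∣ x ∧ chi6 x p ^ k ≠ 1 := by
  by_cases h3 : k = 3
  · obtain ⟨x, hx, h⟩ := exists_sym2_ne hp
    exact ⟨x, hx, by rwa [h3, chi6_cube x hp.ne_zero]⟩
  obtain ⟨x, hx, h⟩ := exists_sym3_ne hp
  refine ⟨x, hx, fun hk => h ?_⟩
  have a1 : sym3 x p ^ k = 1 := by
    rw [← chi6_sq x hp.ne_zero, ← pow_mul, mul_comm, pow_mul, hk, one_pow]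
  have a2 : sym3 x p ^ 3 = 1 := by rw [sym3_prime hp]; exact sym3p_cube hx
  generalize sym3 x p = z at a1 a2
  interval_cases k
  · simpa using a1
  · linear_combination a2 - z * a1
  · exact absurd rfl h3
  · linear_combination a1 - z * a2
  · linear_combination (1 + z ^ 3) * a2 - z * a1

end

end Vale.Agent.P319N
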