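import Vale.Agent.P319N.Rs
import Vale.Agent.P026.Bas

namespace Vale.Agent.P319N

open NumberField Complex MeasureTheory Filter Topology UniqueFactorizationMonoid
open scoped Classical ComplexConjugate Real
open Vale.Agent.P026 (omC kap psi W omC_cube omC_mul omC_ne_one)

noncomputable section

variable {K : Type} [Field K] [NumberField K] [Setup K]

/-! generic facts on products over prime factors -/

theorem sym_rel {f : R K → ℂ} (hf : ∀ p q, Associated p q → f p = f q) {s t : Multiset (R K)}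
    (h : Multiset.Rel Associated s t) : (s.map f).prod = (t.map f).prod := by
  congr 1
  rw [← Multiset.rel_eq, Multiset.rel_map]
  exact h.mono fun a _ b _ hab => hf a b hab

theorem sym_J_mul {f : R K → ℂ} (hf : ∀ p q, Associated p q → f p = f q) {n m : R K}
    (hn : n ≠ 0) (hm : m ≠ 0) : ((factors (n * m)).map f).prod =
      ((factors n).map f).prod * ((factors m).map f).prod := by
  rw [sym_rel hf (factors_mul hn hm), Multiset.map_add, Multiset.prod_add]

theorem sym_J_prime {f : R K → ℂ} (hf : ∀ p q, Associated p q → f p = f q) {p : R K}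
    (hp : Prime p) : ((factors p).map f).prod = f p := by
  obtain ⟨b, hb, h⟩ := factors_eq_singleton_of_irreducible hp.irreducible
  rw [h, Multiset.map_singleton, Multiset.prod_singleton, hf p b hb]

theorem sym_J_zero {f : R K → ℂ} {x : R K} (hf : ∀ p, f p = 0 ↔ p ∣ x)
    {n : R K} (hn : n ≠ 0) : ((factors n).map f).prod = 0 ↔ ¬ IsCoprime x n := by
  rw [Multiset.prod_eq_zero_iff, Multiset.mem_map, rs_isCoprime_iff (Or.inr hn)]
  constructor
  · rintro ⟨p, hp, h⟩ hc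
    exact hc p (prime_of_factor p hp) ((hf p).1 h) (dvd_of_mem_factors hp)
  · intro h
    push Not at h
    obtain ⟨p, hp, h1, h2⟩ := h
    obtain ⟨q, hq, hpq⟩ := exists_mem_factors_of_dvd hn hp.irreducible h2
    exact ⟨q, hq, (hf q).2 (hpq.dvd_iff_dvd_left.1 h1)⟩

theorem sym_not_dvd {x n p : R K} (h : IsCoprime x n) (hp : p ∈ factors n) : ¬ p ∣ x := fun hx =>
  (prime_of_factor p hp).not_isUnit (h.isUnit_of_dvd' hx (dvd_of_mem_factors hp))

theorem sym_pow_congr {p x y : R K} (h : p ∣ x - y) (k : ℕ) (z : R K) :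
    p ∣ x ^ k - z ↔ p ∣ y ^ k - z := by
  apply dvd_iff_dvd_of_dvd_sub
  rw [sub_sub_sub_cancel_right]
  exact h.trans (sub_dvd_pow_sub_pow x y k)

theorem sym_exists_pow_ne {p : R K} (hp : Prime p) {k : ℕ} (h0 : k ≠ 0) (hk : k < Nm p - 1) :
    ∃ x, ¬ p ∣ x ∧ ¬ p ∣ x ^ k - 1 := by
  haveI := finite_quot hp.ne_zero
  haveI : (Ideal.span {p}).IsPrime := (Ideal.span_singleton_prime hp.ne_zero).2 hp
  letI : Field (R K ⧸ Ideal.span {p}) := (Finite.isField_of_domain _).toField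
  obtain ⟨a, ha⟩ := exists_pow_ne_one_of_isCyclic (G := (R K ⧸ Ideal.span {p})ˣ) h0
    (by rw [Nat.card_units, natCard_quot]; exact hk)
  obtain ⟨x, hx⟩ := Ideal.Quotient.mk_surjective (a : R K ⧸ Ideal.span {p})
  refine ⟨x, fun h => a.ne_zero ?_, fun h => ha ?_⟩
  · rw [← hx, Ideal.Quotient.eq_zero_iff_mem, Ideal.mem_span_singleton]; exact h
  · rw [← Ideal.mem_span_singleton, ← Ideal.Quotient.eq, map_pow, map_one, hx] at h
    exact Units.ext (by simpa using h)

theorem sym_euler {p x : R K} (hp : Prime p) (hx : ¬ p ∣ x) {d k : ℕ} (hk0 : k ≠ 0)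
    (hk : Nm p - 1 = d * k) (h : p ∣ x ^ k - 1) : ∃ y, p ∣ x - y ^ d := by
  haveI := finite_quot hp.ne_zero
  haveI : (Ideal.span {p}).IsPrime := (Ideal.span_singleton_prime hp.ne_zero).2 hp
  letI : Field (R K ⧸ Ideal.span {p}) := (Finite.isField_of_domain _).toField
  have h0 : Ideal.Quotient.mk (Ideal.span {p}) x ≠ 0 := by
    rw [Ne, Ideal.Quotient.eq_zero_iff_mem, Ideal.mem_span_singleton]; exact hx
  obtain ⟨g, hg⟩ := IsCyclic.exists_generator (α := (R K ⧸ Ideal.span {p})ˣ)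
  have hord : orderOf g = d * k := by
    rw [orderOf_eq_card_of_forall_mem_zpowers hg, Nat.card_units, natCard_quot, hk]
  obtain ⟨a, ha⟩ : Units.mk0 _ h0 ∈ Submonoid.powers g :=
    (mem_powers_iff_mem_zpowers).2 (hg _)
  simp only at ha
  rw [← Ideal.mem_span_singleton, ← Ideal.Quotient.eq, map_pow, map_one] at h
  have h1 : g ^ (a * k) = 1 := by
    rw [pow_mul, ha]
    exact Units.ext (by simpa using h)
  have h2 := orderOf_dvd_of_pow_eq_one h1
  rw [hord] at h2
  obtain ⟨b, hb⟩ := Nat.dvd_of_mul_dvd_mul_right (Nat.pos_of_ne_zero hk0) h2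
  obtain ⟨y, hy⟩ := Ideal.Quotient.mk_surjective ((g ^ b : (R K ⧸ Ideal.span {p})ˣ) :
    R K ⧸ Ideal.span {p})
  refine ⟨y, ?_⟩
  rw [← Ideal.mem_span_singleton, ← Ideal.Quotient.eq, map_pow, hy, ← Units.val_pow_eq_pow_val,
    ← pow_mul, mul_comm b d, ← hb, ha]
  rfl

theorem sym_not_dvd_six {p : R K} (hp : Prime p) : ¬ p ∣ 6 := fun h =>
  hp.not_isUnit (isUnit_of_dvd_unit h isUnit_six)

theorem sym_not_dvd_two {p : R K} (hp : Prime p) : ¬ p ∣ 2 := fun h =>
  sym_not_dvd_six hp (h.trans ⟨3, by norm_num⟩)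

theorem sym_not_dvd_three {p : R K} (hp : Prime p) : ¬ p ∣ 3 := fun h =>
  sym_not_dvd_six hp (h.trans ⟨2, by norm_num⟩)

/-! the cubic symbol at a prime -/

theorem sym_omC_ne_zero : omC ≠ 0 := fun h => by simpa [h] using omC_cube

theorem sym_om_cube : om K ^ 3 = 1 := by
  linear_combination (om K - 1) * om_sq_add (K := K)

theorem sym_omC_pow {i j : ℕ} (h : om K ^ i = om K ^ j) : omC ^ i = omC ^ j := by
  have h1 : omK K ^ i = omK K ^ j := by
    have := congrArg (fun z : R K => (z : K)) h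
    simpa [om] using this
  have h3 := (rng_om_prim (K := K)).pow_eq_one
  rw [pow_eq_pow_mod i h3, pow_eq_pow_mod j h3] at h1
  have h2 := (rng_om_prim (K := K)).pow_inj (Nat.mod_lt i (by norm_num))
    (Nat.mod_lt j (by norm_num)) h1
  rw [pow_eq_pow_mod i omC_cube, pow_eq_pow_mod j omC_cube, h2]

theorem sym3p_assoc (x p q : R K) (h : Associated p q) : sym3p x p = sym3p x q := by
  simp only [sym3p, Nm_assoc h, h.dvd_iff_dvd_left]

theorem sym3p_congr {x y p : R K} (h : p ∣ x - y) : sym3p x p = sym3p y p := by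
  simp only [sym3p, dvd_iff_dvd_of_dvd_sub h, sym_pow_congr h]

theorem sym3p_eq_zero (x p : R K) : sym3p x p = 0 ↔ p ∣ x := by
  have := sym_omC_ne_zero
  unfold sym3p
  split_ifs <;> simp_all

theorem sym3p_cube {x p : R K} (h : ¬ p ∣ x) : sym3p x p ^ 3 = 1 := by
  unfold sym3p
  rw [if_neg h]
  split_ifs
  · simp
  · exact omC_cube
  · rw [← pow_mul, mul_comm, pow_mul, omC_cube, one_pow]

theorem sym_root_unique {p ζ η : R K} (hp : Prime p) (h1 : ζ ^ 3 = 1)
    (h2 : η ^ 3 = 1) (h : p ∣ ζ - η) : ζ = η := by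
  by_contra hne
  have h3 : ζ ^ 2 + ζ * η + η ^ 2 = 0 := by
    apply mul_left_cancel₀ (sub_ne_zero.2 hne)
    linear_combination h1 - h2
  have h4 : p ∣ 3 := by
    have e : (3 : R K) = (ζ - η) * (-((ζ + 2 * η) * η)) := by
      linear_combination η * h3 - 3 * h2
    rw [e]; exact h.mul_right _
  exact sym_not_dvd_three hp h4

theorem sym3p_spec {p x : R K} (hp : Prime p) (hx : ¬ p ∣ x) :
    ∃ i : ℕ, sym3p x p = omC ^ i ∧ p ∣ x ^ ((Nm p - 1) / 3) - om K ^ i := by
  unfold sym3p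
  rw [if_neg hx]
  split_ifs with h1 h2
  · exact ⟨0, by simp, by simpa using h1⟩
  · exact ⟨1, by simp, by simpa using h2⟩
  · refine ⟨2, rfl, ?_⟩
    have h3 := fermat hp hx
    have h4 := Nm_mod hp
    have e : Nm p - 1 = (Nm p - 1) / 3 * 3 := by omega
    rw [e, pow_mul] at h3
    generalize x ^ ((Nm p - 1) / 3) = y at *
    have e2 : y ^ 3 - 1 = (y - 1) * ((y - om K) * (y - om K ^ 2)) := by
      linear_combination (y ^ 2 - y) * om_sq_add (K := K) + (1 - y) * sym_om_cube (K := K)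
    rw [e2] at h3
    exact ((hp.dvd_or_dvd ((hp.dvd_or_dvd h3).resolve_left h1)).resolve_left h2)

theorem sym_k_pos {p : R K} (hp : Prime p) : (Nm p - 1) / 3 ≠ 0 := by
  have := four_le_Nm hp
  omega

theorem sym_om_pow_cube (i : ℕ) : (om K ^ i) ^ 3 = 1 := by
  rw [← pow_mul, mul_comm, pow_mul, sym_om_cube, one_pow]

theorem sym3p_eq_of {p x : R K} (hp : Prime p) {i : ℕ}
    (h : p ∣ x ^ ((Nm p - 1) / 3) - om K ^ i) : sym3p x p = omC ^ i := by
  have hx : ¬ p ∣ x := fun hx => by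
    have h1 : p ∣ om K ^ i := (dvd_iff_dvd_of_dvd_sub h).1 (dvd_pow hx (sym_k_pos hp))
    have h2 : p ∣ (om K ^ i) ^ 3 := dvd_pow h1 (by norm_num)
    rw [sym_om_pow_cube] at h2
    exact hp.not_dvd_one h2
  obtain ⟨j, h2, h3⟩ := sym3p_spec hp hx
  rw [h2]
  exact sym_omC_pow (sym_root_unique hp (sym_om_pow_cube j) (sym_om_pow_cube i)
    (by simpa using dvd_sub h h3))

theorem sym3p_mul {p : R K} (hp : Prime p) (x y : R K) :
    sym3p (x * y) p = sym3p x p * sym3p y p := by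
  by_cases hx : p ∣ x
  · rw [(sym3p_eq_zero x p).2 hx, (sym3p_eq_zero _ p).2 (hx.mul_right y), zero_mul]
  by_cases hy : p ∣ y
  · rw [(sym3p_eq_zero y p).2 hy, (sym3p_eq_zero _ p).2 (hy.mul_left x), mul_zero]
  obtain ⟨i, a2, a3⟩ := sym3p_spec hp hx
  obtain ⟨j, b2, b3⟩ := sym3p_spec hp hy
  rw [a2, b2, ← pow_add]
  refine sym3p_eq_of hp ?_
  rw [mul_pow, pow_add]
  generalize x ^ ((Nm p - 1) / 3) = a at *
  generalize y ^ ((Nm p - 1) / 3) = b at *
  generalize om K ^ i = ζ at *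
  generalize om K ^ j = η at *
  have e : a * b - ζ * η = (a - ζ) * b + (b - η) * ζ := by ring
  rw [e]
  exact dvd_add (a3.mul_right _) (b3.mul_right _)

/-! the quadratic symbol at a prime -/

theorem sym2p_assoc (x p q : R K) (h : Associated p q) : sym2p x p = sym2p x q := by
  simp only [sym2p, Nm_assoc h, h.dvd_iff_dvd_left]

theorem sym2p_congr {x y p : R K} (h : p ∣ x - y) : sym2p x p = sym2p y p := by
  simp only [sym2p, dvd_iff_dvd_of_dvd_sub h, sym_pow_congr h]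

theorem sym2p_eq_zero (x p : R K) : sym2p x p = 0 ↔ p ∣ x := by
  unfold sym2p
  split_ifs <;> simp_all

theorem sym2p_sq {x p : R K} (h : ¬ p ∣ x) : sym2p x p ^ 2 = 1 := by
  unfold sym2p
  rw [if_neg h]
  split_ifs <;> simp

theorem sym2p_eq_of {p x : R K} (hp : Prime p) (hx : ¬ p ∣ x) (e : ℕ)
    (h : p ∣ x ^ ((Nm p - 1) / 2) - (-1) ^ e) : sym2p x p = (-1) ^ e := by
  unfold sym2p
  rw [if_neg hx]
  rcases Nat.even_or_odd e with he | he
  · rw [he.neg_one_pow] at h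
    rw [if_pos h, he.neg_one_pow]
  · rw [he.neg_one_pow] at h
    rw [if_neg, he.neg_one_pow]
    intro h1
    apply sym_not_dvd_two hp
    have := dvd_sub h h1
    rwa [show ∀ a : R K, a - -1 - (a - 1) = 2 from fun a => by ring] at this

theorem sym2p_spec {p x : R K} (hp : Prime p) (hx : ¬ p ∣ x) :
    ∃ e : ℕ, p ∣ x ^ ((Nm p - 1) / 2) - (-1) ^ e := by
  have h3 := fermat hp hx
  have h4 := Nm_mod hp
  have e : Nm p - 1 = (Nm p - 1) / 2 * 2 := by omega
  rw [e, pow_mul] at h3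
  generalize x ^ ((Nm p - 1) / 2) = y at *
  have e2 : y ^ 2 - 1 = (y - (-1) ^ 0) * (y - (-1) ^ 1) := by ring
  rw [e2] at h3
  exact (hp.dvd_or_dvd h3).elim (fun h => ⟨0, h⟩) fun h => ⟨1, h⟩

theorem sym2p_mul {p : R K} (hp : Prime p) (x y : R K) :
    sym2p (x * y) p = sym2p x p * sym2p y p := by
  by_cases hx : p ∣ x
  · rw [(sym2p_eq_zero x p).2 hx, (sym2p_eq_zero _ p).2 (hx.mul_right y), zero_mul]
  by_cases hy : p ∣ y
  · rw [(sym2p_eq_zero y p).2 hy, (sym2p_eq_zero _ p).2 (hy.mul_left x), mul_zero]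
  obtain ⟨e, a3⟩ := sym2p_spec hp hx
  obtain ⟨f, b3⟩ := sym2p_spec hp hy
  rw [sym2p_eq_of hp hx e a3, sym2p_eq_of hp hy f b3, ← pow_add]
  refine sym2p_eq_of hp (fun h => (hp.dvd_or_dvd h).elim hx hy) _ ?_
  rw [mul_pow, pow_add]
  generalize x ^ ((Nm p - 1) / 2) = a at *
  generalize y ^ ((Nm p - 1) / 2) = b at *
  have e : a * b - (-1) ^ e * (-1) ^ f = (a - (-1) ^ e) * b + (b - (-1) ^ f) * (-1) ^ e := by ring
  rw [e]
  exact dvd_add (a3.mul_right _) (b3.mul_right _)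

end

end Vale.Agent.P319N
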